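import Crest.Agent.R305.Trace20

/-! The number of traces with few generators is small. -/

set_option autoImplicit false
open Classical

namespace Crest.Agent.R305.CV

variable {α : Type*}

theorem self_mem_Pc {M : Matroid α} {S : ℕ → Set α} {U G : Finset α} (hU : (U : Set α) ⊆ M.E)
    {τ pos : α → ℕ} (h : Valid M S U G τ pos) {g : α} (hg : g ∈ G) :
    g ∈ Pc M S U G τ pos g := by
  simp only [Pc, Finset.mem_filter]
  exact ⟨h.sub hg, M.mem_closure_of_mem' (Set.mem_insert _ _) (hU (h.sub hg)), h.nl g hg⟩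

/-- code of a typed schedule -/
noncomputable def code (M : Matroid α) (S : ℕ → Set α) (U G GQ : Finset α) (τ pos : α → ℕ)
    (e : α) : ℕ :=
  if e ∈ G then 2 * (Pc M S U G τ pos e).card + (if e ∈ GQ then 1 else 0) else 0

theorem code_ne {M : Matroid α} {S : ℕ → Set α} {U G GQ : Finset α} (hU : (U : Set α) ⊆ M.E)
    {τ pos : α → ℕ} (h : Valid M S U G τ pos) (e : α) :
    code M S U G GQ τ pos e ≠ 0 ↔ e ∈ G := by
  unfold code
  by_cases he : e ∈ G
  · have := Finset.card_pos.mpr ⟨e, self_mem_Pc hU h he⟩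
    simp only [he, if_true, iff_true]
    omega
  · simp [he]

theorem code_inj {M : Matroid α} {S : ℕ → Set α} (hS : Monotone S) {U G GQ G' GQ' : Finset α}
    (hU : (U : Set α) ⊆ M.E) {τ pos τ' pos' : α → ℕ} (h : Valid M S U G τ pos)
    (h' : Valid M S U G' τ' pos') (hQ : GQ ⊆ G) (hQ' : GQ' ⊆ G')
    (hc : code M S U G GQ τ pos = code M S U G' GQ' τ' pos') :
    GQ.biUnion (Pc M S U G τ pos) = GQ'.biUnion (Pc M S U G' τ' pos') := by
  have hG : G = G' := by
    ext e
    rw [← code_ne (GQ := GQ) hU h, ← code_ne (GQ := GQ') hU h', hc]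
  subst hG
  have h1 : ∀ e ∈ G, (Pc M S U G τ pos e).card = (Pc M S U G τ' pos' e).card ∧
      (e ∈ GQ ↔ e ∈ GQ') := by
    intro e he
    have := congrFun hc e
    unfold code at this
    simp only [he, if_true] at this
    by_cases a : e ∈ GQ <;> by_cases b : e ∈ GQ' <;> simp only [a, b, if_true, if_false] at this
    · exact ⟨by omega, by simp [a, b]⟩
    · omega
    · omega
    · exact ⟨by omega, by simp [a, b]⟩
  have hGQ : GQ = GQ' := by
    ext e
    exact ⟨fun he => (h1 e (hQ he)).2.mp he, fun he => (h1 e (hQ' he)).2.mpr he⟩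
  subst hGQ
  exact Finset.biUnion_congr rfl (fun a ha =>
    countvec hS G.card G rfl h h' (fun g hg => (h1 g hg).1) a (hQ ha))

theorem code_sum [Fintype α] {M : Matroid α} {S : ℕ → Set α} (hS : Monotone S)
    {U G GQ : Finset α} {τ pos : α → ℕ} (h : Valid M S U G τ pos) :
    ∑ e ∈ G, code M S U G GQ τ pos e ≤ 3 * U.card := by
  have h1 : ∑ e ∈ G, (Pc M S U G τ pos e).card ≤ U.card := by
    rw [← Finset.card_biUnion (fun a ha b hb hab => piece_disj hS h ha hb hab)]
    apply Finset.card_le_card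
    intro e he
    obtain ⟨g, _, hg⟩ := Finset.mem_biUnion.mp he
    exact (Finset.mem_filter.mp hg).1
  have h2 : G.card ≤ U.card := Finset.card_le_card h.sub
  have h3 : ∑ e ∈ G, code M S U G GQ τ pos e ≤ ∑ e ∈ G, (2 * (Pc M S U G τ pos e).card + 1) := by
    apply Finset.sum_le_sum
    intro e he
    unfold code
    simp only [he, if_true]
    split_ifs <;> omega
  rw [Finset.sum_add_distrib, ← Finset.mul_sum] at h3
  simp only [Finset.sum_const, smul_eq_mul, mul_one] at h3
  omega

theorem trace_count [Fintype α] {M : Matroid α} {S : ℕ → Set α} (hS : Monotone S) {U : Finset α}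
    (hU : (U : Set α) ⊆ M.E) (m : ℕ) (fam : Finset (Finset α))
    (hfam : ∀ A ∈ fam, IsTrace M S U m A) (x z : ℝ) (hx : 0 < x) (hx1 : x ≤ 1) (hz : 0 < z)
    (hz1 : z < 1) :
    (fam.card : ℝ) * (x ^ m * z ^ (3 * U.card)) ≤ (1 + x / (1 - z)) ^ U.card := by
  choose! G GQ τ pos hV hm hQ hA using hfam
  set n := U.card with hn
  let φ : Finset α → α → ℕ := fun A => code M S U (G A) (GQ A) (τ A) (pos A)
  let w : ℕ → ℝ := fun j => if j = 0 then 1 else x * z ^ j
  have hw : ∀ j, 0 ≤ w j := fun j => by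
    simp only [w]; split_ifs <;> positivity
  let t : α → Finset ℕ := fun e => if e ∈ U then Finset.range (3 * n + 1) else {0}
  have hinj : Set.InjOn φ fam := by
    intro A hA1 B hB1 hAB
    rw [hA A hA1, hA B hB1]
    exact code_inj hS hU (hV A hA1) (hV B hB1) (hQ A hA1) (hQ B hB1) hAB
  have hmem : ∀ A ∈ fam, φ A ∈ Fintype.piFinset t := by
    intro A hA1
    rw [Fintype.mem_piFinset]
    intro e
    by_cases heG : e ∈ G A
    · have h1 : φ A e ≤ 3 * n :=
        (Finset.single_le_sum (f := φ A) (fun _ _ => Nat.zero_le _) heG).trans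
          (code_sum hS (hV A hA1))
      simp only [t, (hV A hA1).sub heG, if_true, Finset.mem_range]
      omega
    · have h1 : φ A e = 0 := by simp [φ, code, heG]
      simp only [t, h1]
      split_ifs <;> simp
  have hwt : ∀ A ∈ fam, x ^ m * z ^ (3 * n) ≤ ∏ e, w (φ A e) := by
    intro A hA1
    have h1 : ∏ e, w (φ A e) = ∏ e ∈ G A, (x * z ^ (φ A e)) := by
      rw [← Finset.prod_subset (Finset.subset_univ (G A))]
      · apply Finset.prod_congr rfl
        intro e he
        have : φ A e ≠ 0 := (code_ne hU (hV A hA1) e).mpr he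
        simp [w, this]
      · intro e _ he
        have h1 : φ A e = 0 := by simp [φ, code, he]
        simp [w, h1]
    rw [h1, Finset.prod_mul_distrib, Finset.prod_const, Finset.prod_pow_eq_pow_sum]
    apply mul_le_mul
    · exact pow_le_pow_of_le_one hx.le hx1 (hm A hA1)
    · exact pow_le_pow_of_le_one hz.le hz1.le (code_sum hS (hV A hA1))
    · positivity
    · positivity
  have hgeo : ∑ j ∈ Finset.range (3 * n + 1), w j ≤ 1 + x / (1 - z) := by
    rw [Finset.sum_range_succ']
    have h1 : ∑ j ∈ Finset.range (3 * n), w (j + 1) ≤ x * ∑ j ∈ Finset.range (3 * n), z ^ j := by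
      rw [Finset.mul_sum]
      apply Finset.sum_le_sum
      intro j _
      simp only [w, Nat.succ_ne_zero, if_false]
      exact mul_le_mul_of_nonneg_left (pow_le_pow_of_le_one hz.le hz1.le (Nat.le_succ j)) hx.le
    have h2 : ∑ j ∈ Finset.range (3 * n), z ^ j ≤ 1 / (1 - z) := by
      rw [le_div_iff₀ (by linarith), geom_sum_mul_neg]
      have : 0 ≤ z ^ (3 * n) := by positivity
      linarith
    have h3 : x * ∑ j ∈ Finset.range (3 * n), z ^ j ≤ x / (1 - z) := by
      rw [div_eq_mul_one_div]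
      exact mul_le_mul_of_nonneg_left h2 hx.le
    have h4 : w 0 = 1 := by simp [w]
    linarith
  calc (fam.card : ℝ) * (x ^ m * z ^ (3 * n)) = ∑ _A ∈ fam, x ^ m * z ^ (3 * n) := by
        rw [Finset.sum_const, nsmul_eq_mul]
    _ ≤ ∑ A ∈ fam, ∏ e, w (φ A e) := Finset.sum_le_sum hwt
    _ = ∑ f ∈ fam.image φ, ∏ e, w (f e) := by rw [Finset.sum_image hinj]
    _ ≤ ∑ f ∈ Fintype.piFinset t, ∏ e, w (f e) := by
        apply Finset.sum_le_sum_of_subset_of_nonneg
        · intro f hf
          obtain ⟨A, hA1, rfl⟩ := Finset.mem_image.mp hf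
          exact hmem A hA1
        · intro f _ _
          exact Finset.prod_nonneg (fun e _ => hw _)
    _ = ∏ e, ∑ j ∈ t e, w j := (Finset.prod_univ_sum t (fun _ j => w j)).symm
    _ ≤ ∏ e, (if e ∈ U then 1 + x / (1 - z) else 1) := by
        apply Finset.prod_le_prod
        · intro e _
          exact Finset.sum_nonneg (fun j _ => hw j)
        · intro e _
          simp only [t]
          split_ifs
          · exact hgeo
          · simp [w]
    _ = (1 + x / (1 - z)) ^ n := by
        rw [Finset.prod_ite]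
        simp [hn]

/-- numerical form: `2^19 m ≤ |U|` generators give at most `exp (|U|/512)` traces -/
theorem trace_count_exp [Fintype α] {M : Matroid α} {S : ℕ → Set α} (hS : Monotone S)
    {U : Finset α} (hU : (U : Set α) ⊆ M.E) (m : ℕ) (hm : 2 ^ 19 * m ≤ U.card)
    (fam : Finset (Finset α)) (hfam : ∀ A ∈ fam, IsTrace M S U m A) :
    (fam.card : ℝ) ≤ Real.exp ((U.card : ℝ) / 512) := by
  have h := trace_count hS hU m fam hfam ((1 / 4096) ^ 2) (1 - 1 / 4096) (by norm_num)
    (by norm_num) (by norm_num) (by norm_num)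
  set n := U.card with hn
  have e1 : (1 + ((1 / 4096 : ℝ)) ^ 2 / (1 - (1 - 1 / 4096))) ^ n ≤ Real.exp (n / 4096) := by
    have : (1 + ((1 / 4096 : ℝ)) ^ 2 / (1 - (1 - 1 / 4096))) = 1 / 4096 + 1 := by norm_num
    rw [this, div_eq_mul_one_div (n : ℝ), Real.exp_nat_mul]
    exact pow_le_pow_left₀ (by norm_num) (Real.add_one_le_exp _) n
  have e2 : Real.exp (-(24 * m : ℝ)) ≤ (((1 / 4096 : ℝ)) ^ 2) ^ m := by
    have h2 : Real.exp (-1) ≤ 1 / 2 := by
      rw [Real.exp_neg, one_div]
      apply inv_anti₀ (by norm_num)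
      have := Real.add_one_le_exp (1 : ℝ)
      linarith
    have : Real.exp (-(24 * m : ℝ)) = (Real.exp (-1) ^ 24) ^ m := by
      rw [← Real.exp_nat_mul, ← Real.exp_nat_mul]; congr 1; push_cast; ring
    rw [this]
    apply pow_le_pow_left₀ (by positivity)
    calc Real.exp (-1) ^ 24 ≤ (1 / 2) ^ 24 := pow_le_pow_left₀ (by positivity) h2 24
      _ = _ := by norm_num
  have e3 : Real.exp (-(6 * n / 4096 : ℝ)) ≤ (1 - 1 / 4096 : ℝ) ^ (3 * n) := by
    have h2 : Real.exp (-(2 / 4096)) ≤ 1 - 1 / 4096 := by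
      rw [Real.exp_neg]
      have := Real.add_one_le_exp (2 / 4096 : ℝ)
      calc (Real.exp (2 / 4096))⁻¹ ≤ (2 / 4096 + 1)⁻¹ := inv_anti₀ (by norm_num) this
        _ ≤ _ := by norm_num
    have : Real.exp (-(6 * n / 4096 : ℝ)) = Real.exp (-(2 / 4096)) ^ (3 * n) := by
      rw [← Real.exp_nat_mul]; congr 1; push_cast; ring
    rw [this]
    exact pow_le_pow_left₀ (by positivity) h2 _
  have e4 : (fam.card : ℝ) * (Real.exp (-(24 * m : ℝ)) * Real.exp (-(6 * n / 4096 : ℝ)))
      ≤ Real.exp (n / 4096) := by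
    refine le_trans ?_ (h.trans e1)
    apply mul_le_mul_of_nonneg_left _ (Nat.cast_nonneg _)
    exact mul_le_mul e2 e3 (by positivity) (by positivity)
  rw [← Real.exp_add, ← le_div_iff₀ (Real.exp_pos _), ← Real.exp_sub] at e4
  refine e4.trans (Real.exp_le_exp.mpr ?_)
  have hm' : (2 ^ 19 * m : ℝ) ≤ n := by exact_mod_cast hm
  norm_num at hm' ⊢
  linarith

end Crest.Agent.R305.CV
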