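import Mathlib

set_option autoImplicit false

namespace Crest.Agent.R305.U73

open Finset

variable {ι : Type*} [Fintype ι] [DecidableEq ι]

/-- total mass one -/
theorem sum_pw (τ : ℝ) : ∑ s : ι → Bool, (∏ i, (if s i then τ else 1 - τ)) = 1 := by
  have h := Finset.prod_univ_sum (fun _ : ι => (Finset.univ : Finset Bool))
    (fun (_ : ι) (b : Bool) => (if b then τ else 1 - τ))
  rw [Fintype.piFinset_univ] at h
  rw [← h]
  simp

/-- moment generating function of the number of `true` labels in a fixed set -/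
theorem mgf (τ z : ℝ) (Y : Finset ι) :
    ∑ s : ι → Bool, (∏ i, (if s i then τ else 1 - τ)) * z ^ (Y.filter (fun i => s i = true)).card
      = (τ * z + (1 - τ)) ^ Y.card := by
  have h := Finset.prod_univ_sum (fun _ : ι => (Finset.univ : Finset Bool))
    (fun (i : ι) (b : Bool) => (if b then τ else 1 - τ) * (if i ∈ Y ∧ b = true then z else 1))
  rw [Fintype.piFinset_univ] at h
  have h1 : ∀ s : ι → Bool, z ^ (Y.filter (fun i => s i = true)).card
      = ∏ i, (if i ∈ Y ∧ s i = true then z else 1) := by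
    intro s
    rw [Finset.prod_ite]
    simp only [Finset.prod_const, one_pow, mul_one]
    congr 1
    congr 1
    ext i
    simp
  simp_rw [h1, ← Finset.prod_mul_distrib]
  rw [← h]
  have h2 : ∀ i : ι, (∑ b : Bool, (if b then τ else 1 - τ) * (if i ∈ Y ∧ b = true then z else 1))
      = if i ∈ Y then τ * z + (1 - τ) else 1 := by
    intro i
    by_cases hi : i ∈ Y <;> simp [hi]
  simp_rw [h2]
  rw [Finset.prod_ite]
  simp

theorem pw_nonneg (s : ι → Bool) : 0 ≤ ∏ i, (if s i then (1/2 : ℝ) else 1 - 1/2) := by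
  apply Finset.prod_nonneg
  intro i _
  split_ifs <;> norm_num

/-- exponential moment union bound -/
theorem exp_moment (Y : (ι → Bool) → Finset ι) (fam : Finset (Finset ι))
    (hfam : ∀ s, Y s ∈ fam)
    (hpoor : ∀ s, 4 * ((Y s).filter (fun i => s i = true)).card ≤ (Y s).card) :
    ∑ s : ι → Bool, (∏ i, (if s i then (1/2 : ℝ) else 1 - 1/2)) * (9/8 : ℝ) ^ (Y s).card
      ≤ fam.card := by
  have key : ∀ s : ι → Bool, (9/8 : ℝ) ^ (Y s).card ≤
      ∑ Z ∈ fam, (3/2 : ℝ) ^ Z.card * (81/256 : ℝ) ^ (Z.filter (fun i => s i = true)).card := by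
    intro s
    have h1 : (9/8 : ℝ) ^ (Y s).card ≤
        (3/2 : ℝ) ^ (Y s).card * (81/256 : ℝ) ^ ((Y s).filter (fun i => s i = true)).card := by
      have e1 : (81/256 : ℝ) = (3/4) ^ 4 := by norm_num
      have e2 : (9/8 : ℝ) = (3/2) * (3/4) := by norm_num
      rw [e1, ← pow_mul, e2, mul_pow]
      apply mul_le_mul_of_nonneg_left _ (by positivity)
      exact pow_le_pow_of_le_one (by norm_num) (by norm_num) (hpoor s)
    refine h1.trans ?_
    exact Finset.single_le_sum (f := fun Z : Finset ι =>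
      (3/2 : ℝ) ^ Z.card * (81/256 : ℝ) ^ (Z.filter (fun i => s i = true)).card)
      (fun Z _ => by positivity) (hfam s)
  calc ∑ s : ι → Bool, (∏ i, (if s i then (1/2 : ℝ) else 1 - 1/2)) * (9/8 : ℝ) ^ (Y s).card
      ≤ ∑ s : ι → Bool, (∏ i, (if s i then (1/2 : ℝ) else 1 - 1/2)) *
          ∑ Z ∈ fam, (3/2 : ℝ) ^ Z.card * (81/256 : ℝ) ^ (Z.filter (fun i => s i = true)).card :=
        Finset.sum_le_sum fun s _ => mul_le_mul_of_nonneg_left (key s) (pw_nonneg s)
    _ = ∑ Z ∈ fam, (3/2 : ℝ) ^ Z.card * ∑ s : ι → Bool, (∏ i, (if s i then (1/2 : ℝ) else 1 - 1/2)) *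
          (81/256 : ℝ) ^ (Z.filter (fun i => s i = true)).card := by
        simp_rw [Finset.mul_sum]
        rw [Finset.sum_comm]
        refine Finset.sum_congr rfl fun Z _ => Finset.sum_congr rfl fun s _ => by ring
    _ ≤ ∑ Z ∈ fam, (1 : ℝ) := by
        refine Finset.sum_le_sum fun Z _ => ?_
        rw [mgf, ← mul_pow]
        exact pow_le_one₀ (by norm_num) (by norm_num)
    _ = fam.card := by simp

/-- expected size of a label-poor set taken from a small family -/
theorem exp_card_le (Y : (ι → Bool) → Finset ι) (fam : Finset (Finset ι)) (a : ℝ)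
    (hfam : ∀ s, Y s ∈ fam)
    (hpoor : ∀ s, 4 * ((Y s).filter (fun i => s i = true)).card ≤ (Y s).card)
    (hcard : (fam.card : ℝ) ≤ Real.exp a) :
    ∑ s : ι → Bool, (∏ i, (if s i then (1/2 : ℝ) else 1 - 1/2)) * ((Y s).card : ℝ) ≤ 9 * a := by
  have h0 := exp_moment Y fam hfam hpoor
  have he : Real.exp (1/9) ≤ 9/8 := by
    have := Real.exp_bound_div_one_sub_of_interval' (x := 1/9) (by norm_num) (by norm_num)
    have e : (1 : ℝ) / (1 - 1/9) = 9/8 := by norm_num
    rw [e] at this
    exact this.le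
  have key : ∀ n : ℕ, (n : ℝ) ≤ 9 * a - 9 + 9 * Real.exp (-a) * (9/8 : ℝ) ^ n := by
    intro n
    have h1 : (n : ℝ) / 9 - a + 1 ≤ Real.exp ((n : ℝ) / 9 - a) := Real.add_one_le_exp _
    have h2 : Real.exp ((n : ℝ) / 9 - a) = Real.exp (-a) * Real.exp (1/9) ^ n := by
      rw [← Real.exp_nat_mul, ← Real.exp_add]
      congr 1
      ring
    have h3 : Real.exp (1/9) ^ n ≤ (9/8 : ℝ) ^ n := pow_le_pow_left₀ (Real.exp_pos _).le he n
    have h4 := mul_le_mul_of_nonneg_left h3 (Real.exp_pos (-a)).le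
    nlinarith
  have hs := sum_pw (ι := ι) (1/2 : ℝ)
  calc ∑ s : ι → Bool, (∏ i, (if s i then (1/2 : ℝ) else 1 - 1/2)) * ((Y s).card : ℝ)
      ≤ ∑ s : ι → Bool, (∏ i, (if s i then (1/2 : ℝ) else 1 - 1/2)) *
          (9 * a - 9 + 9 * Real.exp (-a) * (9/8 : ℝ) ^ (Y s).card) :=
        Finset.sum_le_sum fun s _ => mul_le_mul_of_nonneg_left (key _) (pw_nonneg s)
    _ = (9 * a - 9) * ∑ s : ι → Bool, (∏ i, (if s i then (1/2 : ℝ) else 1 - 1/2)) +
          9 * Real.exp (-a) * ∑ s : ι → Bool, (∏ i, (if s i then (1/2 : ℝ) else 1 - 1/2)) *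
            (9/8 : ℝ) ^ (Y s).card := by
        rw [Finset.mul_sum, Finset.mul_sum, ← Finset.sum_add_distrib]
        refine Finset.sum_congr rfl fun s _ => by ring
    _ ≤ (9 * a - 9) * 1 + 9 * Real.exp (-a) * Real.exp a := by
        rw [hs]
        have : 0 ≤ 9 * Real.exp (-a) := by positivity
        have := mul_le_mul_of_nonneg_left (h0.trans hcard) this
        linarith
    _ = 9 * a := by
        rw [mul_assoc, ← Real.exp_add]
        simp

/-- counting functions `U → ℕ` of small total mass -/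
theorem count_fun (U : Finset ι) (κ : ℝ) (hκ : 2 ≤ κ) (fam : Finset (ι → ℕ))
    (hsupp : ∀ m ∈ fam, ∀ i, i ∉ U → m i = 0)
    (hsum : ∀ m ∈ fam, κ * ((∑ i, m i : ℕ) : ℝ) ≤ U.card) :
    (fam.card : ℝ) ≤ Real.exp ((U.card / κ) * (Real.log κ + 2)) := by
  have hκ0 : 0 < κ := by linarith
  set x : ℝ := 1 / κ with hx
  have hx0 : 0 < x := by positivity
  have hx1 : x ≤ 1/2 := by
    rw [hx]; exact one_div_le_one_div_of_le (by norm_num) hκ
  set n := U.card with hn
  have hsub : fam ⊆ Fintype.piFinset (fun i => if i ∈ U then Finset.range (n + 1) else {0}) := by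
    intro m hm
    rw [Fintype.mem_piFinset]
    intro i
    by_cases hi : i ∈ U
    · simp only [hi, if_true, Finset.mem_range]
      have h1 : m i ≤ ∑ j, m j := Finset.single_le_sum (f := m) (fun _ _ => Nat.zero_le _)
        (Finset.mem_univ i)
      have h2 := hsum m hm
      have h3 : ((∑ j, m j : ℕ) : ℝ) ≤ n := by
        have : (0 : ℝ) ≤ ((∑ j, m j : ℕ) : ℝ) := Nat.cast_nonneg _
        nlinarith
      have h4 : (∑ j, m j) ≤ n := by exact_mod_cast h3
      omega
    · simp [hi, hsupp m hm i hi]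
  have hlow : ∀ m ∈ fam, Real.exp (-((n / κ) * Real.log κ)) ≤ ∏ i, x ^ (m i) := by
    intro m hm
    rw [Finset.prod_pow_eq_pow_sum]
    have hl : 0 ≤ Real.log κ := Real.log_nonneg (by linarith)
    have e1 : x ^ (∑ i, m i) = Real.exp (-(((∑ i, m i : ℕ) : ℝ) * Real.log κ)) := by
      rw [Real.exp_neg, Real.exp_nat_mul, Real.exp_log hκ0, hx, one_div, inv_pow]
    rw [e1]
    apply Real.exp_le_exp.mpr
    have h2 := hsum m hm
    have h3 : ((∑ i, m i : ℕ) : ℝ) ≤ n / κ := by
      rw [le_div_iff₀ hκ0]; linarith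
    have := mul_le_mul_of_nonneg_right h3 hl
    linarith
  have hgeom : ∑ j ∈ Finset.range (n + 1), x ^ j ≤ Real.exp (2 * x) := by
    have h1 : ∑ j ∈ Finset.range (n + 1), x ^ j ≤ 1 + 2 * x := by
      have h2 : (∑ j ∈ Finset.range (n + 1), x ^ j) * (1 - x) = 1 - x ^ (n + 1) :=
        geom_sum_mul_neg x (n + 1)
      have h3 : 0 ≤ x ^ (n + 1) := by positivity
      have h4 : 0 < 1 - x := by linarith
      have h5 : (∑ j ∈ Finset.range (n + 1), x ^ j) * (1 - x) ≤ (1 + 2 * x) * (1 - x) := by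
        rw [h2]; nlinarith
      exact le_of_mul_le_mul_right h5 h4
    have := Real.add_one_le_exp (2 * x)
    linarith
  have hup : ∑ m ∈ Fintype.piFinset (fun i => if i ∈ U then Finset.range (n + 1) else {0}),
      ∏ i, x ^ (m i) ≤ Real.exp ((n / κ) * 2) := by
    rw [← Finset.prod_univ_sum (fun i => if i ∈ U then Finset.range (n + 1) else {0})
      (fun (_ : ι) (j : ℕ) => x ^ j)]
    calc ∏ i, ∑ j ∈ (if i ∈ U then Finset.range (n + 1) else {0}), x ^ j
        ≤ ∏ i, (if i ∈ U then Real.exp (2 * x) else 1) := by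
          apply Finset.prod_le_prod
          · intro i _
            exact Finset.sum_nonneg fun j _ => by positivity
          · intro i _
            by_cases hi : i ∈ U
            · simp only [hi, if_true]; exact hgeom
            · simp [hi]
      _ = Real.exp ((n / κ) * 2) := by
          rw [Finset.prod_ite]
          simp only [Finset.prod_const, one_pow, mul_one]
          have : (Finset.univ.filter fun i => i ∈ U) = U := by ext i; simp
          rw [this, ← Real.exp_nat_mul, hx]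
          congr 1
          rw [← hn]
          ring
  have hmid : (fam.card : ℝ) * Real.exp (-((n / κ) * Real.log κ)) ≤ Real.exp ((n / κ) * 2) := by
    calc (fam.card : ℝ) * Real.exp (-((n / κ) * Real.log κ))
        = ∑ m ∈ fam, Real.exp (-((n / κ) * Real.log κ)) := by simp
      _ ≤ ∑ m ∈ fam, ∏ i, x ^ (m i) := Finset.sum_le_sum hlow
      _ ≤ _ := Finset.sum_le_sum_of_subset_of_nonneg hsub
          (fun m _ _ => Finset.prod_nonneg fun i _ => by positivity)
      _ ≤ _ := hup
  have e : Real.exp ((n / κ) * (Real.log κ + 2))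
      = Real.exp ((n / κ) * 2) * Real.exp ((n / κ) * Real.log κ) := by
    rw [← Real.exp_add]; congr 1; ring
  rw [e]
  have h5 := mul_le_mul_of_nonneg_right hmid (Real.exp_pos ((n / κ) * Real.log κ)).le
  rw [mul_assoc, ← Real.exp_add] at h5
  simpa using h5

/-- MAIN: a label-poor set determined by two small multiplicity functions is small on average. -/
theorem exp_card_of_code (U : Finset ι) (κ : ℝ) (hκ : 2 ≤ κ)
    (Y : (ι → Bool) → Finset ι) (b m : (ι → Bool) → ι → ℕ)
    (hb0 : ∀ s i, i ∉ U → b s i = 0) (hm0 : ∀ s i, i ∉ U → m s i = 0)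
    (hb : ∀ s, κ * ((∑ i, b s i : ℕ) : ℝ) ≤ U.card)
    (hm : ∀ s, κ * ((∑ i, m s i : ℕ) : ℝ) ≤ U.card)
    (hdet : ∀ s s', b s = b s' → m s = m s' → Y s = Y s')
    (hpoor : ∀ s, 4 * ((Y s).filter (fun i => s i = true)).card ≤ (Y s).card) :
    ∑ s : ι → Bool, (∏ i, (if s i then (1/2 : ℝ) else 1 - 1/2)) * ((Y s).card : ℝ)
      ≤ 18 * ((U.card / κ) * (Real.log κ + 2)) := by
  classical
  have h1 := count_fun U κ hκ (Finset.univ.image b)
    (by intro f hf; obtain ⟨s, _, rfl⟩ := Finset.mem_image.mp hf; exact hb0 s)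
    (by intro f hf; obtain ⟨s, _, rfl⟩ := Finset.mem_image.mp hf; exact hb s)
  have h2 := count_fun U κ hκ (Finset.univ.image m)
    (by intro f hf; obtain ⟨s, _, rfl⟩ := Finset.mem_image.mp hf; exact hm0 s)
    (by intro f hf; obtain ⟨s, _, rfl⟩ := Finset.mem_image.mp hf; exact hm s)
  have h3 : (Finset.univ.image Y).card ≤
      ((Finset.univ.image b) ×ˢ (Finset.univ.image m)).card := by
    let g : (ι → ℕ) × (ι → ℕ) → Finset ι := fun q =>
      if h : ∃ s, b s = q.1 ∧ m s = q.2 then Y h.choose else ∅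
    refine (Finset.card_le_card (t := ((Finset.univ.image b) ×ˢ (Finset.univ.image m)).image g)
      ?_).trans Finset.card_image_le
    intro Z hZ
    obtain ⟨s, _, rfl⟩ := Finset.mem_image.mp hZ
    refine Finset.mem_image.mpr ⟨(b s, m s), by simp, ?_⟩
    have h : ∃ s', b s' = (b s, m s).1 ∧ m s' = (b s, m s).2 := ⟨s, rfl, rfl⟩
    simp only [g, dif_pos h]
    exact hdet _ _ h.choose_spec.1 h.choose_spec.2
  have h4 : ((Finset.univ.image Y).card : ℝ) ≤
      Real.exp (2 * ((U.card / κ) * (Real.log κ + 2))) := by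
    rw [Finset.card_product] at h3
    have h5 : ((Finset.univ.image Y).card : ℝ) ≤
        ((Finset.univ.image b).card : ℝ) * ((Finset.univ.image m).card : ℝ) := by exact_mod_cast h3
    rw [two_mul, Real.exp_add]
    exact h5.trans (mul_le_mul h1 h2 (Nat.cast_nonneg _) (Real.exp_pos _).le)
  have := exp_card_le Y (Finset.univ.image Y) _ (fun s => Finset.mem_image_of_mem _ (Finset.mem_univ s))
    hpoor h4
  linarith

/-- Same, with the first code a set `B` and the second a map `β` on `B` (only the multiset `β(B)` matters). -/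
theorem exp_card_of_set_map (U : Finset ι) (κ : ℝ) (hκ : 2 ≤ κ)
    (Y B : (ι → Bool) → Finset ι) (β : (ι → Bool) → ι → ι)
    (hBU : ∀ s, B s ⊆ U) (hβ : ∀ s, ∀ a ∈ B s, β s a ∈ U)
    (hB : ∀ s, κ * ((B s).card : ℝ) ≤ U.card)
    (hdet : ∀ s s', B s = B s' →
      (∀ i, ((B s).filter (fun a => β s a = i)).card = ((B s').filter (fun a => β s' a = i)).card) →
      Y s = Y s')
    (hpoor : ∀ s, 4 * ((Y s).filter (fun i => s i = true)).card ≤ (Y s).card) :
    ∑ s : ι → Bool, (∏ i, (if s i then (1/2 : ℝ) else 1 - 1/2)) * ((Y s).card : ℝ)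
      ≤ 18 * ((U.card / κ) * (Real.log κ + 2)) := by
  refine exp_card_of_code U κ hκ Y (fun s i => if i ∈ B s then 1 else 0)
    (fun s i => ((B s).filter (fun a => β s a = i)).card) ?_ ?_ ?_ ?_ ?_ hpoor
  · intro s i hi
    have : i ∉ B s := fun h => hi (hBU s h)
    simp [this]
  · intro s i hi
    rw [Finset.card_eq_zero, Finset.filter_eq_empty_iff]
    intro a ha h
    exact hi (h ▸ hβ s a ha)
  · intro s
    have : (∑ i, (if i ∈ B s then 1 else 0 : ℕ)) = (B s).card := by simp
    rw [this]; exact hB s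
  · intro s
    have : (∑ i, ((B s).filter (fun a => β s a = i)).card) = (B s).card :=
      (Finset.card_eq_sum_card_fiberwise (f := β s) (s := B s) (t := Finset.univ)
        (fun _ _ => Finset.mem_univ _)).symm
    rw [this]; exact hB s
  · intro s s' h1 h2
    refine hdet s s' ?_ (fun i => congrFun h2 i)
    ext i
    have := congrFun h1 i
    by_cases ha : i ∈ B s <;> by_cases hb : i ∈ B s' <;> simp_all

end Crest.Agent.R305.U73
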