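import Crest.Agent.R305.RGDefs55
import Crest.Agent.R305.TraceCount20
import Crest.Agent.R305.Union73

/-! Block B12 (alpha) by the count-vector compression. -/

set_option autoImplicit false
open Classical

namespace Crest.Agent.R305.A20

variable {k : ℕ} {M : Matroid (Fin k)}

theorem Ex_sum {ι : Type*} (p : ℝ) (s : Finset ι) (f : ι → Finset (Fin k) → ℝ) :
    Ex p (fun A => ∑ i ∈ s, f i A) = ∑ i ∈ s, Ex p (f i) := by
  unfold Ex
  simp_rw [Finset.mul_sum]
  exact Finset.sum_comm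

theorem Ex_add (p : ℝ) (f g : Finset (Fin k) → ℝ) :
    Ex p (fun A => f A + g A) = Ex p f + Ex p g := by
  unfold Ex
  simp_rw [mul_add]
  exact Finset.sum_add_distrib

theorem Ex_mul (p c : ℝ) (f : Finset (Fin k) → ℝ) :
    Ex p (fun A => c * f A) = c * Ex p f := by
  unfold Ex
  rw [Finset.mul_sum]
  exact Finset.sum_congr rfl (fun A _ => by ring)

theorem Ex_eq (p : ℝ) (f : Finset (Fin k) → ℝ) :
    Ex p f = ∑ s : Fin k → Bool, (∏ i, (if s i then p else 1 - p)) *
      f (Finset.univ.filter (fun i => s i = true)) := by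
  unfold Ex
  symm
  refine Fintype.sum_bijective (fun s : Fin k → Bool => Finset.univ.filter (fun i => s i = true))
    ⟨?_, ?_⟩ _ _ ?_
  · intro s s' h
    funext i
    have := congrArg (fun A : Finset (Fin k) => i ∈ A) h
    simp only [Finset.mem_filter, Finset.mem_univ, true_and, eq_iff_iff] at this
    exact Bool.eq_iff_iff.mpr this
  · intro A
    refine ⟨fun i => decide (i ∈ A), ?_⟩
    ext i
    simp
  · intro s
    unfold bern
    simp

theorem basis (h1 : RANK M) (X : Set (Fin k)) (B : Finset (Fin k)) (hB : (B : Set (Fin k)) ⊆ M.E) :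
    ∃ B' : Finset (Fin k), B' ⊆ B ∧ M.closure (X ∪ ↑B') = M.closure (X ∪ ↑B) ∧
      rk M X + B'.card = rk M (X ∪ ↑B) := by
  obtain ⟨_, _, _, r4, r5, _⟩ := h1
  induction B using Finset.induction_on with
  | empty => exact ⟨∅, by simp, rfl, by simp⟩
  | insert g B hgB ih =>
    obtain ⟨B', h1, h2, h3⟩ := ih (fun x hx => hB (by simp; exact Or.inr hx))
    have hins : ∀ C : Finset (Fin k), X ∪ ↑(insert g C) = insert g (X ∪ ↑C) := by
      intro C; ext x; simp
    by_cases hg : g ∈ M.closure (X ∪ ↑B)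
    · refine ⟨B', h1.trans (Finset.subset_insert _ _), ?_, ?_⟩
      · rw [hins, ← CV.cl_insert_cl, Set.insert_eq_of_mem hg, M.closure_closure, h2]
      · rw [hins, r5 _ _ hg, h3]
    · refine ⟨insert g B', Finset.insert_subset_insert _ h1, ?_, ?_⟩
      · rw [hins, hins, ← CV.cl_insert_cl, h2, CV.cl_insert_cl]
      · rw [hins, r4 _ _ (hB (by simp)) hg, Finset.card_insert_of_notMem (fun hh => hgB (h1 hh))]
        omega

theorem coloop (h1 : RANK M) (X : Set (Fin k)) (Z : Finset (Fin k))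
    (hZ : (Z : Set (Fin k)) ⊆ M.E) :
    rk M X + (Z.filter (fun e => e ∉ M.closure (X ∪ ↑(Z.erase e)))).card ≤ rk M (X ∪ ↑Z) := by
  obtain ⟨r1, _, _, r4, r5, _⟩ := h1
  induction Z using Finset.induction_on with
  | empty => simp
  | insert g Z hgZ ih =>
    have ih' := ih (fun x hx => hZ (by simp; exact Or.inr hx))
    have hins : X ∪ ↑(insert g Z) = insert g (X ∪ ↑Z) := by
      ext x; simp
    have hsub : ∀ e ∈ Z, e ∉ M.closure (X ∪ ↑((insert g Z).erase e)) →
        e ∉ M.closure (X ∪ ↑(Z.erase e)) := by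
      intro e _ he hh
      apply he
      refine M.closure_subset_closure (Set.union_subset_union_right _ ?_) hh
      exact_mod_cast Finset.erase_subset_erase _ (Finset.subset_insert _ _)
    by_cases hg : g ∈ M.closure (X ∪ ↑Z)
    · have : ((insert g Z).filter (fun e => e ∉ M.closure (X ∪ ↑((insert g Z).erase e)))).card ≤
          (Z.filter (fun e => e ∉ M.closure (X ∪ ↑(Z.erase e)))).card := by
        apply Finset.card_le_card
        intro e he
        rw [Finset.mem_filter, Finset.mem_insert] at he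
        rcases he with ⟨rfl | he, he2⟩
        · rw [Finset.erase_insert hgZ] at he2
          exact absurd hg he2
        · exact Finset.mem_filter.mpr ⟨he, hsub e he he2⟩
      rw [hins, r5 _ _ hg]
      omega
    · have : ((insert g Z).filter (fun e => e ∉ M.closure (X ∪ ↑((insert g Z).erase e)))).card ≤
          (Z.filter (fun e => e ∉ M.closure (X ∪ ↑(Z.erase e)))).card + 1 := by
        refine le_trans (Finset.card_le_card ?_) (Finset.card_insert_le g _)
        intro e he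
        rw [Finset.mem_filter, Finset.mem_insert] at he
        rcases he with ⟨rfl | he, he2⟩
        · exact Finset.mem_insert_self _ _
        · exact Finset.mem_insert_of_mem (Finset.mem_filter.mpr ⟨he, hsub e he he2⟩)
      rw [hins, r4 _ _ (hZ (by simp)) hg]
      omega

/-- number of elements of `W` in `Q` -/
noncomputable def cnt (W : Finset (Fin k)) (Q : Set (Fin k)) : ℕ := (W.filter (fun e => e ∈ Q)).card

theorem cnt_mono (W : Finset (Fin k)) {Q Q' : Set (Fin k)} (h : ∀ e ∈ W, e ∈ Q → e ∈ Q') :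
    cnt W Q ≤ cnt W Q' := by
  apply Finset.card_le_card
  intro e he
  rw [Finset.mem_filter] at he ⊢
  exact ⟨he.1, h e he.1 he.2⟩

theorem cnt_split (W : Finset (Fin k)) {Q Q' : Set (Fin k)} (h : Q ⊆ Q') :
    cnt W Q' = cnt W Q + (W.filter (fun e => e ∈ Q' ∧ e ∉ Q)).card := by
  unfold cnt
  rw [← Finset.card_union_of_disjoint]
  · congr 1
    ext e
    have := @h e
    simp only [Finset.mem_filter, Finset.mem_union]
    tauto
  · rw [Finset.disjoint_left]
    intro e h1 h2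
    rw [Finset.mem_filter] at h1 h2
    exact h2.2.2 h1.2

theorem gen (h1 : RANK M) {D : Finset (Fin k)} {S N R : Set (Fin k)} (hmax : IsMax M D S N)
    (hcl : M.closure N = N) (hSR : S ⊆ R) (hRN : R ⊆ N) :
    ∃ B : Finset (Fin k), B ⊆ D ∧ N = M.closure (R ∪ ↑B) ∧ kap * B.card + cnt D R ≤ cnt D N := by
  have hBN : ((D.filter (fun e => e ∈ N) : Finset (Fin k)) : Set (Fin k)) ⊆ N := by
    intro x hx
    exact (Finset.mem_filter.mp hx).2
  obtain ⟨B, hB1, hB2, hB3⟩ := basis h1 R (D.filter (fun e => e ∈ N)) (hBN.trans hmax.2.1)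
  obtain ⟨r1, _, _, _, _, _, _, _, r9⟩ := h1
  have hsub : R ∪ ↑(D.filter (fun e => e ∈ N)) ⊆ N := Set.union_subset hRN hBN
  have f1 := hmax.2.2 _ (hSR.trans Set.subset_union_left) (hsub.trans hmax.2.1)
  have f2 := hmax.2.2 _ hSR (hRN.trans hmax.2.1)
  have c1 : cnt D N ≤ cnt D (R ∪ ↑(D.filter (fun e => e ∈ N))) :=
    cnt_mono D (fun e he hN => Or.inr (Finset.mem_filter.mpr ⟨he, hN⟩))
  have c2 := r1 _ _ hsub
  change (cnt D _ : ℤ) - _ ≤ (cnt D _ : ℤ) - _ at f1 f2
  have hk : (0 : ℤ) < kap := by unfold kap; norm_num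
  have c3 : rk M N ≤ rk M (R ∪ ↑(D.filter (fun e => e ∈ N))) := by
    have : (kap : ℤ) * rk M N ≤ (kap : ℤ) * rk M (R ∪ ↑(D.filter (fun e => e ∈ N))) := by
      have : (cnt D N : ℤ) ≤ cnt D (R ∪ ↑(D.filter (fun e => e ∈ N))) := by exact_mod_cast c1
      linarith
    exact_mod_cast le_of_mul_le_mul_left this hk
  refine ⟨B, hB1.trans (Finset.filter_subset _ _), ?_, ?_⟩
  · rw [hB2]
    apply Set.Subset.antisymm (r9 _ _ hsub hmax.2.1 c3)
    rw [← hcl]
    apply M.closure_subset_closure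
    rw [hcl]
    exact hsub
  · have e : (rk M N : ℤ) = rk M R + B.card := by
      have : rk M N = rk M R + B.card := by omega
      exact_mod_cast this
    rw [e] at f2
    have : (kap : ℤ) * B.card + cnt D R ≤ cnt D N := by linarith
    exact_mod_cast this

theorem Qex (h1 : RANK M) {N N' : Set (Fin k)} (hNN : N ⊆ N') (hE : N' ⊆ M.E)
    (hcl : M.closure N' = N') (Y : Finset (Fin k)) (K : ℕ) :
    ∃ (Q : Set (Fin k)) (B : Finset (Fin k)), B ⊆ Y ∧ Q = M.closure (N ∪ ↑B) ∧ N ⊆ Q ∧ Q ⊆ N' ∧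
      rk M Q = rk M N + B.card ∧
      K * B.card ≤ (Y.filter (fun e => e ∈ Q ∧ e ∉ N)).card ∧
      ∀ X : Finset (Fin k), (X : Set (Fin k)) ⊆ N' →
        (Y.filter (fun e => e ∈ M.closure (Q ∪ ↑X) ∧ e ∉ Q)).card ≤ K * X.card := by
  let g : Set (Fin k) → ℤ := fun Q => (cnt Y Q : ℤ) - K * rk M Q
  obtain ⟨Q0, hQ0, hmax⟩ := Set.exists_max_image {Q : Set (Fin k) | N ⊆ Q ∧ Q ⊆ N'} g
    (Set.toFinite _) ⟨N, subset_rfl, hNN⟩
  have hBQ : ((Y.filter (fun e => e ∈ Q0) : Finset (Fin k)) : Set (Fin k)) ⊆ Q0 := by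
    intro x hx
    exact (Finset.mem_filter.mp hx).2
  obtain ⟨B, hB1, hB2, hB3⟩ := basis h1 N (Y.filter (fun e => e ∈ Q0)) ((hBQ.trans hQ0.2).trans hE)
  obtain ⟨r1, _, r3, _, _, r6, _⟩ := h1
  have hsub : N ∪ ↑(Y.filter (fun e => e ∈ Q0)) ⊆ Q0 := Set.union_subset hQ0.1 hBQ
  set Q := M.closure (N ∪ ↑B) with hQ
  have hsubQ : N ∪ ↑(Y.filter (fun e => e ∈ Q0)) ⊆ Q := by
    rw [hB2]
    exact M.subset_closure _ ((hsub.trans hQ0.2).trans hE)
  have hNQ : N ⊆ Q := Set.subset_union_left.trans hsubQ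
  have hQN : Q ⊆ N' := by
    rw [hB2, ← hcl]
    exact M.closure_subset_closure (hsub.trans hQ0.2)
  have hrk : rk M Q = rk M N + B.card := by rw [hB2, r3, hB3]
  have hg : g Q0 ≤ g Q := by
    have c1 : cnt Y Q0 ≤ cnt Y Q :=
      cnt_mono Y (fun e he hh => hsubQ (Or.inr (Finset.mem_filter.mpr ⟨he, hh⟩)))
    have c2 : rk M Q ≤ rk M Q0 := by rw [hB2, r3]; exact r1 _ _ hsub
    have c3 : (K : ℤ) * rk M Q ≤ K * rk M Q0 :=
      mul_le_mul_of_nonneg_left (by exact_mod_cast c2) (Nat.cast_nonneg _)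
    have c4 : (cnt Y Q0 : ℤ) ≤ cnt Y Q := by exact_mod_cast c1
    simp only [g]
    linarith
  refine ⟨Q, B, hB1.trans (Finset.filter_subset _ _), rfl, hNQ, hQN, hrk, ?_, ?_⟩
  · have f1 := (hmax N ⟨subset_rfl, hNN⟩).trans hg
    simp only [g] at f1
    rw [cnt_split Y hNQ, hrk] at f1
    push_cast at f1
    have : (K : ℤ) * B.card ≤ (Y.filter (fun e => e ∈ Q ∧ e ∉ N)).card := by linarith
    exact_mod_cast this
  · intro X hX
    have hQX : Q ∪ ↑X ⊆ N' := Set.union_subset hQN hX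
    have hQc : Q ⊆ M.closure (Q ∪ ↑X) :=
      Set.subset_union_left.trans (M.subset_closure _ (hQX.trans hE))
    have hc : M.closure (Q ∪ ↑X) ⊆ N' := by
      rw [← hcl]; exact M.closure_subset_closure hQX
    have f1 := (hmax _ ⟨hNQ.trans hQc, hc⟩).trans hg
    simp only [g] at f1
    rw [cnt_split Y hQc, r3] at f1
    have c2 : (K : ℤ) * rk M (Q ∪ ↑X) ≤ K * (rk M Q + X.card) :=
      mul_le_mul_of_nonneg_left (by exact_mod_cast r6 Q X) (Nat.cast_nonneg _)
    push_cast at f1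
    have : ((Y.filter (fun e => e ∈ M.closure (Q ∪ ↑X) ∧ e ∉ Q)).card : ℤ) ≤ K * X.card := by
      linarith
    exact_mod_cast this

theorem band_sum (N : ℕ → Set (Fin k)) (hN : ∀ t t', t ≤ t' → N t ⊆ N t')
    (f : ℕ → Finset (Fin k)) (W : Finset (Fin k)) (n : ℕ)
    (hf : ∀ t < n, ∀ e ∈ f t, e ∈ W ∧ e ∈ N (t + 1) ∧ e ∉ N t) :
    ∑ t ∈ Finset.range n, (f t).card ≤ W.card := by
  rw [← Finset.card_biUnion]
  · apply Finset.card_le_card
    intro e he
    obtain ⟨t, ht, h⟩ := Finset.mem_biUnion.mp he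
    exact (hf t (Finset.mem_range.mp ht) e h).1
  · intro a ha b hb hab
    simp only [Finset.coe_range, Set.mem_Iio] at ha hb
    show Disjoint (f a) (f b)
    rw [Finset.disjoint_left]
    intro e h1 h2
    rcases lt_or_gt_of_ne hab with h | h
    · exact (hf b hb e h2).2.2 (hN _ _ h (hf a ha e h1).2.1)
    · exact (hf a ha e h1).2.2 (hN _ _ h (hf b hb e h2).2.1)

theorem thin (h0 : EXB k) {p : ℝ} (hp0 : 0 ≤ p) (hp1 : p ≤ 1) (Q : Set (Fin k))
    (A : Finset (Fin k)) (K : ℕ)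
    (hs : ∀ X : Finset (Fin k), X ⊆ A →
      (A.filter (fun e => e ∈ M.closure (Q ∪ ↑X))).card ≤ K * X.card) :
    Ex p (fun T => (((T ∩ A).filter (fun e => e ∈ M.closure (Q ∪ ↑((T ∩ A).erase e)))).card : ℝ))
      ≤ K * p ^ 2 * A.card := by
  obtain ⟨_, _, e3, e4, e5⟩ := h0 p hp0 hp1
  let f : Fin k → Finset (Fin k) → ℝ := fun e T =>
    if e ∈ M.closure (Q ∪ ↑((T ∩ A).erase e)) then 1 else 0
  have h1 : ∀ T : Finset (Fin k),
      (((T ∩ A).filter (fun e => e ∈ M.closure (Q ∪ ↑((T ∩ A).erase e)))).card : ℝ)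
        = ∑ e ∈ A, (if e ∈ T then f e T else 0) := by
    intro T
    have hh : ∑ e ∈ A, (if e ∈ T then f e T else 0) = ∑ e ∈ T ∩ A, f e T := by
      rw [Finset.inter_comm T A, ← Finset.filter_mem_eq_inter, Finset.sum_filter]
    rw [hh, Finset.card_filter, Nat.cast_sum]
    apply Finset.sum_congr rfl
    intro e _
    simp only [f]
    split_ifs <;> simp
  have h2 : ∀ e T, f e (insert e T) = f e (T.erase e) := by
    intro e T
    have : (insert e T ∩ A).erase e = (T.erase e ∩ A).erase e := by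
      ext x
      simp only [Finset.mem_erase, Finset.mem_inter, Finset.mem_insert]
      tauto
    simp only [f, this]
  have h3 : ∀ T : Finset (Fin k), ∑ e ∈ A, f e T ≤ K * ((T ∩ A).card : ℝ) := by
    intro T
    have := hs (T ∩ A) Finset.inter_subset_right
    have h4 : ∑ e ∈ A, f e T ≤ ((A.filter (fun e => e ∈ M.closure (Q ∪ ↑(T ∩ A)))).card : ℝ) := by
      rw [Finset.card_filter]
      push_cast
      apply Finset.sum_le_sum
      intro e _
      simp only [f]
      split_ifs with a b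
      · exact le_rfl
      · exfalso
        apply b
        refine M.closure_subset_closure (Set.union_subset_union_right _ ?_) a
        rw [← Finset.coe_inter]
        exact_mod_cast Finset.erase_subset _ _
      · norm_num
      · exact le_rfl
    refine h4.trans ?_
    exact_mod_cast this
  simp_rw [h1]
  rw [Ex_sum]
  simp_rw [fun e => e4 e (f e) (h2 e)]
  rw [← Finset.mul_sum, ← Ex_sum]
  have h5 := e3 _ _ h3
  rw [Ex_mul, e5] at h5
  calc _ ≤ p * (K * (p * A.card)) := mul_le_mul_of_nonneg_left h5 hp0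
    _ = _ := by ring

theorem null_split (h1 : RANK M) {N Q : Set (Fin k)} (hNQ : N ⊆ Q) (Z J A : Finset (Fin k))
    (hZ : Z ⊆ J ∪ A) (hAZ : A ⊆ Z) (hA : (A : Set (Fin k)) ⊆ M.E) :
    (Z.card : ℝ) - ((rk M (N ∪ ↑Z) : ℝ) - rk M N) ≤
      J.card + ((A.filter (fun e => e ∈ M.closure (Q ∪ ↑(A.erase e)))).card : ℝ) := by
  have c1 := coloop h1 Q A hA
  obtain ⟨r1, r2, _⟩ := h1
  have c2 : Z.card ≤ J.card + A.card := (Finset.card_le_card hZ).trans (Finset.card_union_le _ _)
  have c3 := Finset.card_filter_add_card_filter_not (s := A)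
    (fun e => e ∈ M.closure (Q ∪ ↑(A.erase e)))
  have c4 := r2 (N ∪ ↑A) Q
  have c5 : rk M N ≤ rk M ((N ∪ ↑A) ∩ Q) :=
    r1 _ _ (Set.subset_inter Set.subset_union_left hNQ)
  have c6 : rk M (Q ∪ ↑A) ≤ rk M (N ∪ ↑A ∪ Q) := r1 _ _ (by
    intro x hx
    rcases hx with hx | hx
    · exact Or.inr hx
    · exact Or.inl (Or.inr hx))
  have c7 : rk M (N ∪ ↑A) ≤ rk M (N ∪ ↑Z) :=
    r1 _ _ (Set.union_subset_union_right _ (by exact_mod_cast hAZ))
  have : Z.card + rk M N ≤ rk M (N ∪ ↑Z) + J.card +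
      (A.filter (fun e => e ∈ M.closure (Q ∪ ↑(A.erase e)))).card := by omega
  have h : (Z.card : ℝ) + rk M N ≤ rk M (N ∪ ↑Z) + J.card +
      (A.filter (fun e => e ∈ M.closure (Q ∪ ↑(A.erase e)))).card := by exact_mod_cast this
  linarith

theorem perD (h0 : EXB k) (h1 : RANK M) (h2 : EXPF M) (U : Finset (Fin k))
    (S : ℕ → Set (Fin k)) (n : ℕ) (hU : (U : Set (Fin k)) ⊆ M.E) (hSE : ∀ t, S t ⊆ M.E)
    (hS : ∀ t t', t ≤ t' → S t ⊆ S t') (D : Finset (Fin k)) :
    ∃ A : Finset (Fin k), CV.IsTrace M S U (U.card / 2 ^ 19) A ∧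
      4 * (A.filter (fun e => e ∈ D)).card ≤ A.card ∧
      Ex tt (fun T0 => ∑ t ∈ Finset.range n,
      (((((T0 \ D) ∩ U).filter (fun y => y ∈ Exp M (D ∩ U) (S (t + 1)) ∧
          y ∉ Exp M (D ∩ U) (S t))).card : ℝ) -
        ((rk M (Exp M (D ∩ U) (S t) ∪ ↑(((T0 \ D) ∩ U).filter
          (fun y => y ∈ Exp M (D ∩ U) (S (t + 1)) ∧ y ∉ Exp M (D ∩ U) (S t)))) : ℝ) -
          rk M (Exp M (D ∩ U) (S t))))) ≤ tt * A.card + (3 * kap : ℕ) * tt ^ 2 * U.card := by
  set N : ℕ → Set (Fin k) := fun t => Exp M (D ∩ U) (S t) with hNdef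
  have hmax : ∀ t, IsMax M (D ∩ U) (S t) (N t) := fun t => (h2 (D ∩ U) (S t) (hSE t)).1
  have hcl : ∀ t, M.closure (N t) = N t := fun t => (h2 (D ∩ U) (S t) (hSE t)).2.1
  have hN : ∀ t t', t ≤ t' → N t ⊆ N t' := fun t t' h =>
    (h2 (D ∩ U) (S t) (hSE t)).2.2.2.1 _ (hS t t' h) (hSE t')
  have hNE : ∀ t, N t ⊆ M.E := fun t => (hmax t).2.1
  choose Q BQ q1 q2 q3 q4 q5 q6 q7 using fun t =>
    Qex h1 (hN t (t + 1) (Nat.le_succ t)) (hNE (t + 1)) (hcl (t + 1)) (U \ D) (3 * kap)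
  obtain ⟨B0, b1, b2, b3⟩ := gen h1 (hmax 0) (hcl 0) subset_rfl (hmax 0).1
  choose B' c1 c2 c3 using fun t => gen h1 (R := Q t ∪ S (t + 1)) (hmax (t + 1)) (hcl (t + 1))
    Set.subset_union_right (Set.union_subset (q4 t) (hmax (t + 1)).1)
  let BN : ℕ → Finset (Fin k) := fun t => match t with
    | 0 => B0
    | t + 1 => B' t
  have hBN : ∀ t, BN t ⊆ U := by
    intro t
    cases t with
    | zero => exact b1.trans Finset.inter_subset_right
    | succ t => exact (c1 t).trans Finset.inter_subset_right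
  have htr := CV.chain_trace (M := M) (S := S) (fun a b h => hS a b h) hU N Q BN BQ n hBN
    (fun t => (q1 t).trans Finset.sdiff_subset) b2 (fun t _ => q2 t) (fun t _ => c2 t)
  set A : Finset (Fin k) := U.filter (fun e => ∃ t < n, e ∈ Q t ∧ e ∉ N t) with hA
  let J : ℕ → Finset (Fin k) := fun t => (U \ D).filter (fun e => e ∈ Q t ∧ e ∉ N t)
  let P : ℕ → Finset (Fin k) := fun t => (U \ D).filter (fun e => e ∈ N (t + 1) ∧ e ∉ Q t)
  have hJ : ∑ t ∈ Finset.range n, (J t).card ≤ (A.filter (fun e => e ∉ D)).card := by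
    apply band_sum N hN
    intro t ht e he
    simp only [J, Finset.mem_filter, Finset.mem_sdiff] at he
    refine ⟨?_, q4 t he.2.1, he.2.2⟩
    simp only [hA, Finset.mem_filter]
    exact ⟨⟨he.1.1, t, ht, he.2⟩, he.1.2⟩
  have hP : ∑ t ∈ Finset.range n, (P t).card ≤ U.card := by
    apply band_sum N hN
    intro t ht e he
    simp only [P, Finset.mem_filter, Finset.mem_sdiff] at he
    exact ⟨he.1.1, he.2.1, fun hh => he.2.2 (q3 t hh)⟩
  have hBQ : 3 * kap * ∑ t ∈ Finset.range n, (BQ t).card ≤ ∑ t ∈ Finset.range n, (J t).card := by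
    rw [Finset.mul_sum]
    exact Finset.sum_le_sum (fun t _ => q6 t)
  have hAU : A.card ≤ U.card := Finset.card_le_card (Finset.filter_subset _ _)
  have hsplit := Finset.card_filter_add_card_filter_not (s := A) (fun e => e ∈ D)
  have hBNs : ∀ j, kap * (B0.card + ∑ t ∈ Finset.range j, (B' t).card) ≤ cnt (D ∩ U) (N j) := by
    intro j
    induction j with
    | zero => simp only [Finset.range_zero, Finset.sum_empty, add_zero]; omega
    | succ j ih =>
      have a1 := c3 j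
      have a2 : cnt (D ∩ U) (N j) ≤ cnt (D ∩ U) (Q j ∪ S (j + 1)) :=
        cnt_mono _ (fun e _ hh => Or.inl (q3 j hh))
      rw [Finset.sum_range_succ, ← add_assoc, mul_add]
      omega
  have hcntU : cnt (D ∩ U) (N n) ≤ U.card :=
    Finset.card_le_card ((Finset.filter_subset _ _).trans Finset.inter_subset_right)
  have hD : (A.filter (fun e => e ∈ D)).card ≤ kap * ∑ t ∈ Finset.range n, (BQ t).card := by
    have a1 : A.filter (fun e => e ∈ D) ⊆ (Finset.range n).biUnion
        (fun t => (D ∩ U).filter (fun e => e ∈ Q t ∧ e ∉ N t)) := by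
      intro e he
      simp only [hA, Finset.mem_filter] at he
      obtain ⟨⟨heU, t, ht, h⟩, heD⟩ := he
      exact Finset.mem_biUnion.mpr ⟨t, Finset.mem_range.mpr ht,
        Finset.mem_filter.mpr ⟨Finset.mem_inter.mpr ⟨heD, heU⟩, h⟩⟩
    refine (Finset.card_le_card a1).trans (Finset.card_biUnion_le.trans ?_)
    rw [Finset.mul_sum]
    apply Finset.sum_le_sum
    intro t _
    have f1 := (hmax t).2.2 (Q t) ((hmax t).1.trans (q3 t)) ((q4 t).trans (hNE _))
    change (cnt (D ∩ U) _ : ℤ) - _ ≤ (cnt (D ∩ U) _ : ℤ) - _ at f1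
    rw [cnt_split (D ∩ U) (q3 t), q5 t] at f1
    push_cast at f1
    have : (((D ∩ U).filter (fun e => e ∈ Q t ∧ e ∉ N t)).card : ℤ) ≤ kap * (BQ t).card := by
      linarith
    exact_mod_cast this
  refine ⟨A, ?_, ?_, ?_⟩
  · refine CV.IsTrace.mono (by convert htr) ?_
    rw [Nat.le_div_iff_mul_le (by norm_num), Finset.sum_add_distrib]
    have a1 := hBNs n
    change (B0.card + (∑ t ∈ Finset.range n, (BQ t).card +
      ∑ t ∈ Finset.range n, (B' t).card)) * 2 ^ 19 ≤ _
    unfold kap at a1 hBQ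
    omega
  · have : 3 * (kap * ∑ t ∈ Finset.range n, (BQ t).card) =
        3 * kap * ∑ t ∈ Finset.range n, (BQ t).card := by ring
    omega
  · have ht0 : (0 : ℝ) ≤ tt := by unfold tt; positivity
    have ht1 : tt ≤ 1 := by unfold tt; norm_num
    obtain ⟨_, _, e3, _, e5⟩ := h0 tt ht0 ht1
    rw [Ex_sum]
    have key : ∀ t, Ex tt (fun T0 =>
        (((((T0 \ D) ∩ U).filter (fun y => y ∈ N (t + 1) ∧ y ∉ N t)).card : ℝ) -
        ((rk M (N t ∪ ↑(((T0 \ D) ∩ U).filter (fun y => y ∈ N (t + 1) ∧ y ∉ N t))) : ℝ) -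
          rk M (N t)))) ≤ tt * (J t).card + (3 * kap : ℕ) * tt ^ 2 * (P t).card := by
      intro t
      have hPN : ∀ e ∈ P t, e ∈ U ∧ e ∉ D ∧ e ∈ N (t + 1) ∧ e ∉ Q t := by
        intro e he
        simp only [P, Finset.mem_filter, Finset.mem_sdiff] at he
        tauto
      have th := thin (M := M) h0 ht0 ht1 (Q t) (P t) (3 * kap) (by
        intro X hX
        refine le_trans (Finset.card_le_card ?_) (q7 t X (fun x hx => (hPN x (hX hx)).2.2.1))
        intro e he
        rw [Finset.mem_filter] at he ⊢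
        obtain ⟨a, b, _, d⟩ := hPN e he.1
        exact ⟨Finset.mem_sdiff.mpr ⟨a, b⟩, he.2, d⟩)
      refine le_trans (e3 _ (fun T0 => ((T0 ∩ J t).card : ℝ) +
        (((T0 ∩ P t).filter (fun e => e ∈ M.closure (Q t ∪ ↑((T0 ∩ P t).erase e)))).card : ℝ))
        ?_) ?_
      · intro T0
        apply null_split h1 (q3 t)
        · intro e he
          simp only [J, P, Finset.mem_filter, Finset.mem_sdiff, Finset.mem_inter,
            Finset.mem_union] at he ⊢
          tauto
        · intro e he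
          have := @q3 t e
          simp only [P, Finset.mem_filter, Finset.mem_sdiff, Finset.mem_inter] at he ⊢
          tauto
        · intro e he
          exact hU (hPN e (Finset.mem_inter.mp he).2).1
      · rw [Ex_add, e5]
        linarith
    refine (Finset.sum_le_sum (fun t _ => key t)).trans ?_
    rw [Finset.sum_add_distrib, ← Finset.mul_sum, ← Finset.mul_sum]
    have a1 : (∑ t ∈ Finset.range n, ((J t).card : ℝ)) ≤ A.card := by
      have : ∑ t ∈ Finset.range n, (J t).card ≤ A.card := by omega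
      exact_mod_cast this
    have a2 : (∑ t ∈ Finset.range n, ((P t).card : ℝ)) ≤ U.card := by exact_mod_cast hP
    exact add_le_add (mul_le_mul_of_nonneg_left a1 ht0)
      (mul_le_mul_of_nonneg_left a2 (by positivity))

end Crest.Agent.R305.A20

namespace Crest.Agent.R305

theorem alpha20 {k : ℕ} (M : Matroid (Fin k)) (h0 : EXB k) (h1 : RANK M) (h2 : EXPF M) :
    ALPHA M := by
  intro U S n hU hSE hS
  choose A a1 a2 a3 using A20.perD h0 h1 h2 U S n hU hSE hS
  obtain ⟨_, e2, e3, _, _⟩ := h0 (1 / 2) (by norm_num) (by norm_num)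
  refine (e3 _ _ a3).trans ?_
  have hc := CV.trace_count_exp (M := M) (S := S) (fun a b h => hS a b h) hU (U.card / 2 ^ 19)
    (Nat.mul_div_le _ _) (Finset.univ.image A) (by
      intro B hB
      obtain ⟨D, _, rfl⟩ := Finset.mem_image.mp hB
      exact a1 D)
  have hE := U73.exp_card_le (fun s : Fin k → Bool => A (Finset.univ.filter (fun i => s i = true)))
    (Finset.univ.image A) _ (fun s => Finset.mem_image_of_mem _ (Finset.mem_univ _))
    (fun s => by
      have := a2 (Finset.univ.filter (fun i => s i = true))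
      simpa using this) hc
  rw [← A20.Ex_eq (1 / 2) (fun D => ((A D).card : ℝ))] at hE
  rw [A20.Ex_add, A20.Ex_mul]
  have hconst : Ex (1 / 2) (fun _ : Finset (Fin k) => ((3 * kap : ℕ) : ℝ) * tt ^ 2 * U.card) =
      ((3 * kap : ℕ) : ℝ) * tt ^ 2 * U.card := by
    unfold Ex
    rw [← Finset.sum_mul, e2, one_mul]
  rw [hconst]
  have ht0 : (0 : ℝ) ≤ tt := by unfold tt; positivity
  have hk : ((3 * kap : ℕ) : ℝ) * tt ≤ 1 / 32 := by unfold kap tt; norm_num
  have hn : (0 : ℝ) ≤ U.card := Nat.cast_nonneg _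
  have b1 := mul_le_mul_of_nonneg_left hE ht0
  have b2 := mul_le_mul_of_nonneg_right hk (mul_nonneg ht0 hn)
  have b3 := mul_nonneg ht0 hn
  nlinarith

end Crest.Agent.R305
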