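import Mathlib

set_option autoImplicit false

namespace Crest.Agent.R305.A23
open Finset

variable {α : Type*} [DecidableEq α]

/-- abstract rank function -/
structure IsRk (r : Finset α → ℕ) : Prop where
  mono : ∀ A B, A ⊆ B → r A ≤ r B
  submod : ∀ A B, r (A ∪ B) + r (A ∩ B) ≤ r A + r B
  ins : ∀ a A, r (insert a A) ≤ r A + 1

variable {r : Finset α → ℕ}

theorem IsRk.union_le (h : IsRk r) (X A : Finset α) : r (X ∪ A) ≤ r X + A.card := by
  induction A using Finset.induction_on with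
  | empty => simp
  | insert a A ha ih =>
    rw [Finset.union_insert, Finset.card_insert_of_notMem ha]
    have := h.ins a (X ∪ A)
    omega

theorem IsRk.union_le_sdiff (h : IsRk r) (X A : Finset α) : r (X ∪ A) ≤ r X + (A \ X).card := by
  have := h.union_le X (A \ X)
  rwa [Finset.union_sdiff_self_eq_union] at this

/-- diminishing returns -/
theorem IsRk.dim (h : IsRk r) {X W : Finset α} (hXW : X ⊆ W) (Y : Finset α) :
    r (W ∪ Y) + r X ≤ r (X ∪ Y) + r W := by
  have h1 := h.submod (X ∪ Y) W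
  have e1 : X ∪ Y ∪ W = W ∪ Y := by
    ext x; simp only [mem_union]; constructor
    · rintro ((h | h) | h)
      · exact Or.inl (hXW h)
      · exact Or.inr h
      · exact Or.inl h
    · rintro (h | h)
      · exact Or.inr h
      · exact Or.inl (Or.inr h)
  have h2 : r X ≤ r ((X ∪ Y) ∩ W) := h.mono _ _ (by
    intro x hx; exact mem_inter.2 ⟨mem_union_left _ hx, hXW hx⟩)
  rw [e1] at h1
  omega

theorem IsRk.dim1 (h : IsRk r) {X W : Finset α} (hXW : X ⊆ W) (b : α) :
    r (insert b W) + r X ≤ r (insert b X) + r W := by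
  have := h.dim hXW {b}
  rwa [Finset.union_comm W, Finset.union_comm X, ← Finset.insert_eq, ← Finset.insert_eq] at this

theorem IsRk.cl_rank (h : IsRk r) (X Y : Finset α) (hY : ∀ e ∈ Y, r (insert e X) ≤ r X) :
    r (X ∪ Y) ≤ r X := by
  induction Y using Finset.induction_on with
  | empty => simp
  | insert a Y ha ih =>
    rw [Finset.union_insert]
    have h1 := h.dim1 (subset_union_left (s₁ := X) (s₂ := Y)) a
    have h2 := hY a (mem_insert_self _ _)
    have h3 := ih (fun e he => hY e (mem_insert_of_mem he))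
    omega

theorem IsRk.exch (h : IsRk r) (X : Finset α) (b : α) (hb : r X < r (insert b X))
    (A : Finset α) (hA : r X + A.card ≤ r (X ∪ A)) (hbA : r (insert b (X ∪ A)) ≤ r (X ∪ A)) :
    ∃ a ∈ A, r (X ∪ A) ≤ r (insert b (X ∪ A.erase a)) := by
  induction A using Finset.induction_on with
  | empty => simp at hbA; omega
  | insert a A ha ih =>
    rw [Finset.card_insert_of_notMem ha, Finset.union_insert] at hA
    have h1 := h.ins a (X ∪ A)
    have h2 := h.union_le X A
    by_cases hc : r (insert b (X ∪ A)) ≤ r (X ∪ A)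
    · obtain ⟨a', ha', hr⟩ := ih (by omega) hc
      refine ⟨a', mem_insert_of_mem ha', ?_⟩
      have hne : a ≠ a' := fun e => ha (e ▸ ha')
      have e1 : insert b (X ∪ (insert a A).erase a') = insert a (insert b (X ∪ A.erase a')) := by
        rw [Finset.erase_insert_of_ne hne, Finset.union_insert, Finset.insert_comm]
      have hsub : insert b (X ∪ A.erase a') ⊆ insert b (X ∪ A) :=
        insert_subset_insert _ (union_subset_union_right (erase_subset _ _))
      have h3 := h.dim1 hsub a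
      have h4 : r (insert a (X ∪ A)) ≤ r (insert a (insert b (X ∪ A))) :=
        h.mono _ _ (insert_subset_insert _ (subset_insert _ _))
      rw [e1, Finset.union_insert]
      omega
    · refine ⟨a, mem_insert_self _ _, ?_⟩
      rw [Finset.erase_insert ha, Finset.union_insert]
      omega

/-- a basis of `N` over `R` inside `D` -/
def Bas (r : Finset α → ℕ) (D R N B : Finset α) : Prop :=
  B ⊆ D ∩ N ∧ r N ≤ r (R ∪ B) ∧ r R + B.card ≤ r N

theorem Bas.indep (h : IsRk r) {D R N B : Finset α} (hB : Bas r D R N B) {A : Finset α}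
    (hA : A ⊆ B) : r R + A.card ≤ r (R ∪ A) := by
  have h1 := h.union_le (R ∪ A) (B \ A)
  have e1 : R ∪ A ∪ (B \ A) = R ∪ B := by
    rw [Finset.union_assoc, Finset.union_sdiff_of_subset hA]
  rw [e1] at h1
  have h2 := Finset.card_sdiff_add_card_eq_card hA
  have := hB.2.1
  have := hB.2.2
  omega

theorem Bas.indepP (h : IsRk r) {D P R N B : Finset α} (hPR : P ⊆ R) (hB : Bas r D R N B)
    {A : Finset α} (hA : A ⊆ B) : r P + A.card ≤ r (P ∪ A) := by
  have h1 := hB.indep h hA
  have h2 := h.dim hPR A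
  omega

theorem Bas.up (h : IsRk r) {D R N B : Finset α} (hB : Bas r D R N B) {Q : Finset α}
    (hQ : R ⊆ Q) : r N ≤ r Q + (B \ Q).card := by
  have h1 := h.union_le_sdiff Q B
  have h2 := h.mono _ _ (union_subset_union_left (t := B) hQ)
  have := hB.2.1
  omega

theorem Bas.down (h : IsRk r) {D P R N B : Finset α} (hPR : P ⊆ R) (hB : Bas r D R N B)
    {Q : Finset α} (hQ : P ⊆ Q) : r P + (B ∩ Q).card ≤ r Q := by
  have h1 := hB.indepP h hPR (inter_subset_left (s₂ := Q))
  have h2 : r (P ∪ B ∩ Q) ≤ r Q := h.mono _ _ (union_subset hQ inter_subset_right)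
  omega

theorem Bas.notMem (h : IsRk r) {D R N B : Finset α} (hB : Bas r D R N B) {a : α}
    (ha : a ∈ B) : a ∉ R := by
  intro haR
  have h1 := hB.indep h (singleton_subset_iff.2 ha)
  rw [Finset.union_eq_left.2 (singleton_subset_iff.2 haR)] at h1
  simp at h1

theorem exists_bas (h : IsRk r) (D R N : Finset α) (hRN : R ⊆ N)
    (hsp : r N ≤ r (R ∪ (D ∩ N))) : ∃ B, Bas r D R N B := by
  classical
  have hne : (((D ∩ N).powerset).filter (fun B => r R + B.card ≤ r (R ∪ B))).Nonempty :=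
    ⟨∅, mem_filter.2 ⟨mem_powerset.2 (empty_subset _), by simp⟩⟩
  obtain ⟨B, hB, hmax⟩ := Finset.exists_max_image _ (fun B : Finset α => B.card) hne
  rw [mem_filter, mem_powerset] at hB
  have hsub : R ∪ B ⊆ N := union_subset hRN (hB.1.trans inter_subset_right)
  refine ⟨B, hB.1, ?_, hB.2.trans (h.mono _ _ hsub)⟩
  have h1 : r ((R ∪ B) ∪ (D ∩ N)) ≤ r (R ∪ B) := by
    apply h.cl_rank
    intro e he
    by_contra hlt
    have heB : e ∉ B := by
      intro heB
      rw [Finset.insert_eq_of_mem (mem_union_right _ heB)] at hlt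
      exact hlt le_rfl
    have := hmax (insert e B) (by
      rw [mem_filter, mem_powerset, Finset.card_insert_of_notMem heB, Finset.union_insert]
      refine ⟨insert_subset he hB.1, ?_⟩
      have := hB.2
      omega)
    rw [Finset.card_insert_of_notMem heB] at this
    omega
  have h2 : r (R ∪ (D ∩ N)) ≤ r ((R ∪ B) ∪ (D ∩ N)) :=
    h.mono _ _ (union_subset_union_left subset_union_left)
  omega

/-- the peeling step -/
theorem peel_step (h : IsRk r) {D P R N B : Finset α} {κ : ℕ} (hPR : P ⊆ R) (hRN : R ⊆ N)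
    (hdown : ∀ Q, P ⊆ Q → Q ⊆ N → r P < r Q → (D ∩ (Q \ P)).card + κ * r P < κ * r Q)
    (hup : ∀ Q, R ⊆ Q → Q ⊆ N → κ * r N ≤ κ * r Q + (D ∩ (N \ Q)).card)
    (hB : Bas r D R N B) {A : Finset α} (hA : A ⊆ B) (hne : A.Nonempty) :
    ∃ a ∈ A, ∃ b, Bas r D R N (insert b (B.erase a)) ∧ b ∉ B.erase a ∧
      r (P ∪ A) < r (insert b (P ∪ A)) := by
  classical
  by_contra hcon
  push Not at hcon
  have hBN : B ⊆ N := hB.1.trans inter_subset_right
  set X := R ∪ (B \ A) with hX
  have hXA : X ∪ A = R ∪ B := by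
    rw [hX, Finset.union_assoc, Finset.sdiff_union_of_subset hA]
  have hXN : X ⊆ N := union_subset hRN (sdiff_subset.trans hBN)
  have hcard := Finset.card_sdiff_add_card_eq_card hA
  have hX1 : r R + (B \ A).card ≤ r X := hB.indep h sdiff_subset
  have hX2 : r X ≤ r R + (B \ A).card := h.union_le _ _
  have hN1 := hB.2.1
  have hN2 := hB.2.2
  have hN3 : r (R ∪ B) ≤ r R + B.card := h.union_le _ _
  set Q' := X ∪ N.filter (fun e => r (insert e X) ≤ r X) with hQ'
  set Q := (P ∪ A) ∪ N.filter (fun e => r (insert e (P ∪ A)) ≤ r (P ∪ A)) with hQ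
  have hQ'r : r Q' ≤ r X := h.cl_rank _ _ (fun e he => (mem_filter.1 he).2)
  have hQr : r Q ≤ r (P ∪ A) := h.cl_rank _ _ (fun e he => (mem_filter.1 he).2)
  have hPA1 : r P + A.card ≤ r (P ∪ A) := hB.indepP h hPR hA
  have hPA2 : r (P ∪ A) ≤ r P + A.card := h.union_le _ _
  have hPA3 : r (P ∪ A) ≤ r Q := h.mono _ _ subset_union_left
  have hApos : 0 < A.card := hne.card_pos
  have hu := hup Q' (subset_union_left.trans subset_union_left)
    (union_subset hXN (filter_subset _ _))
  have hd := hdown Q (subset_union_left.trans subset_union_left)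
    (union_subset (union_subset (hPR.trans hRN) (hA.trans hBN)) (filter_subset _ _)) (by omega)
  have hsub : D ∩ (N \ Q') ⊆ D ∩ (Q \ P) := by
    intro b hb
    rw [mem_inter, mem_sdiff] at hb
    obtain ⟨hbD, hbN, hbQ⟩ := hb
    have hbX : r X < r (insert b X) := by
      by_contra hle
      exact hbQ (mem_union_right _ (mem_filter.2 ⟨hbN, not_lt.1 hle⟩))
    have hbP : b ∉ P := fun hbP =>
      hbQ (mem_union_left _ (mem_union_left _ (hPR hbP)))
    refine mem_inter.2 ⟨hbD, mem_sdiff.2 ⟨mem_union_right _ (mem_filter.2 ⟨hbN, ?_⟩), hbP⟩⟩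
    have hins : r (insert b (X ∪ A)) ≤ r N := h.mono _ _ (by
      rw [hXA]; exact insert_subset hbN (union_subset hRN hBN))
    obtain ⟨a, ha, hr⟩ := h.exch X b hbX A (by rw [hXA]; omega) (by rw [hXA] at hins ⊢; omega)
    have e1 : insert b (X ∪ A.erase a) = R ∪ insert b (B.erase a) := by
      rw [Finset.union_insert]
      congr 1
      ext x
      simp only [hX, mem_union, mem_sdiff, mem_erase]
      constructor
      · rintro ((h1 | ⟨h1, h2⟩) | ⟨h1, h2⟩)
        · exact Or.inl h1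
        · exact Or.inr ⟨fun e => h2 (e ▸ ha), h1⟩
        · exact Or.inr ⟨h1, hA h2⟩
      · rintro (h1 | ⟨h1, h2⟩)
        · exact Or.inl (Or.inl h1)
        · by_cases hx : x ∈ A
          · exact Or.inr ⟨h1, hx⟩
          · exact Or.inl (Or.inr ⟨h2, hx⟩)
    rw [e1, hXA] at hr
    have hce := Finset.card_erase_of_mem (hA ha)
    have hBpos : 0 < B.card := Finset.card_pos.2 ⟨a, hA ha⟩
    have hci := Finset.card_insert_le b (B.erase a)
    have hnm : b ∉ B.erase a := by
      intro hm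
      rw [Finset.insert_eq_of_mem hm] at hr
      have := h.union_le R (B.erase a)
      omega
    refine hcon a ha b ⟨?_, by omega, by omega⟩ hnm
    exact insert_subset (mem_inter.2 ⟨hbD, hbN⟩) ((erase_subset _ _).trans hB.1)
  have hc := Finset.card_le_card hsub
  have e2 : r N = r X + A.card := by omega
  have e3 : r Q = r P + A.card := by omega
  have h5 : κ * r Q' ≤ κ * r X := Nat.mul_le_mul_left _ hQ'r
  rw [e2, Nat.mul_add] at hu
  rw [e3, Nat.mul_add] at hd
  omega

theorem peel (h : IsRk r) {D P R N B : Finset α} {κ : ℕ} (hPR : P ⊆ R) (hRN : R ⊆ N)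
    (hdown : ∀ Q, P ⊆ Q → Q ⊆ N → r P < r Q → (D ∩ (Q \ P)).card + κ * r P < κ * r Q)
    (hup : ∀ Q, R ⊆ Q → Q ⊆ N → κ * r N ≤ κ * r Q + (D ∩ (N \ Q)).card)
    (hB : Bas r D R N B) (A₀ : Finset α) (hA₀ : A₀ ⊆ B) :
    ∃ β : α → α, (∀ a ∈ A₀, Bas r D R N (insert (β a) (B.erase a)) ∧ β a ∉ B.erase a) ∧
      ∀ A, A ⊆ A₀ → A.Nonempty → ∃ a ∈ A, r (P ∪ A) < r (insert (β a) (P ∪ A)) := by
  classical
  induction A₀ using Finset.strongInduction with
  | H A₀ ih =>
    rcases A₀.eq_empty_or_nonempty with rfl | hne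
    · refine ⟨id, by simp, fun A hA hne => ?_⟩
      rw [Finset.subset_empty.1 hA] at hne
      exact absurd hne (by simp)
    obtain ⟨a, ha, b, hb1, hb2, hb3⟩ := peel_step h hPR hRN hdown hup hB hA₀ hne
    obtain ⟨β, h1, h2⟩ := ih (A₀.erase a) (Finset.erase_ssubset ha) ((erase_subset _ _).trans hA₀)
    refine ⟨Function.update β a b, fun c hc => ?_, fun A hA hAne => ?_⟩
    · by_cases hca : c = a
      · subst hca; rw [Function.update_self]; exact ⟨hb1, hb2⟩
      · rw [Function.update_of_ne hca]; exact h1 c (mem_erase.2 ⟨hca, hc⟩)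
    · by_cases haA : a ∈ A
      · refine ⟨a, haA, ?_⟩
        rw [Function.update_self]
        have := h.dim1 (union_subset_union_right (s := P) hA) b
        omega
      · obtain ⟨c, hc, hr⟩ := h2 A (fun x hx => mem_erase.2 ⟨fun e => haA (e ▸ hx), hA hx⟩) hAne
        refine ⟨c, hc, ?_⟩
        have hca : c ≠ a := fun e => haA (e ▸ hc)
        rw [Function.update_of_ne hca]
        exact hr


/-- weight of a set under the code `(B, β)` -/
def wt (M : ℕ) (B : Finset α) (β : α → α) (X : Finset α) : ℕ :=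
  (M - 1) * (B ∩ X).card + (B.filter (fun a => β a ∈ X)).card

theorem layer (h : IsRk r) {D P R N : Finset α} {κ M : ℕ} (hκ : 0 < κ) (hPR : P ⊆ R)
    (hRN : R ⊆ N)
    (hdown : ∀ Q, P ⊆ Q → Q ⊆ N → r P < r Q → (D ∩ (Q \ P)).card + κ * r P < κ * r Q)
    (hup : ∀ Q, R ⊆ Q → Q ⊆ N → κ * r N ≤ κ * r Q + (D ∩ (N \ Q)).card)
    (hM : D.card < M) :
    ∃ (B : Finset α) (β : α → α), B ⊆ D ∩ (N \ P) ∧ (∀ a ∈ B, β a ∈ D ∩ (N \ P)) ∧
      κ * B.card ≤ (D ∩ (N \ P)).card ∧
      (∀ Q, R ⊆ Q → Q ⊆ N → M * r N ≤ M * r Q + wt M B β (N \ Q)) ∧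
      (∀ Q, P ⊆ Q → Q ⊆ N → r P < r Q → wt M B β Q + M * r P < M * r Q) := by
  classical
  have hsp : r N ≤ r (R ∪ (D ∩ N)) := by
    have h1 := hup (R ∪ (D ∩ N)) subset_union_left (union_subset hRN inter_subset_right)
    have h2 : D ∩ (N \ (R ∪ (D ∩ N))) = ∅ := by
      ext x; simp only [mem_inter, mem_sdiff, mem_union, notMem_empty]; tauto
    rw [h2, card_empty, add_zero] at h1
    exact Nat.le_of_mul_le_mul_left h1 hκ
  obtain ⟨B, hB⟩ := exists_bas h D R N hRN hsp
  obtain ⟨β, hβ1, hβ2⟩ := peel h hPR hRN hdown hup hB B subset_rfl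
  have hBD : B.card ≤ D.card := card_le_card (hB.1.trans inter_subset_left)
  have hBN : B ⊆ N := hB.1.trans inter_subset_right
  obtain ⟨M', rfl⟩ : ∃ M', M = M' + 1 := ⟨M - 1, by omega⟩
  have hN1 := hB.2.1
  have hN2 := hB.2.2
  have hN3 : r (R ∪ B) ≤ r R + B.card := h.union_le _ _
  refine ⟨B, β, fun a ha => ?_, fun a ha => ?_, ?_, fun Q hRQ hQN => ?_, fun Q hPQ hQN hlt => ?_⟩
  · have := mem_inter.1 (hB.1 ha)
    exact mem_inter.2 ⟨this.1, mem_sdiff.2 ⟨this.2, fun hP => hB.notMem h ha (hPR hP)⟩⟩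
  · have hb := (hβ1 a ha).1
    have := mem_inter.1 (hb.1 (mem_insert_self _ _))
    exact mem_inter.2 ⟨this.1, mem_sdiff.2 ⟨this.2,
      fun hP => hb.notMem h (mem_insert_self _ _) (hPR hP)⟩⟩
  · have h1 := hup R subset_rfl hRN
    have h2 : (D ∩ (N \ R)).card ≤ (D ∩ (N \ P)).card :=
      card_le_card (inter_subset_inter_left (sdiff_subset_sdiff subset_rfl hPR))
    have e : r N = r R + B.card := by omega
    rw [e, Nat.mul_add] at h1
    omega
  · have hu := hB.up h hRQ
    have hQ1 : r R ≤ r Q := h.mono _ _ hRQ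
    have hQ2 : r Q ≤ r N := h.mono _ _ hQN
    have e1 : B ∩ (N \ Q) = B \ Q := by
      ext x; simp only [mem_inter, mem_sdiff]
      exact ⟨fun hx => ⟨hx.1, hx.2.2⟩, fun hx => ⟨hx.1, hBN hx.1, hx.2⟩⟩
    obtain ⟨ρ, hρ⟩ : ∃ ρ, r N = r Q + ρ := ⟨r N - r Q, by omega⟩
    unfold wt
    rw [e1, hρ, Nat.add_sub_cancel]
    by_cases hc : (B \ Q).card = ρ
    · have hsub : B \ Q ⊆ B.filter (fun a => β a ∈ N \ Q) := by
        intro a ha
        have ha' := mem_sdiff.1 ha
        have hb := (hβ1 a ha'.1).1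
        have hbu := hb.up h hRQ
        refine mem_filter.2 ⟨ha'.1, mem_sdiff.2
          ⟨(mem_inter.1 (hb.1 (mem_insert_self _ _))).2, fun hq => ?_⟩⟩
        have e2 : insert (β a) (B.erase a) \ Q = (B \ Q).erase a := by
          rw [Finset.insert_sdiff_of_mem _ hq, Finset.erase_sdiff_comm]
        rw [e2, Finset.card_erase_of_mem ha] at hbu
        have : 0 < (B \ Q).card := card_pos.2 ⟨a, ha⟩
        omega
      have := card_le_card hsub
      rw [hc] at this ⊢
      nlinarith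
    · have h1 : ρ + 1 ≤ (B \ Q).card := by omega
      have h2 : M' * (ρ + 1) ≤ M' * (B \ Q).card := Nat.mul_le_mul_left _ h1
      have h3 : ρ ≤ M' := by omega
      nlinarith
  · have hd := hB.down h hPR hPQ
    obtain ⟨ρ, hρ⟩ : ∃ ρ, r Q = r P + (ρ + 1) := ⟨r Q - r P - 1, by omega⟩
    unfold wt
    rw [hρ, Nat.add_sub_cancel]
    by_cases hc : (B ∩ Q).card = ρ + 1
    · have hne : (B ∩ Q).Nonempty := card_pos.1 (by omega)
      obtain ⟨a, ha, hra⟩ := hβ2 (B ∩ Q) inter_subset_left hne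
      have hi := hB.indepP h hPR (inter_subset_left (s₂ := Q))
      have haQ : β a ∉ Q := by
        intro hq
        have : r (insert (β a) (P ∪ B ∩ Q)) ≤ r Q :=
          h.mono _ _ (insert_subset hq (union_subset hPQ inter_subset_right))
        omega
      have hsub : B.filter (fun a => β a ∈ Q) ⊆ (B ∩ Q).erase a := by
        intro c hc'
        obtain ⟨hcB, hcQ⟩ := mem_filter.1 hc'
        refine mem_erase.2 ⟨fun e => haQ (e ▸ hcQ), mem_inter.2 ⟨hcB, ?_⟩⟩
        by_contra hcq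
        have hbd := (hβ1 c hcB).1.down h hPR hPQ
        have e2 : insert (β c) (B.erase c) ∩ Q = insert (β c) (B ∩ Q) := by
          rw [Finset.insert_inter_of_mem hcQ]
          congr 1
          ext x; simp only [mem_inter, mem_erase]
          exact ⟨fun hx => ⟨hx.1.2, hx.2⟩, fun hx => ⟨⟨fun e => hcq (e ▸ hx.2), hx.1⟩, hx.2⟩⟩
        have hnm : β c ∉ B ∩ Q := by
          intro hm
          exact (hβ1 c hcB).2 (mem_erase.2 ⟨fun e => hcq (e ▸ hcQ), (mem_inter.1 hm).1⟩)
        rw [e2, card_insert_of_notMem hnm] at hbd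
        omega
      have := card_le_card hsub
      rw [card_erase_of_mem ha, hc] at this
      rw [hc]
      simp only [Nat.add_sub_cancel] at this
      nlinarith
    · have h1 : (B ∩ Q).card ≤ ρ := by omega
      have h2 : M' * (B ∩ Q).card ≤ M' * ρ := Nat.mul_le_mul_left _ h1
      have h3 : (B.filter (fun a => β a ∈ Q)).card ≤ M' :=
        (card_filter_le _ _).trans (by omega)
      nlinarith

theorem layer0 (h : IsRk r) {D R N : Finset α} {κ M : ℕ} (hκ : 0 < κ) (hRN : R ⊆ N)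
    (hup : ∀ Q, R ⊆ Q → Q ⊆ N → κ * r N ≤ κ * r Q + (D ∩ (N \ Q)).card) (hM : 0 < M) :
    ∃ (B : Finset α), B ⊆ D ∩ N ∧ κ * B.card ≤ (D ∩ N).card ∧
      (∀ Q, R ⊆ Q → Q ⊆ N → M * r N ≤ M * r Q + wt M B id (N \ Q)) := by
  classical
  have hsp : r N ≤ r (R ∪ (D ∩ N)) := by
    have h1 := hup (R ∪ (D ∩ N)) subset_union_left (union_subset hRN inter_subset_right)
    have h2 : D ∩ (N \ (R ∪ (D ∩ N))) = ∅ := by
      ext x; simp only [mem_inter, mem_sdiff, mem_union, notMem_empty]; tauto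
    rw [h2, card_empty, add_zero] at h1
    exact Nat.le_of_mul_le_mul_left h1 hκ
  obtain ⟨B, hB⟩ := exists_bas h D R N hRN hsp
  have hBN : B ⊆ N := hB.1.trans inter_subset_right
  obtain ⟨M', rfl⟩ : ∃ M', M = M' + 1 := ⟨M - 1, by omega⟩
  have hN1 := hB.2.1
  have hN2 := hB.2.2
  have hN3 : r (R ∪ B) ≤ r R + B.card := h.union_le _ _
  refine ⟨B, hB.1, ?_, fun Q hRQ hQN => ?_⟩
  · have h1 := hup R subset_rfl hRN
    have h2 : (D ∩ (N \ R)).card ≤ (D ∩ N).card :=
      card_le_card (inter_subset_inter_left sdiff_subset)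
    have e : r N = r R + B.card := by omega
    rw [e, Nat.mul_add] at h1
    omega
  · have hu := hB.up h hRQ
    have e1 : B ∩ (N \ Q) = B \ Q := by
      ext x; simp only [mem_inter, mem_sdiff]
      exact ⟨fun hx => ⟨hx.1, hx.2.2⟩, fun hx => ⟨hx.1, hBN hx.1, hx.2⟩⟩
    have e2 : B.filter (fun a => id a ∈ N \ Q) = B \ Q := by
      rw [← e1]; ext x; simp only [mem_filter, mem_inter, id]
    unfold wt
    rw [e1, e2, Nat.add_sub_cancel]
    have := Nat.mul_le_mul_left (M' + 1) hu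
    nlinarith

end Crest.Agent.R305.A23
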