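import Crest.Agent.R305.Alpha23

set_option autoImplicit false

namespace Crest.Agent.R305.A23
open Finset

variable {α : Type*} [DecidableEq α] {r : Finset α → ℕ}

/-- `N` is the maximal maximiser of `f Q - M r Q` over `S ⊆ Q ⊆ E` -/
def MM (r : Finset α → ℕ) (f : Finset α → ℕ) (M : ℕ) (E S N : Finset α) : Prop :=
  S ⊆ N ∧ N ⊆ E ∧ (∀ Q, S ⊆ Q → Q ⊆ E → f Q + M * r N ≤ f N + M * r Q) ∧
    (∀ Q, S ⊆ Q → Q ⊆ E → f N + M * r Q ≤ f Q + M * r N → Q ⊆ N)

theorem MM.unique {f : Finset α → ℕ} {M : ℕ} {E S N N' : Finset α} (h : MM r f M E S N)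
    (h' : MM r f M E S N') : N = N' :=
  Subset.antisymm (h'.2.2.2 N h.1 h.2.1 (h.2.2.1 N' h'.1 h'.2.1))
    (h.2.2.2 N' h'.1 h'.2.1 (h'.2.2.1 N h.1 h.2.1))

theorem wt_modular (M : ℕ) (B : Finset α) (β : α → α) (X Y : Finset α) :
    wt M B β (X ∪ Y) + wt M B β (X ∩ Y) = wt M B β X + wt M B β Y := by
  unfold wt
  have h1 : (B ∩ (X ∪ Y)).card + (B ∩ (X ∩ Y)).card = (B ∩ X).card + (B ∩ Y).card := by
    rw [Finset.inter_union_distrib_left, Finset.inter_inter_distrib_left]
    exact Finset.card_union_add_card_inter _ _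
  have h2 : (B.filter (fun a => β a ∈ X ∪ Y)).card + (B.filter (fun a => β a ∈ X ∩ Y)).card =
      (B.filter (fun a => β a ∈ X)).card + (B.filter (fun a => β a ∈ Y)).card := by
    have := Finset.card_union_add_card_inter (B.filter (fun a => β a ∈ X))
      (B.filter (fun a => β a ∈ Y))
    rw [← Finset.filter_or, ← Finset.filter_and] at this
    simpa only [mem_union, mem_inter] using this
  have h3 := congrArg (fun x => (M - 1) * x) h1
  simp only [Nat.mul_add] at h3
  omega

theorem wt_mono (M : ℕ) (B : Finset α) (β : α → α) {X Y : Finset α} (h : X ⊆ Y) :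
    wt M B β X ≤ wt M B β Y := by
  unfold wt
  have h1 : (B ∩ X).card ≤ (B ∩ Y).card := card_le_card (inter_subset_inter_left h)
  have h2 : (B.filter (fun a => β a ∈ X)).card ≤ (B.filter (fun a => β a ∈ Y)).card :=
    card_le_card (fun a ha => mem_filter.2 ⟨(mem_filter.1 ha).1, h (mem_filter.1 ha).2⟩)
  have := Nat.mul_le_mul_left (M - 1) h1
  omega

theorem wt_empty (M : ℕ) (B : Finset α) (β : α → α) : wt M B β ∅ = 0 := by
  simp [wt]

theorem wt_sdiff (M : ℕ) (B : Finset α) (β : α → α) {Q N : Finset α} (h : Q ⊆ N) :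
    wt M B β N = wt M B β Q + wt M B β (N \ Q) := by
  have := wt_modular M B β Q (N \ Q)
  rw [Finset.union_sdiff_of_subset h, Finset.inter_sdiff_self, wt_empty] at this
  omega

theorem wt_inter (M : ℕ) (B : Finset α) (β : α → α) {N : Finset α} (hB : B ⊆ N)
    (hβ : ∀ a ∈ B, β a ∈ N) (X : Finset α) : wt M B β X = wt M B β (X ∩ N) := by
  unfold wt
  have e1 : B ∩ (X ∩ N) = B ∩ X := by
    ext x; simp only [mem_inter]; exact ⟨fun h => ⟨h.1, h.2.1⟩, fun h => ⟨h.1, h.2, hB h.1⟩⟩
  have e2 : B.filter (fun a => β a ∈ X ∩ N) = B.filter (fun a => β a ∈ X) := by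
    apply filter_congr; intro a ha; simp only [mem_inter]; exact ⟨fun h => h.1, fun h => ⟨h, hβ a ha⟩⟩
  rw [e1, e2]

theorem wt_glue (M : ℕ) {B B' : Finset α} (hd : Disjoint B B') (β β' : α → α) (X : Finset α) :
    wt M (B ∪ B') (fun a => if a ∈ B then β a else β' a) X = wt M B β X + wt M B' β' X := by
  unfold wt
  have h1 : ((B ∪ B') ∩ X).card = (B ∩ X).card + (B' ∩ X).card := by
    rw [Finset.union_inter_distrib_right, card_union_of_disjoint
      (hd.mono inter_subset_left inter_subset_left)]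
  have h2 : ((B ∪ B').filter (fun a => (if a ∈ B then β a else β' a) ∈ X)).card =
      (B.filter (fun a => β a ∈ X)).card + (B'.filter (fun a => β' a ∈ X)).card := by
    rw [Finset.filter_union, card_union_of_disjoint
      (hd.mono (filter_subset _ _) (filter_subset _ _))]
    congr 2
    · apply filter_congr; intro a ha; rw [if_pos ha]
    · apply filter_congr; intro a ha
      rw [if_neg (fun h => Finset.disjoint_left.1 hd h ha)]
  rw [h1, h2]; ring

theorem card_split (D : Finset α) {P Q : Finset α} (h : P ⊆ Q) :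
    (D ∩ Q).card = (D ∩ P).card + (D ∩ (Q \ P)).card := by
  rw [← card_union_of_disjoint, ← Finset.inter_union_distrib_left, Finset.union_sdiff_of_subset h]
  exact (Finset.disjoint_sdiff).mono inter_subset_right inter_subset_right

section chain
variable {D E : Finset α} {κ M : ℕ} {S N : ℕ → Finset α}

theorem chain_aux (h : IsRk r) (hκ : 0 < κ) (hM : D.card < M)
    (hS : ∀ t, S t ⊆ S (t + 1)) (hN : ∀ t, N t ⊆ N (t + 1))
    (hMM : ∀ t, MM r (fun Q => (D ∩ Q).card) κ E (S t) (N t)) (n : ℕ) :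
    ∃ (B : Finset α) (β : α → α), B ⊆ D ∩ N n ∧ (∀ a ∈ B, β a ∈ D ∩ N n) ∧
      κ * B.card ≤ (D ∩ N n).card ∧
      (∀ t ≤ n, ∀ Q, S t ⊆ Q → Q ⊆ N t → wt M B β Q + M * r (N t) ≤ wt M B β (N t) + M * r Q) ∧
      (∀ t < n, ∀ Q, N t ⊆ Q → Q ⊆ N (t + 1) → r (N t) < r Q →
        wt M B β Q + M * r (N t) < wt M B β (N t) + M * r Q) := by
  classical
  have hup : ∀ t Q, S t ⊆ Q → Q ⊆ N t → κ * r (N t) ≤ κ * r Q + (D ∩ (N t \ Q)).card := by
    intro t Q h1 h2
    have h3 := (hMM t).2.2.1 Q h1 (h2.trans (hMM t).2.1)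
    have h4 := card_split D h2
    simp only at h3
    omega
  have hNm : ∀ t t', t ≤ t' → N t ⊆ N t' := fun t t' htt =>
    monotone_nat_of_le_succ (f := N) hN htt
  induction n with
  | zero =>
    obtain ⟨B, h1, h2, h3⟩ := layer0 h (M := M) hκ (hMM 0).1 (hup 0) (by omega)
    refine ⟨B, id, h1, fun a ha => h1 ha, h2, fun t ht Q hQ1 hQ2 => ?_, fun t ht => by omega⟩
    obtain rfl : t = 0 := by omega
    have := h3 Q hQ1 hQ2
    have := wt_sdiff M B id hQ2
    omega
  | succ n ih =>
    obtain ⟨B, β, hB1, hB2, hB3, hU, hD⟩ := ih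
    have hdown : ∀ Q, N n ⊆ Q → Q ⊆ N (n + 1) → r (N n) < r Q →
        (D ∩ (Q \ N n)).card + κ * r (N n) < κ * r Q := by
      intro Q h1 h2 h3
      by_contra hle
      have h4 := card_split D h1
      have h5 := (hMM n).2.2.2 Q ((hMM n).1.trans h1) (h2.trans (hMM (n + 1)).2.1)
        (by simp only; omega)
      have := h.mono _ _ h5
      omega
    obtain ⟨B', β', hB1', hB2', hB3', hU', hD'⟩ := layer h (M := M) (P := N n)
      (R := N n ∪ S (n + 1)) (N := N (n + 1)) hκ subset_union_left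
      (union_subset (hN n) (hMM (n + 1)).1) hdown
      (fun Q h1 h2 => hup (n + 1) Q (subset_union_right.trans h1) h2) hM
    have hdisj : Disjoint B B' := by
      rw [Finset.disjoint_left]
      intro a ha ha'
      exact (mem_sdiff.1 (mem_inter.1 (hB1' ha')).2).2 (mem_inter.1 (hB1 ha)).2
    have hBN : B ⊆ N n := hB1.trans inter_subset_right
    have hβN : ∀ a ∈ B, β a ∈ N n := fun a ha => (mem_inter.1 (hB2 a ha)).2
    have hz : ∀ X, X ⊆ N n → wt M B' β' X = 0 := by
      intro X hX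
      rw [wt_inter M B' β' (hB1'.trans inter_subset_right)
        (fun a ha => (mem_inter.1 (hB2' a ha)).2)]
      have : X ∩ (N (n + 1) \ N n) = ∅ := by
        ext x; simp only [mem_inter, mem_sdiff, notMem_empty]
        exact ⟨fun hx => hx.2.2 (hX hx.1), False.elim⟩
      rw [this, wt_empty]
    have hfull : ∀ X, N n ⊆ X → wt M B β X = wt M B β (N n) := by
      intro X hX
      rw [wt_inter M B β hBN hβN X, Finset.inter_eq_right.2 hX]
    have hsub : ∀ x, x ∈ D ∩ (N (n + 1) \ N n) → x ∈ D ∩ N (n + 1) := fun x hx =>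
      mem_inter.2 ⟨(mem_inter.1 hx).1, (mem_sdiff.1 (mem_inter.1 hx).2).1⟩
    have hsub0 : ∀ x, x ∈ D ∩ N n → x ∈ D ∩ N (n + 1) := fun x hx =>
      mem_inter.2 ⟨(mem_inter.1 hx).1, hN n (mem_inter.1 hx).2⟩
    refine ⟨B ∪ B', fun a => if a ∈ B then β a else β' a, ?_, ?_, ?_, ?_, ?_⟩
    · exact union_subset (fun x hx => hsub0 x (hB1 hx)) (fun x hx => hsub x (hB1' hx))
    · intro a ha
      by_cases haB : a ∈ B
      · simp only [if_pos haB]; exact hsub0 _ (hB2 a haB)
      · simp only [if_neg haB]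
        exact hsub _ (hB2' a ((mem_union.1 ha).resolve_left haB))
    · rw [card_union_of_disjoint hdisj, card_split D (hN n), Nat.mul_add]
      omega
    · intro t ht Q hQ1 hQ2
      rw [wt_glue M hdisj, wt_glue M hdisj]
      by_cases htn : t ≤ n
      · have := hU t htn Q hQ1 hQ2
        rw [hz Q (hQ2.trans (hNm _ _ htn)), hz _ (hNm _ _ htn)]
        omega
      · obtain rfl : t = n + 1 := by omega
        have a1 := hU n le_rfl (Q ∩ N n) (subset_inter ((hS n).trans hQ1) (hMM n).1)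
          inter_subset_right
        have hQ3 : Q ∪ N n ⊆ N (n + 1) := union_subset hQ2 (hN n)
        have a2 := hU' (Q ∪ N n) (union_subset subset_union_right (hQ1.trans subset_union_left)) hQ3
        have a3 := wt_sdiff M B' β' hQ3
        have a4 := wt_mono M B' β' (subset_union_left (s₁ := Q) (s₂ := N n))
        have a5 := wt_inter M B β hBN hβN Q
        have a6 := hfull _ (hN n)
        have a7 := Nat.mul_le_mul_left M (h.submod Q (N n))
        rw [Nat.mul_add, Nat.mul_add] at a7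
        omega
    · intro t ht Q hQ1 hQ2 hlt
      rw [wt_glue M hdisj, wt_glue M hdisj]
      by_cases htn : t < n
      · have := hD t htn Q hQ1 hQ2 hlt
        rw [hz Q (hQ2.trans (hNm _ _ htn)), hz _ (hNm _ _ htn.le)]
        omega
      · obtain rfl : t = n := by omega
        have := hD' Q hQ1 hQ2 hlt
        rw [hfull Q hQ1, hz _ subset_rfl]
        omega

/-- the compression theorem -/
theorem compress (h : IsRk r) (hκ : 0 < κ) (hM : D.card < M)
    (hS : ∀ t, S t ⊆ S (t + 1)) (hN : ∀ t, N t ⊆ N (t + 1))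
    (hMM : ∀ t, MM r (fun Q => (D ∩ Q).card) κ E (S t) (N t)) (n : ℕ) :
    ∃ (B : Finset α) (β : α → α), B ⊆ D ∧ (∀ a ∈ B, β a ∈ D) ∧ κ * B.card ≤ D.card ∧
      ∀ t ≤ n, MM r (wt M B β) M E (S t) (N t) := by
  classical
  obtain ⟨B, β, hB1, hB2, hB3, hU, hD⟩ := chain_aux h hκ hM hS hN hMM n
  have hBN : B ⊆ N n := hB1.trans inter_subset_right
  have hβN : ∀ a ∈ B, β a ∈ N n := fun a ha => (mem_inter.1 (hB2 a ha)).2
  have hflat : ∀ t Q, N t ⊆ Q → Q ⊆ E → r Q ≤ r (N t) → Q ⊆ N t := by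
    intro t Q h1 h2 h3
    refine (hMM t).2.2.2 Q ((hMM t).1.trans h1) h2 ?_
    have a1 : (D ∩ N t).card ≤ (D ∩ Q).card := card_le_card (inter_subset_inter_left h1)
    have a2 := Nat.mul_le_mul_left κ h3
    simp only
    omega
  have hdn : ∀ j t, t + j = n → ∀ Q, N t ⊆ Q → Q ⊆ E → ¬ Q ⊆ N t →
      wt M B β Q + M * r (N t) < wt M B β (N t) + M * r Q := by
    intro j
    induction j with
    | zero =>
      intro t ht Q h1 h2 h3
      obtain rfl : t = n := by omega
      have a1 : r (N t) < r Q := by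
        by_contra hle; exact h3 (hflat t Q h1 h2 (not_lt.1 hle))
      rw [wt_inter M B β hBN hβN Q, Finset.inter_eq_right.2 h1]
      have := Nat.mul_lt_mul_of_pos_left a1 (show 0 < M by omega)
      omega
    | succ j ih =>
      intro t ht Q h1 h2 h3
      have hlay : ∀ Q', N t ⊆ Q' → Q' ⊆ N (t + 1) → ¬ Q' ⊆ N t →
          wt M B β Q' + M * r (N t) < wt M B β (N t) + M * r Q' := by
        intro Q' b1 b2 b3
        refine hD t (by omega) Q' b1 b2 ?_
        by_contra hle
        exact b3 (hflat t Q' b1 (b2.trans (hMM (t + 1)).2.1) (not_lt.1 hle))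
      by_cases hq : Q ⊆ N (t + 1)
      · exact hlay Q h1 hq h3
      · have a1 := ih (t + 1) (by omega) (Q ∪ N (t + 1)) subset_union_right
          (union_subset h2 (hMM (t + 1)).2.1) (fun hh => hq (subset_union_left.trans hh))
        have a2 : wt M B β (Q ∩ N (t + 1)) + M * r (N t) ≤
            wt M B β (N t) + M * r (Q ∩ N (t + 1)) := by
          by_cases hq' : Q ∩ N (t + 1) ⊆ N t
          · rw [Subset.antisymm hq' (subset_inter h1 (hN t))]
          · exact (hlay _ (subset_inter h1 (hN t)) inter_subset_right hq').le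
        have a3 := wt_modular M B β Q (N (t + 1))
        have a7 := Nat.mul_le_mul_left M (h.submod Q (N (t + 1)))
        rw [Nat.mul_add, Nat.mul_add] at a7
        omega
  refine ⟨B, β, hB1.trans inter_subset_left, fun a ha => (mem_inter.1 (hB2 a ha)).1,
    hB3.trans (card_le_card inter_subset_left), fun t ht => ?_⟩
  have key : ∀ Q, S t ⊆ Q → Q ⊆ E → ¬ Q ⊆ N t →
      wt M B β Q + M * r (N t) < wt M B β (N t) + M * r Q := by
    intro Q h1 h2 h3
    have a1 := hdn (n - t) t (by omega) (Q ∪ N t) subset_union_right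
      (union_subset h2 (hMM t).2.1) (fun hh => h3 (subset_union_left.trans hh))
    have a2 := hU t ht (Q ∩ N t) (subset_inter h1 (hMM t).1) inter_subset_right
    have a3 := wt_modular M B β Q (N t)
    have a7 := Nat.mul_le_mul_left M (h.submod Q (N t))
    rw [Nat.mul_add, Nat.mul_add] at a7
    omega
  refine ⟨(hMM t).1, (hMM t).2.1, fun Q h1 h2 => ?_, fun Q h1 h2 h3 => ?_⟩
  · by_cases hq : Q ⊆ N t
    · exact hU t ht Q h1 hq
    · exact (key Q h1 h2 hq).le
  · by_contra hq
    have := key Q h1 h2 hq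
    omega

end chain

/-- the code vector -/
def code (B : Finset α) (β : α → α) (e : α) : ℕ :=
  (if e ∈ B then 1 else 0) + 2 * (B.filter (fun a => β a = e)).card

/-- weights read off the code vector -/
def wty (M : ℕ) (y : α → ℕ) (X : Finset α) : ℕ := ∑ e ∈ X, ((M - 1) * (y e % 2) + y e / 2)

theorem wty_code (M : ℕ) (B : Finset α) (β : α → α) : wty M (code B β) = wt M B β := by
  funext X
  unfold wty wt
  have e1 : ∀ e, code B β e % 2 = if e ∈ B then 1 else 0 := by
    intro e; unfold code; split_ifs <;> omega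
  have e2 : ∀ e, code B β e / 2 = (B.filter (fun a => β a = e)).card := by
    intro e; unfold code; split_ifs <;> omega
  simp only [e1, e2]
  rw [Finset.sum_add_distrib, ← Finset.mul_sum]
  congr 1
  · congr 1
    rw [Finset.sum_ite_mem, Finset.inter_comm]; simp
  · rw [Finset.card_eq_sum_card_fiberwise (f := β) (s := B.filter (fun a => β a ∈ X)) (t := X)
      (fun a ha => (mem_filter.1 ha).2)]
    refine Finset.sum_congr rfl (fun e he => ?_)
    congr 1
    ext a; simp only [mem_filter]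
    exact ⟨fun hh => ⟨⟨hh.1, hh.2 ▸ he⟩, hh.2⟩, fun hh => ⟨hh.1.1, hh.2⟩⟩

theorem sum_code [Fintype α] (B : Finset α) (β : α → α) : ∑ e, code B β e = 3 * B.card := by
  unfold code
  rw [Finset.sum_add_distrib, ← Finset.mul_sum,
    ← Finset.card_eq_sum_card_fiberwise (f := β) (s := B) (t := univ) (fun a _ => mem_univ _)]
  simp
  ring

theorem code_eq_zero {B D : Finset α} {β : α → α} (hB : B ⊆ D) (hβ : ∀ a ∈ B, β a ∈ D) {e : α}
    (he : e ∉ D) : code B β e = 0 := by
  unfold code
  have e1 : B.filter (fun a => β a = e) = ∅ :=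
    Finset.filter_eq_empty_iff.2 (fun a ha (h : β a = e) => he (h ▸ hβ a ha))
  rw [if_neg (fun h => he (hB h)), e1]
  simp

/-- the decoder -/
noncomputable def dec (r : Finset α → ℕ) (M : ℕ) (E : Finset α) (y : α → ℕ) (S : Finset α) :
    Finset α := by
  classical
  exact if h : ∃ N, MM r (wty M y) M E S N then h.choose else ∅

theorem dec_eq {M : ℕ} {E S N : Finset α} {y : α → ℕ} (h : MM r (wty M y) M E S N) :
    dec r M E y S = N := by
  unfold dec
  have hex : ∃ N, MM r (wty M y) M E S N := ⟨N, h⟩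
  rw [dif_pos hex]
  exact hex.choose_spec.unique h

/-- final form: the chain is a function of a code of total size `≤ 3|D|/κ` supported in `D` -/
theorem compress_code [Fintype α] (h : IsRk r) {D E : Finset α} {κ M : ℕ} {S N : ℕ → Finset α}
    (hκ : 0 < κ) (hM : D.card < M)
    (hS : ∀ t, S t ⊆ S (t + 1)) (hN : ∀ t, N t ⊆ N (t + 1))
    (hMM : ∀ t, MM r (fun Q => (D ∩ Q).card) κ E (S t) (N t)) (n : ℕ) :
    ∃ y : α → ℕ, (∀ e, e ∉ D → y e = 0) ∧ κ * ∑ e, y e ≤ 3 * D.card ∧
      ∀ t ≤ n, dec r M E y (S t) = N t := by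
  obtain ⟨B, β, h1, h2, h3, h4⟩ := compress h hκ hM hS hN hMM n
  refine ⟨code B β, fun e he => code_eq_zero h1 h2 he, ?_, fun t ht => dec_eq ?_⟩
  · rw [sum_code]; nlinarith
  · rw [wty_code]; exact h4 t ht

end Crest.Agent.R305.A23
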