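import Crest.Agent.R305.Comp73
import Crest.Agent.R305.Union73

/-! B12 (alpha) from the compression of the chain. -/

set_option autoImplicit false

open Classical

namespace Crest.Agent.R305

namespace A39

variable {k : ℕ}

theorem Ex_add (p : ℝ) (f g : Finset (Fin k) → ℝ) :
    Ex p (fun A => f A + g A) = Ex p f + Ex p g := by
  simp only [Ex, mul_add, Finset.sum_add_distrib]

theorem Ex_mul (p c : ℝ) (f : Finset (Fin k) → ℝ) : Ex p (fun A => c * f A) = c * Ex p f := by
  simp only [Ex, Finset.mul_sum]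
  exact Finset.sum_congr rfl (fun A _ => by ring)

theorem Ex_sum {β : Type*} (p : ℝ) (s : Finset β) (f : β → Finset (Fin k) → ℝ) :
    Ex p (fun A => ∑ b ∈ s, f b A) = ∑ b ∈ s, Ex p (f b) := by
  simp only [Ex, Finset.mul_sum]
  exact Finset.sum_comm

theorem Ex_const (h0 : EXB k) (p : ℝ) (hp : 0 ≤ p) (hp1 : p ≤ 1) (c : ℝ) :
    Ex p (fun _ : Finset (Fin k) => c) = c := by
  simp only [Ex]
  rw [← Finset.sum_mul, (h0 p hp hp1).2.1, one_mul]

theorem Ex_bool (f : Finset (Fin k) → ℝ) :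
    Ex (1 / 2) f = ∑ s : Fin k → Bool, (∏ i, (if s i then (1/2 : ℝ) else 1 - 1/2)) *
      f (Finset.univ.filter (fun i => s i = true)) := by
  unfold Ex bern
  symm
  refine Finset.sum_bij' (fun s _ => Finset.univ.filter (fun i => s i = true))
    (fun A _ => fun i => decide (i ∈ A)) (fun _ _ => Finset.mem_univ _)
    (fun _ _ => Finset.mem_univ _) ?_ ?_ ?_
  · intro s _; funext i; simp
  · intro A _; ext i; simp
  · intro s _
    congr 1
    exact Finset.prod_congr rfl (fun i _ => by simp)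

theorem indepAdd {M : Matroid (Fin k)} (h1 : RANK M) (P : Set (Fin k)) (G : Finset (Fin k))
    (hG : ∀ e ∈ G, e ∈ M.E ∧ e ∉ M.closure (P ∪ ↑(G.erase e))) :
    rk M (P ∪ ↑G) = rk M P + G.card := by
  induction G using Finset.induction_on with
  | empty => simp
  | insert a G ha ih =>
    have h2 : rk M (P ∪ ↑G) = rk M P + G.card := by
      refine ih (fun e he => ⟨(hG e (Finset.mem_insert_of_mem he)).1, fun h => ?_⟩)
      refine (hG e (Finset.mem_insert_of_mem he)).2 (M.closure_subset_closure ?_ h)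
      apply Set.union_subset_union_right
      exact Finset.coe_subset.mpr (Finset.erase_subset_erase _ (Finset.subset_insert _ _))
    have h3 := hG a (Finset.mem_insert_self _ _)
    rw [Finset.erase_insert ha] at h3
    have h4 := h1.2.2.2.1 (P ∪ ↑G) a h3.1 h3.2
    rw [Finset.coe_insert, Set.union_insert, h4, h2, Finset.card_insert_of_notMem ha]
    ring

theorem thin {M : Matroid (Fin k)} (h0 : EXB k) (t g : ℝ) (ht : 0 ≤ t) (ht1 : t ≤ 1) (hg : 0 ≤ g)
    (A : Finset (Fin k)) (Q : Set (Fin k))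
    (hsp : ∀ X, X ⊆ A → ((A.filter (fun e => e ∈ M.closure (Q ∪ ↑X))).card : ℝ) ≤ g * X.card) :
    Ex t (fun T0 => ((A.filter (fun e => e ∈ T0 ∧
      e ∈ M.closure (Q ∪ ↑((A ∩ T0).erase e)))).card : ℝ)) ≤ g * t ^ 2 * A.card := by
  obtain ⟨-, -, hmono, hflip, hcard⟩ := h0 t ht ht1
  have e1 : (fun T0 : Finset (Fin k) => ((A.filter (fun e => e ∈ T0 ∧
      e ∈ M.closure (Q ∪ ↑((A ∩ T0).erase e)))).card : ℝ)) = fun T0 => ∑ e ∈ A,
      (if e ∈ T0 then (if e ∈ M.closure (Q ∪ ↑((A ∩ T0).erase e)) then (1 : ℝ) else 0) else 0) := by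
    funext T0
    rw [Finset.card_filter]
    push_cast
    refine Finset.sum_congr rfl (fun e _ => ?_)
    by_cases h : e ∈ T0 <;> simp [h]
  rw [e1, Ex_sum]
  have e2 : ∀ e ∈ A, Ex t (fun T0 => if e ∈ T0 then
      (if e ∈ M.closure (Q ∪ ↑((A ∩ T0).erase e)) then (1 : ℝ) else 0) else 0) ≤
      t * Ex t (fun T0 => if e ∈ M.closure (Q ∪ ↑(A ∩ T0)) then (1 : ℝ) else 0) := by
    intro e _
    rw [hflip e (fun T0 => if e ∈ M.closure (Q ∪ ↑((A ∩ T0).erase e)) then (1 : ℝ) else 0)]
    · refine mul_le_mul_of_nonneg_left (hmono _ _ (fun T0 => ?_)) ht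
      by_cases h : e ∈ M.closure (Q ∪ ↑((A ∩ T0).erase e))
      · have h' : e ∈ M.closure (Q ∪ ↑(A ∩ T0)) :=
          M.closure_subset_closure (Set.union_subset_union_right _
            (Finset.coe_subset.mpr (Finset.erase_subset _ _))) h
        rw [if_pos h, if_pos h']
      · rw [if_neg h]; split_ifs <;> norm_num
    · intro T0
      have : (A ∩ insert e T0).erase e = (A ∩ T0.erase e).erase e := by
        ext x
        simp only [Finset.mem_erase, Finset.mem_inter, Finset.mem_insert]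
        tauto
      rw [this]
  refine (Finset.sum_le_sum e2).trans ?_
  rw [← Finset.mul_sum, ← Ex_sum]
  have e3 : Ex t (fun T0 => ∑ e ∈ A, if e ∈ M.closure (Q ∪ ↑(A ∩ T0)) then (1 : ℝ) else 0) ≤
      Ex t (fun T0 => g * ((T0 ∩ A).card : ℝ)) := by
    refine hmono _ _ (fun T0 => ?_)
    have := hsp (A ∩ T0) Finset.inter_subset_left
    rw [Finset.card_filter] at this
    rw [Finset.inter_comm T0 A]
    refine le_trans (le_of_eq ?_) this
    rw [Nat.cast_sum]
    exact Finset.sum_congr rfl (fun e _ => by split_ifs <;> simp)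
  rw [Ex_mul, hcard] at e3
  calc _ ≤ t * (g * (t * A.card)) := mul_le_mul_of_nonneg_left e3 ht
    _ = _ := by ring

/-- hull of a layer -/
theorem hull {M : Matroid (Fin k)} (h1 : RANK M) (g : ℕ) (L : Finset (Fin k)) (P : Set (Fin k)) :
    ∃ Q : Set (Fin k), P ⊆ M.E → (∀ e ∈ L, e ∉ P) → (L : Set (Fin k)) ⊆ M.E →
      P ⊆ Q ∧ Q ⊆ M.E ∧ g * rk M Q ≤ g * rk M P + (L.filter (fun e => e ∈ Q)).card ∧
      ∀ X, X ⊆ L.filter (fun e => e ∉ Q) →
        ((L.filter (fun e => e ∉ Q)).filter (fun e => e ∈ M.closure (Q ∪ ↑X))).card ≤ g * X.card := by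
  by_cases hP : P ⊆ M.E
  swap
  · exact ⟨P, fun h => absurd h hP⟩
  obtain ⟨Q, hQ, hmax⟩ := Finset.exists_max_image
    ((Finset.univ : Finset (Set (Fin k))).filter (fun Q => P ⊆ Q ∧ Q ⊆ M.E))
    (fun Q => ((L.filter (fun e => e ∈ Q)).card : ℤ) - (g : ℤ) * rk M Q)
    ⟨P, by simp [hP]⟩
  simp only [Finset.mem_filter, Finset.mem_univ, true_and] at hQ hmax
  refine ⟨Q, fun _ hL hLE => ⟨hQ.1, hQ.2, ?_, ?_⟩⟩
  · have h2 := hmax P ⟨subset_rfl, hP⟩
    have h3 : (L.filter (fun e => e ∈ P)).card = 0 := by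
      rw [Finset.card_eq_zero, Finset.filter_eq_empty_iff]
      exact hL
    rw [h3] at h2
    zify
    push_cast at h2
    linarith
  · intro X hX
    have hQc : Q ⊆ M.closure (Q ∪ ↑X) :=
      (M.subset_closure Q hQ.2).trans (M.closure_subset_closure Set.subset_union_left)
    have h2 := hmax (M.closure (Q ∪ ↑X)) ⟨hQ.1.trans hQc, M.closure_subset_ground _⟩
    have h3 : rk M (M.closure (Q ∪ ↑X)) ≤ rk M Q + X.card := by
      rw [h1.2.2.1]; exact h1.2.2.2.2.2.1 Q X
    have h4 : (L.filter (fun e => e ∈ Q)).card +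
        ((L.filter (fun e => e ∉ Q)).filter (fun e => e ∈ M.closure (Q ∪ ↑X))).card ≤
        (L.filter (fun e => e ∈ M.closure (Q ∪ ↑X))).card := by
      rw [← Finset.card_union_of_disjoint]
      · apply Finset.card_le_card
        intro e he
        simp only [Finset.mem_union, Finset.mem_filter] at he ⊢
        rcases he with he | he
        · exact ⟨he.1, hQc he.2⟩
        · exact ⟨he.1.1, he.2⟩
      · rw [Finset.disjoint_left]
        intro e he he'
        simp only [Finset.mem_filter] at he he'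
        exact he'.1.2 he.2
    have h5 : (g : ℤ) * rk M (M.closure (Q ∪ ↑X)) ≤ g * (rk M Q + X.card) := by
      have : (rk M (M.closure (Q ∪ ↑X)) : ℤ) ≤ rk M Q + X.card := by exact_mod_cast h3
      exact mul_le_mul_of_nonneg_left this (Int.natCast_nonneg g)
    zify at h4 ⊢
    linarith

/-- deterministic nullity split -/
theorem null_le {M : Matroid (Fin k)} (h1 : RANK M) (L X T0 : Finset (Fin k)) (P Q : Set (Fin k))
    (hPQ : P ⊆ Q) (hLE : (L : Set (Fin k)) ⊆ M.E) (hXL : X ⊆ L) (hXT : X ⊆ T0) :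
    (X.card : ℝ) - ((rk M (P ∪ ↑X) : ℝ) - rk M P) ≤
      ((T0 ∩ L.filter (fun e => e ∈ Q)).card : ℝ) +
      (((L.filter (fun e => e ∉ Q)).filter (fun e => e ∈ T0 ∧
        e ∈ M.closure (Q ∪ ↑((L.filter (fun e => e ∉ Q) ∩ T0).erase e)))).card : ℝ) := by
  set A := L.filter (fun e => e ∉ Q) with hA
  set G := X.filter (fun e => e ∉ Q ∧ e ∉ M.closure (Q ∪ ↑((A ∩ T0).erase e))) with hG
  have hGA : G ⊆ A ∩ T0 := by
    intro e he
    simp only [hG, hA, Finset.mem_filter, Finset.mem_inter] at he ⊢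
    exact ⟨⟨hXL he.1, he.2.1⟩, hXT he.1⟩
  have h2 : rk M (P ∪ ↑G) = rk M P + G.card := by
    refine indepAdd h1 P G (fun e he => ⟨hLE (hXL (Finset.mem_filter.mp he).1), fun h => ?_⟩)
    refine (Finset.mem_filter.mp he).2.2 (M.closure_subset_closure ?_ h)
    exact Set.union_subset_union hPQ (Finset.coe_subset.mpr (Finset.erase_subset_erase _ hGA))
  have h3 : rk M (P ∪ ↑G) ≤ rk M (P ∪ ↑X) :=
    h1.1 _ _ (Set.union_subset_union_right _ (Finset.coe_subset.mpr (Finset.filter_subset _ _)))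
  have h4 : X.card ≤ (T0 ∩ L.filter (fun e => e ∈ Q)).card +
      (A.filter (fun e => e ∈ T0 ∧ e ∈ M.closure (Q ∪ ↑((A ∩ T0).erase e)))).card + G.card := by
    refine le_trans (Finset.card_le_card ?_) ((Finset.card_union_le _ _).trans
      (Nat.add_le_add_right (Finset.card_union_le _ _) _))
    intro e he
    simp only [Finset.mem_union, Finset.mem_inter, Finset.mem_filter, hG]
    by_cases hq : e ∈ Q
    · exact Or.inl (Or.inl ⟨hXT he, hXL he, hq⟩)
    · by_cases hc : e ∈ M.closure (Q ∪ ↑((A ∩ T0).erase e))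
      · exact Or.inl (Or.inr ⟨Finset.mem_filter.mpr ⟨hXL he, hq⟩, hXT he, hc⟩)
      · exact Or.inr ⟨he, hq, hc⟩
  have h5 : (rk M P : ℝ) + G.card ≤ rk M (P ∪ ↑X) := by exact_mod_cast h2 ▸ h3
  have h6 : (X.card : ℝ) ≤ (T0 ∩ L.filter (fun e => e ∈ Q)).card +
      (A.filter (fun e => e ∈ T0 ∧ e ∈ M.closure (Q ∪ ↑((A ∩ T0).erase e)))).card + G.card := by
    exact_mod_cast h4
  linarith

end A39

theorem alpha39 {k : ℕ} (M : Matroid (Fin k)) (h0 : EXB k) (h1 : RANK M) (h2 : EXPF M)
    (hc : COMPRESS73 M) : ALPHA M := by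
  intro U S n hU hSE hS
  obtain ⟨b, m, hb0, hm0, hb, hm, hdet⟩ := hc U S n hU hSE hS
  choose hl hhl using A39.hull h1 (4 * kap)
  set N : Finset (Fin k) → ℕ → Set (Fin k) := fun D t => Exp M (D ∩ U) (S t) with hN
  have hNE : ∀ D t, N D t ⊆ M.E := fun D t => (h2 (D ∩ U) (S t) (hSE t)).1.2.1
  have hSN : ∀ D t, S t ⊆ N D t := fun D t => (h2 (D ∩ U) (S t) (hSE t)).1.1
  have hNm : ∀ D t t', t ≤ t' → N D t ⊆ N D t' := fun D t t' h =>
    (h2 (D ∩ U) (S t) (hSE t)).2.2.2.1 (S t') (hS t t' h) (hSE t')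
  set L : Finset (Fin k) → ℕ → Finset (Fin k) :=
    fun D t => U.filter (fun y => y ∈ N D (t + 1) ∧ y ∉ N D t) with hL
  set Q : Finset (Fin k) → ℕ → Set (Fin k) := fun D t => hl (L D t) (N D t) with hQ
  have hLE : ∀ D t, (L D t : Set (Fin k)) ⊆ M.E := fun D t =>
    (Finset.coe_subset.mpr (Finset.filter_subset _ _)).trans hU
  have hQp := fun D t => hhl (L D t) (N D t) (hNE D t)
    (fun e he => (Finset.mem_filter.mp he).2.2) (hLE D t)
  set Z : Finset (Fin k) → ℕ → Finset (Fin k) := fun D t => (L D t).filter (fun e => e ∈ Q D t) with hZ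
  set A : Finset (Fin k) → ℕ → Finset (Fin k) := fun D t => (L D t).filter (fun e => e ∉ Q D t) with hA
  have hdisj : ∀ D t t', t ≠ t' → Disjoint (L D t) (L D t') := by
    intro D t t' h
    rw [Finset.disjoint_left]
    intro e he he'
    simp only [hL, Finset.mem_filter] at he he'
    rcases lt_or_gt_of_ne h with h | h
    · exact he'.2.2 (hNm D _ _ h he.2.1)
    · exact he.2.2 (hNm D _ _ h he'.2.1)
  have hZc : ∀ D, ((Finset.range n).biUnion (Z D)).card = ∑ t ∈ Finset.range n, (Z D t).card := by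
    intro D
    refine Finset.card_biUnion (fun t _ t' _ h => ?_)
    exact (hdisj D t t' h).mono (Finset.filter_subset _ _) (Finset.filter_subset _ _)
  have hAc : ∀ D, ∑ t ∈ Finset.range n, (A D t).card ≤ U.card := by
    intro D
    rw [← Finset.card_biUnion (fun t _ t' _ h =>
      (hdisj D t t' h).mono (Finset.filter_subset _ _) (Finset.filter_subset _ _))]
    refine Finset.card_le_card (Finset.biUnion_subset.mpr (fun t _ => ?_))
    exact (Finset.filter_subset _ _).trans (Finset.filter_subset _ _)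
  have hkap : 0 < kap := by unfold kap; positivity
  have hpoor1 : ∀ D t, 4 * ((Z D t).filter (fun i => i ∈ D)).card ≤ (Z D t).card := by
    intro D t
    obtain ⟨q1, q2, q3, -⟩ := hQp D t
    have q4 := (h2 (D ∩ U) (S t) (hSE t)).1.2.2 (Q D t) ((hSN D t).trans q1) q2
    unfold fval at q4
    have q5 : ((D ∩ U).filter (fun e => e ∈ N D t)).card + ((Z D t).filter (fun i => i ∈ D)).card ≤
        ((D ∩ U).filter (fun e => e ∈ Q D t)).card := by
      rw [← Finset.card_union_of_disjoint]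
      · apply Finset.card_le_card
        intro e he
        simp only [Finset.mem_union, Finset.mem_filter, Finset.mem_inter, hZ, hL] at he ⊢
        rcases he with he | he
        · exact ⟨he.1, q1 he.2⟩
        · exact ⟨⟨he.2, he.1.1.1⟩, he.1.2⟩
      · rw [Finset.disjoint_left]
        intro e he he'
        simp only [Finset.mem_filter, hZ, hL] at he he'
        exact he'.1.1.2.2 he.2
    have q3' : 4 * kap * rk M (Q D t) ≤ 4 * kap * rk M (N D t) + (Z D t).card := q3
    have q4' : (((D ∩ U).filter (fun e => e ∈ Q D t)).card : ℤ) - (kap : ℤ) * (rk M (Q D t) : ℤ) ≤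
        (((D ∩ U).filter (fun e => e ∈ N D t)).card : ℤ) - (kap : ℤ) * (rk M (N D t) : ℤ) := q4
    zify at q3' q5 ⊢
    linarith
  have hpoor : ∀ D, 4 * (((Finset.range n).biUnion (Z D)).filter (fun i => i ∈ D)).card ≤
      ((Finset.range n).biUnion (Z D)).card := by
    intro D
    rw [hZc, Finset.filter_biUnion]
    refine le_trans (Nat.mul_le_mul_left 4 Finset.card_biUnion_le) ?_
    rw [Finset.mul_sum]
    exact Finset.sum_le_sum (fun t _ => hpoor1 D t)
  have hk2 : (2 : ℝ) ≤ (kap : ℝ) := by unfold kap; norm_num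
  have hEZ : Ex (1 / 2) (fun D => (((Finset.range n).biUnion (Z D)).card : ℝ)) ≤
      18 * ((U.card / (kap : ℝ)) * (Real.log kap + 2)) := by
    rw [A39.Ex_bool]
    refine U73.exp_card_of_code U kap hk2
      (fun s => (Finset.range n).biUnion (Z (Finset.univ.filter (fun i => s i = true))))
      (fun s => b (Finset.univ.filter (fun i => s i = true)))
      (fun s => m (Finset.univ.filter (fun i => s i = true)))
      (fun s => hb0 _) (fun s => hm0 _) (fun s => by exact_mod_cast hb _)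
      (fun s => by exact_mod_cast hm _) ?_ ?_
    · intro s s' e1 e2
      have e3 := hdet _ _ e1 e2
      refine Finset.biUnion_congr rfl (fun t ht => ?_)
      have ht' := Finset.mem_range.mp ht
      have e4 : N (Finset.univ.filter (fun i => s i = true)) t =
          N (Finset.univ.filter (fun i => s' i = true)) t := e3 t ht'.le
      have e5 : N (Finset.univ.filter (fun i => s i = true)) (t + 1) =
          N (Finset.univ.filter (fun i => s' i = true)) (t + 1) := e3 (t + 1) ht'
      have e6 : L (Finset.univ.filter (fun i => s i = true)) t =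
          L (Finset.univ.filter (fun i => s' i = true)) t := by
        simp only [hL, e4, e5]
      simp only [hZ, hQ, e4, e6]
    · intro s
      have := hpoor (Finset.univ.filter (fun i => s i = true))
      simpa using this
  have htt0 : 0 ≤ tt := by unfold tt; positivity
  have htt1 : tt ≤ 1 := by unfold tt; exact pow_le_one₀ (by norm_num) (by norm_num)
  have hin : ∀ D, Ex tt (fun T0 => ∑ t ∈ Finset.range n,
      (((((T0 \ D) ∩ U).filter (fun y => y ∈ N D (t + 1) ∧ y ∉ N D t)).card : ℝ) -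
        ((rk M (N D t ∪ ↑(((T0 \ D) ∩ U).filter (fun y => y ∈ N D (t + 1) ∧ y ∉ N D t))) : ℝ) -
          rk M (N D t)))) ≤
      tt * (((Finset.range n).biUnion (Z D)).card : ℝ) + (4 * kap : ℕ) * tt ^ 2 * U.card := by
    intro D
    obtain ⟨-, -, hmono, -, hcard⟩ := h0 tt htt0 htt1
    rw [A39.Ex_sum]
    have step : ∀ t ∈ Finset.range n, Ex tt (fun T0 =>
        (((((T0 \ D) ∩ U).filter (fun y => y ∈ N D (t + 1) ∧ y ∉ N D t)).card : ℝ) -
        ((rk M (N D t ∪ ↑(((T0 \ D) ∩ U).filter (fun y => y ∈ N D (t + 1) ∧ y ∉ N D t))) : ℝ) -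
          rk M (N D t)))) ≤ tt * (Z D t).card + (4 * kap : ℕ) * tt ^ 2 * (A D t).card := by
      intro t _
      obtain ⟨q1, q2, q3, q4⟩ := hQp D t
      refine le_trans (hmono _ _ (fun T0 => A39.null_le h1 (L D t) _ T0 (N D t) (Q D t) q1 (hLE D t)
        ?_ ?_)) ?_
      · intro e he
        simp only [hL, Finset.mem_filter, Finset.mem_inter] at he ⊢
        exact ⟨he.1.2, he.2⟩
      · intro e he
        simp only [Finset.mem_filter, Finset.mem_inter, Finset.mem_sdiff] at he
        exact he.1.1.1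
      · rw [A39.Ex_add, hcard]
        refine add_le_add le_rfl ?_
        refine A39.thin h0 tt _ htt0 htt1 (Nat.cast_nonneg _) (A D t) (Q D t) (fun X hX => ?_)
        exact_mod_cast q4 X hX
    refine (Finset.sum_le_sum step).trans ?_
    rw [Finset.sum_add_distrib, ← Finset.mul_sum, ← Finset.mul_sum, hZc]
    have hA' : (∑ t ∈ Finset.range n, ((A D t).card : ℝ)) ≤ U.card := by exact_mod_cast hAc D
    push_cast
    have : (0 : ℝ) ≤ 4 * kap * tt ^ 2 := by positivity
    gcongr
  obtain ⟨-, -, hmono, -, -⟩ := h0 (1 / 2) (by norm_num) (by norm_num)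
  refine le_trans (hmono _ _ hin) ?_
  rw [A39.Ex_add, A39.Ex_mul, A39.Ex_const h0 _ (by norm_num) (by norm_num)]
  have hlog : Real.log kap ≤ 20 := by
    unfold kap
    push_cast
    rw [show (1048576 : ℝ) = 2 ^ 20 by norm_num, Real.log_pow]
    have := Real.log_two_lt_d9
    push_cast
    linarith
  have hU0 : (0 : ℝ) ≤ U.card := Nat.cast_nonneg _
  have c1 : 18 * ((U.card / (kap : ℝ)) * (Real.log kap + 2)) ≤ 1 / 32 * U.card := by
    have : (U.card / (kap : ℝ)) * (Real.log kap + 2) ≤ (U.card / (kap : ℝ)) * 22 := by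
      gcongr; linarith
    have e : (kap : ℝ) = 1048576 := by unfold kap; norm_num
    rw [e] at this ⊢
    linarith
  have c2 : ((4 * kap : ℕ) : ℝ) * tt ≤ 1 / 32 := by
    unfold kap tt; norm_num
  have c3 : tt * Ex (1 / 2) (fun D => (((Finset.range n).biUnion (Z D)).card : ℝ)) ≤
      tt * (1 / 32 * U.card) := mul_le_mul_of_nonneg_left (hEZ.trans c1) htt0
  have c4 : ((4 * kap : ℕ) : ℝ) * tt ^ 2 * U.card ≤ 1 / 32 * (tt * U.card) := by
    have : ((4 * kap : ℕ) : ℝ) * tt ^ 2 * U.card = ((4 * kap : ℕ) : ℝ) * tt * (tt * U.card) := by ring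
    rw [this]
    exact mul_le_mul_of_nonneg_right c2 (mul_nonneg htt0 hU0)
  linarith

end Crest.Agent.R305
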