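import Crest.Agent.R305.RGDefs55

/-! Row 305, block B13 (ALPHAS) from ALPHA (helper61). -/

set_option autoImplicit false

open Classical

namespace Crest.Agent.R305

variable {k : ℕ}

theorem a61_Ex_comm (p q : ℝ) (f : Finset (Fin k) → Finset (Fin k) → ℝ) :
    Ex p (fun A => Ex q (fun B => f A B)) = Ex q (fun B => Ex p (fun A => f A B)) := by
  unfold Ex
  simp only [Finset.mul_sum]
  rw [Finset.sum_comm]
  refine Finset.sum_congr rfl fun B _ => Finset.sum_congr rfl fun A _ => ?_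
  ring

theorem a61_Ex_const (h0 : EXB k) (p : ℝ) (hp : 0 ≤ p) (hp1 : p ≤ 1) (c : ℝ) :
    Ex p (fun _ : Finset (Fin k) => c) = c := by
  unfold Ex
  rw [← Finset.sum_mul, (h0 p hp hp1).2.1, one_mul]

theorem a61_St_congr (M : Matroid (Fin k)) (L : ℕ) (U : ℕ → Finset (Fin k))
    (D C D' C' : Finset (Fin k)) (i : ℕ)
    (hD : ∀ i' < i, D ∩ U (L - i') = D' ∩ U (L - i'))
    (hC : ∀ i' < i, C ∩ U (L - i') = C' ∩ U (L - i')) :
    St M L U D C i = St M L U D' C' i := by
  induction i with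
  | zero => rfl
  | succ i ih =>
    have := ih (fun i' h => hD i' (by omega)) (fun i' h => hC i' (by omega))
    simp only [St]
    rw [this, hD i (by omega), hC i (by omega)]

theorem a61_tt_nonneg : (0 : ℝ) ≤ tt := by unfold tt; positivity

theorem a61_tt_le_one : tt ≤ (1 : ℝ) := by
  unfold tt; exact pow_le_one₀ (by norm_num) (by norm_num)

/-- the summand of `ALPHA` -/
noncomputable def a61F (M : Matroid (Fin k)) (U : Finset (Fin k)) (S : ℕ → Set (Fin k)) (n : ℕ)
    (D T0 : Finset (Fin k)) : ℝ :=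
  ∑ t ∈ Finset.range n,
      (((((T0 \ D) ∩ U).filter (fun y => y ∈ Exp M (D ∩ U) (S (t + 1)) ∧
          y ∉ Exp M (D ∩ U) (S t))).card : ℝ) -
        ((rk M (Exp M (D ∩ U) (S t) ∪ ↑(((T0 \ D) ∩ U).filter
          (fun y => y ∈ Exp M (D ∩ U) (S (t + 1)) ∧ y ∉ Exp M (D ∩ U) (S t)))) : ℝ) -
          rk M (Exp M (D ∩ U) (S t))))

theorem a61_null_eq (M : Matroid (Fin k)) (L : ℕ) (U : ℕ → Finset (Fin k)) (j : ℕ)
    (hjL : j ≤ L) (D T0 : Finset (Fin k)) :
    ∑ b ∈ times L j, null M L U D T0 j b =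
      a61F M (U j) (fun t => St M L U D (Cg D T0) (L - j) (t + (3 * j + 1))) (3 * (L - j) + 2)
        D T0 := by
  unfold a61F times
  have hI : Finset.Icc (3 * j + 2) (3 * L + 3) =
      (Finset.range (3 * (L - j) + 2)).map (addRightEmbedding (3 * j + 2)) := by
    ext b
    simp only [Finset.mem_Icc, Finset.mem_map, Finset.mem_range, addRightEmbedding_apply]
    constructor
    · intro h; exact ⟨b - (3 * j + 2), by omega, by omega⟩
    · rintro ⟨a, ha, rfl⟩; omega
  rw [hI, Finset.sum_map]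
  refine Finset.sum_congr rfl fun t _ => ?_
  simp only [addRightEmbedding_apply]
  have e1 : Nm M L U D T0 j (t + (3 * j + 2)) =
      Exp M (D ∩ U j) (St M L U D (Cg D T0) (L - j) (t + 1 + (3 * j + 1))) := by
    unfold Nm Nstep
    rw [if_pos (by omega), show t + (3 * j + 2) = t + 1 + (3 * j + 1) by omega]
  have e2 : Nm M L U D T0 j (t + (3 * j + 2) - 1) =
      Exp M (D ∩ U j) (St M L U D (Cg D T0) (L - j) (t + (3 * j + 1))) := by
    unfold Nm Nstep
    rw [if_pos (by omega), show t + (3 * j + 2) - 1 = t + (3 * j + 1) by omega]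
  unfold null Tband
  rw [e1, e2]

theorem a61F_congr (M : Matroid (Fin k)) (U : Finset (Fin k)) (S : ℕ → Set (Fin k)) (n : ℕ)
    (D T0 D' T0' : Finset (Fin k)) (hD : D ∩ U = D' ∩ U) (hT : (T0 \ D) ∩ U = (T0' \ D') ∩ U) :
    a61F M U S n D T0 = a61F M U S n D' T0' := by
  unfold a61F
  rw [hD, hT]

theorem alphas61 (M : Matroid (Fin k)) (h0 : EXB k) (h18 : STOP k) (h3 : CHAIN M)
    (h12 : ALPHA M) : ALPHAS M := by
  intro L U j hP hj1 hjL
  have hh : (0 : ℝ) ≤ 1 / 2 := by norm_num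
  have hh1 : (1 / 2 : ℝ) ≤ 1 := by norm_num
  have mono : ∀ p : ℝ, 0 ≤ p → p ≤ 1 → ∀ f g : Finset (Fin k) → ℝ, (∀ A, f A ≤ g A) →
      Ex p f ≤ Ex p g := fun p hp hp1 => (h0 p hp hp1).2.2.1
  set G : Finset (Fin k) → Finset (Fin k) → ℕ → Set (Fin k) :=
    fun D T0 t => St M L U D (Cg D T0) (L - j) (t + (3 * j + 1)) with hG
  set n := 3 * (L - j) + 2 with hn
  have hrew : (fun D => Ex tt (fun T0 => ∑ b ∈ times L j, null M L U D T0 j b)) =
      fun D => Ex tt (fun T0 => a61F M (U j) (G D T0) n D T0) := by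
    funext D; congr 1; funext T0; exact a61_null_eq M L U j hjL D T0
  rw [hrew]
  -- resample both label vectors on `U j`
  rw [h18 (1 / 2) (fun _ => U j) _ hh hh1 (fun _ _ _ => rfl)]
  have step : ∀ D D' : Finset (Fin k),
      Ex tt (fun T0 => a61F M (U j) (G ((D \ U j) ∪ (D' ∩ U j)) T0) n ((D \ U j) ∪ (D' ∩ U j)) T0) =
      Ex tt (fun T0 => Ex tt (fun T0' => a61F M (U j) (G D T0) n D' T0')) := by
    intro D D'
    rw [h18 tt (fun _ => U j) _ a61_tt_nonneg a61_tt_le_one (fun _ _ _ => rfl)]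
    congr 1; funext T0; congr 1; funext T0'
    have hdisj : ∀ i' < L - j, ∀ x, x ∈ U (L - i') → x ∉ U j := by
      intro i' hi' x hx hx'
      exact Finset.disjoint_left.1 (hP.2 (L - i') j (by omega)) hx hx'
    have hGe : G ((D \ U j) ∪ (D' ∩ U j)) ((T0 \ U j) ∪ (T0' ∩ U j)) = G D T0 := by
      funext t
      simp only [hG]
      rw [a61_St_congr M L U ((D \ U j) ∪ (D' ∩ U j))
        (Cg ((D \ U j) ∪ (D' ∩ U j)) ((T0 \ U j) ∪ (T0' ∩ U j))) D (Cg D T0) (L - j)]
      · intro i' hi'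
        ext x
        have := hdisj i' hi' x
        simp only [Finset.mem_inter, Finset.mem_union, Finset.mem_sdiff]
        tauto
      · intro i' hi'
        ext x
        have := hdisj i' hi' x
        simp only [Cg, Finset.mem_inter, Finset.mem_union, Finset.mem_sdiff, Finset.mem_compl]
        tauto
    rw [hGe]
    apply a61F_congr
    · ext x
      simp only [Finset.mem_inter, Finset.mem_union, Finset.mem_sdiff]
      tauto
    · ext x
      simp only [Finset.mem_inter, Finset.mem_union, Finset.mem_sdiff]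
      tauto
  simp only [step]
  refine le_trans (mono _ hh hh1 _ (fun _ => tt / 16 * ((U j).card : ℝ)) fun D => ?_)
    (le_of_eq (a61_Ex_const h0 _ hh hh1 _))
  rw [a61_Ex_comm]
  refine le_trans (mono _ a61_tt_nonneg a61_tt_le_one _ (fun _ => tt / 16 * ((U j).card : ℝ))
    fun T0 => ?_) (le_of_eq (a61_Ex_const h0 _ a61_tt_nonneg a61_tt_le_one _))
  have hc := h3 L U D (Cg D T0)
  refine h12 (U j) (G D T0) n (hP.1 j) (fun t => ?_) (fun t t' htt => ?_)
  · simp only [hG]
    rw [← hc.1]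
    exact M.closure_subset_ground _
  · exact hc.2.1 _ _ _ (by omega)

end Crest.Agent.R305
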