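import Crest.Agent.R305.Comp73
import Crest.Agent.R305.Union73
import Crest.Agent.R305.Alphas61

/-! Row 305, block B12 (ALPHA) from the compression lemma (helper61). -/

set_option autoImplicit false

open Classical

namespace Crest.Agent.R305

variable {k : ℕ}

theorem a61_Ex_sum {ι : Type} (p : ℝ) (s : Finset ι) (f : ι → Finset (Fin k) → ℝ) :
    Ex p (fun A => ∑ i ∈ s, f i A) = ∑ i ∈ s, Ex p (f i) := by
  unfold Ex
  simp only [Finset.mul_sum]
  rw [Finset.sum_comm]

theorem a61_Ex_add (p : ℝ) (f g : Finset (Fin k) → ℝ) :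
    Ex p (fun A => f A + g A) = Ex p f + Ex p g := by
  unfold Ex
  simp only [mul_add, Finset.sum_add_distrib]

theorem a61_Ex_mul (p c : ℝ) (f : Finset (Fin k) → ℝ) :
    Ex p (fun A => c * f A) = c * Ex p f := by
  unfold Ex
  rw [Finset.mul_sum]
  refine Finset.sum_congr rfl fun A _ => ?_
  ring

theorem a61_thin (h0 : EXB k) (t gam : ℝ) (ht : 0 ≤ t) (ht1 : t ≤ 1) (hg : 0 ≤ gam)
    (A : Finset (Fin k)) (sp : Finset (Fin k) → Fin k → Prop)
    (hmono : ∀ X Y e, X ⊆ Y → sp X e → sp Y e)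
    (hsp : ∀ X, X ⊆ A → ((A.filter (sp X)).card : ℝ) ≤ gam * X.card) :
    Ex t (fun T0 => ((A.filter (fun e => e ∈ T0 ∧ sp ((T0 ∩ A).erase e) e)).card : ℝ)) ≤
      gam * t ^ 2 * A.card := by
  obtain ⟨-, -, mono, flip, hcard⟩ := h0 t ht ht1
  have e1 : (fun T0 : Finset (Fin k) =>
      ((A.filter (fun e => e ∈ T0 ∧ sp ((T0 ∩ A).erase e) e)).card : ℝ)) =
      fun T0 => ∑ e ∈ A, (if e ∈ T0 then (if sp ((T0 ∩ A).erase e) e then (1 : ℝ) else 0)
        else 0) := by
    funext T0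
    rw [Finset.card_filter]
    push_cast
    refine Finset.sum_congr rfl fun e _ => ?_
    by_cases h1 : e ∈ T0 <;> by_cases h2 : sp ((T0 ∩ A).erase e) e <;> simp [h1, h2]
  rw [e1, a61_Ex_sum]
  have e2 : ∀ e ∈ A, Ex t (fun T0 => if e ∈ T0 then
      (if sp ((T0 ∩ A).erase e) e then (1 : ℝ) else 0) else 0) ≤
      t * Ex t (fun T0 => if sp (T0 ∩ A) e then (1 : ℝ) else 0) := by
    intro e _
    rw [flip e (fun T0 => if sp ((T0 ∩ A).erase e) e then (1 : ℝ) else 0)]
    · refine mul_le_mul_of_nonneg_left (mono _ _ fun T0 => ?_) ht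
      by_cases h2 : sp ((T0 ∩ A).erase e) e
      · rw [if_pos h2, if_pos (hmono _ _ _ (Finset.erase_subset _ _) h2)]
      · rw [if_neg h2]; split_ifs <;> norm_num
    · intro T0
      have : (insert e T0 ∩ A).erase e = (T0.erase e ∩ A).erase e := by
        ext x
        simp only [Finset.mem_erase, Finset.mem_inter, Finset.mem_insert]
        tauto
      simp only [this]
  refine le_trans (Finset.sum_le_sum e2) ?_
  rw [← Finset.mul_sum, ← a61_Ex_sum]
  have e3 : Ex t (fun T0 => ∑ e ∈ A, (if sp (T0 ∩ A) e then (1 : ℝ) else 0)) ≤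
      Ex t (fun T0 => gam * ((T0 ∩ A).card : ℝ)) := by
    refine mono _ _ fun T0 => ?_
    have := hsp (T0 ∩ A) Finset.inter_subset_right
    rw [Finset.card_filter] at this
    push_cast at this
    exact this
  rw [a61_Ex_mul, hcard] at e3
  calc t * Ex t (fun T0 => ∑ e ∈ A, (if sp (T0 ∩ A) e then (1 : ℝ) else 0))
      ≤ t * (gam * (t * A.card)) := mul_le_mul_of_nonneg_left e3 ht
    _ = gam * t ^ 2 * A.card := by ring

theorem a61_bridge (f : Finset (Fin k) → ℝ) :
    Ex (1 / 2) f = ∑ s : Fin k → Bool, (∏ i, (if s i then (1 / 2 : ℝ) else 1 - 1 / 2)) *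
      f (Finset.univ.filter (fun i => s i = true)) := by
  unfold Ex
  symm
  refine Fintype.sum_bijective (fun s : Fin k → Bool => Finset.univ.filter (fun i => s i = true))
    ?_ _ _ ?_
  · constructor
    · intro s s' h
      funext i
      have := congrArg (fun X => i ∈ X) h
      simp only [Finset.mem_filter, Finset.mem_univ, true_and, eq_iff_iff] at this
      cases hs : s i <;> cases hs' : s' i <;> simp_all
    · intro A
      exact ⟨fun i => decide (i ∈ A), by ext i; simp⟩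
  · intro s
    congr 1
    unfold bern
    refine Finset.prod_congr rfl fun i _ => ?_
    simp

/-- a maximiser of `|Z| - 4 kap r(P ∪ Z)` inside `L` -/
noncomputable def a61Z (M : Matroid (Fin k)) (P : Set (Fin k)) (L : Finset (Fin k)) :
    Finset (Fin k) :=
  (Finset.exists_max_image L.powerset
    (fun Z => ((Z.card : ℤ) - 4 * (kap : ℤ) * (rk M (P ∪ ↑Z) : ℤ)))
    ⟨∅, Finset.empty_mem_powerset L⟩).choose

theorem a61Z_spec (M : Matroid (Fin k)) (P : Set (Fin k)) (L : Finset (Fin k)) :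
    a61Z M P L ⊆ L ∧ ∀ Z, Z ⊆ L → ((Z.card : ℤ) - 4 * (kap : ℤ) * (rk M (P ∪ ↑Z) : ℤ)) ≤
      (((a61Z M P L).card : ℤ) - 4 * (kap : ℤ) * (rk M (P ∪ ↑(a61Z M P L)) : ℤ)) := by
  have h := (Finset.exists_max_image L.powerset
    (fun Z => ((Z.card : ℤ) - 4 * (kap : ℤ) * (rk M (P ∪ ↑Z) : ℤ)))
    ⟨∅, Finset.empty_mem_powerset L⟩).choose_spec
  exact ⟨Finset.mem_powerset.1 h.1, fun Z hZ => h.2 Z (Finset.mem_powerset.2 hZ)⟩

theorem a61_sparse (M : Matroid (Fin k)) (h1 : RANK M) (P : Set (Fin k)) (L : Finset (Fin k))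
    (hP : P ⊆ M.E) (hL : (L : Set (Fin k)) ⊆ M.E) (X : Finset (Fin k)) :
    (((L \ a61Z M P L).filter
      (fun e => e ∈ M.closure (P ∪ ↑(a61Z M P L) ∪ ↑X))).card : ℝ) ≤
      (4 * (kap : ℝ)) * X.card := by
  obtain ⟨hZ, hmax⟩ := a61Z_spec M P L
  set Z := a61Z M P L with hZdef
  set X' := (L \ Z).filter (fun e => e ∈ M.closure (P ∪ ↑Z ∪ ↑X)) with hX'
  have hsub : Z ∪ X' ⊆ L := Finset.union_subset hZ
    (fun x hx => (Finset.mem_sdiff.1 (Finset.mem_filter.1 hx).1).1)
  have hdis : Disjoint Z X' := by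
    rw [Finset.disjoint_left]
    intro x hx hx'
    exact (Finset.mem_sdiff.1 (Finset.mem_filter.1 hx').1).2 hx
  have h2 := hmax _ hsub
  rw [Finset.card_union_of_disjoint hdis] at h2
  have h3 : rk M (P ∪ ↑(Z ∪ X')) ≤ rk M (P ∪ ↑Z) + X.card := by
    refine le_trans (h1.1 _ (M.closure (P ∪ ↑Z ∪ ↑X)) ?_) ?_
    · intro x hx
      rcases hx with hx | hx
      · exact M.mem_closure_of_mem' (Or.inl (Or.inl hx)) (hP hx)
      · rcases Finset.mem_union.1 hx with hx | hx
        · exact M.mem_closure_of_mem' (Or.inl (Or.inr hx)) (hL (hZ hx))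
        · exact (Finset.mem_filter.1 hx).2
    · rw [h1.2.2.1]; exact h1.2.2.2.2.2.1 _ _
  have h4 : (X'.card : ℤ) ≤ 4 * (kap : ℤ) * X.card := by
    have h3' : (rk M (P ∪ ↑(Z ∪ X')) : ℤ) ≤ rk M (P ∪ ↑Z) + X.card := by exact_mod_cast h3
    have hk : (0 : ℤ) ≤ 4 * (kap : ℤ) := by positivity
    have := mul_le_mul_of_nonneg_left h3' hk
    push_cast at h2
    nlinarith
  exact_mod_cast h4

theorem a61_poor (M : Matroid (Fin k)) (D U : Finset (Fin k)) (S P : Set (Fin k))
    (L : Finset (Fin k)) (hmax : IsMax M (D ∩ U) S P) (hU : (U : Set (Fin k)) ⊆ M.E)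
    (hL : ∀ x ∈ L, x ∈ U ∧ x ∉ P) :
    4 * ((a61Z M P L).filter (fun i => i ∈ D)).card ≤ (a61Z M P L).card := by
  obtain ⟨hZ, hm⟩ := a61Z_spec M P L
  set Z := a61Z M P L with hZdef
  have h2 := hm ∅ (Finset.empty_subset _)
  simp only [Finset.card_empty, Finset.coe_empty, Set.union_empty] at h2
  have h3 := hmax.2.2 (P ∪ ↑Z) (fun x hx => Or.inl (hmax.1 hx))
    (Set.union_subset hmax.2.1 (fun x hx => hU (hL x (hZ hx)).1))
  unfold fval at h3
  have h4 : ((D ∩ U).filter (fun e => e ∈ P ∪ (Z : Set (Fin k)))).card =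
      ((D ∩ U).filter (fun e => e ∈ P)).card + (Z.filter (fun i => i ∈ D)).card := by
    rw [← Finset.card_union_of_disjoint]
    · congr 1
      ext x
      have := fun hx => hL x (hZ hx)
      simp only [Finset.mem_filter, Finset.mem_inter, Finset.mem_union, Set.mem_union,
        Finset.mem_coe]
      tauto
    · rw [Finset.disjoint_left]
      intro x hx hx'
      exact (hL x (hZ (Finset.mem_filter.1 hx').1)).2 (Finset.mem_filter.1 hx).2
  have h5 : (((D ∩ U).filter (fun e => e ∈ P ∪ (Z : Set (Fin k)))).card : ℤ) =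
      ((D ∩ U).filter (fun e => e ∈ P)).card + (Z.filter (fun i => i ∈ D)).card := by
    exact_mod_cast h4
  have h6 : (4 : ℤ) * ((Z.filter (fun i => i ∈ D)).card : ℤ) ≤ Z.card := by
    push_cast at h2
    have h3' : (((D ∩ U).filter (fun e => e ∈ P ∪ (Z : Set (Fin k)))).card : ℤ) -
        (kap : ℤ) * (rk M (P ∪ ↑Z) : ℤ) ≤
        (((D ∩ U).filter (fun e => e ∈ P)).card : ℤ) - (kap : ℤ) * (rk M P : ℤ) := by
      convert h3
    rw [h5] at h3'
    nlinarith
  exact_mod_cast h6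

theorem a61_indep (M : Matroid (Fin k)) (h1 : RANK M) (P : Set (Fin k)) (G : Finset (Fin k))
    (hG : ∀ e ∈ G, e ∈ M.E ∧ e ∉ M.closure (P ∪ ↑(G.erase e))) :
    rk M (P ∪ ↑G) = rk M P + G.card := by
  have key : ∀ G' : Finset (Fin k), G' ⊆ G → rk M (P ∪ ↑G') = rk M P + G'.card := by
    intro G'
    induction G' using Finset.induction_on with
    | empty => intro _; simp
    | insert a s ha ih =>
      intro hs
      have hs' : s ⊆ G := fun x hx => hs (Finset.mem_insert_of_mem hx)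
      have haG := hG a (hs (Finset.mem_insert_self _ _))
      have hna : a ∉ M.closure (P ∪ ↑s) := by
        intro h
        refine haG.2 (M.closure_subset_closure ?_ h)
        refine Set.union_subset_union_right _ fun x hx => ?_
        exact Finset.mem_erase.2 ⟨fun hxa => ha (hxa ▸ hx), hs' hx⟩
      rw [Finset.coe_insert, Set.union_insert, h1.2.2.2.1 _ _ haG.1 hna, ih hs',
        Finset.card_insert_of_notMem ha]
      omega
  exact key G (Finset.Subset.refl _)

theorem a61_null_le (M : Matroid (Fin k)) (h1 : RANK M) (P : Set (Fin k))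
    (L Z T T0 : Finset (Fin k)) (hL : (L : Set (Fin k)) ⊆ M.E) (hT : T ⊆ L) (hT0 : T ⊆ T0) :
    (T.card : ℝ) - ((rk M (P ∪ ↑T) : ℝ) - rk M P) ≤ ((T0 ∩ Z).card : ℝ) +
      (((L \ Z).filter (fun e => e ∈ T0 ∧
        e ∈ M.closure (P ∪ ↑Z ∪ ↑((T0 ∩ (L \ Z)).erase e)))).card : ℝ) := by
  set G := (T \ Z).filter (fun e => e ∉ M.closure (P ∪ ↑Z ∪ ↑((T0 ∩ (L \ Z)).erase e))) with hG
  have hGT : G ⊆ T := fun x hx => (Finset.mem_sdiff.1 (Finset.mem_filter.1 hx).1).1
  have h2 : rk M (P ∪ ↑G) = rk M P + G.card := by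
    refine a61_indep M h1 P G fun e he => ⟨hL (hT (hGT he)), fun h => ?_⟩
    refine (Finset.mem_filter.1 he).2 (M.closure_subset_closure ?_ h)
    rintro x (hx | hx)
    · exact Or.inl (Or.inl hx)
    · have hx' := Finset.mem_erase.1 hx
      have hx2 := Finset.mem_sdiff.1 (Finset.mem_filter.1 hx'.2).1
      exact Or.inr (Finset.mem_erase.2 ⟨hx'.1, Finset.mem_inter.2
        ⟨hT0 hx2.1, Finset.mem_sdiff.2 ⟨hT hx2.1, hx2.2⟩⟩⟩)
  have h3 : rk M (P ∪ ↑G) ≤ rk M (P ∪ ↑T) :=
    h1.1 _ _ (Set.union_subset_union_right _ (fun x hx => hGT hx))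
  have h4 : T.card ≤ G.card + ((T0 ∩ Z).card + ((L \ Z).filter (fun e => e ∈ T0 ∧
        e ∈ M.closure (P ∪ ↑Z ∪ ↑((T0 ∩ (L \ Z)).erase e)))).card) := by
    refine le_trans (Finset.card_le_card (t := G ∪ ((T0 ∩ Z) ∪ ((L \ Z).filter (fun e => e ∈ T0 ∧
        e ∈ M.closure (P ∪ ↑Z ∪ ↑((T0 ∩ (L \ Z)).erase e)))))) ?_)
      (le_trans (Finset.card_union_le _ _) (Nat.add_le_add_left (Finset.card_union_le _ _) _))
    intro x hx
    have a1 := hT hx
    have a2 := hT0 hx
    simp only [hG, Finset.mem_union, Finset.mem_filter, Finset.mem_sdiff, Finset.mem_inter]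
    tauto
  have h5 : (T.card : ℝ) ≤ G.card + (((T0 ∩ Z).card : ℝ) + (((L \ Z).filter (fun e => e ∈ T0 ∧
        e ∈ M.closure (P ∪ ↑Z ∪ ↑((T0 ∩ (L \ Z)).erase e)))).card : ℝ)) := by exact_mod_cast h4
  have h6 : (rk M P : ℝ) + G.card ≤ rk M (P ∪ ↑T) := by rw [h2] at h3; exact_mod_cast h3
  linarith

theorem alpha61 (M : Matroid (Fin k)) (h0 : EXB k) (h1 : RANK M) (h2 : EXPF M)
    (hc : COMPRESS73 M) : ALPHA M := by
  intro U S n hU hS hmono
  obtain ⟨b, m, hb0, hm0, hb, hm, hdet⟩ := hc U S n hU hS hmono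
  have hh : (0 : ℝ) ≤ 1 / 2 := by norm_num
  have hh1 : (1 / 2 : ℝ) ≤ 1 := by norm_num
  set N : Finset (Fin k) → ℕ → Set (Fin k) := fun D t => Exp M (D ∩ U) (S t) with hN
  set Ly : Finset (Fin k) → ℕ → Finset (Fin k) :=
    fun D t => U.filter (fun y => y ∈ N D (t + 1) ∧ y ∉ N D t) with hLy
  set Z : Finset (Fin k) → ℕ → Finset (Fin k) := fun D t => a61Z M (N D t) (Ly D t) with hZ
  set Y : Finset (Fin k) → Finset (Fin k) := fun D => (Finset.range n).biUnion (Z D) with hY
  have hNmono : ∀ D t t', t ≤ t' → N D t ⊆ N D t' := fun D t t' h =>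
    (h2 (D ∩ U) (S t) (hS t)).2.2.2.1 _ (hmono _ _ h) (hS t')
  have hNE : ∀ D t, N D t ⊆ M.E := fun D t => (h2 (D ∩ U) (S t) (hS t)).1.2.1
  have hLU : ∀ D t, Ly D t ⊆ U := fun D t => Finset.filter_subset _ _
  have hLE : ∀ D t, (Ly D t : Set (Fin k)) ⊆ M.E := fun D t x hx => hU (hLU D t hx)
  have hZL : ∀ D t, Z D t ⊆ Ly D t := fun D t => (a61Z_spec M _ _).1
  have hLdis : ∀ D t t', t ≠ t' → Disjoint (Ly D t) (Ly D t') := by
    intro D t t' htt
    rw [Finset.disjoint_left]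
    intro x hx hx'
    have a := (Finset.mem_filter.1 hx).2
    have a' := (Finset.mem_filter.1 hx').2
    rcases lt_or_gt_of_ne htt with h | h
    · exact a'.2 (hNmono D _ _ (by omega) a.1)
    · exact a.2 (hNmono D _ _ (by omega) a'.1)
  have hYcard : ∀ D, (Y D).card = ∑ t ∈ Finset.range n, (Z D t).card := by
    intro D
    refine Finset.card_biUnion fun t _ t' _ htt => ?_
    exact (hLdis D t t' htt).mono (hZL D t) (hZL D t')
  have hLsum : ∀ D, ∑ t ∈ Finset.range n, (Ly D t).card ≤ U.card := by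
    intro D
    rw [← Finset.card_biUnion (fun t _ t' _ htt => hLdis D t t' htt)]
    exact Finset.card_le_card (Finset.biUnion_subset.2 fun t _ => hLU D t)
  have hpoor : ∀ D, 4 * ((Y D).filter (fun i => i ∈ D)).card ≤ (Y D).card := by
    intro D
    rw [hYcard]
    have : (Y D).filter (fun i => i ∈ D) =
        (Finset.range n).biUnion (fun t => (Z D t).filter (fun i => i ∈ D)) := by
      simp only [hY]; rw [Finset.filter_biUnion]
    rw [this]
    refine le_trans (Nat.mul_le_mul_left 4 Finset.card_biUnion_le) ?_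
    rw [Finset.mul_sum]
    refine Finset.sum_le_sum fun t _ => ?_
    exact a61_poor M D U (S t) (N D t) (Ly D t) (h2 (D ∩ U) (S t) (hS t)).1 hU
      (fun x hx => ⟨hLU D t hx, (Finset.mem_filter.1 hx).2.2⟩)
  have hkap : (kap : ℝ) = 2 ^ 20 := by unfold kap; norm_num
  have hEY : Ex (1 / 2) (fun D => ((Y D).card : ℝ)) ≤
      18 * ((U.card / (kap : ℝ)) * (Real.log kap + 2)) := by
    rw [a61_bridge]
    refine U73.exp_card_of_code U (kap : ℝ) (by rw [hkap]; norm_num)
      (fun s => Y (Finset.univ.filter (fun i => s i = true)))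
      (fun s => b (Finset.univ.filter (fun i => s i = true)))
      (fun s => m (Finset.univ.filter (fun i => s i = true)))
      (fun s => hb0 _) (fun s => hm0 _) (fun s => by exact_mod_cast hb _)
      (fun s => by exact_mod_cast hm _) (fun s s' e1 e2 => ?_) (fun s => ?_)
    · have hd := hdet _ _ e1 e2
      simp only [hY]
      refine Finset.biUnion_congr rfl fun t ht => ?_
      have ht' := Finset.mem_range.1 ht
      have a1 := hd t (by omega)
      have a2 := hd (t + 1) (by omega)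
      simp only [hZ, hLy, hN]
      rw [a1, a2]
    · have := hpoor (Finset.univ.filter (fun i => s i = true))
      convert this using 3
      ext i
      simp
  have hD : ∀ D, Ex tt (fun T0 => a61F M U S n D T0) ≤
      tt * ((Y D).card : ℝ) + 4 * (kap : ℝ) * tt ^ 2 * U.card := by
    intro D
    obtain ⟨-, -, mono, -, hcard⟩ := h0 tt a61_tt_nonneg a61_tt_le_one
    have s1 : Ex tt (fun T0 => a61F M U S n D T0) ≤
        Ex tt (fun T0 => ∑ t ∈ Finset.range n, (((T0 ∩ Z D t).card : ℝ) +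
          (((Ly D t \ Z D t).filter (fun e => e ∈ T0 ∧ e ∈ M.closure (N D t ∪ ↑(Z D t) ∪
            ↑((T0 ∩ (Ly D t \ Z D t)).erase e)))).card : ℝ))) := by
      refine mono _ _ fun T0 => ?_
      unfold a61F
      refine Finset.sum_le_sum fun t _ => ?_
      refine a61_null_le M h1 (N D t) (Ly D t) (Z D t) _ T0 (hLE D t) ?_ ?_
      · intro x hx
        have := Finset.mem_filter.1 hx
        exact Finset.mem_filter.2 ⟨(Finset.mem_inter.1 this.1).2, this.2⟩
      · intro x hx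
        exact (Finset.mem_sdiff.1 (Finset.mem_inter.1 (Finset.mem_filter.1 hx).1).1).1
    refine le_trans s1 ?_
    rw [a61_Ex_sum]
    have s2 : ∀ t ∈ Finset.range n, Ex tt (fun T0 => (((T0 ∩ Z D t).card : ℝ) +
          (((Ly D t \ Z D t).filter (fun e => e ∈ T0 ∧ e ∈ M.closure (N D t ∪ ↑(Z D t) ∪
            ↑((T0 ∩ (Ly D t \ Z D t)).erase e)))).card : ℝ))) ≤
        tt * ((Z D t).card : ℝ) + 4 * (kap : ℝ) * tt ^ 2 * ((Ly D t).card : ℝ) := by
      intro t _
      rw [a61_Ex_add, hcard]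
      have := a61_thin h0 tt (4 * (kap : ℝ)) a61_tt_nonneg a61_tt_le_one (by positivity)
        (Ly D t \ Z D t) (fun X e => e ∈ M.closure (N D t ∪ ↑(Z D t) ∪ ↑X))
        (fun X X' e hX h => M.closure_subset_closure
          (Set.union_subset_union_right _ (fun x hx => hX hx)) h)
        (fun X _ => a61_sparse M h1 (N D t) (Ly D t) (hNE D t) (hLE D t) X)
      have c1 : ((Ly D t \ Z D t).card : ℝ) ≤ (Ly D t).card := by
        exact_mod_cast Finset.card_le_card Finset.sdiff_subset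
      have c2 : 4 * (kap : ℝ) * tt ^ 2 * ((Ly D t \ Z D t).card : ℝ) ≤
          4 * (kap : ℝ) * tt ^ 2 * ((Ly D t).card : ℝ) :=
        mul_le_mul_of_nonneg_left c1 (by positivity)
      linarith
    refine le_trans (Finset.sum_le_sum s2) ?_
    rw [Finset.sum_add_distrib, ← Finset.mul_sum, ← Finset.mul_sum, hYcard]
    have c3 : (∑ t ∈ Finset.range n, ((Ly D t).card : ℝ)) ≤ U.card := by exact_mod_cast hLsum D
    have c4 := mul_le_mul_of_nonneg_left c3 (show (0 : ℝ) ≤ 4 * (kap : ℝ) * tt ^ 2 by positivity)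
    push_cast
    linarith
  have fin : Ex (1 / 2) (fun D => Ex tt (fun T0 => a61F M U S n D T0)) ≤ tt / 16 * U.card := by
    refine le_trans ((h0 _ hh hh1).2.2.1 _ _ hD) ?_
    rw [a61_Ex_add, a61_Ex_mul, a61_Ex_const h0 _ hh hh1]
    have l1 : Real.log (kap : ℝ) ≤ 20 := by
      rw [hkap, Real.log_pow]
      have : Real.log 2 ≤ 1 := by
        have := Real.log_le_sub_one_of_pos (show (0 : ℝ) < 2 by norm_num)
        linarith
      push_cast
      linarith
    have u0 : (0 : ℝ) ≤ U.card := by positivity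
    have l2 : 18 * ((U.card / (kap : ℝ)) * (Real.log kap + 2)) ≤ U.card / 32 := by
      have : (U.card / (kap : ℝ)) * (Real.log kap + 2) ≤ (U.card / (kap : ℝ)) * 22 :=
        mul_le_mul_of_nonneg_left (by linarith) (by positivity)
      rw [hkap] at this ⊢
      nlinarith
    have l3 : 4 * (kap : ℝ) * tt ≤ 1 / 32 := by rw [hkap]; unfold tt; norm_num
    have t0 := a61_tt_nonneg
    have tu : (0 : ℝ) ≤ tt * U.card := mul_nonneg t0 u0
    have l4 : tt * Ex (1 / 2) (fun D => ((Y D).card : ℝ)) ≤ tt * (U.card / 32) :=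
      mul_le_mul_of_nonneg_left (le_trans hEY l2) t0
    have l5 : 4 * (kap : ℝ) * tt * (tt * U.card) ≤ 1 / 32 * (tt * U.card) :=
      mul_le_mul_of_nonneg_right l3 tu
    have l6 : 4 * (kap : ℝ) * tt ^ 2 * U.card = 4 * (kap : ℝ) * tt * (tt * U.card) := by ring
    rw [l6]
    linarith
  exact fin

end Crest.Agent.R305
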