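import Crest.Agent.R305.Comp73
import Crest.Agent.R305.Union73

set_option autoImplicit false

open Classical

namespace Crest.Agent.R305

namespace A73

variable {k : ℕ}

theorem Ex_bool (p : ℝ) (f : Finset (Fin k) → ℝ) :
    Ex p f = ∑ s : Fin k → Bool, (∏ i, (if s i then p else 1 - p)) *
      f (Finset.univ.filter (fun i => s i = true)) := by
  unfold Ex bern
  refine Finset.sum_nbij' (fun A e => decide (e ∈ A))
    (fun s => Finset.univ.filter (fun i => s i = true)) (by simp) (by simp) ?_ ?_ ?_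
  · intro A _; ext e; simp
  · intro s _; funext e; simp
  · intro A _
    have : (Finset.univ.filter (fun i => decide (i ∈ A) = true)) = A := by ext e; simp
    simp only [this]
    congr 1
    refine Finset.prod_congr rfl fun e _ => ?_
    by_cases h : e ∈ A <;> simp [h]

theorem Ex_sum {β : Type*} (p : ℝ) (s : Finset β) (f : β → Finset (Fin k) → ℝ) :
    Ex p (fun A => ∑ i ∈ s, f i A) = ∑ i ∈ s, Ex p (f i) := by
  unfold Ex
  simp_rw [Finset.mul_sum]
  exact Finset.sum_comm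

theorem Ex_add (p : ℝ) (f g : Finset (Fin k) → ℝ) :
    Ex p (fun A => f A + g A) = Ex p f + Ex p g := by
  unfold Ex
  simp_rw [mul_add, Finset.sum_add_distrib]

theorem Ex_mul (p c : ℝ) (f : Finset (Fin k) → ℝ) :
    Ex p (fun A => c * f A) = c * Ex p f := by
  unfold Ex
  rw [Finset.mul_sum]
  exact Finset.sum_congr rfl fun A _ => by ring

theorem Ex_const (h0 : EXB k) (p c : ℝ) (hp : 0 ≤ p) (hp1 : p ≤ 1) :
    Ex p (fun _ : Finset (Fin k) => c) = c := by
  unfold Ex
  rw [← Finset.sum_mul, (h0 p hp hp1).2.1, one_mul]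

theorem thin (h0 : EXB k) (t g : ℝ) (ht : 0 ≤ t) (ht1 : t ≤ 1) (A : Finset (Fin k))
    (sp : Finset (Fin k) → Fin k → Prop)
    (hmono : ∀ X Y e, X ⊆ Y → sp X e → sp Y e)
    (hsp : ∀ X, X ⊆ A → ((A.filter (fun e => sp X e)).card : ℝ) ≤ g * X.card) :
    Ex t (fun T => ((A.filter (fun e => e ∈ T ∧ sp ((T ∩ A).erase e) e)).card : ℝ))
      ≤ g * t ^ 2 * A.card := by
  obtain ⟨-, -, hm, hf, hc⟩ := h0 t ht ht1
  have e1 : (fun T : Finset (Fin k) =>
      ((A.filter (fun e => e ∈ T ∧ sp ((T ∩ A).erase e) e)).card : ℝ)) =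
      fun T => ∑ e ∈ A, (if e ∈ T then (if sp ((T ∩ A).erase e) e then (1 : ℝ) else 0) else 0) := by
    funext T
    rw [Finset.card_filter]
    push_cast
    refine Finset.sum_congr rfl fun e _ => ?_
    by_cases h1 : e ∈ T <;> by_cases h2 : sp ((T ∩ A).erase e) e <;> simp [h1, h2]
  rw [e1, Ex_sum]
  have e2 : ∀ e ∈ A, Ex t (fun T => if e ∈ T then
      (if sp ((T ∩ A).erase e) e then (1 : ℝ) else 0) else 0) =
      t * Ex t (fun T => if sp ((T ∩ A).erase e) e then (1 : ℝ) else 0) := by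
    intro e _
    refine hf e (fun T => if sp ((T ∩ A).erase e) e then (1 : ℝ) else 0) ?_
    intro T
    have : ((insert e T ∩ A).erase e) = ((T.erase e ∩ A).erase e) := by
      ext x; simp only [Finset.mem_erase, Finset.mem_inter, Finset.mem_insert]; tauto
    simp only [this]
  rw [Finset.sum_congr rfl e2, ← Finset.mul_sum, ← Ex_sum]
  have e3 : Ex t (fun T => ∑ e ∈ A, (if sp ((T ∩ A).erase e) e then (1 : ℝ) else 0)) ≤
      Ex t (fun T => g * ((T ∩ A).card : ℝ)) := by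
    apply hm
    intro T
    refine le_trans ?_ (hsp (T ∩ A) Finset.inter_subset_right)
    rw [Finset.card_filter]
    push_cast
    refine Finset.sum_le_sum fun e _ => ?_
    by_cases h2 : sp ((T ∩ A).erase e) e
    · simp [h2, hmono _ _ e (Finset.erase_subset _ _) h2]
    · simp only [h2, if_false]; split_ifs <;> norm_num
  rw [Ex_mul, hc] at e3
  have := mul_le_mul_of_nonneg_left e3 ht
  nlinarith

variable (M : Matroid (Fin k))

theorem indep_count (h1 : RANK M) (X : Set (Fin k)) (G : Finset (Fin k))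
    (hE : (G : Set (Fin k)) ⊆ M.E)
    (hG : ∀ e ∈ G, e ∉ M.closure (X ∪ ↑(G.erase e))) :
    rk M (X ∪ ↑G) = rk M X + G.card := by
  induction G using Finset.induction_on with
  | empty => simp
  | insert a s ha ih =>
    have hs : rk M (X ∪ ↑s) = rk M X + s.card := by
      apply ih
      · intro x hx; exact hE (by simp at hx ⊢; exact Or.inr hx)
      · intro e he hc
        apply hG e (Finset.mem_insert_of_mem he)
        refine M.closure_subset_closure ?_ hc
        apply Set.union_subset_union_right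
        intro x hx
        simp only [Finset.coe_erase, Finset.coe_insert, Set.mem_diff, Set.mem_insert_iff,
          Finset.mem_coe, Set.mem_singleton_iff] at hx ⊢
        exact ⟨Or.inr hx.1, hx.2⟩
    have ha2 := hG a (Finset.mem_insert_self a s)
    rw [Finset.erase_insert ha] at ha2
    have h4 := h1.2.2.2.1 (X ∪ ↑s) a (hE (by simp)) ha2
    have e : X ∪ ↑(insert a s) = insert a (X ∪ ↑s) := by
      rw [Finset.coe_insert, Set.union_insert]
    rw [e, h4, hs, Finset.card_insert_of_notMem ha]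
    omega

/-- population objective -/
noncomputable def obj (U : Finset (Fin k)) (P Q : Set (Fin k)) : ℤ :=
  ((U.filter (fun e => e ∈ Q ∧ e ∉ P)).card : ℤ) - 4 * (kap : ℤ) * (rk M Q : ℤ)

theorem exQ (U : Finset (Fin k)) : ∃ Qf : Set (Fin k) → Set (Fin k) → Set (Fin k),
    ∀ P P', P ⊆ P' → P ⊆ Qf P P' ∧ Qf P P' ⊆ P' ∧
      ∀ Q, P ⊆ Q → Q ⊆ P' → obj M U P Q ≤ obj M U P (Qf P P') := by
  have : ∀ P P' : Set (Fin k), ∃ Q0 : Set (Fin k), P ⊆ P' → P ⊆ Q0 ∧ Q0 ⊆ P' ∧
      ∀ Q, P ⊆ Q → Q ⊆ P' → obj M U P Q ≤ obj M U P Q0 := by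
    intro P P'
    by_cases h : P ⊆ P'
    · obtain ⟨Q0, hQ0, hmax⟩ := Set.exists_max_image {Q : Set (Fin k) | P ⊆ Q ∧ Q ⊆ P'}
        (obj M U P) (Set.toFinite _) ⟨P, subset_rfl, h⟩
      exact ⟨Q0, fun _ => ⟨hQ0.1, hQ0.2, fun Q a b => hmax Q ⟨a, b⟩⟩⟩
    · exact ⟨∅, fun h' => absurd h' h⟩
  choose Qf hQf using this
  exact ⟨Qf, hQf⟩

theorem card_bU (N : ℕ → Set (Fin k)) (hN : ∀ t t', t ≤ t' → N t ⊆ N t') (n : ℕ)
    (Z : ℕ → Finset (Fin k)) (hZ : ∀ t, ∀ e ∈ Z t, e ∈ N (t + 1) ∧ e ∉ N t) :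
    ((Finset.range n).biUnion Z).card = ∑ t ∈ Finset.range n, (Z t).card := by
  apply Finset.card_biUnion
  intro t _ t' _ hne
  rw [Function.onFun, Finset.disjoint_left]
  intro e h1 h2
  rcases lt_or_gt_of_ne hne with h | h
  · exact (hZ t' e h2).2 (hN _ _ h (hZ t e h1).1)
  · exact (hZ t e h1).2 (hN _ _ h (hZ t' e h2).1)

/-- the dense part is `D`-poor -/
theorem poor (U D : Finset (Fin k)) (S N Q : Set (Fin k)) (hmax : IsMax M (D ∩ U) S N)
    (hNQ : N ⊆ Q) (hQE : Q ⊆ M.E) (hobj : obj M U N N ≤ obj M U N Q) :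
    4 * ((U.filter (fun e => e ∈ Q ∧ e ∉ N)).filter (fun e => e ∈ D)).card ≤
      (U.filter (fun e => e ∈ Q ∧ e ∉ N)).card := by
  have h1 := hmax.2.2 Q (hmax.1.trans hNQ) hQE
  unfold fval at h1
  unfold obj at hobj
  have h2 : (U.filter (fun e => e ∈ N ∧ e ∉ N)).card = 0 := by simp
  have h3 : ((D ∩ U).filter (fun e => e ∈ N)).card +
      ((U.filter (fun e => e ∈ Q ∧ e ∉ N)).filter (fun e => e ∈ D)).card ≤
      ((D ∩ U).filter (fun e => e ∈ Q)).card := by
    rw [← Finset.card_union_of_disjoint]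
    · apply Finset.card_le_card
      intro e he
      simp only [Finset.mem_union, Finset.mem_filter, Finset.mem_inter] at he ⊢
      rcases he with he | he
      · exact ⟨he.1, hNQ he.2⟩
      · exact ⟨⟨he.2, he.1.1⟩, he.1.2.1⟩
    · rw [Finset.disjoint_left]
      intro e h h'
      simp only [Finset.mem_filter, Finset.mem_inter] at h h'
      exact h'.1.2.2 h.2
  rw [h2] at hobj
  have h4 : (((D ∩ U).filter (fun e => e ∈ N)).card : ℤ) +
      (((U.filter (fun e => e ∈ Q ∧ e ∉ N)).filter (fun e => e ∈ D)).card : ℤ) ≤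
      (((D ∩ U).filter (fun e => e ∈ Q)).card : ℤ) := by exact_mod_cast h3
  have h5 : (4 : ℤ) * (((U.filter (fun e => e ∈ Q ∧ e ∉ N)).filter (fun e => e ∈ D)).card : ℤ) ≤
      ((U.filter (fun e => e ∈ Q ∧ e ∉ N)).card : ℤ) := by
    push_cast at hobj
    linarith
  exact_mod_cast h5

/-- the rest is sparse -/
theorem sparse (h1 : RANK M) (U : Finset (Fin k)) (N N' Q : Set (Fin k))
    (hNQ : N ⊆ Q) (hQN : Q ⊆ N') (hE : N' ⊆ M.E) (hcl : M.closure N' = N')
    (hobj : ∀ Q', N ⊆ Q' → Q' ⊆ N' → obj M U N Q' ≤ obj M U N Q)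
    (X : Finset (Fin k)) (hX : X ⊆ U.filter (fun e => e ∈ N' ∧ e ∉ Q)) :
    (((U.filter (fun e => e ∈ N' ∧ e ∉ Q)).filter (fun e => e ∈ M.closure (Q ∪ ↑X))).card : ℝ) ≤
      (4 * (kap : ℝ)) * X.card := by
  have hsub : Q ∪ ↑X ⊆ N' := by
    apply Set.union_subset hQN
    intro x hx
    exact (Finset.mem_filter.mp (hX hx)).2.1
  have hQc : Q ⊆ M.closure (Q ∪ ↑X) :=
    Set.subset_union_left.trans (M.subset_closure _ (hsub.trans hE))
  have h2 := hobj (M.closure (Q ∪ ↑X)) (hNQ.trans hQc)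
    ((M.closure_subset_closure hsub).trans hcl.subset)
  unfold obj at h2
  rw [h1.2.2.1] at h2
  have h3 := h1.2.2.2.2.2.1 Q X
  have h4 : (U.filter (fun e => e ∈ Q ∧ e ∉ N)).card +
      ((U.filter (fun e => e ∈ N' ∧ e ∉ Q)).filter (fun e => e ∈ M.closure (Q ∪ ↑X))).card ≤
      (U.filter (fun e => e ∈ M.closure (Q ∪ ↑X) ∧ e ∉ N)).card := by
    rw [← Finset.card_union_of_disjoint]
    · apply Finset.card_le_card
      intro e he
      simp only [Finset.mem_union, Finset.mem_filter] at he ⊢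
      rcases he with he | he
      · exact ⟨he.1, hQc he.2.1, he.2.2⟩
      · exact ⟨he.1.1, he.2, fun h => he.1.2.2 (hNQ h)⟩
    · rw [Finset.disjoint_left]
      intro e h h'
      simp only [Finset.mem_filter] at h h'
      exact h'.1.2.2 h.2.1
  have h5 : ((U.filter (fun e => e ∈ Q ∧ e ∉ N)).card : ℤ) +
      (((U.filter (fun e => e ∈ N' ∧ e ∉ Q)).filter (fun e => e ∈ M.closure (Q ∪ ↑X))).card : ℤ) ≤
      ((U.filter (fun e => e ∈ M.closure (Q ∪ ↑X) ∧ e ∉ N)).card : ℤ) := by exact_mod_cast h4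
  have h6 : (rk M (Q ∪ ↑X) : ℤ) ≤ rk M Q + X.card := by exact_mod_cast h3
  have hk : (0 : ℤ) ≤ 4 * (kap : ℤ) := by positivity
  have h7 := mul_le_mul_of_nonneg_left h6 hk
  have h8 : (((U.filter (fun e => e ∈ N' ∧ e ∉ Q)).filter
      (fun e => e ∈ M.closure (Q ∪ ↑X))).card : ℤ) ≤ 4 * (kap : ℤ) * X.card := by linarith
  exact_mod_cast h8

/-- deterministic split of the nullity -/
theorem split (h1 : RANK M) (U D T : Finset (Fin k)) (N N' Q : Set (Fin k))
    (hNQ : N ⊆ Q) (hE : N' ⊆ M.E) :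
    ((((T \ D) ∩ U).filter (fun y => y ∈ N' ∧ y ∉ N)).card : ℝ) -
      ((rk M (N ∪ ↑(((T \ D) ∩ U).filter (fun y => y ∈ N' ∧ y ∉ N))) : ℝ) - rk M N) ≤
    ((T ∩ U.filter (fun e => e ∈ Q ∧ e ∉ N)).card : ℝ) +
      (((U.filter (fun e => e ∈ N' ∧ e ∉ Q)).filter (fun e => e ∈ T ∧
        e ∈ M.closure (Q ∪ ↑((T ∩ U.filter (fun e => e ∈ N' ∧ e ∉ Q)).erase e)))).card : ℝ) := by
  set Tb := ((T \ D) ∩ U).filter (fun y => y ∈ N' ∧ y ∉ N) with hTb
  set A := U.filter (fun e => e ∈ N' ∧ e ∉ Q) with hA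
  set G := Tb.filter (fun e => e ∉ Q ∧ e ∉ M.closure (Q ∪ ↑((T ∩ A).erase e))) with hG
  have hGs : ∀ e ∈ G, e ∈ T ∩ A := by
    intro e he
    simp only [hG, hTb, hA, Finset.mem_filter, Finset.mem_inter, Finset.mem_sdiff] at he ⊢
    exact ⟨he.1.1.1.1, he.1.1.2, he.1.2.1, he.2.1⟩
  have h2 : rk M (N ∪ ↑G) = rk M N + G.card := by
    apply indep_count M h1
    · intro e he
      have := hGs e he
      simp only [hA, Finset.mem_filter, Finset.mem_inter] at this
      exact hE this.2.2.1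
    · intro e he hc
      apply (Finset.mem_filter.mp he).2.2
      refine M.closure_subset_closure ?_ hc
      apply Set.union_subset_union hNQ
      exact Finset.coe_subset.mpr (Finset.erase_subset_erase e hGs)
  have h3 : rk M (N ∪ ↑G) ≤ rk M (N ∪ ↑Tb) :=
    h1.1 _ _ (Set.union_subset_union_right _ (Finset.coe_subset.mpr (Finset.filter_subset _ _)))
  have h4 : Tb.card ≤ (T ∩ U.filter (fun e => e ∈ Q ∧ e ∉ N)).card +
      (A.filter (fun e => e ∈ T ∧ e ∈ M.closure (Q ∪ ↑((T ∩ A).erase e)))).card + G.card := by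
    refine le_trans (Finset.card_le_card ?_)
      ((Finset.card_union_le _ _).trans (Nat.add_le_add_right (Finset.card_union_le _ _) _))
    intro e he
    have he' := he
    simp only [hTb, Finset.mem_filter, Finset.mem_inter, Finset.mem_sdiff] at he'
    by_cases hq : e ∈ Q
    · refine Finset.mem_union_left _ (Finset.mem_union_left _ ?_)
      simp only [Finset.mem_filter, Finset.mem_inter]
      exact ⟨he'.1.1.1, he'.1.2, hq, he'.2.2⟩
    · by_cases hc : e ∈ M.closure (Q ∪ ↑((T ∩ A).erase e))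
      · refine Finset.mem_union_left _ (Finset.mem_union_right _ ?_)
        exact Finset.mem_filter.mpr ⟨Finset.mem_filter.mpr ⟨he'.1.2, he'.2.1, hq⟩, he'.1.1.1, hc⟩
      · exact Finset.mem_union_right _ (Finset.mem_filter.mpr ⟨he, hq, hc⟩)
  have h5 : (Tb.card : ℝ) ≤ (T ∩ U.filter (fun e => e ∈ Q ∧ e ∉ N)).card +
      (A.filter (fun e => e ∈ T ∧ e ∈ M.closure (Q ∪ ↑((T ∩ A).erase e)))).card + G.card := by
    exact_mod_cast h4
  have h6 : (rk M N : ℝ) + G.card ≤ rk M (N ∪ ↑Tb) := by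
    rw [h2] at h3; exact_mod_cast h3
  linarith

end A73

open A73 in
theorem alpha73 {k : ℕ} (M : Matroid (Fin k)) (h0 : EXB k) (h1 : RANK M) (h2 : EXPF M)
    (hc : COMPRESS73 M) : ALPHA M := by
  intro U S n hU hS hmono
  obtain ⟨b, m, hb0, hm0, hb, hm, hdet⟩ := hc U S n hU hS hmono
  obtain ⟨Qf, hQf⟩ := exQ M U
  set N : Finset (Fin k) → ℕ → Set (Fin k) := fun D t => Exp M (D ∩ U) (S t) with hN
  have hNmono : ∀ D t t', t ≤ t' → N D t ⊆ N D t' := fun D t t' h =>
    (h2 (D ∩ U) (S t) (hS t)).2.2.2.1 (S t') (hmono t t' h) (hS t')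
  have hNmax : ∀ D t, IsMax M (D ∩ U) (S t) (N D t) := fun D t => (h2 (D ∩ U) (S t) (hS t)).1
  have hNcl : ∀ D t, M.closure (N D t) = N D t := fun D t => (h2 (D ∩ U) (S t) (hS t)).2.1
  set Q : Finset (Fin k) → ℕ → Set (Fin k) := fun D t => Qf (N D t) (N D (t + 1)) with hQ
  have hQ1 : ∀ D t, N D t ⊆ Q D t ∧ Q D t ⊆ N D (t + 1) ∧
      ∀ Q', N D t ⊆ Q' → Q' ⊆ N D (t + 1) → obj M U (N D t) Q' ≤ obj M U (N D t) (Q D t) :=
    fun D t => hQf _ _ (hNmono D t (t + 1) (Nat.le_succ t))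
  set Yt : Finset (Fin k) → ℕ → Finset (Fin k) :=
    fun D t => U.filter (fun e => e ∈ Q D t ∧ e ∉ N D t) with hYt
  set At : Finset (Fin k) → ℕ → Finset (Fin k) :=
    fun D t => U.filter (fun e => e ∈ N D (t + 1) ∧ e ∉ Q D t) with hAt
  set Y : Finset (Fin k) → Finset (Fin k) := fun D => (Finset.range n).biUnion (Yt D) with hY
  have hYc : ∀ D, (Y D).card = ∑ t ∈ Finset.range n, (Yt D t).card := fun D =>
    card_bU (N D) (hNmono D) n (Yt D) (fun t e he =>
      ⟨(hQ1 D t).2.1 (Finset.mem_filter.mp he).2.1, (Finset.mem_filter.mp he).2.2⟩)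
  have hAc : ∀ D, ∑ t ∈ Finset.range n, (At D t).card ≤ U.card := by
    intro D
    rw [← card_bU (N D) (hNmono D) n (At D) (fun t e he =>
      ⟨(Finset.mem_filter.mp he).2.1, fun h => (Finset.mem_filter.mp he).2.2 ((hQ1 D t).1 h)⟩)]
    apply Finset.card_le_card
    intro e he
    obtain ⟨t, _, ht⟩ := Finset.mem_biUnion.mp he
    exact (Finset.mem_filter.mp ht).1
  have htt0 : 0 ≤ tt := by unfold tt; positivity
  have htt1 : tt ≤ 1 := by unfold tt; norm_num
  -- given `D`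
  have hgiven : ∀ D, Ex tt (fun T0 => ∑ t ∈ Finset.range n,
      (((((T0 \ D) ∩ U).filter (fun y => y ∈ N D (t + 1) ∧ y ∉ N D t)).card : ℝ) -
        ((rk M (N D t ∪ ↑(((T0 \ D) ∩ U).filter
          (fun y => y ∈ N D (t + 1) ∧ y ∉ N D t))) : ℝ) - rk M (N D t)))) ≤
      tt * ((Y D).card : ℝ) + 4 * (kap : ℝ) * tt ^ 2 * U.card := by
    intro D
    rw [Ex_sum]
    have hterm : ∀ t ∈ Finset.range n, Ex tt (fun T0 =>
        (((((T0 \ D) ∩ U).filter (fun y => y ∈ N D (t + 1) ∧ y ∉ N D t)).card : ℝ) -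
        ((rk M (N D t ∪ ↑(((T0 \ D) ∩ U).filter
          (fun y => y ∈ N D (t + 1) ∧ y ∉ N D t))) : ℝ) - rk M (N D t)))) ≤
        tt * ((Yt D t).card : ℝ) + 4 * (kap : ℝ) * tt ^ 2 * (At D t).card := by
      intro t _
      refine ((h0 tt htt0 htt1).2.2.1 _ _ (fun T0 => split M h1 U D T0 (N D t) (N D (t + 1))
        (Q D t) (hQ1 D t).1 (hNmax D (t + 1)).2.1)).trans ?_
      rw [Ex_add, (h0 tt htt0 htt1).2.2.2.2]
      have := thin h0 tt (4 * (kap : ℝ)) htt0 htt1 (At D t)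
        (fun X e => e ∈ M.closure (Q D t ∪ ↑X))
        (fun X X' e h he => M.closure_subset_closure
          (Set.union_subset_union_right _ (Finset.coe_subset.mpr h)) he)
        (fun X hX => sparse M h1 U (N D t) (N D (t + 1)) (Q D t) (hQ1 D t).1 (hQ1 D t).2.1
          (hNmax D (t + 1)).2.1 (hNcl D (t + 1)) (hQ1 D t).2.2 X hX)
      exact add_le_add le_rfl this
    refine (Finset.sum_le_sum hterm).trans ?_
    rw [Finset.sum_add_distrib, ← Finset.mul_sum, ← Finset.mul_sum, hYc]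
    have h3 : (∑ t ∈ Finset.range n, ((At D t).card : ℝ)) ≤ U.card := by exact_mod_cast hAc D
    have h4 : 0 ≤ 4 * (kap : ℝ) * tt ^ 2 := by positivity
    have := mul_le_mul_of_nonneg_left h3 h4
    push_cast
    linarith
  have hkap : (kap : ℝ) = 2 ^ 20 := by unfold kap; norm_num
  -- the union bound
  have hEY : Ex (1 / 2) (fun D => ((Y D).card : ℝ)) ≤
      18 * ((U.card / (kap : ℝ)) * (Real.log kap + 2)) := by
    rw [Ex_bool]
    refine U73.exp_card_of_code U (kap : ℝ) (by rw [hkap]; norm_num)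
      (fun s => Y (Finset.univ.filter (fun i => s i = true)))
      (fun s => b (Finset.univ.filter (fun i => s i = true)))
      (fun s => m (Finset.univ.filter (fun i => s i = true)))
      (fun s => hb0 _) (fun s => hm0 _) (fun s => by exact_mod_cast hb _)
      (fun s => by exact_mod_cast hm _) ?_ ?_
    · intro s s' e1 e2
      have h := hdet _ _ e1 e2
      simp only [hY]
      apply Finset.biUnion_congr rfl
      intro t ht
      have ht' := Finset.mem_range.mp ht
      have a1 : N (Finset.univ.filter (fun i => s i = true)) t =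
        N (Finset.univ.filter (fun i => s' i = true)) t := h t ht'.le
      have a2 : N (Finset.univ.filter (fun i => s i = true)) (t + 1) =
        N (Finset.univ.filter (fun i => s' i = true)) (t + 1) := h (t + 1) ht'
      simp only [hYt, hQ, a1, a2]
    · intro s
      set D := Finset.univ.filter (fun i => s i = true) with hD
      have e1 : (Y D).filter (fun i => s i = true) =
          (Finset.range n).biUnion (fun t => (Yt D t).filter (fun e => e ∈ D)) := by
        ext e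
        simp only [hY, hD, Finset.mem_filter, Finset.mem_biUnion, Finset.mem_univ, true_and]
        constructor
        · rintro ⟨⟨t, ht, h⟩, h'⟩; exact ⟨t, ht, h, h'⟩
        · rintro ⟨t, ht, h, h'⟩; exact ⟨⟨t, ht, h⟩, h'⟩
      rw [e1, hYc]
      refine (Nat.mul_le_mul_left 4 Finset.card_biUnion_le).trans ?_
      rw [Finset.mul_sum]
      refine Finset.sum_le_sum fun t _ => ?_
      exact poor M U D (S t) (N D t) (Q D t) (hNmax D t) (hQ1 D t).1
        ((hQ1 D t).2.1.trans (hNmax D (t + 1)).2.1)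
        ((hQ1 D t).2.2 _ subset_rfl (hNmono D t (t + 1) (Nat.le_succ t)))
  have hhalf0 : (0 : ℝ) ≤ 1 / 2 := by norm_num
  have hhalf1 : (1 / 2 : ℝ) ≤ 1 := by norm_num
  refine ((h0 (1 / 2) hhalf0 hhalf1).2.2.1 _ _ hgiven).trans ?_
  rw [Ex_add, Ex_mul, Ex_const h0 _ _ hhalf0 hhalf1]
  have hlog : Real.log kap ≤ 20 := by
    rw [hkap, Real.log_pow]
    have := Real.log_two_lt_d9
    push_cast
    linarith
  have hu : (0 : ℝ) ≤ U.card := Nat.cast_nonneg _
  have h5 : 18 * ((U.card / (kap : ℝ)) * (Real.log kap + 2)) ≤ U.card / 32 := by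
    have : (U.card / (kap : ℝ)) * (Real.log kap + 2) ≤ (U.card / (kap : ℝ)) * 22 :=
      mul_le_mul_of_nonneg_left (by linarith) (by positivity)
    rw [hkap] at this ⊢
    linarith
  have h6 : 4 * (kap : ℝ) * tt ≤ 1 / 32 := by rw [hkap]; unfold tt; norm_num
  have h7 := mul_le_mul_of_nonneg_left (hEY.trans h5) htt0
  have h8 := mul_le_mul_of_nonneg_right h6 (mul_nonneg htt0 hu)
  nlinarith

end Crest.Agent.R305
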