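import Crest.Agent.R305.Star79

set_option autoImplicit false
open Finset

namespace Crest.Agent.R305.S79

open Classical

variable {ι : Type*} [Fintype ι] [DecidableEq ι]

/-- canonical representative of the fibre of a stopping set -/
def rep (Q : (ι → Bool) → Finset ι) (w : ι → Bool) : ι → Bool :=
  fun i => if i ∈ Q w then false else w i

/-- the label vector with `T` switched on inside `P` -/
def mk (P : Finset ι) (r : ι → Bool) (T : Finset ι) : ι → Bool :=
  fun i => if i ∈ P then decide (i ∈ T) else r i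

theorem fibre_sum (p : Bool → ℝ) (Q : (ι → Bool) → Finset ι)
    (hQ : ∀ w w', (∀ i, i ∉ Q w → w' i = w i) → Q w' = Q w) (F : (ι → Bool) → ℝ) :
    ∑ w : ι → Bool, (∏ i, p (w i)) * F w =
      ∑ r ∈ univ.filter (fun r => rep Q r = r), (∏ i ∈ univ.filter (fun i => i ∉ Q r), p (r i)) *
        EE (p true) (p false) (Q r) (fun T => F (mk (Q r) r T)) := by
  have hrepQ : ∀ w, Q (rep Q w) = Q w := fun w =>
    hQ w _ fun i hi => by simp [rep, hi]
  have hmaps : ∀ w ∈ (univ : Finset (ι → Bool)), rep Q w ∈ univ.filter (fun r => rep Q r = r) := by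
    intro w _
    simp only [mem_filter, mem_univ, true_and]
    funext i
    by_cases hi : i ∈ Q w <;> simp [rep, hrepQ, hi, (hrepQ w : Q (rep Q w) = Q w)]
  rw [← Finset.sum_fiberwise_of_maps_to hmaps]
  refine Finset.sum_congr rfl fun r hr => ?_
  have hr' : rep Q r = r := (mem_filter.mp hr).2
  unfold EE
  rw [Finset.mul_sum]
  have hmkQ : ∀ T, Q (mk (Q r) r T) = Q r := fun T =>
    hQ r _ fun i hi => by simp [mk, hi]
  symm
  refine Finset.sum_bij' (fun T _ => mk (Q r) r T) (fun w _ => (Q r).filter (fun i => w i = true))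
    ?_ ?_ ?_ ?_ ?_
  · intro T _
    simp only [mem_filter, mem_univ, true_and]
    funext i
    by_cases hi : i ∈ Q r
    · have : r i = false := by rw [← hr']; simp [rep, hi]
      simp [rep, hmkQ, hi, this]
    · simp [rep, hmkQ, hi, mk]
  · intro w _
    exact mem_powerset.mpr (filter_subset _ _)
  · intro T hT
    ext i
    simp only [mem_filter, mk]
    constructor
    · rintro ⟨h1, h2⟩
      simpa [h1] using h2
    · intro h
      have h1 := mem_powerset.mp hT h
      simp [h1, h]
  · intro w hw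
    have hw' : rep Q w = r := (mem_filter.mp hw).2
    have hQw : Q w = Q r := by rw [← hw', hrepQ]
    funext i
    by_cases hi : i ∈ Q r
    · simp [mk, hi]
    · have : r i = w i := by rw [← hw']; simp [rep, hQw, hi]
      simp [mk, hi, this]
  · intro T hT
    rw [← mul_assoc]
    congr 1
    rw [← Finset.prod_filter_mul_prod_filter_not univ (fun i => i ∉ Q r)]
    congr 1
    · exact Finset.prod_congr rfl fun i hi => by simp [mk, (mem_filter.mp hi).2]
    · have : univ.filter (fun i => ¬ i ∉ Q r) = Q r := by ext i; simp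
      rw [this]
      refine Finset.prod_congr rfl fun i hi => ?_
      by_cases h : i ∈ T <;> simp [mk, hi, h]

/-- LEMMA (*) for Boolean label vectors (`true` = listened, `false` = guard) with a stopping pool. -/
theorem star_bool (p : Bool → ℝ) (hp : 0 ≤ p true) (hpt : p true ≤ p false)
    (Q : (ι → Bool) → Finset ι) (hQ : ∀ w w', (∀ i, i ∉ Q w → w' i = w i) → Q w' = Q w)
    (A : (ι → Bool) → Finset ι → Prop)
    (hA : ∀ w w', (∀ i, i ∉ Q w → w' i = w i) → ∀ X, A w' X ↔ A w X)
    (hmono : ∀ w X Y, X ⊆ Y → A w X → A w Y)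
    (rk : ι → ℕ) (fresh : (ι → Bool) → ι → Prop)
    (hf : ∀ w w' i, i ∈ Q w → (∀ j, j ∉ Q w → w' j = w j) →
      (∀ j ∈ Q w, rk i < rk j → w' j = w j) → (fresh w' i ↔ fresh w i)) :
    (p false - p true) * ∑ w : ι → Bool, (∏ i, p (w i)) *
        ind (A w ((Q w).filter (fun i => w i = true ↔ fresh w i)) ∧
          ¬ A w ((Q w).filter (fun i => w i = false))) ≤
      p true * ∑ w : ι → Bool, (∏ i, p (w i)) *
        ind (¬ A w ((Q w).filter (fun i => w i = true ↔ fresh w i))) := by
  have hpf : 0 ≤ p false := hp.trans hpt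
  rw [fibre_sum p Q hQ, fibre_sum p Q hQ, Finset.mul_sum, Finset.mul_sum]
  refine Finset.sum_le_sum fun r _ => ?_
  have hmkQ : ∀ T, Q (mk (Q r) r T) = Q r := fun T =>
    hQ r _ fun i hi => by simp [mk, hi]
  have hmkA : ∀ T X, A (mk (Q r) r T) X ↔ A r X := fun T =>
    hA r _ fun i hi => by simp [mk, hi]
  have hX : ∀ T, (Q r).filter (fun i => mk (Q r) r T i = true ↔ fresh (mk (Q r) r T) i) =
      XX (Q r) (fun T i => fresh (mk (Q r) r T) i) T := by
    intro T
    unfold XX
    exact filter_congr fun i hi => by simp [mk, hi]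
  have hC : ∀ T, (Q r).filter (fun i => mk (Q r) r T i = false) = Q r \ T := by
    intro T
    ext i
    simp only [mem_filter, mem_sdiff, mk]
    constructor
    · rintro ⟨h1, h2⟩
      exact ⟨h1, by simpa [h1] using h2⟩
    · rintro ⟨h1, h2⟩
      exact ⟨h1, by simp [h1, h2]⟩
  have key := star hp hpt rk (Q r) (fun T i => fresh (mk (Q r) r T) i) (A r) (by
    intro T T' y _ _ hy h
    refine (hf (mk (Q r) r T) (mk (Q r) r T') y (by rw [hmkQ]; exact hy) ?_ ?_).symm
    · intro j hj
      rw [hmkQ] at hj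
      simp [mk, hj]
    · intro j hj hlt
      rw [hmkQ] at hj
      simp [mk, hj, h j hj hlt]) (hmono r)
  have hw : 0 ≤ ∏ i ∈ univ.filter (fun i => i ∉ Q r), p (r i) :=
    Finset.prod_nonneg fun i _ => by cases r i <;> assumption
  simp only [hmkQ, hmkA, hX, hC]
  have := mul_le_mul_of_nonneg_left key hw
  nlinarith [this]

end Crest.Agent.R305.S79
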