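import Crest.Agent.R305.RGDefs55
import Crest.Agent.R305.StarB79

set_option autoImplicit false
open Finset Classical

namespace Crest.Agent.R305.S79

variable {k : ℕ}

theorem Ex_eq_bool (p : ℝ) (f : Finset (Fin k) → ℝ) :
    Ex p f = ∑ w : Fin k → Bool, (∏ i, (fun b : Bool => if b = true then p else 1 - p) (w i)) *
      f (univ.filter (fun i => w i = true)) := by
  unfold Ex bern
  refine Finset.sum_bij' (fun A _ => fun i => decide (i ∈ A))
    (fun w _ => univ.filter (fun i => w i = true)) (fun _ _ => mem_univ _) (fun _ _ => mem_univ _)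
    ?_ ?_ ?_
  · intro A _; ext i; simp
  · intro w _; funext i; simp
  · intro A _
    have : univ.filter (fun i => decide (i ∈ A) = true) = A := by ext i; simp
    rw [this]
    simp

/-- LEMMA (*) with a stopping pool, for `Ex`. -/
theorem star_Ex (p : ℝ) (hp : 0 ≤ p) (hp2 : p < 1 / 2)
    (Q : Finset (Fin k) → Finset (Fin k))
    (hQ : ∀ T T', (∀ y, y ∉ Q T → (y ∈ T ↔ y ∈ T')) → Q T' = Q T)
    (A : Finset (Fin k) → Finset (Fin k) → Prop)
    (hA : ∀ T T', (∀ y, y ∉ Q T → (y ∈ T ↔ y ∈ T')) → ∀ X, A T' X ↔ A T X)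
    (hmono : ∀ T X Y, X ⊆ Y → A T X → A T Y)
    (rk : Fin k → ℕ) (fresh : Finset (Fin k) → Fin k → Prop)
    (hf : ∀ T T' y, y ∈ Q T → (∀ z, z ∉ Q T → (z ∈ T ↔ z ∈ T')) →
      (∀ z ∈ Q T, rk y < rk z → (z ∈ T ↔ z ∈ T')) → (fresh T' y ↔ fresh T y)) :
    Ex p (fun T => ind (A T ((Q T).filter (fun y => y ∈ T ↔ fresh T y)) ∧ ¬ A T (Q T \ T))) ≤
      p / (1 - 2 * p) * Ex p (fun T => ind (¬ A T ((Q T).filter (fun y => y ∈ T ↔ fresh T y)))) := by
  set φ : (Fin k → Bool) → Finset (Fin k) := fun w => univ.filter (fun i => w i = true) with hφ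
  have hmem : ∀ w i, i ∈ φ w ↔ w i = true := fun w i => by simp [hφ]
  have key := star_bool (ι := Fin k) (fun b : Bool => if b = true then p else 1 - p)
    (by simpa using hp) (by simp; linarith) (fun w => Q (φ w))
    (fun w w' h => hQ _ _ fun y hy => by rw [hmem, hmem, h y hy])
    (fun w X => A (φ w) X)
    (fun w w' h => hA _ _ fun y hy => by rw [hmem, hmem, h y hy])
    (fun w => hmono _) rk (fun w y => fresh (φ w) y)
    (fun w w' y hy h1 h2 => hf _ _ y hy (fun z hz => by rw [hmem, hmem, h1 z hz])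
      (fun z hz hlt => by rw [hmem, hmem, h2 z hz hlt]))
  have e1 : ∀ w, (Q (φ w)).filter (fun i => w i = true ↔ fresh (φ w) i) =
      (Q (φ w)).filter (fun y => y ∈ φ w ↔ fresh (φ w) y) := fun w =>
    filter_congr fun i _ => by rw [hmem]
  have e2 : ∀ w, (Q (φ w)).filter (fun i => w i = false) = Q (φ w) \ φ w := fun w => by
    ext i
    simp only [mem_filter, mem_sdiff, hmem]
    cases w i <;> simp
  simp only [e1, e2] at key
  rw [Ex_eq_bool, Ex_eq_bool]
  have h12 : 0 < 1 - 2 * p := by linarith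
  rw [div_mul_eq_mul_div, le_div_iff₀ h12]
  simp only [Bool.false_eq_true, if_true, if_false] at key
  rw [mul_comm, show 1 - 2 * p = 1 - p - p by ring]
  exact key

theorem St_congr (M : Matroid (Fin k)) (L : ℕ) (U : ℕ → Finset (Fin k)) (D C C' : Finset (Fin k))
    (i : ℕ) (h : ∀ i' < i, C ∩ U (L - i') = C' ∩ U (L - i')) :
    St M L U D C i = St M L U D C' i := by
  induction i with
  | zero => rfl
  | succ i ih =>
    show Sstep M _ _ _ _ = Sstep M _ _ _ _
    rw [ih fun i' hi' => h i' (by omega), h i (by omega)]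

theorem mem_pool {M : Matroid (Fin k)} {L : ℕ} {U : ℕ → Finset (Fin k)} {D T0 : Finset (Fin k)}
    {j b : ℕ} {y : Fin k} : y ∈ pool M L U D T0 j b ↔
      ∃ m, j + 1 ≤ m ∧ m ≤ L ∧ y ∈ U m ∧ y ∉ D ∧ y ∈ Nm M L U D T0 m b := by
  unfold pool
  simp only [mem_biUnion, mem_Icc, mem_filter, mem_sdiff]
  constructor
  · rintro ⟨m, ⟨h1, h2⟩, ⟨h3, h4⟩, h5⟩; exact ⟨m, h1, h2, h3, h4, h5⟩
  · rintro ⟨m, h1, h2, h3, h4, h5⟩; exact ⟨m, ⟨h1, h2⟩, ⟨h3, h4⟩, h5⟩

theorem mem_Cg {D T0 : Finset (Fin k)} {y : Fin k} : y ∈ Cg D T0 ↔ y ∉ D ∧ y ∉ T0 := by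
  simp [Cg]

/-- B19 -/
theorem loct79 (M : Matroid (Fin k)) (hN : NCHAIN M) : LOCT M := by
  intro L U D T0 T0' j b _ hj hjL hag
  have main : ∀ i, i ≤ L - j → ∀ t, b ≤ t →
      St M L U D (Cg D T0') i t = St M L U D (Cg D T0) i t := by
    intro i
    induction i with
    | zero => intro _ t _; rfl
    | succ i ih =>
      intro hi t ht
      have ih' := ih (by omega)
      have hNs : ∀ t, b ≤ t → Nstep M (D ∩ U (L - i)) (L - i) (St M L U D (Cg D T0') i) t =
          Nstep M (D ∩ U (L - i)) (L - i) (St M L U D (Cg D T0) i) t := by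
        intro t ht
        unfold Nstep
        rw [ih' t ht]
      have hNm : ∀ t, Nstep M (D ∩ U (L - i)) (L - i) (St M L U D (Cg D T0) i) t =
          Nm M L U D T0 (L - i) t := by
        intro t
        unfold Nm
        rw [show L - (L - i) = i by omega]
      show Sstep M _ _ _ _ t = Sstep M _ _ _ _ t
      unfold Sstep
      rw [hNs t ht, hNs (t + 1) (by omega), ih' t ht, hNm, hNm]
      split_ifs with h3
      · congr 1
        have hmono := (hN L U D T0 (L - i) (by omega) (by omega)).2.1 b t ht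
        ext y
        simp only [Set.mem_union, Set.mem_inter_iff, coe_inter, mem_coe, mem_Cg]
        by_cases hy : y ∈ Nm M L U D T0 (L - i) t
        · simp [hy]
        · simp only [hy, false_or]
          by_cases hU : y ∈ U (L - i)
          · have hnp : y ∉ pool M L U D T0 j b := by
              rw [mem_pool]
              rintro ⟨m, h1, h2, h3, h4, h5⟩
              have hm : m = L - i := by
                by_contra hne
                exact (disjoint_left.mp (‹Pools M U›.2 m (L - i) hne) h3) hU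
              subst hm
              exact hy (hmono h5)
            rw [hag y hnp]
          · simp [hU]
      · rfl
  intro m t hjm hmL ht
  unfold Nm Nstep
  rw [main (L - m) (by omega) t ht]

/-- the level `b - 2` closure through the rounds -/
def tau (M : Matroid (Fin k)) (L : ℕ) (U : ℕ → Finset (Fin k)) (D : Finset (Fin k)) (s : ℕ)
    (X : Finset (Fin k)) : ℕ → Set (Fin k)
  | 0 => S0 M L s
  | i + 1 => if 3 * (L - i) ≤ s then
      M.closure (Exp M (D ∩ U (L - i)) (tau M L U D s X i) ∪ ↑(X ∩ U (L - i)))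
    else tau M L U D s X i

theorem S0_sub (M : Matroid (Fin k)) (L s : ℕ) : S0 M L s ⊆ M.E := by
  unfold S0; split_ifs
  · exact M.closure_subset_ground _
  · exact subset_rfl

theorem tau_sub (M : Matroid (Fin k)) (L : ℕ) (U : ℕ → Finset (Fin k)) (D : Finset (Fin k)) (s : ℕ)
    (X : Finset (Fin k)) (i : ℕ) : tau M L U D s X i ⊆ M.E := by
  induction i with
  | zero => exact S0_sub M L s
  | succ i ih =>
    unfold tau; split_ifs
    · exact M.closure_subset_ground _
    · exact ih

theorem tau_mono {M : Matroid (Fin k)} (hE : EXPF M) (L : ℕ) (U : ℕ → Finset (Fin k))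
    (D : Finset (Fin k)) (s : ℕ) {X Y : Finset (Fin k)} (h : X ⊆ Y) (i : ℕ) :
    tau M L U D s X i ⊆ tau M L U D s Y i := by
  induction i with
  | zero => exact subset_rfl
  | succ i ih =>
    unfold tau; split_ifs
    · refine M.closure_subset_closure (Set.union_subset_union ?_ ?_)
      · exact (hE _ _ (tau_sub M L U D s X i)).2.2.2.1 _ ih (tau_sub M L U D s Y i)
      · exact coe_subset.mpr (inter_subset_inter_right h)
    · exact ih

theorem sub_Exp {M : Matroid (Fin k)} (hE : EXPF M) (D : Finset (Fin k)) {S : Set (Fin k)}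
    (hS : S ⊆ M.E) : S ⊆ Exp M D S := (hE D S hS).1.1

theorem Exp_sub {M : Matroid (Fin k)} (hE : EXPF M) (D : Finset (Fin k)) {S : Set (Fin k)}
    (hS : S ⊆ M.E) : Exp M D S ⊆ M.E := (hE D S hS).1.2.1

theorem tau_step {M : Matroid (Fin k)} (hE : EXPF M) (L : ℕ) (U : ℕ → Finset (Fin k))
    (D : Finset (Fin k)) (s : ℕ) (X : Finset (Fin k)) (i : ℕ) :
    tau M L U D s X i ⊆ tau M L U D s X (i + 1) := by
  conv_rhs => unfold tau
  split_ifs
  · refine (sub_Exp hE (D ∩ U (L - i)) (tau_sub M L U D s X i)).trans ?_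
    exact (M.subset_closure_of_subset' Set.subset_union_left (Exp_sub hE _ (tau_sub M L U D s X i)))
  · exact subset_rfl

theorem tau_mono_i {M : Matroid (Fin k)} (hE : EXPF M) (L : ℕ) (U : ℕ → Finset (Fin k))
    (D : Finset (Fin k)) (s : ℕ) (X : Finset (Fin k)) {i i' : ℕ} (h : i ≤ i') :
    tau M L U D s X i ⊆ tau M L U D s X i' := by
  induction h with
  | refl => exact subset_rfl
  | step _ ih => exact ih.trans (tau_step hE L U D s X _)

theorem Nm_eq (M : Matroid (Fin k)) (L : ℕ) (U : ℕ → Finset (Fin k)) (D T0 : Finset (Fin k))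
    {i : ℕ} (hi : i ≤ L) (t : ℕ) :
    Nstep M (D ∩ U (L - i)) (L - i) (St M L U D (Cg D T0) i) t = Nm M L U D T0 (L - i) t := by
  unfold Nm
  rw [show L - (L - i) = i by omega]

/-- B10 -/
theorem safe1_79 (M : Matroid (Fin k)) (hE : EXPF M) (hC : CHAIN M) (hN : NCHAIN M)
    (hX : EXB k) : SAFE1 M := by
  intro L U D j b e hP hj hjL hb
  have hLo := loct79 M hN
  obtain ⟨hb1, hb2⟩ := mem_Icc.mp hb
  have htt0 : (0 : ℝ) ≤ tt := by unfold tt; positivity
  have htt1 : tt < 1 / 2 := by unfold tt; norm_num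
  have hEx := (hX tt htt0 (by linarith)).2.2.1
  have hStE : ∀ C i t, St M L U D C i t ⊆ M.E := fun C i t => by
    rw [← (hC L U D C).1 i t]; exact M.closure_subset_ground _
  have huniq : ∀ {y m m'}, y ∈ U m → y ∈ U m' → m = m' := by
    intro y m m' h1 h2
    by_contra hne
    exact (disjoint_left.mp (hP.2 m m' hne) h1) h2
  let rkf : Fin k → ℕ := fun y => if h : ∃ m, y ∈ U m then h.choose else 0
  have hrk : ∀ {y m}, y ∈ U m → rkf y = m := by
    intro y m h
    have h' : ∃ m, y ∈ U m := ⟨m, h⟩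
    simp only [rkf, dif_pos h']
    exact huniq h'.choose_spec h
  let fresh : Finset (Fin k) → Fin k → Prop := fun T y =>
    ∃ m, y ∈ U m ∧ 3 * m + 2 ≤ b ∧ y ∉ Nm M L U D T m (b - 1)
  let tj : Finset (Fin k) → Set (Fin k) := fun X =>
    Exp M (D ∩ U j) (tau M L U D (b - 2) X (L - j))
  let A : Finset (Fin k) → Finset (Fin k) → Prop := fun T X =>
    (e ∈ (T \ D) ∩ U j ∧ e ∈ Nm M L U D T j b) → e ∈ M.closure (tj X ∪ ↑(X0 M L U D T j b e))
  have hnp : ∀ T y, y ∈ U j → y ∉ pool M L U D T j b := by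
    intro T y hy h
    obtain ⟨m, h1, _, h3, _⟩ := mem_pool.mp h
    have := huniq hy h3
    omega
  have key := star_Ex tt htt0 htt1 (fun T => pool M L U D T j b)
    (by
      intro T T' h
      ext y
      simp only [mem_pool]
      refine exists_congr fun m => and_congr_right fun h1 => and_congr_right fun h2 => ?_
      rw [hLo L U D T T' j b hP hj hjL h m b (by omega) h2 le_rfl])
    A
    (by
      intro T T' h X
      have e1 := hLo L U D T T' j b hP hj hjL h j b le_rfl hjL le_rfl
      have e2 : (T' \ D) ∩ U j = (T \ D) ∩ U j := by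
        ext y
        simp only [mem_inter, mem_sdiff]
        by_cases hy : y ∈ U j
        · rw [h y (hnp T y hy)]
        · simp [hy]
      simp only [A, X0, e1, e2])
    (by
      intro T X Y hXY hA hG
      refine M.closure_subset_closure (Set.union_subset_union_left _ ?_) (hA hG)
      exact (hE _ _ (tau_sub M L U D _ X _)).2.2.2.1 _ (tau_mono hE L U D _ hXY _)
        (tau_sub M L U D _ Y _))
    rkf fresh
    (by
      intro T T' y hy h1 h2
      obtain ⟨m, hm1, hm2, hm3, -⟩ := mem_pool.mp hy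
      have e1 : Nm M L U D T' m (b - 1) = Nm M L U D T m (b - 1) := by
        unfold Nm
        rw [St_congr M L U D (Cg D T') (Cg D T) (L - m)]
        intro i' hi'
        ext z
        simp only [mem_inter, mem_Cg]
        by_cases hz : z ∈ U (L - i')
        · by_cases hzp : z ∈ pool M L U D T j b
          · rw [h2 z hzp (by rw [hrk hm3, hrk hz]; omega)]
          · rw [h1 z hzp]
        · simp [hz]
      simp only [fresh]
      constructor
      · rintro ⟨m', h3, h4, h5⟩
        obtain rfl := huniq hm3 h3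
        exact ⟨m, h3, h4, e1 ▸ h5⟩
      · rintro ⟨m', h3, h4, h5⟩
        obtain rfl := huniq hm3 h3
        exact ⟨m, h3, h4, e1.symm ▸ h5⟩)
  -- deterministic facts
  have hNj : ∀ T t, 3 * j ≤ t → Nm M L U D T j t =
      Exp M (D ∩ U j) (St M L U D (Cg D T) (L - j) t) := by
    intro T t ht
    unfold Nm Nstep
    rw [if_pos ht]
  have hlow : ∀ T i, i ≤ L - j → St M L U D (Cg D T) i (b - 2) ⊆
      tau M L U D (b - 2) ((pool M L U D T j b).filter (fun y => y ∈ T ↔ fresh T y)) i := by
    intro T i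
    induction i with
    | zero => intro _; exact subset_rfl
    | succ i ih =>
      intro hi
      have ih' := ih (by omega)
      show Sstep M _ _ _ _ _ ⊆ _
      unfold Sstep tau
      split_ifs with h3
      · refine M.closure_subset_closure (Set.union_subset_union ?_ ?_)
        · unfold Nstep
          rw [if_pos h3]
          exact (hE _ _ (hStE _ _ _)).2.2.2.1 _ ih' (tau_sub M L U D _ _ _)
        · rw [Nm_eq M L U D T (by omega), show b - 2 + 1 = b - 1 by omega]
          rintro y ⟨hy1, hy2⟩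
          rw [mem_coe, mem_inter, mem_Cg] at hy1
          rw [mem_coe, mem_inter, mem_filter]
          refine ⟨⟨mem_pool.mpr ⟨L - i, by omega, by omega, hy1.2, hy1.1.1, ?_⟩, ?_⟩, hy1.2⟩
          · exact (hN L U D T (L - i) (by omega) (by omega)).2.1 _ _ (by omega) hy2
          · refine iff_of_false hy1.1.2 ?_
            rintro ⟨m', h4, _, h6⟩
            obtain rfl := huniq hy1.2 h4
            exact h6 hy2
      · exact ih'
  have hlowN : ∀ T, Nm M L U D T j (b - 2) ⊆
      tj ((pool M L U D T j b).filter (fun y => y ∈ T ↔ fresh T y)) := by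
    intro T
    rw [hNj T _ (by omega)]
    exact (hE _ _ (hStE _ _ _)).2.2.2.1 _ (hlow T _ le_rfl) (tau_sub M L U D _ _ _)
  have hThi : ∀ T, (↑(Thi M L U D T j b) : Set (Fin k)) ⊆
      tj ((pool M L U D T j b).filter (fun y => y ∈ T ↔ fresh T y)) := by
    intro T y hy
    rw [mem_coe] at hy
    unfold Thi Tband at hy
    simp only [mem_biUnion, mem_filter, mem_Icc, mem_inter, mem_sdiff] at hy
    obtain ⟨m, ⟨⟨h1, h2⟩, h3⟩, ⟨⟨h4, h5⟩, h6⟩, h7, h8⟩ := hy
    refine sub_Exp hE _ (tau_sub M L U D _ _ _)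
      (tau_mono_i hE L U D _ _ (show L - m + 1 ≤ L - j by omega) ?_)
    unfold tau
    rw [show L - (L - m) = m by omega, if_pos (by omega)]
    refine M.mem_closure_of_mem' (Or.inr ?_) (hP.1 m h6)
    rw [mem_coe, mem_inter, mem_filter]
    exact ⟨⟨mem_pool.mpr ⟨m, h1, h2, h6, h5, h7⟩, iff_of_true h4 ⟨m, h6, h3, h8⟩⟩, h6⟩
  have hup : ∀ T i, i ≤ L - j →
      tau M L U D (b - 2) (pool M L U D T j b \ T) i ⊆ St M L U D (Cg D T) i (b - 1) := by
    intro T i
    induction i with
    | zero => intro _; exact (hC L U D (Cg D T)).2.1 0 (b - 2) (b - 1) (by omega)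
    | succ i ih =>
      intro hi
      have ih' := ih (by omega)
      unfold tau
      split_ifs with h3
      · show _ ⊆ Sstep M _ _ _ _ _
        unfold Sstep
        rw [if_pos (by omega)]
        refine M.closure_subset_closure (Set.union_subset_union ?_ ?_)
        · unfold Nstep
          rw [if_pos (by omega)]
          exact (hE _ _ (tau_sub M L U D _ _ _)).2.2.2.1 _ ih' (hStE _ _ _)
        · rw [Nm_eq M L U D T (by omega), show b - 1 + 1 = b by omega]
          intro y hy
          rw [mem_coe, mem_inter, mem_sdiff] at hy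
          obtain ⟨⟨hy1, hy2⟩, hy3⟩ := hy
          obtain ⟨m, -, -, h6, h7, h8⟩ := mem_pool.mp hy1
          obtain rfl := huniq hy3 h6
          refine ⟨?_, h8⟩
          rw [mem_coe, mem_inter, mem_Cg]
          exact ⟨⟨h7, hy2⟩, hy3⟩
      · exact ih'.trans ((hC L U D (Cg D T)).2.2.1 i (i + 1) _ (by omega))
  have hupN : ∀ T, tj (pool M L U D T j b \ T) ⊆ Nm M L U D T j (b - 1) := by
    intro T
    rw [hNj T _ (by omega)]
    exact (hE _ _ (tau_sub M L U D _ _ _)).2.2.2.1 _ (hup T _ le_rfl) (hStE _ _ _)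
  refine le_trans (hEx _ _ fun T => ?_) (key.trans (mul_le_mul_of_nonneg_left (hEx _ _ fun T => ?_)
    (div_nonneg htt0 (by linarith))))
  · unfold ind
    by_cases hH : Harm M L U D T j b e
    · rw [if_pos hH, if_pos]
      obtain ⟨h1, h2, h3, h4⟩ := hH
      refine ⟨fun _ => M.closure_subset_closure (Set.union_subset_union_left _
        (Set.union_subset (hlowN T) (hThi T))) h3, fun hA => h4 ?_⟩
      exact M.closure_subset_closure (Set.union_subset_union_left _ (hupN T)) (hA ⟨h1, h2⟩)
    · rw [if_neg hH]; split_ifs <;> norm_num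
  · unfold ind
    by_cases hA : A T ((pool M L U D T j b).filter (fun y => y ∈ T ↔ fresh T y))
    · rw [if_neg (not_not.mpr hA)]; split_ifs <;> norm_num
    · rw [if_pos hA, if_pos]
      simp only [A, Classical.not_imp] at hA
      obtain ⟨⟨h1, h2⟩, h3⟩ := hA
      rw [mem_inter, mem_sdiff] at h1
      refine ⟨h1.1.1, h1.2, h2, fun h4 => h3 ?_⟩
      exact M.mem_closure_of_mem' (Or.inl (hlowN T h4)) (hP.1 j h1.2)

end Crest.Agent.R305.S79
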