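import Crest.Agent.R305.Comp73
import Crest.Agent.R305.Union73
import Crest.Agent.R305.Safe79

set_option autoImplicit false
open Finset Classical

namespace Crest.Agent.R305.S79

variable {k : ℕ}

theorem a79_Ex_sum {β : Type*} (p : ℝ) (s : Finset β) (f : β → Finset (Fin k) → ℝ) :
    Ex p (fun T => ∑ i ∈ s, f i T) = ∑ i ∈ s, Ex p (f i) := by
  unfold Ex
  simp only [Finset.mul_sum]
  exact Finset.sum_comm

theorem a79_Ex_add (p : ℝ) (f g : Finset (Fin k) → ℝ) :
    Ex p (fun T => f T + g T) = Ex p f + Ex p g := by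
  unfold Ex
  simp only [mul_add, Finset.sum_add_distrib]

theorem a79_Ex_mul (p c : ℝ) (f : Finset (Fin k) → ℝ) :
    Ex p (fun T => c * f T) = c * Ex p f := by
  unfold Ex
  rw [Finset.mul_sum]
  exact Finset.sum_congr rfl fun _ _ => by ring

theorem a79_thin (hX : EXB k) (t γ : ℝ) (ht0 : 0 ≤ t) (ht1 : t ≤ 1) (hγ : 0 ≤ γ)
    (A : Finset (Fin k)) (sp : Finset (Fin k) → Fin k → Prop)
    (hmono : ∀ X Y e, X ⊆ Y → sp X e → sp Y e)
    (hsp : ∀ X, X ⊆ A → ((A.filter (sp X)).card : ℝ) ≤ γ * X.card) :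
    Ex t (fun T => ((A.filter (fun e => e ∈ T ∧ sp (A.erase e ∩ T) e)).card : ℝ)) ≤
      γ * t ^ 2 * A.card := by
  obtain ⟨-, -, hm, hfac, hcard⟩ := hX t ht0 ht1
  have e1 : (fun T => ((A.filter (fun e => e ∈ T ∧ sp (A.erase e ∩ T) e)).card : ℝ)) =
      fun T => ∑ e ∈ A, (if e ∈ T then (if sp (A.erase e ∩ T) e then (1:ℝ) else 0) else 0) := by
    funext T
    rw [Finset.card_filter]
    push_cast
    refine Finset.sum_congr rfl fun e _ => ?_
    by_cases h1 : e ∈ T <;> by_cases h2 : sp (A.erase e ∩ T) e <;> simp [h1, h2]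
  rw [e1, a79_Ex_sum]
  have e2 : ∀ e ∈ A, Ex t (fun T => if e ∈ T then (if sp (A.erase e ∩ T) e then (1:ℝ) else 0) else 0)
      ≤ t * Ex t (fun T => if sp (A ∩ T) e then (1:ℝ) else 0) := by
    intro e _
    rw [hfac e (fun T => if sp (A.erase e ∩ T) e then (1:ℝ) else 0)]
    · refine mul_le_mul_of_nonneg_left (hm _ _ fun T => ?_) ht0
      by_cases h : sp (A.erase e ∩ T) e
      · rw [if_pos h, if_pos (hmono _ _ e (inter_subset_inter_right (erase_subset _ _)) h)]
      · rw [if_neg h]; split_ifs <;> norm_num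
    · intro T
      have : A.erase e ∩ insert e T = A.erase e ∩ T.erase e := by
        ext x
        simp only [mem_inter, mem_erase, mem_insert]
        tauto
      simp only [this]
  refine (Finset.sum_le_sum e2).trans ?_
  rw [← Finset.mul_sum, ← a79_Ex_sum]
  have e3 : Ex t (fun T => ∑ e ∈ A, if sp (A ∩ T) e then (1:ℝ) else 0) ≤
      Ex t (fun T => γ * ((T ∩ A).card : ℝ)) := by
    refine hm _ _ fun T => ?_
    have := hsp (A ∩ T) inter_subset_left
    rw [Finset.card_filter] at this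
    push_cast at this
    rwa [inter_comm T A]
  rw [a79_Ex_mul, hcard] at e3
  calc _ ≤ t * (γ * (t * A.card)) := mul_le_mul_of_nonneg_left e3 ht0
    _ = _ := by ring

theorem a79_coloops {M : Matroid (Fin k)} (hR : RANK M) (N : Set (Fin k)) (G : Finset (Fin k))
    (hG : ∀ e ∈ G, e ∈ M.E ∧ e ∉ M.closure (N ∪ ↑(G.erase e))) :
    rk M N + G.card ≤ rk M (N ∪ ↑G) := by
  induction G using Finset.induction_on with
  | empty => simp
  | insert e G he ih =>
    have h1 := hG e (mem_insert_self _ _)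
    rw [erase_insert he] at h1
    have h2 := hR.2.2.2.1 _ e h1.1 h1.2
    have h3 := ih fun x hx => ⟨(hG x (mem_insert_of_mem hx)).1, fun h =>
      (hG x (mem_insert_of_mem hx)).2 (M.closure_subset_closure (Set.union_subset_union_right _
        (coe_subset.mpr (erase_subset_erase _ (subset_insert _ _)))) h)⟩
    rw [card_insert_of_notMem he, coe_insert, Set.union_insert, h2]
    omega

/-- the band of `U` between two sets -/
noncomputable def band (U : Finset (Fin k)) (N N' : Set (Fin k)) : Finset (Fin k) :=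
  U.filter (fun y => y ∈ N' ∧ y ∉ N)

theorem exists_dense (M : Matroid (Fin k)) (U : Finset (Fin k)) (N N' : Set (Fin k)) :
    ∃ Z, Z ⊆ band U N N' ∧ ∀ Z', Z' ⊆ band U N N' →
      (Z'.card : ℝ) - 4 * kap * rk M (N ∪ ↑Z') ≤ Z.card - 4 * kap * rk M (N ∪ ↑Z) := by
  obtain ⟨Z, hZ, h⟩ := Finset.exists_max_image (band U N N').powerset
    (fun Z' : Finset (Fin k) => (Z'.card : ℝ) - 4 * kap * rk M (N ∪ ↑Z')) ⟨∅, by simp⟩
  exact ⟨Z, mem_powerset.mp hZ, fun Z' hZ' => h Z' (mem_powerset.mpr hZ')⟩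

/-- the dense part of a band -/
noncomputable def dz (M : Matroid (Fin k)) (U : Finset (Fin k)) (N N' : Set (Fin k)) :
    Finset (Fin k) := (exists_dense M U N N').choose

theorem dz_sub (M : Matroid (Fin k)) (U : Finset (Fin k)) (N N' : Set (Fin k)) :
    dz M U N N' ⊆ band U N N' := (exists_dense M U N N').choose_spec.1

theorem dz_max (M : Matroid (Fin k)) (U : Finset (Fin k)) (N N' : Set (Fin k)) (Z' : Finset (Fin k))
    (h : Z' ⊆ band U N N') : (Z'.card : ℝ) - 4 * kap * rk M (N ∪ ↑Z') ≤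
      (dz M U N N').card - 4 * kap * rk M (N ∪ ↑(dz M U N N')) :=
  (exists_dense M U N N').choose_spec.2 Z' h

theorem dz_sparse {M : Matroid (Fin k)} (hR : RANK M) (U : Finset (Fin k)) (N N' : Set (Fin k))
    (X : Finset (Fin k)) :
    (((band U N N' \ dz M U N N').filter
      (fun e => e ∈ M.closure (N ∪ ↑(dz M U N N') ∪ ↑X))).card : ℝ) ≤ 4 * kap * X.card := by
  set Z := dz M U N N' with hZ
  set W := (band U N N' \ Z).filter (fun e => e ∈ M.closure (N ∪ ↑Z ∪ ↑X)) with hW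
  have h1 := dz_max M U N N' (Z ∪ W) (union_subset (dz_sub M U N N')
    ((filter_subset _ _).trans sdiff_subset))
  have hd : Disjoint Z W := by
    rw [disjoint_right]
    intro x hx
    exact (mem_sdiff.mp (mem_filter.mp hx).1).2
  rw [card_union_of_disjoint hd] at h1
  have h2 : rk M (N ∪ ↑(Z ∪ W)) ≤ rk M (N ∪ ↑Z) + X.card := by
    have a1 := hR.2.2.2.2.2.1 (N ∪ ↑Z) X
    have a2 := hR.2.1 (N ∪ ↑Z ∪ ↑X) (M.closure (N ∪ ↑Z ∪ ↑X))
    have a3 := hR.2.2.1 (N ∪ ↑Z ∪ ↑X)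
    have a4 : rk M (N ∪ ↑(Z ∪ W)) ≤ rk M (N ∪ ↑Z ∪ ↑X ∪ M.closure (N ∪ ↑Z ∪ ↑X)) := by
      refine hR.1 _ _ ?_
      rintro x (hx | hx)
      · exact Or.inl (Or.inl (Or.inl hx))
      · rw [mem_coe, mem_union] at hx
        rcases hx with hx | hx
        · exact Or.inl (Or.inl (Or.inr hx))
        · exact Or.inr (mem_filter.mp hx).2
    have a5 : rk M (M.closure (N ∪ ↑Z ∪ ↑X)) ≤
        rk M ((N ∪ ↑Z ∪ ↑X) ∩ M.closure (N ∪ ↑Z ∪ ↑X)) := by
      rw [← hR.2.2.1 ((N ∪ ↑Z ∪ ↑X) ∩ M.closure (N ∪ ↑Z ∪ ↑X))]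
      refine hR.1 _ _ ?_
      conv_lhs => rw [← M.closure_inter_ground]
      refine M.closure_subset_closure ?_
      rintro x ⟨hx1, hx2⟩
      exact ⟨hx1, M.mem_closure_of_mem' hx1 hx2⟩
    omega
  have h3 : (rk M (N ∪ ↑(Z ∪ W)) : ℝ) ≤ rk M (N ∪ ↑Z) + X.card := by exact_mod_cast h2
  have hk : (0:ℝ) ≤ 4 * kap := by positivity
  rw [Nat.cast_add, ← hZ] at h1
  nlinarith [mul_le_mul_of_nonneg_left h3 hk]

theorem dz_poor {M : Matroid (Fin k)} (hE : EXPF M) (U D : Finset (Fin k))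
    (hU : (U : Set (Fin k)) ⊆ M.E) {S : Set (Fin k)} (hS : S ⊆ M.E) (N' : Set (Fin k)) :
    4 * ((dz M U (Exp M (D ∩ U) S) N').filter (fun i => i ∈ D)).card ≤
      (dz M U (Exp M (D ∩ U) S) N').card := by
  set N := Exp M (D ∩ U) S with hN
  set Z := dz M U N N' with hZ
  have hZb : ∀ x ∈ Z, x ∈ U ∧ x ∉ N := fun x hx => by
    have := mem_filter.mp (dz_sub M U N N' hx)
    exact ⟨this.1, this.2.2⟩
  have h1 := dz_max M U N N' ∅ (empty_subset _)
  simp only [card_empty, coe_empty, Set.union_empty, Nat.cast_zero] at h1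
  obtain ⟨h2, h3, h4⟩ := (hE (D ∩ U) S hS).1
  have h5 := h4 (N ∪ ↑Z) (h2.trans Set.subset_union_left)
    (Set.union_subset h3 fun x hx => hU (hZb x hx).1)
  unfold fval at h5
  have h6 : ((D ∩ U).filter (fun e => e ∈ N ∪ ↑Z)).card =
      ((D ∩ U).filter (fun e => e ∈ N)).card + (Z.filter (fun i => i ∈ D)).card := by
    rw [← card_union_of_disjoint]
    · congr 1
      ext x
      simp only [mem_filter, mem_inter, Set.mem_union, mem_coe, mem_union]
      constructor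
      · rintro ⟨⟨a, b⟩, c | c⟩
        · exact Or.inl ⟨⟨a, b⟩, c⟩
        · exact Or.inr ⟨c, a⟩
      · rintro (⟨⟨a, b⟩, c⟩ | ⟨c, a⟩)
        · exact ⟨⟨a, b⟩, Or.inl c⟩
        · exact ⟨⟨a, (hZb x c).1⟩, Or.inr c⟩
    · rw [disjoint_left]
      intro x hx hx'
      exact (hZb x (mem_filter.mp hx').1).2 (mem_filter.mp hx).2
  rw [← hN] at h5
  have h7 : (((D ∩ U).filter (fun e => e ∈ N ∪ ↑Z)).card : ℤ) =
      ((D ∩ U).filter (fun e => e ∈ N)).card + (Z.filter (fun i => i ∈ D)).card := by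
    exact_mod_cast h6
  have h8 : ((Z.filter (fun i => i ∈ D)).card : ℤ) ≤ kap * rk M (N ∪ ↑Z) - kap * rk M N := by
    have h5' : (((D ∩ U).filter (fun e => e ∈ N ∪ ↑Z)).card : ℤ) - kap * rk M (N ∪ ↑Z) ≤
        ((D ∩ U).filter (fun e => e ∈ N)).card - kap * rk M N := by convert h5
    linarith
  have h9 : ((Z.filter (fun i => i ∈ D)).card : ℝ) ≤ kap * rk M (N ∪ ↑Z) - kap * rk M N := by
    exact_mod_cast h8
  have : (4 * ((Z.filter (fun i => i ∈ D)).card : ℝ)) ≤ Z.card := by linarith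
  exact_mod_cast this

theorem null_split {M : Matroid (Fin k)} (hR : RANK M) (U D T : Finset (Fin k))
    (hU : (U : Set (Fin k)) ⊆ M.E) (N N' : Set (Fin k)) (Z : Finset (Fin k)) :
    ((((T \ D) ∩ U).filter (fun y => y ∈ N' ∧ y ∉ N)).card : ℝ) -
      ((rk M (N ∪ ↑(((T \ D) ∩ U).filter (fun y => y ∈ N' ∧ y ∉ N))) : ℝ) - rk M N) ≤
    ((T ∩ Z).card : ℝ) + (((band U N N' \ Z).filter (fun e => e ∈ T ∧
      e ∈ M.closure (N ∪ ↑Z ∪ ↑((band U N N' \ Z).erase e ∩ T)))).card : ℝ) := by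
  set T' := ((T \ D) ∩ U).filter (fun y => y ∈ N' ∧ y ∉ N) with hT'
  set A := band U N N' \ Z with hA
  set G := T'.filter (fun e => e ∉ Z ∧ e ∉ M.closure (N ∪ ↑Z ∪ ↑(A.erase e ∩ T))) with hG
  have hT'm : ∀ x ∈ T', x ∈ T ∧ x ∈ band U N N' := fun x hx => by
    simp only [hT', mem_filter, mem_inter, mem_sdiff] at hx
    exact ⟨hx.1.1.1, mem_filter.mpr ⟨hx.1.2, hx.2⟩⟩
  have h1 := a79_coloops hR N G (fun e he => by
    obtain ⟨a, b, c⟩ := mem_filter.mp he
    refine ⟨hU (mem_filter.mp (hT'm e a).2).1, fun h => c (M.closure_subset_closure ?_ h)⟩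
    rintro x (hx | hx)
    · exact Or.inl (Or.inl hx)
    · rw [mem_coe, mem_erase] at hx
      obtain ⟨a', b', -⟩ := mem_filter.mp hx.2
      refine Or.inr ?_
      rw [mem_coe, mem_inter, mem_erase]
      exact ⟨⟨hx.1, mem_sdiff.mpr ⟨(hT'm x a').2, b'⟩⟩, (hT'm x a').1⟩)
  have h2 : rk M (N ∪ ↑G) ≤ rk M (N ∪ ↑T') :=
    hR.1 _ _ (Set.union_subset_union_right _ (coe_subset.mpr (filter_subset _ _)))
  have h3 : T'.card ≤ (T ∩ Z).card + (A.filter (fun e => e ∈ T ∧
      e ∈ M.closure (N ∪ ↑Z ∪ ↑(A.erase e ∩ T)))).card + G.card := by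
    refine le_trans (card_le_card (?_ : T' ⊆ (T ∩ Z) ∪ (A.filter (fun e => e ∈ T ∧
      e ∈ M.closure (N ∪ ↑Z ∪ ↑(A.erase e ∩ T)))) ∪ G)) ?_
    · intro x hx
      by_cases hz : x ∈ Z
      · exact mem_union_left _ (mem_union_left _ (mem_inter.mpr ⟨(hT'm x hx).1, hz⟩))
      · by_cases hc : x ∈ M.closure (N ∪ ↑Z ∪ ↑(A.erase x ∩ T))
        · exact mem_union_left _ (mem_union_right _ (mem_filter.mpr
            ⟨mem_sdiff.mpr ⟨(hT'm x hx).2, hz⟩, (hT'm x hx).1, hc⟩))
        · exact mem_union_right _ (mem_filter.mpr ⟨hx, hz, hc⟩)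
    · exact (card_union_le _ _).trans (Nat.add_le_add_right (card_union_le _ _) _)
  have h4 : T'.card + rk M N ≤ rk M (N ∪ ↑T') + ((T ∩ Z).card + (A.filter (fun e => e ∈ T ∧
      e ∈ M.closure (N ∪ ↑Z ∪ ↑(A.erase e ∩ T)))).card) := by omega
  have h5 : (T'.card : ℝ) + rk M N ≤ rk M (N ∪ ↑T') + ((T ∩ Z).card + (A.filter (fun e => e ∈ T ∧
      e ∈ M.closure (N ∪ ↑Z ∪ ↑(A.erase e ∩ T)))).card) := by exact_mod_cast h4
  linarith

/-- B12 from the compression lemma -/
theorem alpha79 (M : Matroid (Fin k)) (hX : EXB k) (hR : RANK M) (hE : EXPF M)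
    (hc : COMPRESS73 M) : ALPHA M := by
  intro U S n hU hS hmono
  obtain ⟨b, m, hb0, hm0, hb, hm, hdet⟩ := hc U S n hU hS hmono
  have htt0 : (0 : ℝ) ≤ tt := by unfold tt; positivity
  have htt1 : tt ≤ 1 := by unfold tt; norm_num
  let N : Finset (Fin k) → ℕ → Set (Fin k) := fun D t => Exp M (D ∩ U) (S t)
  let Z : Finset (Fin k) → ℕ → Finset (Fin k) := fun D t => dz M U (N D t) (N D (t + 1))
  let Y : Finset (Fin k) → Finset (Fin k) := fun D => (range n).biUnion (Z D)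
  have hNm : ∀ D t t', t ≤ t' → N D t ⊆ N D t' := fun D t t' h =>
    (hE _ _ (hS t)).2.2.2.1 _ (hmono t t' h) (hS t')
  have hdis : ∀ D (F : ℕ → Finset (Fin k)), (∀ t, F t ⊆ band U (N D t) (N D (t + 1))) →
      ((range n).biUnion F).card = ∑ t ∈ range n, (F t).card := by
    intro D F hF
    refine card_biUnion ?_
    intro t _ t' _ hne
    rw [Function.onFun, disjoint_left]
    intro x hx hx'
    have a := (mem_filter.mp (hF t hx)).2
    have a' := (mem_filter.mp (hF t' hx')).2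
    rcases lt_or_gt_of_ne hne with h | h
    · exact a'.2 (hNm D _ _ h a.1)
    · exact a.2 (hNm D _ _ h a'.1)
  have hY : ∀ D, (Y D).card = ∑ t ∈ range n, (Z D t).card := fun D =>
    hdis D _ fun t => dz_sub M U _ _
  have hk4 : (0:ℝ) ≤ 4 * kap := by positivity
  have inner : ∀ D, Ex tt (fun T0 => ∑ t ∈ Finset.range n,
      (((((T0 \ D) ∩ U).filter (fun y => y ∈ Exp M (D ∩ U) (S (t + 1)) ∧
          y ∉ Exp M (D ∩ U) (S t))).card : ℝ) -
        ((rk M (Exp M (D ∩ U) (S t) ∪ ↑(((T0 \ D) ∩ U).filter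
          (fun y => y ∈ Exp M (D ∩ U) (S (t + 1)) ∧ y ∉ Exp M (D ∩ U) (S t)))) : ℝ) -
          rk M (Exp M (D ∩ U) (S t))))) ≤ tt * (Y D).card + 4 * kap * tt ^ 2 * U.card := by
    intro D
    rw [a79_Ex_sum]
    have hA : (∑ t ∈ range n, (band U (N D t) (N D (t + 1)) \ Z D t).card) ≤ U.card := by
      rw [← hdis D _ fun t => sdiff_subset]
      refine card_le_card (biUnion_subset.mpr fun t _ => sdiff_subset.trans (filter_subset _ _))
    have hA' : (∑ t ∈ range n, ((band U (N D t) (N D (t + 1)) \ Z D t).card : ℝ)) ≤ U.card := by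
      exact_mod_cast hA
    calc _ ≤ ∑ t ∈ range n, (tt * (Z D t).card +
          4 * kap * tt ^ 2 * (band U (N D t) (N D (t + 1)) \ Z D t).card) := by
          refine Finset.sum_le_sum fun t _ => ?_
          refine le_trans ((hX tt htt0 htt1).2.2.1 _ _ fun T =>
            null_split hR U D T hU (N D t) (N D (t + 1)) (Z D t)) ?_
          rw [a79_Ex_add, (hX tt htt0 htt1).2.2.2.2]
          refine add_le_add le_rfl ?_
          exact a79_thin hX tt (4 * kap) htt0 htt1 hk4 _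
            (fun X e => e ∈ M.closure (N D t ∪ ↑(Z D t) ∪ ↑X))
            (fun X X' e h he => M.closure_subset_closure
              (Set.union_subset_union_right _ (coe_subset.mpr h)) he)
            (fun X _ => dz_sparse hR U _ _ X)
      _ ≤ _ := by
          rw [Finset.sum_add_distrib, ← Finset.mul_sum, ← Finset.mul_sum, hY]
          push_cast
          exact add_le_add le_rfl (mul_le_mul_of_nonneg_left hA' (by positivity))
  have h12 : (0:ℝ) ≤ 1 / 2 ∧ (1 / 2 : ℝ) ≤ 1 := by norm_num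
  refine le_trans ((hX _ h12.1 h12.2).2.2.1 _ _ inner) ?_
  rw [a79_Ex_add, a79_Ex_mul]
  have hconst : Ex (k := k) (1 / 2) (fun _ => 4 * kap * tt ^ 2 * (U.card : ℝ)) =
      4 * kap * tt ^ 2 * U.card := by
    unfold Ex
    rw [← Finset.sum_mul, (hX _ h12.1 h12.2).2.1, one_mul]
  rw [hconst]
  set φ : (Fin k → Bool) → Finset (Fin k) := fun w => univ.filter (fun i => w i = true) with hφ
  have hkap : (kap : ℝ) = 2 ^ 20 := by unfold kap; norm_num
  have key := U73.exp_card_of_code U (kap : ℝ) (by rw [hkap]; norm_num) (fun w => Y (φ w))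
    (fun w => b (φ w)) (fun w => m (φ w)) (fun w => hb0 _) (fun w => hm0 _)
    (fun w => by exact_mod_cast hb _) (fun w => by exact_mod_cast hm _)
    (by
      intro w w' h1 h2
      have h := hdet _ _ h1 h2
      refine biUnion_congr rfl fun t ht => ?_
      have ht' := mem_range.mp ht
      simp only [Z, N]
      rw [h t (by omega), h (t + 1) (by omega)])
    (by
      intro w
      rw [hY]
      have e1 : (Y (φ w)).filter (fun i => w i = true) =
          (range n).biUnion (fun t => (Z (φ w) t).filter (fun i => i ∈ φ w)) := by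
        ext x
        simp only [Y, mem_filter, mem_biUnion, hφ, mem_univ, true_and]
        constructor
        · rintro ⟨⟨t, a, b⟩, c⟩; exact ⟨t, a, b, c⟩
        · rintro ⟨t, a, b, c⟩; exact ⟨⟨t, a, b⟩, c⟩
      rw [e1]
      refine le_trans (Nat.mul_le_mul_left _ card_biUnion_le) ?_
      rw [Finset.mul_sum]
      exact Finset.sum_le_sum fun t _ => dz_poor hE U _ hU (hS t) _)
  have hEY : Ex (1 / 2) (fun D => ((Y D).card : ℝ)) ≤
      18 * ((U.card / (kap : ℝ)) * (Real.log kap + 2)) := by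
    rw [Ex_eq_bool]
    exact key
  have hlog : Real.log kap ≤ 14 := by
    rw [hkap, Real.log_pow]
    have := Real.log_two_lt_d9
    push_cast
    linarith
  have hUc : (0:ℝ) ≤ U.card := Nat.cast_nonneg _
  have h18 : 18 * ((U.card / (kap : ℝ)) * (Real.log kap + 2)) ≤ U.card / 32 := by
    have : (U.card / (kap : ℝ)) * (Real.log kap + 2) ≤ (U.card / (kap : ℝ)) * 16 :=
      mul_le_mul_of_nonneg_left (by linarith) (by positivity)
    rw [hkap] at this ⊢
    nlinarith
  have h4 : 4 * (kap : ℝ) * tt ≤ 1 / 32 := by rw [hkap]; unfold tt; norm_num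
  have h5 := mul_le_mul_of_nonneg_left (hEY.trans h18) htt0
  have h6 := mul_le_mul_of_nonneg_right h4 (mul_nonneg htt0 hUc)
  nlinarith

end Crest.Agent.R305.S79
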