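import Mathlib

set_option autoImplicit false
open Finset

namespace Crest.Agent.R305.P9

variable {ι : Type*} [Fintype ι] [DecidableEq ι]

/-- product weight of a Boolean vector -/
noncomputable def pw (τ : ℝ) (s : ι → Bool) : ℝ := ∏ i, (if s i then τ else 1 - τ)

/-- expectation over an iid Boolean vector -/
noncomputable def Ex (τ : ℝ) (f : (ι → Bool) → ℝ) : ℝ := ∑ s, pw τ s * f s

theorem pw_nonneg {τ : ℝ} (h0 : 0 ≤ τ) (h1 : τ ≤ 1) (s : ι → Bool) : 0 ≤ pw τ s := by
  unfold pw
  refine Finset.prod_nonneg fun i _ => ?_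
  split_ifs
  · exact h0
  · linarith

theorem sum_pw (τ : ℝ) : ∑ s : ι → Bool, pw τ s = 1 := by
  unfold pw
  have := Finset.prod_univ_sum (fun _ : ι => (Finset.univ : Finset Bool))
    (fun _ (b : Bool) => if b then τ else 1 - τ)
  rw [Fintype.piFinset_univ] at this
  rw [← this]
  simp

theorem Ex_const (τ c : ℝ) : Ex τ (fun _ : ι → Bool => c) = c := by
  unfold Ex; rw [← Finset.sum_mul, sum_pw, one_mul]

theorem Ex_zero (τ : ℝ) : Ex τ (fun _ : ι → Bool => 0) = 0 := Ex_const τ 0

theorem Ex_congr {τ : ℝ} {f g : (ι → Bool) → ℝ} (h : ∀ s, f s = g s) : Ex τ f = Ex τ g := by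
  unfold Ex; exact Finset.sum_congr rfl fun s _ => by rw [h s]

theorem Ex_add (τ : ℝ) (f g : (ι → Bool) → ℝ) :
    Ex τ (fun s => f s + g s) = Ex τ f + Ex τ g := by
  unfold Ex; rw [← Finset.sum_add_distrib]; exact Finset.sum_congr rfl fun s _ => by ring

theorem Ex_sub (τ : ℝ) (f g : (ι → Bool) → ℝ) :
    Ex τ (fun s => f s - g s) = Ex τ f - Ex τ g := by
  unfold Ex; rw [← Finset.sum_sub_distrib]; exact Finset.sum_congr rfl fun s _ => by ring

theorem Ex_mul_left (τ c : ℝ) (f : (ι → Bool) → ℝ) :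
    Ex τ (fun s => c * f s) = c * Ex τ f := by
  unfold Ex; rw [Finset.mul_sum]; exact Finset.sum_congr rfl fun s _ => by ring

theorem Ex_mul_right (τ c : ℝ) (f : (ι → Bool) → ℝ) :
    Ex τ (fun s => f s * c) = Ex τ f * c := by
  unfold Ex; rw [Finset.sum_mul]; exact Finset.sum_congr rfl fun s _ => by ring

theorem Ex_sum {κ : Type*} (τ : ℝ) (A : Finset κ) (f : κ → (ι → Bool) → ℝ) :
    Ex τ (fun s => ∑ a ∈ A, f a s) = ∑ a ∈ A, Ex τ (f a) := by
  unfold Ex
  rw [Finset.sum_comm]
  exact Finset.sum_congr rfl fun s _ => by rw [Finset.mul_sum]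

theorem Ex_mono {τ : ℝ} (h0 : 0 ≤ τ) (h1 : τ ≤ 1) {f g : (ι → Bool) → ℝ}
    (h : ∀ s, f s ≤ g s) : Ex τ f ≤ Ex τ g := by
  unfold Ex
  exact Finset.sum_le_sum fun s _ => mul_le_mul_of_nonneg_left (h s) (pw_nonneg h0 h1 s)

theorem Ex_nonneg {τ : ℝ} (h0 : 0 ≤ τ) (h1 : τ ≤ 1) {f : (ι → Bool) → ℝ}
    (h : ∀ s, 0 ≤ f s) : 0 ≤ Ex τ f := by
  have := Ex_mono h0 h1 (f := fun _ => 0) (g := f) h
  rwa [Ex_const] at this

theorem Ex_le_const {τ c : ℝ} (h0 : 0 ≤ τ) (h1 : τ ≤ 1) {f : (ι → Bool) → ℝ}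
    (h : ∀ s, f s ≤ c) : Ex τ f ≤ c := by
  have := Ex_mono h0 h1 (f := f) (g := fun _ => c) h
  rwa [Ex_const] at this

/-- Fubini -/
theorem Ex_comm {ι' : Type*} [Fintype ι'] [DecidableEq ι'] (τ σ : ℝ)
    (F : (ι → Bool) → (ι' → Bool) → ℝ) :
    Ex τ (fun s => Ex σ (fun s' => F s s')) = Ex σ (fun s' => Ex τ (fun s => F s s')) := by
  unfold Ex
  simp only [Finset.mul_sum]
  rw [Finset.sum_comm]
  exact Finset.sum_congr rfl fun s _ => Finset.sum_congr rfl fun s' _ => by ring

theorem pw_piecewise_mul (τ : ℝ) (Q : Finset ι) (s s' : ι → Bool) :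
    pw τ (Q.piecewise s' s) * pw τ (Q.piecewise s s') = pw τ s * pw τ s' := by
  unfold pw
  rw [← Finset.prod_mul_distrib, ← Finset.prod_mul_distrib]
  refine Finset.prod_congr rfl fun i _ => ?_
  by_cases hi : i ∈ Q
  · rw [Finset.piecewise_eq_of_mem _ _ _ hi, Finset.piecewise_eq_of_mem _ _ _ hi, mul_comm]
  · rw [Finset.piecewise_eq_of_notMem _ _ _ hi, Finset.piecewise_eq_of_notMem _ _ _ hi]

/-- two-variable form of the swap involution on a stopping set -/
theorem swap_two (τ : ℝ) (Q : (ι → Bool) → Finset ι)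
    (hQ : ∀ s s' : ι → Bool, (∀ i, i ∉ Q s → s i = s' i) → Q s' = Q s)
    (F : (ι → Bool) → (ι → Bool) → ℝ) :
    Ex τ (fun s => Ex τ (fun s' => F s s')) =
      Ex τ (fun s => Ex τ (fun s' => F ((Q s).piecewise s' s) ((Q s).piecewise s s'))) := by
  unfold Ex
  simp only [Finset.mul_sum]
  rw [← Finset.sum_product', ← Finset.sum_product']
  let φ : (ι → Bool) × (ι → Bool) → (ι → Bool) × (ι → Bool) :=
    fun p => ((Q p.1).piecewise p.2 p.1, (Q p.1).piecewise p.1 p.2)
  have hQφ : ∀ p, Q (φ p).1 = Q p.1 := fun p =>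
    hQ p.1 _ fun i hi => by simp [φ, Finset.piecewise_eq_of_notMem _ _ _ hi]
  have hinv : Function.Involutive φ := by
    intro p
    have h1 := hQφ p
    refine Prod.ext ?_ ?_
    · funext i
      show ((Q (φ p).1).piecewise (φ p).2 (φ p).1) i = p.1 i
      rw [h1]
      by_cases hi : i ∈ Q p.1
      · simp [φ, Finset.piecewise_eq_of_mem _ _ _ hi]
      · simp [φ, Finset.piecewise_eq_of_notMem _ _ _ hi]
    · funext i
      show ((Q (φ p).1).piecewise (φ p).1 (φ p).2) i = p.2 i
      rw [h1]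
      by_cases hi : i ∈ Q p.1
      · simp [φ, Finset.piecewise_eq_of_mem _ _ _ hi]
      · simp [φ, Finset.piecewise_eq_of_notMem _ _ _ hi]
  rw [Finset.univ_product_univ]
  rw [← Equiv.sum_comp hinv.toPerm]
  refine Finset.sum_congr rfl fun p _ => ?_
  have := pw_piecewise_mul τ (Q p.1) p.1 p.2
  show pw τ ((Q p.1).piecewise p.2 p.1) * (pw τ ((Q p.1).piecewise p.1 p.2) *
    F ((Q p.1).piecewise p.2 p.1) ((Q p.1).piecewise p.1 p.2)) = _
  rw [← mul_assoc, this, mul_assoc]

/-- RESAMPLE on a stopping set -/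
theorem resample (τ : ℝ) (Q : (ι → Bool) → Finset ι)
    (hQ : ∀ s s' : ι → Bool, (∀ i, i ∉ Q s → s i = s' i) → Q s' = Q s)
    (f : (ι → Bool) → ℝ) :
    Ex τ f = Ex τ (fun s => Ex τ (fun s' => f ((Q s).piecewise s' s))) := by
  rw [← swap_two τ Q hQ (fun s _ => f s)]
  exact Ex_congr fun s => (Ex_const τ _).symm

/-- conditional comparison on a stopping set -/
theorem Ex_le_of_resample {τ : ℝ} (h0 : 0 ≤ τ) (h1 : τ ≤ 1) (Q : (ι → Bool) → Finset ι)
    (hQ : ∀ s s' : ι → Bool, (∀ i, i ∉ Q s → s i = s' i) → Q s' = Q s)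
    (f g : (ι → Bool) → ℝ)
    (h : ∀ s, Ex τ (fun s' => f ((Q s).piecewise s' s)) ≤
      Ex τ (fun s' => g ((Q s).piecewise s' s))) :
    Ex τ f ≤ Ex τ g := by
  rw [resample τ Q hQ f, resample τ Q hQ g]
  exact Ex_mono h0 h1 h

theorem pw_update (τ : ℝ) (s : ι → Bool) (e : ι) (b : Bool) :
    pw τ (Function.update s e b) =
      (if b then τ else 1 - τ) * ∏ i ∈ Finset.univ.erase e, (if s i then τ else 1 - τ) := by
  unfold pw
  rw [← Finset.mul_prod_erase _ _ (Finset.mem_univ e)]
  congr 1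
  · simp
  · refine Finset.prod_congr rfl fun i hi => ?_
    rw [Function.update_of_ne (Finset.ne_of_mem_erase hi)]

/-- single-coordinate flip lemma -/
theorem flip (τ : ℝ) (e : ι) (F : (ι → Bool) → ℝ) :
    Ex τ F = τ * Ex τ (fun s => F (Function.update s e true)) +
      (1 - τ) * Ex τ (fun s => F (Function.update s e false)) := by
  rw [resample τ (fun _ => {e}) (fun _ _ _ => rfl) F, ← Ex_mul_left, ← Ex_mul_left, ← Ex_add]
  refine Ex_congr fun s => ?_
  have h1 : ∀ s' : ι → Bool, F (({e} : Finset ι).piecewise s' s) =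
      (if s' e then 1 else 0) * F (Function.update s e true) +
      (1 - (if s' e then 1 else 0)) * F (Function.update s e false) := by
    intro s'
    rw [Finset.piecewise_singleton]
    cases s' e <;> simp
  have h2 : Ex τ (fun s' : ι → Bool => (if s' e then (1 : ℝ) else 0)) = τ := by
    unfold Ex pw
    have := Finset.prod_univ_sum (fun _ : ι => (Finset.univ : Finset Bool))
      (fun i (b : Bool) => (if b then τ else 1 - τ) * (if i = e then (if b then 1 else 0) else 1))
    rw [Fintype.piFinset_univ] at this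
    have h3 : ∀ s' : ι → Bool, (∏ i, (if s' i then τ else 1 - τ)) * (if s' e then (1 : ℝ) else 0) =
        ∏ i, (if s' i then τ else 1 - τ) * (if i = e then (if s' i then 1 else 0) else 1) := by
      intro s'
      rw [Finset.prod_mul_distrib, Finset.prod_ite_eq']
      simp
    rw [Finset.sum_congr rfl fun s' _ => h3 s', ← this]
    rw [← Finset.mul_prod_erase _ _ (Finset.mem_univ e)]
    rw [Finset.prod_eq_one]
    · simp
    · intro i hi
      simp [Finset.ne_of_mem_erase hi]
  rw [Ex_congr h1, Ex_add, Ex_mul_right, Ex_mul_right, Ex_sub, Ex_const, h2]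

/-- factor lemma: `F` does not depend on coordinate `e` -/
theorem factor_true (τ : ℝ) (e : ι) (F : (ι → Bool) → ℝ)
    (hF : ∀ s b, F (Function.update s e b) = F s) :
    Ex τ (fun s => if s e then F s else 0) = τ * Ex τ F := by
  rw [flip τ e]
  simp [hF, Ex_zero]

theorem factor_false (τ : ℝ) (e : ι) (F : (ι → Bool) → ℝ)
    (hF : ∀ s b, F (Function.update s e b) = F s) :
    Ex τ (fun s => if s e then 0 else F s) = (1 - τ) * Ex τ F := by
  rw [flip τ e]
  simp [hF, Ex_zero]

theorem Ex_ind_true (τ : ℝ) (e : ι) :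
    Ex τ (fun s : ι → Bool => if s e then (1 : ℝ) else 0) = τ := by
  rw [factor_true τ e (fun _ => 1) (fun _ _ => rfl), Ex_const, mul_one]

theorem Ex_sum_filter_true (τ : ℝ) (A : Finset ι) (x : ι → ℝ) :
    Ex τ (fun s : ι → Bool => ∑ e ∈ A.filter (fun e => s e = true), x e) = τ * ∑ e ∈ A, x e := by
  simp only [Finset.sum_filter]
  rw [Ex_sum, Finset.mul_sum]
  refine Finset.sum_congr rfl fun e _ => ?_
  rw [factor_true τ e (fun _ => x e) (fun _ _ => rfl), Ex_const]

theorem Ex_sum_filter_false (τ : ℝ) (A : Finset ι) (x : ι → ℝ) :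
    Ex τ (fun s : ι → Bool => ∑ e ∈ A.filter (fun e => s e = false), x e) =
      (1 - τ) * ∑ e ∈ A, x e := by
  simp only [Finset.sum_filter]
  rw [Ex_sum, Finset.mul_sum]
  refine Finset.sum_congr rfl fun e _ => ?_
  have : (fun s : ι → Bool => if s e = false then x e else 0) =
      fun s => if s e then 0 else x e := by
    funext s; cases s e <;> simp
  rw [this, factor_false τ e (fun _ => x e) (fun _ _ => rfl), Ex_const]

theorem Ex_card_filter_true (τ : ℝ) (A : Finset ι) :
    Ex τ (fun s : ι → Bool => ((A.filter (fun e => s e = true)).card : ℝ)) = τ * A.card := by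
  have := Ex_sum_filter_true τ A (fun _ => 1)
  simpa using this

theorem Ex_card_filter_false (τ : ℝ) (A : Finset ι) :
    Ex τ (fun s : ι → Bool => ((A.filter (fun e => s e = false)).card : ℝ)) =
      (1 - τ) * A.card := by
  have := Ex_sum_filter_false τ A (fun _ => 1)
  simpa using this

/-- THINNING: `sp X e` ("e is spanned by X") is monotone in `X`, `A` is `γ`-sparse. -/
theorem thin {τ γ : ℝ} (h0 : 0 ≤ τ) (h1 : τ ≤ 1) (A : Finset ι)
    (sp : Finset ι → ι → Prop) [∀ X e, Decidable (sp X e)]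
    (hmono : ∀ X Y e, X ⊆ Y → sp X e → sp Y e)
    (hsparse : ∀ X, X ⊆ A → ((A.filter (sp X)).card : ℝ) ≤ γ * X.card) :
    Ex τ (fun s : ι → Bool => ((A.filter (fun e => s e = true ∧
        sp ((A.filter (fun f => s f = true)).erase e) e)).card : ℝ)) ≤ γ * τ ^ 2 * A.card := by
  have h2 : ∀ s : ι → Bool, ((A.filter (fun e => s e = true ∧
        sp ((A.filter (fun f => s f = true)).erase e) e)).card : ℝ) =
      ∑ e ∈ A, (if s e then
        (if sp ((A.filter (fun f => s f = true)).erase e) e then (1 : ℝ) else 0) else 0) := by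
    intro s
    rw [Finset.card_filter]
    push_cast
    refine Finset.sum_congr rfl fun e _ => ?_
    by_cases h : s e = true <;> simp [h]
  rw [Ex_congr h2, Ex_sum]
  have h3 : ∀ e ∈ A, Ex τ (fun s : ι → Bool => if s e then
        (if sp ((A.filter (fun f => s f = true)).erase e) e then (1 : ℝ) else 0) else 0) ≤
      τ * Ex τ (fun s : ι → Bool =>
        if sp (A.filter (fun f => s f = true)) e then (1 : ℝ) else 0) := by
    intro e _
    rw [factor_true τ e]
    · refine mul_le_mul_of_nonneg_left (Ex_mono h0 h1 fun s => ?_) h0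
      by_cases h : sp ((A.filter (fun f => s f = true)).erase e) e
      · rw [if_pos h, if_pos (hmono _ _ _ (Finset.erase_subset _ _) h)]
      · rw [if_neg h]; split_ifs <;> norm_num
    · intro s b
      have : (A.filter (fun f => Function.update s e b f = true)).erase e =
          (A.filter (fun f => s f = true)).erase e := by
        ext f
        by_cases hf : f = e
        · simp [hf]
        · simp [hf, Function.update_of_ne hf]
      rw [this]
  refine (Finset.sum_le_sum h3).trans ?_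
  rw [← Finset.mul_sum, ← Ex_sum]
  have h4 : Ex τ (fun s : ι → Bool => ∑ e ∈ A,
      if sp (A.filter (fun f => s f = true)) e then (1 : ℝ) else 0) ≤
      Ex τ (fun s : ι → Bool => γ * ((A.filter (fun f => s f = true)).card : ℝ)) := by
    refine Ex_mono h0 h1 fun s => ?_
    have := hsparse (A.filter (fun f => s f = true)) (Finset.filter_subset _ _)
    rw [Finset.card_filter] at this
    push_cast at this
    exact this
  rw [Ex_mul_left, Ex_card_filter_true] at h4
  calc τ * _ ≤ τ * (γ * (τ * A.card)) := mul_le_mul_of_nonneg_left h4 h0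
    _ = γ * τ ^ 2 * A.card := by ring

/-- exponential moment of a count: `E z^{#(A ∩ s)} = (1 - τ + τ z)^{|A|}` -/
theorem Ex_pow_card (τ z : ℝ) (A : Finset ι) :
    Ex τ (fun s : ι → Bool => z ^ (A.filter (fun e => s e = true)).card) =
      (1 - τ + τ * z) ^ A.card := by
  unfold Ex pw
  have := Finset.prod_univ_sum (fun _ : ι => (Finset.univ : Finset Bool))
    (fun i (b : Bool) => (if b then τ else 1 - τ) * (if i ∈ A then (if b then z else 1) else 1))
  rw [Fintype.piFinset_univ] at this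
  have h3 : ∀ s : ι → Bool, (∏ i, (if s i then τ else 1 - τ)) *
      z ^ (A.filter (fun e => s e = true)).card =
      ∏ i, (if s i then τ else 1 - τ) * (if i ∈ A then (if s i then z else 1) else 1) := by
    intro s
    rw [Finset.prod_mul_distrib]
    congr 1
    rw [Finset.prod_ite_mem, Finset.univ_inter, Finset.prod_ite, Finset.prod_const,
      Finset.prod_const_one, mul_one]
  rw [Finset.sum_congr rfl fun s _ => h3 s, ← this]
  have h4 : ∀ i : ι, ∑ b : Bool, (if b then τ else 1 - τ) *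
      (if i ∈ A then (if b then z else 1) else 1) = if i ∈ A then 1 - τ + τ * z else 1 := by
    intro i
    by_cases hi : i ∈ A <;> simp [hi] <;> ring
  rw [Finset.prod_congr rfl fun i _ => h4 i, Finset.prod_ite_mem, Finset.univ_inter,
    Finset.prod_const]

end Crest.Agent.R305.P9
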