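import Mathlib
import Crest.Prelude.Def_SampleRule

/-! Row 305, design RG (notes 1916, 1930): definitions and block statements. -/

set_option autoImplicit false

open Classical

namespace Crest.Agent.R305

variable {k : ℕ}

/-- natural-number rank -/
noncomputable def rk (M : Matroid (Fin k)) (X : Set (Fin k)) : ℕ := (M.eRk X).toNat

/-- product Bernoulli weight of a subset -/
noncomputable def bern (p : ℝ) (A : Finset (Fin k)) : ℝ := ∏ e, if e ∈ A then p else 1 - p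

/-- expectation over a `p`-random subset of `Fin k` -/
noncomputable def Ex (p : ℝ) (f : Finset (Fin k) → ℝ) : ℝ := ∑ A : Finset (Fin k), bern p A * f A

noncomputable def kap : ℕ := 2 ^ 20
noncomputable def tt : ℝ := (2 : ℝ)⁻¹ ^ 60
noncomputable def BB : ℕ := 2 ^ 70

/-- density objective `|D ∩ Q| - kap * r(Q)` -/
noncomputable def fval (M : Matroid (Fin k)) (D : Finset (Fin k)) (Q : Set (Fin k)) : ℤ :=
  ((D.filter (fun e => e ∈ Q)).card : ℤ) - (kap : ℤ) * (rk M Q : ℤ)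

def IsMax (M : Matroid (Fin k)) (D : Finset (Fin k)) (S Q : Set (Fin k)) : Prop :=
  S ⊆ Q ∧ Q ⊆ M.E ∧ ∀ Q', S ⊆ Q' → Q' ⊆ M.E → fval M D Q' ≤ fval M D Q

/-- the maximal maximiser above `S` -/
def Exp (M : Matroid (Fin k)) (D : Finset (Fin k)) (S : Set (Fin k)) : Set (Fin k) :=
  ⋃₀ {Q | IsMax M D S Q}

/-- initial path -/
def S0 (M : Matroid (Fin k)) (L t : ℕ) : Set (Fin k) :=
  if t < 3 * L + 3 then M.closure ∅ else M.E

def Nstep (M : Matroid (Fin k)) (Dm : Finset (Fin k)) (m : ℕ) (S : ℕ → Set (Fin k)) (t : ℕ) :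
    Set (Fin k) :=
  if 3 * m ≤ t then Exp M Dm (S t) else S t

def Sstep (M : Matroid (Fin k)) (Dm Cm : Finset (Fin k)) (m : ℕ) (S : ℕ → Set (Fin k)) (t : ℕ) :
    Set (Fin k) :=
  if 3 * m ≤ t then M.closure (Nstep M Dm m S t ∪ ((Cm : Set (Fin k)) ∩ Nstep M Dm m S (t + 1)))
  else S t

/-- path after `i` rounds (classes `L, L-1, ..., L+1-i`); `D` = density sample, `C` = guards -/
def St (M : Matroid (Fin k)) (L : ℕ) (U : ℕ → Finset (Fin k)) (D C : Finset (Fin k)) :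
    ℕ → ℕ → Set (Fin k)
  | 0 => S0 M L
  | i + 1 => Sstep M (D ∩ U (L - i)) (C ∩ U (L - i)) (L - i) (St M L U D C i)

/-- guards: neither `D` nor `T0` -/
def Cg (D T0 : Finset (Fin k)) : Finset (Fin k) := (D ∪ T0)ᶜ

/-- the `N`-chain of round `m` (`1 ≤ m ≤ L`) -/
def Nm (M : Matroid (Fin k)) (L : ℕ) (U : ℕ → Finset (Fin k)) (D T0 : Finset (Fin k))
    (m t : ℕ) : Set (Fin k) :=
  Nstep M (D ∩ U m) m (St M L U D (Cg D T0) (L - m)) t

/-- the final path -/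
def Ff (M : Matroid (Fin k)) (L : ℕ) (U : ℕ → Finset (Fin k)) (D T0 : Finset (Fin k))
    (t : ℕ) : Set (Fin k) :=
  St M L U D (Cg D T0) L t

/-- listened class-`m` elements born at time `b` -/
noncomputable def Tband (M : Matroid (Fin k)) (L : ℕ) (U : ℕ → Finset (Fin k))
    (D T0 : Finset (Fin k)) (m b : ℕ) : Finset (Fin k) :=
  ((T0 \ D) ∩ U m).filter (fun y => y ∈ Nm M L U D T0 m b ∧ y ∉ Nm M L U D T0 m (b - 1))

/-- eligible listened elements born at `b` with class `> j` (`j = 0`: all of them) -/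
noncomputable def Thi (M : Matroid (Fin k)) (L : ℕ) (U : ℕ → Finset (Fin k))
    (D T0 : Finset (Fin k)) (j b : ℕ) : Finset (Fin k) :=
  ((Finset.Icc (j + 1) L).filter (fun m => 3 * m + 2 ≤ b)).biUnion (fun m => Tband M L U D T0 m b)

/-- acceptable sets -/
def Jc (M : Matroid (Fin k)) (L : ℕ) (U : ℕ → Finset (Fin k)) (D T0 : Finset (Fin k))
    (ep : Fin 3) (A : Finset (Fin k)) : Prop :=
  (∀ y ∈ A, ∃ b, b ≤ 3 * L + 3 ∧ b % 3 = ep.val ∧ y ∈ Thi M L U D T0 0 b) ∧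
  ∀ b, rk M (Ff M L U D T0 (b - 3) ∪ ↑(A ∩ Thi M L U D T0 0 b)) =
    rk M (Ff M L U D T0 (b - 3)) + (A ∩ Thi M L U D T0 0 b).card

/-- pools: pairwise disjoint subsets of the ground set -/
def Pools (M : Matroid (Fin k)) (U : ℕ → Finset (Fin k)) : Prop :=
  (∀ m, (U m : Set (Fin k)) ⊆ M.E) ∧ ∀ m m', m ≠ m' → Disjoint (U m) (U m')

/-- birth times that count for class `j` -/
def times (L j : ℕ) : Finset ℕ := Finset.Icc (3 * j + 2) (3 * L + 3)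

noncomputable def gain (M : Matroid (Fin k)) (L : ℕ) (U : ℕ → Finset (Fin k))
    (D T0 : Finset (Fin k)) (j b : ℕ) : ℝ :=
  (rk M (Nm M L U D T0 j (b - 2) ∪ ↑(Thi M L U D T0 j b) ∪ ↑(Tband M L U D T0 j b)) : ℝ) -
    rk M (Nm M L U D T0 j (b - 2) ∪ ↑(Thi M L U D T0 j b))

noncomputable def null (M : Matroid (Fin k)) (L : ℕ) (U : ℕ → Finset (Fin k))
    (D T0 : Finset (Fin k)) (j b : ℕ) : ℝ :=
  ((Tband M L U D T0 j b).card : ℝ) -
    ((rk M (Nm M L U D T0 j (b - 1) ∪ ↑(Tband M L U D T0 j b)) : ℝ) - rk M (Nm M L U D T0 j (b - 1)))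

/-- earlier own-class listened elements inside `N_b` -/
noncomputable def X0 (M : Matroid (Fin k)) (L : ℕ) (U : ℕ → Finset (Fin k))
    (D T0 : Finset (Fin k)) (j b : ℕ) (e : Fin k) : Finset (Fin k) :=
  ((T0 \ D) ∩ U j).filter (fun f => f < e ∧ f ∈ Nm M L U D T0 j b)

def Harm (M : Matroid (Fin k)) (L : ℕ) (U : ℕ → Finset (Fin k))
    (D T0 : Finset (Fin k)) (j b : ℕ) (e : Fin k) : Prop :=
  e ∈ (T0 \ D) ∩ U j ∧ e ∈ Nm M L U D T0 j b ∧
  e ∈ M.closure (Nm M L U D T0 j (b - 2) ∪ ↑(Thi M L U D T0 j b) ∪ ↑(X0 M L U D T0 j b e)) ∧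
  e ∉ M.closure (Nm M L U D T0 j (b - 1) ∪ ↑(X0 M L U D T0 j b e))

noncomputable def harm (M : Matroid (Fin k)) (L : ℕ) (U : ℕ → Finset (Fin k))
    (D T0 : Finset (Fin k)) (j b : ℕ) : ℝ :=
  ((Finset.univ.filter (fun e => Harm M L U D T0 j b e)).card : ℝ)

/-! ### classes, pools from `H`, greedy basis -/

noncomputable def wt (B L m : ℕ) : ℝ := if 1 ≤ m ∧ m ≤ L then (B : ℝ)⁻¹ ^ m else 0

/-- strict priority order: smaller class first, then index -/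
def prec (c : Fin k → ℕ) (f e : Fin k) : Prop := c f < c e ∨ (c f = c e ∧ f < e)

/-- elements of `A` in the window that precede `e` -/
def before (L : ℕ) (c : Fin k → ℕ) (A : Finset (Fin k)) (e : Fin k) : Set (Fin k) :=
  {f | f ∈ A ∧ 1 ≤ c f ∧ c f ≤ L ∧ prec c f e}

/-- greedy basis of `A` inside the window -/
noncomputable def greedy (M : Matroid (Fin k)) (L : ℕ) (c : Fin k → ℕ) (A : Finset (Fin k)) :
    Finset (Fin k) :=
  A.filter (fun e => e ∈ M.E ∧ 1 ≤ c e ∧ c e ≤ L ∧ e ∉ M.closure (before L c A e))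

noncomputable def UH (M : Matroid (Fin k)) (L : ℕ) (c : Fin k → ℕ) (H : Finset (Fin k)) (m : ℕ) :
    Finset (Fin k) :=
  Finset.univ.filter (fun e => e ∉ H ∧ e ∈ M.E ∧ c e = m ∧ 1 ≤ m ∧ m ≤ L ∧
    e ∉ M.closure (before L c H e))

abbrev Seed (k : ℕ) := Finset (Fin k) × Finset (Fin k) × Finset (Fin k) × Fin 3

/-- seed `(H, D, T0, ep)` -/
noncomputable def pS (l : Seed k) : ℝ := bern (1 / 2) l.1 * bern (1 / 2) l.2.1 * bern tt l.2.2.1 / 3

def TS (l : Seed k) : Finset (Fin k) := l.2.2.1 \ (l.1 ∪ l.2.1)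

def JS (M : Matroid (Fin k)) (L : ℕ) (l : Seed k) (c : Fin k → ℕ) (A : Finset (Fin k)) : Prop :=
  Jc M L (UH M L c l.1) l.2.1 l.2.2.1 l.2.2.2 A

/-! ### block statements -/

/-- B1 -/
def RANK (M : Matroid (Fin k)) : Prop :=
  (∀ X Y : Set (Fin k), X ⊆ Y → rk M X ≤ rk M Y) ∧
  (∀ X Y : Set (Fin k), rk M (X ∪ Y) + rk M (X ∩ Y) ≤ rk M X + rk M Y) ∧
  (∀ X : Set (Fin k), rk M (M.closure X) = rk M X) ∧
  (∀ (X : Set (Fin k)) (e : Fin k), e ∈ M.E → e ∉ M.closure X → rk M (insert e X) = rk M X + 1) ∧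
  (∀ (X : Set (Fin k)) (e : Fin k), e ∈ M.closure X → rk M (insert e X) = rk M X) ∧
  (∀ (X : Set (Fin k)) (A : Finset (Fin k)), rk M (X ∪ ↑A) ≤ rk M X + A.card) ∧
  (∀ A : Finset (Fin k), M.Indep (A : Set (Fin k)) ↔ rk M (A : Set (Fin k)) = A.card) ∧
  rk M (∅ : Set (Fin k)) = 0 ∧
  (∀ X Y : Set (Fin k), X ⊆ Y → Y ⊆ M.E → rk M Y ≤ rk M X → Y ⊆ M.closure X)

/-- B2 -/
def EXPF (M : Matroid (Fin k)) : Prop :=
  ∀ (D : Finset (Fin k)) (S : Set (Fin k)), S ⊆ M.E →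
    IsMax M D S (Exp M D S) ∧ M.closure (Exp M D S) = Exp M D S ∧
    Exp M D S ⊆ M.closure (S ∪ ↑D) ∧
    (∀ S', S ⊆ S' → S' ⊆ M.E → Exp M D S ⊆ Exp M D S') ∧
    (∀ Q, Exp M D S ⊆ Q → Q ⊆ M.E → Q ≠ Exp M D S → fval M D Q < fval M D (Exp M D S))

/-- B3 -/
def CHAIN (M : Matroid (Fin k)) : Prop :=
  ∀ (L : ℕ) (U : ℕ → Finset (Fin k)) (D C : Finset (Fin k)),
    (∀ i t, M.closure (St M L U D C i t) = St M L U D C i t) ∧
    (∀ i t t', t ≤ t' → St M L U D C i t ⊆ St M L U D C i t') ∧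
    (∀ i i' t, i ≤ i' → St M L U D C i t ⊆ St M L U D C i' t) ∧
    (∀ i t, 3 * L + 3 ≤ t → St M L U D C i t = M.E) ∧
    (∀ j t, j ≤ L → t < 3 * j + 3 → St M L U D C (L - j) t = M.closure ∅) ∧
    (∀ j t, 1 ≤ j → j ≤ L → St M L U D C L t ⊆
      M.closure (St M L U D C (L - j + 1) t ∪ ↑((Finset.Ico 1 j).biUnion U)))

/-- B3' -/
def NCHAIN (M : Matroid (Fin k)) : Prop :=
  ∀ (L : ℕ) (U : ℕ → Finset (Fin k)) (D T0 : Finset (Fin k)) (m : ℕ), 1 ≤ m → m ≤ L →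
    (∀ t, M.closure (Nm M L U D T0 m t) = Nm M L U D T0 m t) ∧
    (∀ t t', t ≤ t' → Nm M L U D T0 m t ⊆ Nm M L U D T0 m t') ∧
    (∀ t, St M L U D (Cg D T0) (L - m) t ⊆ Nm M L U D T0 m t) ∧
    (∀ t, Nm M L U D T0 m t ⊆ St M L U D (Cg D T0) (L - m + 1) t) ∧
    (∀ t, St M L U D (Cg D T0) (L - m + 1) t ⊆ Nm M L U D T0 m (t + 1)) ∧
    (∀ t, 3 * L + 3 ≤ t → Nm M L U D T0 m t = M.E) ∧
    Nm M L U D T0 m (3 * m + 1) = Exp M (D ∩ U m) (M.closure ∅)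

/-- B4: the shell conditions -/
def SHELL (M : Matroid (Fin k)) : Prop :=
  (∀ l : Seed k, 0 ≤ pS l) ∧ (∑ l : Seed k, pS l = 1) ∧
  (∀ L l c, JS M L l c ∅) ∧
  (∀ L l c c' A, (∀ e, e ∉ TS l ∨ e ∈ A → c e = c' e) → JS M L l c A → JS M L l c' A) ∧
  (∀ L l c A A', A' ⊆ A → JS M L l c A → JS M L l c A') ∧
  (∀ L l c A, JS M L l c A → A ⊆ TS l)

/-- B5 -/
def INDEP (M : Matroid (Fin k)) : Prop :=
  ∀ L U D T0 ep A, Pools M U → Jc M L U D T0 ep A → M.Indep (A : Set (Fin k))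

/-- B6: a maximal acceptable set is large in every class -/
def COUNT (M : Matroid (Fin k)) : Prop :=
  ∀ L U D T0 ep (A : Finset (Fin k)) (j : ℕ), Pools M U → 1 ≤ j → j ≤ L → Jc M L U D T0 ep A →
    (∀ b e, e ∈ Thi M L U D T0 0 b → e ∉ A → ¬ Jc M L U D T0 ep (insert e A)) →
    ∑ b ∈ (times L j).filter (fun b => b % 3 = ep.val), gain M L U D T0 j b ≤
      ((A ∩ U j).card : ℝ) + (((Finset.Ico 1 j).biUnion U).card : ℝ)

/-- B7 -/
def GAIN (M : Matroid (Fin k)) : Prop :=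
  ∀ L U D T0 (j b : ℕ), Pools M U → 1 ≤ j → j ≤ L → b ∈ times L j →
    ((Tband M L U D T0 j b).card : ℝ) - null M L U D T0 j b - harm M L U D T0 j b ≤
      gain M L U D T0 j b

/-- B8 -/
def BOTTOM (M : Matroid (Fin k)) : Prop :=
  ∀ L U (O : Finset (Fin k)) (j : ℕ), Pools M U → 1 ≤ j → j ≤ L → O ⊆ U j →
    M.Indep (O : Set (Fin k)) →
    tt / 2 * O.card - tt / 64 * (U j).card ≤
      Ex (1 / 2) (fun D => Ex tt (fun T0 => ∑ b ∈ times L j, ((Tband M L U D T0 j b).card : ℝ)))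

/-- B9: lemma (*). Coordinates are exposed along the list `l`; `fresh pre T` decides whether the
element after the prefix `pre` is fresh and reads `T` only on `pre`. `T` = listened labels. -/
def STAR (k : ℕ) : Prop :=
  ∀ (t : ℝ), 0 ≤ t → t < 1 / 2 → ∀ (l : List (Fin k)), l.Nodup →
    ∀ (fresh : Finset (Fin k) → Fin k → Prop),
    (∀ (pre post : List (Fin k)) (y : Fin k), l = pre ++ y :: post → ∀ T T' : Finset (Fin k),
      (∀ z ∈ pre, z ∈ T ↔ z ∈ T') → (fresh T y ↔ fresh T' y)) →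
    ∀ (Up : Finset (Fin k) → Prop), (∀ A A', A ⊆ A' → Up A → Up A') →
    Ex t (fun T => if Up (l.toFinset.filter (fun y => (fresh T y ↔ y ∈ T))) ∧ ¬ Up (l.toFinset \ T)
      then 1 else 0) ≤
    t / (1 - 2 * t) * Ex t (fun T => if ¬ Up (l.toFinset.filter (fun y => (fresh T y ↔ y ∈ T)))
      then 1 else 0)

/-- B10: one time, one victim -/
def SAFE1 (M : Matroid (Fin k)) : Prop :=
  ∀ L U D (j b : ℕ) (e : Fin k), Pools M U → 1 ≤ j → j ≤ L → b ∈ times L j →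
    Ex tt (fun T0 => if Harm M L U D T0 j b e then 1 else 0) ≤
      tt / (1 - 2 * tt) * Ex tt (fun T0 => if e ∈ T0 ∧ e ∈ U j ∧ e ∈ Nm M L U D T0 j b ∧
        e ∉ Nm M L U D T0 j (b - 2) then 1 else 0)

/-- B11 -/
def SAFE (M : Matroid (Fin k)) : Prop :=
  ∀ L U D (j : ℕ), Pools M U → 1 ≤ j → j ≤ L →
    Ex tt (fun T0 => ∑ b ∈ times L j, harm M L U D T0 j b) ≤ tt / 64 * (U j).card

/-- B12: (alpha) for a fixed chain -/
def ALPHA (M : Matroid (Fin k)) : Prop :=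
  ∀ (U : Finset (Fin k)) (S : ℕ → Set (Fin k)) (n : ℕ), (U : Set (Fin k)) ⊆ M.E →
    (∀ t, S t ⊆ M.E) → (∀ t t', t ≤ t' → S t ⊆ S t') →
    Ex (1 / 2) (fun D => Ex tt (fun T0 => ∑ t ∈ Finset.range n,
      (((((T0 \ D) ∩ U).filter (fun y => y ∈ Exp M (D ∩ U) (S (t + 1)) ∧
          y ∉ Exp M (D ∩ U) (S t))).card : ℝ) -
        ((rk M (Exp M (D ∩ U) (S t) ∪ ↑(((T0 \ D) ∩ U).filter
          (fun y => y ∈ Exp M (D ∩ U) (S (t + 1)) ∧ y ∉ Exp M (D ∩ U) (S t)))) : ℝ) -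
          rk M (Exp M (D ∩ U) (S t)))))) ≤ tt / 16 * U.card

/-- B13: (alpha) in place -/
def ALPHAS (M : Matroid (Fin k)) : Prop :=
  ∀ L U (j : ℕ), Pools M U → 1 ≤ j → j ≤ L →
    Ex (1 / 2) (fun D => Ex tt (fun T0 => ∑ b ∈ times L j, null M L U D T0 j b)) ≤
      tt / 16 * (U j).card

/-- B14: given the pools -/
def GIVENH (M : Matroid (Fin k)) : Prop :=
  ∀ L U (O : Finset (Fin k)) (j : ℕ) (sel : Finset (Fin k) → Finset (Fin k) → Fin 3 → Finset (Fin k)),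
    Pools M U → 1 ≤ j → j ≤ L → O ⊆ U j → M.Indep (O : Set (Fin k)) →
    (∀ D T0 ep, Jc M L U D T0 ep (sel D T0 ep) ∧ ∀ b e, e ∈ Thi M L U D T0 0 b → e ∉ sel D T0 ep →
      ¬ Jc M L U D T0 ep (insert e (sel D T0 ep))) →
    (tt / 2 * O.card - 3 * tt / 32 * (U j).card) / 3 - (((Finset.Ico 1 j).biUnion U).card : ℝ) ≤
      Ex (1 / 2) (fun D => Ex tt (fun T0 => ∑ ep : Fin 3, ((sel D T0 ep ∩ U j).card : ℝ) / 3))

/-- B15: greedy facts -/
def GREEDY (M : Matroid (Fin k)) : Prop :=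
  ∀ (L : ℕ) (c : Fin k → ℕ),
    (∀ A, M.Indep (greedy M L c A : Set (Fin k))) ∧
    (∀ I : Finset (Fin k), M.Indep (I : Set (Fin k)) →
      ∑ e ∈ I, wt BB L (c e) ≤ ∑ e ∈ greedy M L c Finset.univ, wt BB L (c e)) ∧
    (∀ H, Pools M (UH M L c H)) ∧
    (∀ H e, e ∈ greedy M L c Finset.univ → e ∉ H → e ∈ UH M L c H (c e))

/-- B16: the pools are not heavier than the optimum -/
def POOLW (M : Matroid (Fin k)) : Prop :=
  ∀ (L : ℕ) (c : Fin k → ℕ),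
    Ex (1 / 2) (fun H => ∑ m ∈ Finset.Icc 1 L, wt BB L m * ((UH M L c H m).card : ℝ)) ≤
      ∑ e ∈ greedy M L c Finset.univ, wt BB L (c e)

/-- B17: the finite core -/
def CORE (M : Matroid (Fin k)) : Prop :=
  ∀ (L : ℕ) (c : Fin k → ℕ) (sel : Seed k → Finset (Fin k)) (I : Finset (Fin k)),
    M.Indep (I : Set (Fin k)) →
    (∀ l, sel l ⊆ TS l ∧ JS M L l c (sel l) ∧
      ∀ e ∈ TS l, e ∉ sel l → ¬ JS M L l c (insert e (sel l))) →
    tt / 32 * ∑ e ∈ I, wt BB L (c e) ≤ ∑ l, pS l * ∑ e ∈ sel l, wt BB L (c e)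

/-- B0: calculus of `Ex` -/
def EXB (k : ℕ) : Prop :=
  ∀ p : ℝ, 0 ≤ p → p ≤ 1 →
    (∀ A : Finset (Fin k), 0 ≤ bern p A) ∧ (∑ A : Finset (Fin k), bern p A = 1) ∧
    (∀ f g : Finset (Fin k) → ℝ, (∀ A, f A ≤ g A) → Ex p f ≤ Ex p g) ∧
    (∀ (e : Fin k) (f : Finset (Fin k) → ℝ), (∀ A, f (insert e A) = f (A.erase e)) →
      Ex p (fun A => if e ∈ A then f A else 0) = p * Ex p f) ∧
    (∀ X : Finset (Fin k), Ex p (fun A => ((A ∩ X).card : ℝ)) = p * X.card)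

/-- B18: resampling inside a stopping set -/
def STOP (k : ℕ) : Prop :=
  ∀ (p : ℝ) (Q : Finset (Fin k) → Finset (Fin k)) (f : Finset (Fin k) → ℝ), 0 ≤ p → p ≤ 1 →
    (∀ T T', (∀ y, y ∉ Q T → (y ∈ T ↔ y ∈ T')) → Q T' = Q T) →
    Ex p f = Ex p (fun T => Ex p (fun T' => f ((T \ Q T) ∪ (T' ∩ Q T))))

/-- label-blind pool at time `b` of the classes `> j` -/
noncomputable def pool (M : Matroid (Fin k)) (L : ℕ) (U : ℕ → Finset (Fin k))
    (D T0 : Finset (Fin k)) (j b : ℕ) : Finset (Fin k) :=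
  (Finset.Icc (j + 1) L).biUnion (fun m => (U m \ D).filter (fun y => y ∈ Nm M L U D T0 m b))

/-- B19: times `≥ b` do not see the labels inside the pool -/
def LOCT (M : Matroid (Fin k)) : Prop :=
  ∀ L U D T0 T0' (j b : ℕ), Pools M U → 1 ≤ j → j ≤ L →
    (∀ y, y ∉ pool M L U D T0 j b → (y ∈ T0 ↔ y ∈ T0')) →
    ∀ m t, j ≤ m → m ≤ L → b ≤ t → Nm M L U D T0' m t = Nm M L U D T0 m t

/-- B20: the outer reduction (measure glue), for the concrete RG data -/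
def OUTER.{u} (M : Matroid (Fin k)) : Prop :=
  ∃ (ΩR : Type) (_ : MeasurableSpace ΩR) (μR : MeasureTheory.Measure ΩR)
    (R : Crest.OnlineMatroid.SampleRule ΩR k),
      MeasureTheory.IsProbabilityMeasure μR ∧
      (∀ (r : ΩR) (s v : Fin k → ℝ) (order : List (Fin k)),
        M.Indep (Crest.OnlineMatroid.sAccepted R r s v order : Set (Fin k))) ∧
      ∀ (Ω : Type u) [MeasurableSpace Ω] (P : MeasureTheory.Measure Ω)
        [MeasureTheory.IsProbabilityMeasure P] (S V : Ω → Fin k → ℝ),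
        Measurable S → Measurable V → (∀ ω e, 0 ≤ S ω e ∧ 0 ≤ V ω e) →
        ProbabilityTheory.iIndepFun
          (fun (i : Fin k × Bool) (ω : Ω) => if i.2 = true then S ω i.1 else V ω i.1) P →
        (∀ e, P.map (fun ω => S ω e) = P.map (fun ω => V ω e)) →
        ∫⁻ ω, Crest.OnlineMatroid.optWeight M (V ω) ∂P ≠ ⊤ →
        (2 : ENNReal)⁻¹ ^ 310 * ∫⁻ ω, Crest.OnlineMatroid.optWeight M (V ω) ∂P ≤
          ∫⁻ p, ⨅ σ : Equiv.Perm (Fin k),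
            ENNReal.ofReal (∑ e ∈ Crest.OnlineMatroid.sAccepted R p.1 (S p.2) (V p.2)
              (List.ofFn σ), V p.2 e)
            ∂(μR.prod P)

end Crest.Agent.R305
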