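import Mathlib
import Crest.Agent.R305.RGDefs55
import Crest.Agent.R305.Union73
import Crest.Agent.R305.Prob9

/-! Row 305: ALPHA from the compression statement. -/

set_option autoImplicit false

open Classical

namespace Crest.Agent.R305

variable {k : ℕ}

/-- the chain of maximal maximisers is a function of a short code -/
def COMPRESS (M : Matroid (Fin k)) : Prop :=
  ∀ (U : Finset (Fin k)) (S : ℕ → Set (Fin k)) (n : ℕ), (U : Set (Fin k)) ⊆ M.E →
    (∀ t, S t ⊆ M.E) → (∀ t t', t ≤ t' → S t ⊆ S t') →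
    ∃ (b m : Finset (Fin k) → Fin k → ℕ),
      (∀ D e, e ∉ U → b D e = 0) ∧ (∀ D e, e ∉ U → m D e = 0) ∧
      (∀ D, kap * ∑ e ∈ U, b D e ≤ U.card) ∧ (∀ D, kap * ∑ e ∈ U, m D e ≤ U.card) ∧
      (∀ D D2, b D = b D2 → m D = m D2 → ∀ t, t ≤ n →
        Exp M (D ∩ U) (S t) = Exp M (D2 ∩ U) (S t))

namespace AG51

/-- Bool vectors versus finsets -/
noncomputable def toF (s : Fin k → Bool) : Finset (Fin k) := Finset.univ.filter (fun e => s e = true)

theorem mem_toF (s : Fin k → Bool) (e : Fin k) : e ∈ toF s ↔ s e = true := by simp [toF]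

theorem Ex_eq (p : ℝ) (f : Finset (Fin k) → ℝ) :
    Ex p f = ∑ s : Fin k → Bool, (∏ i, (if s i then p else 1 - p)) * f (toF s) := by
  unfold Ex
  symm
  refine Fintype.sum_bijective toF ⟨?_, ?_⟩ _ _ (fun s => ?_)
  · intro s s' h
    funext e
    have := congrArg (fun A => e ∈ A) h
    simp only [mem_toF, eq_iff_iff] at this
    cases hs : s e <;> cases hs' : s' e <;> simp_all
  · intro A
    exact ⟨fun e => decide (e ∈ A), by ext e; simp [mem_toF]⟩
  · unfold bern
    congr 1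
    refine Finset.prod_congr rfl (fun e _ => ?_)
    by_cases h : s e = true
    · rw [if_pos h, if_pos ((mem_toF s e).2 h)]
    · rw [if_neg h, if_neg (fun h' => h ((mem_toF s e).1 h'))]

noncomputable def gam : ℕ := 2 ^ 22

noncomputable def gv (M : Matroid (Fin k)) (U : Finset (Fin k)) (N Q : Set (Fin k)) : ℤ :=
  ((U.filter (fun e => e ∈ Q ∧ e ∉ N)).card : ℤ) - (gam : ℤ) * (rk M Q : ℤ)

theorem exQ (M : Matroid (Fin k)) (U : Finset (Fin k)) (N N' : Set (Fin k)) :
    ∃ Q, N ⊆ N' → (N ⊆ Q ∧ Q ⊆ N' ∧ ∀ Q', N ⊆ Q' → Q' ⊆ N' → gv M U N Q' ≤ gv M U N Q) := by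
  by_cases h : N ⊆ N'
  · have : Nonempty {Q : Set (Fin k) // N ⊆ Q ∧ Q ⊆ N'} := ⟨⟨N, subset_rfl, h⟩⟩
    obtain ⟨Q, hQ⟩ := Finite.exists_max (fun Q : {Q : Set (Fin k) // N ⊆ Q ∧ Q ⊆ N'} => gv M U N Q.1)
    exact ⟨Q.1, fun _ => ⟨Q.2.1, Q.2.2, fun Q' h1 h2 => hQ ⟨Q', h1, h2⟩⟩⟩
  · exact ⟨N, fun h' => absurd h' h⟩

noncomputable def Qc (M : Matroid (Fin k)) (U : Finset (Fin k)) (N N' : Set (Fin k)) :
    Set (Fin k) := (exQ M U N N').choose

theorem Qc_spec (M : Matroid (Fin k)) (U : Finset (Fin k)) {N N' : Set (Fin k)} (h : N ⊆ N') :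
    N ⊆ Qc M U N N' ∧ Qc M U N N' ⊆ N' ∧
      ∀ Q', N ⊆ Q' → Q' ⊆ N' → gv M U N Q' ≤ gv M U N (Qc M U N N') :=
  (exQ M U N N').choose_spec h

noncomputable def Yl (M : Matroid (Fin k)) (U : Finset (Fin k)) (N N' : Set (Fin k)) :
    Finset (Fin k) := U.filter (fun e => e ∈ Qc M U N N' ∧ e ∉ N)

noncomputable def Al (M : Matroid (Fin k)) (U : Finset (Fin k)) (N N' : Set (Fin k)) :
    Finset (Fin k) := U.filter (fun e => e ∈ N' ∧ e ∉ Qc M U N N')

/-- the dense part is poor in `D` -/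
theorem poor (M : Matroid (Fin k)) (U D : Finset (Fin k)) {S N N' : Set (Fin k)} (h : N ⊆ N')
    (hN' : N' ⊆ M.E) (hmax : IsMax M (D ∩ U) S N) :
    4 * ((Yl M U N N').filter (fun e => e ∈ D)).card ≤ (Yl M U N N').card := by
  obtain ⟨h1, h2, h3⟩ := Qc_spec M U h
  have hA := h3 N subset_rfl h
  have hB := hmax.2.2 (Qc M U N N') (hmax.1.trans h1) (h2.trans hN')
  unfold gv at hA
  unfold fval at hB
  have e0 : (U.filter (fun e => e ∈ N ∧ e ∉ N)).card = 0 := by simp
  have e1 : ((D ∩ U).filter (fun e => e ∈ Qc M U N N')).card =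
      ((D ∩ U).filter (fun e => e ∈ N)).card + ((Yl M U N N').filter (fun e => e ∈ D)).card := by
    rw [← Finset.card_union_of_disjoint]
    · congr 1
      ext e
      simp only [Yl, Finset.mem_filter, Finset.mem_union, Finset.mem_inter]
      have := @h1 e
      tauto
    · rw [Finset.disjoint_left]
      intro e he he'
      simp only [Yl, Finset.mem_filter, Finset.mem_inter] at he he'
      tauto
  rw [e0] at hA
  rw [e1] at hB
  have hg : (gam : ℤ) = 4 * (kap : ℤ) := by unfold gam kap; norm_num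
  rw [hg] at hA
  change _ ≤ ((Yl M U N N').card : ℤ) - _ at hA
  push_cast at hA hB
  zify
  nlinarith

/-- the rest is sparse -/
theorem sparse (M : Matroid (Fin k)) (h1 : RANK M) (U : Finset (Fin k)) {N N' : Set (Fin k)}
    (h : N ⊆ N') (hN' : N' ⊆ M.E) (hcl : M.closure N' = N') (X : Finset (Fin k))
    (hX : X ⊆ Al M U N N') :
    (((Al M U N N').filter (fun e => e ∈ M.closure (Qc M U N N' ∪ ↑X))).card : ℝ) ≤
      (gam : ℝ) * X.card := by
  obtain ⟨q1, q2, q3⟩ := Qc_spec M U h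
  have hXN : (X : Set (Fin k)) ⊆ N' := fun e he => by
    have := hX he
    simp only [Al, Finset.mem_filter] at this
    exact this.2.1
  have hQX : Qc M U N N' ∪ ↑X ⊆ N' := Set.union_subset q2 hXN
  have hsub : Qc M U N N' ⊆ M.closure (Qc M U N N' ∪ ↑X) :=
    Set.subset_union_left.trans (M.subset_closure _ (hQX.trans hN'))
  have hA := q3 (M.closure (Qc M U N N' ∪ ↑X)) (q1.trans hsub)
    ((M.closure_subset_closure hQX).trans hcl.subset)
  unfold gv at hA
  rw [h1.2.2.1] at hA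
  have hr := h1.2.2.2.2.2.1 (Qc M U N N') X
  have e1 : (U.filter (fun e => e ∈ Qc M U N N' ∧ e ∉ N)).card +
      ((Al M U N N').filter (fun e => e ∈ M.closure (Qc M U N N' ∪ ↑X))).card ≤
      (U.filter (fun e => e ∈ M.closure (Qc M U N N' ∪ ↑X) ∧ e ∉ N)).card := by
    rw [← Finset.card_union_of_disjoint]
    · apply Finset.card_le_card
      intro e he
      simp only [Al, Finset.mem_filter, Finset.mem_union] at he ⊢
      have := @q1 e
      have := @hsub e
      tauto
    · rw [Finset.disjoint_left]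
      intro e he he'
      simp only [Al, Finset.mem_filter] at he he'
      tauto
  have hz : (((Al M U N N').filter (fun e => e ∈ M.closure (Qc M U N N' ∪ ↑X))).card : ℤ) ≤
      (gam : ℤ) * X.card := by
    have hr' : (rk M (Qc M U N N' ∪ ↑X) : ℤ) ≤ rk M (Qc M U N N') + X.card := by exact_mod_cast hr
    have e1' : ((U.filter (fun e => e ∈ Qc M U N N' ∧ e ∉ N)).card : ℤ) +
      ((Al M U N N').filter (fun e => e ∈ M.closure (Qc M U N N' ∪ ↑X))).card ≤
      (U.filter (fun e => e ∈ M.closure (Qc M U N N' ∪ ↑X) ∧ e ∉ N)).card := by exact_mod_cast e1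
    have hg : (0 : ℤ) ≤ gam := Int.natCast_nonneg _
    nlinarith
  exact_mod_cast hz

theorem rk_free (M : Matroid (Fin k)) (h1 : RANK M) (N : Set (Fin k)) (G : Finset (Fin k))
    (hE : (G : Set (Fin k)) ⊆ M.E) (hG : ∀ e ∈ G, e ∉ M.closure (N ∪ ↑(G.erase e))) :
    rk M (N ∪ ↑G) = rk M N + G.card := by
  induction G using Finset.induction_on with
  | empty => simp
  | insert a G ha ih =>
    have hih := ih (fun e he => hE (by simp [Finset.mem_coe.1 he])) (fun e he hcl => by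
      refine hG e (Finset.mem_insert_of_mem he) (M.closure_subset_closure ?_ hcl)
      exact Set.union_subset_union_right _
        (Finset.coe_subset.2 (Finset.erase_subset_erase _ (Finset.subset_insert _ _))))
    have ha' := hG a (Finset.mem_insert_self _ _)
    rw [Finset.erase_insert ha] at ha'
    have := h1.2.2.2.1 (N ∪ ↑G) a (hE (by simp)) ha'
    rw [Finset.coe_insert, Set.union_insert, this, hih, Finset.card_insert_of_notMem ha]
    ring

/-- deterministic split of the nullity of one layer -/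
theorem null_le (M : Matroid (Fin k)) (h1 : RANK M) (U D T : Finset (Fin k)) {N N' : Set (Fin k)}
    (h : N ⊆ N') (hU : (U : Set (Fin k)) ⊆ M.E) :
    (((((T \ D) ∩ U).filter (fun y => y ∈ N' ∧ y ∉ N)).card : ℝ) -
      ((rk M (N ∪ ↑(((T \ D) ∩ U).filter (fun y => y ∈ N' ∧ y ∉ N))) : ℝ) - rk M N)) ≤
    (((Yl M U N N').filter (fun e => e ∈ T)).card : ℝ) +
      (((Al M U N N').filter (fun e => e ∈ T ∧
        e ∈ M.closure (Qc M U N N' ∪ ↑(((Al M U N N').filter (fun f => f ∈ T)).erase e)))).card : ℝ) := by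
  obtain ⟨q1, q2, q3⟩ := Qc_spec M U h
  set W := ((T \ D) ∩ U).filter (fun y => y ∈ N' ∧ y ∉ N) with hW
  set G := W.filter (fun e => e ∉ Qc M U N N' ∧
    e ∉ M.closure (Qc M U N N' ∪ ↑(((Al M U N N').filter (fun f => f ∈ T)).erase e))) with hG
  have hGW : G ⊆ W := Finset.filter_subset _ _
  have hGA : G ⊆ (Al M U N N').filter (fun f => f ∈ T) := by
    intro e he
    simp only [hG, hW, Al, Finset.mem_filter, Finset.mem_inter, Finset.mem_sdiff] at he ⊢
    tauto
  have hr := rk_free M h1 N G (fun e he => hU (by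
      have := hGW he
      simp only [hW, Finset.mem_filter, Finset.mem_inter] at this
      exact this.1.2)) (fun e he hcl => by
    have he' := (Finset.mem_filter.1 he).2.2
    refine he' (M.closure_subset_closure ?_ hcl)
    exact Set.union_subset_union q1 (Finset.coe_subset.2 (Finset.erase_subset_erase _ hGA)))
  have hm := h1.1 (N ∪ ↑G) (N ∪ ↑W) (Set.union_subset_union_right _ (Finset.coe_subset.2 hGW))
  have hc : W.card ≤ G.card + (((Yl M U N N').filter (fun e => e ∈ T)).card +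
      ((Al M U N N').filter (fun e => e ∈ T ∧
        e ∈ M.closure (Qc M U N N' ∪ ↑(((Al M U N N').filter (fun f => f ∈ T)).erase e)))).card) := by
    refine le_trans (Finset.card_le_card ?_) ((Finset.card_union_le _ _).trans
      (Nat.add_le_add_left (Finset.card_union_le _ _) _))
    intro e he
    have he2 := he
    simp only [hW, Finset.mem_filter, Finset.mem_inter, Finset.mem_sdiff] at he2
    have hY : e ∈ Yl M U N N' ↔ e ∈ U ∧ e ∈ Qc M U N N' ∧ e ∉ N := by simp [Yl]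
    have hA : e ∈ Al M U N N' ↔ e ∈ U ∧ e ∈ N' ∧ e ∉ Qc M U N N' := by simp [Al]
    by_cases hq : e ∈ Qc M U N N'
    · exact Finset.mem_union_right _ (Finset.mem_union_left _
        (Finset.mem_filter.2 ⟨hY.2 ⟨he2.1.2, hq, he2.2.2⟩, he2.1.1.1⟩))
    · by_cases hc : e ∈ M.closure (Qc M U N N' ∪
          ↑(((Al M U N N').filter (fun f => f ∈ T)).erase e))
      · exact Finset.mem_union_right _ (Finset.mem_union_right _
          (Finset.mem_filter.2 ⟨hA.2 ⟨he2.1.2, he2.2.1, hq⟩, he2.1.1.1, hc⟩))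
      · exact Finset.mem_union_left _ (Finset.mem_filter.2 ⟨he, hq, hc⟩)
  have hr' : (rk M (N ∪ ↑G) : ℝ) = rk M N + G.card := by exact_mod_cast hr
  have hm' : (rk M (N ∪ ↑G) : ℝ) ≤ rk M (N ∪ ↑W) := by exact_mod_cast hm
  have hc' : (W.card : ℝ) ≤ G.card + ((((Yl M U N N').filter (fun e => e ∈ T)).card : ℝ) +
      (((Al M U N N').filter (fun e => e ∈ T ∧
        e ∈ M.closure (Qc M U N N' ∪ ↑(((Al M U N N').filter (fun f => f ∈ T)).erase e)))).card : ℝ)) := by
    exact_mod_cast hc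
  linarith

theorem Ex_sum {κ : Type*} (p : ℝ) (s : Finset κ) (f : κ → Finset (Fin k) → ℝ) :
    Ex p (fun A => ∑ t ∈ s, f t A) = ∑ t ∈ s, Ex p (f t) := by
  unfold Ex
  simp only [Finset.mul_sum]
  exact Finset.sum_comm

theorem Ex_add (p : ℝ) (f g : Finset (Fin k) → ℝ) :
    Ex p (fun A => f A + g A) = Ex p f + Ex p g := by
  unfold Ex
  simp only [mul_add, Finset.sum_add_distrib]

theorem Ex_mul (p c : ℝ) (f : Finset (Fin k) → ℝ) :
    Ex p (fun A => c * f A) = c * Ex p f := by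
  unfold Ex
  rw [Finset.mul_sum]
  exact Finset.sum_congr rfl (fun A _ => by ring)

theorem tt_nonneg : 0 ≤ tt := by unfold tt; positivity
theorem tt_le_one : tt ≤ 1 := by unfold tt; norm_num

/-- one layer, expectation over the listened set -/
theorem layer (M : Matroid (Fin k)) (h0 : EXB k) (h1 : RANK M) (U D : Finset (Fin k))
    {N N' : Set (Fin k)} (h : N ⊆ N') (hN' : N' ⊆ M.E) (hcl : M.closure N' = N')
    (hU : (U : Set (Fin k)) ⊆ M.E) :
    Ex tt (fun T => (((((T \ D) ∩ U).filter (fun y => y ∈ N' ∧ y ∉ N)).card : ℝ) -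
      ((rk M (N ∪ ↑(((T \ D) ∩ U).filter (fun y => y ∈ N' ∧ y ∉ N))) : ℝ) - rk M N))) ≤
    tt * (Yl M U N N').card + gam * tt ^ 2 * (Al M U N N').card := by
  obtain ⟨-, -, hmono, -, hcard⟩ := h0 tt tt_nonneg tt_le_one
  refine (hmono _ _ (fun T => null_le M h1 U D T h hU)).trans ?_
  rw [Ex_add]
  refine add_le_add ?_ ?_
  · rw [← hcard]
    refine hmono _ _ (fun T => le_of_eq ?_)
    congr 2
    ext e
    simp only [Finset.mem_filter, Finset.mem_inter]
    tauto
  · have := P9.thin (τ := tt) (γ := (gam : ℝ)) tt_nonneg tt_le_one (Al M U N N')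
      (fun X e => e ∈ M.closure (Qc M U N N' ∪ ↑X))
      (fun X Y e hXY he => M.closure_subset_closure
        (Set.union_subset_union_right _ (Finset.coe_subset.2 hXY)) he)
      (fun X hX => by convert sparse M h1 U h hN' hcl X hX)
    rw [Ex_eq]
    refine le_trans (le_of_eq ?_) this
    unfold P9.Ex P9.pw
    refine Finset.sum_congr rfl (fun s _ => ?_)
    simp only [mem_toF]

theorem sum_card_le (U : Finset (Fin k)) (N : ℕ → Set (Fin k)) (hN : ∀ t t', t ≤ t' → N t ⊆ N t')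
    (n : ℕ) (Z : ℕ → Finset (Fin k)) (hZ : ∀ t e, e ∈ Z t → e ∈ N (t + 1) ∧ e ∉ N t) :
    ((Finset.range n).biUnion Z).card = ∑ t ∈ Finset.range n, (Z t).card := by
  apply Finset.card_biUnion
  intro t _ t' _ htt
  rw [Function.onFun, Finset.disjoint_left]
  intro e he he'
  have a := hZ t e he
  have b := hZ t' e he'
  rcases lt_or_gt_of_ne htt with hlt | hlt
  · exact b.2 (hN _ _ hlt a.1)
  · exact a.2 (hN _ _ hlt b.1)

theorem const_le : 18 * ((1 / (kap : ℝ)) * (Real.log (kap : ℝ) + 2)) ≤ 1 / 32 := by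
  have hk : (kap : ℝ) = 2 ^ 20 := by unfold kap; norm_num
  rw [hk, Real.log_pow]
  have := Real.log_two_lt_d9
  push_cast
  nlinarith

end AG51

open AG51 in
theorem alpha_of_compress (M : Matroid (Fin k)) (h0 : EXB k) (h1 : RANK M) (h2 : EXPF M)
    (hc : COMPRESS M) : ALPHA M := by
  intro U S n hU hS hmono
  obtain ⟨b, m, hb0, hm0, hb, hm, hdet⟩ := hc U S n hU hS hmono
  set N : Finset (Fin k) → ℕ → Set (Fin k) := fun D t => Exp M (D ∩ U) (S t) with hN
  have hNm : ∀ D t t', t ≤ t' → N D t ⊆ N D t' := fun D t t' h =>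
    (h2 (D ∩ U) (S t) (hS t)).2.2.2.1 (S t') (hmono t t' h) (hS t')
  have hNE : ∀ D t, N D t ⊆ M.E := fun D t => (h2 (D ∩ U) (S t) (hS t)).1.2.1
  have hNc : ∀ D t, M.closure (N D t) = N D t := fun D t => (h2 (D ∩ U) (S t) (hS t)).2.1
  set Y : Finset (Fin k) → Finset (Fin k) := fun D =>
    (Finset.range n).biUnion (fun t => Yl M U (N D t) (N D (t + 1))) with hY
  have hYl : ∀ D t e, e ∈ Yl M U (N D t) (N D (t + 1)) → e ∈ N D (t + 1) ∧ e ∉ N D t := by
    intro D t e he
    simp only [Yl, Finset.mem_filter] at he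
    exact ⟨(Qc_spec M U (hNm D t (t + 1) (Nat.le_succ t))).2.1 he.2.1, he.2.2⟩
  have hAl : ∀ D t e, e ∈ Al M U (N D t) (N D (t + 1)) → e ∈ N D (t + 1) ∧ e ∉ N D t := by
    intro D t e he
    simp only [Al, Finset.mem_filter] at he
    exact ⟨he.2.1, fun h => he.2.2 ((Qc_spec M U (hNm D t (t + 1) (Nat.le_succ t))).1 h)⟩
  have hYc : ∀ D, (Y D).card = ∑ t ∈ Finset.range n, (Yl M U (N D t) (N D (t + 1))).card :=
    fun D => sum_card_le U (N D) (hNm D) n _ (hYl D)
  have hAc : ∀ D, ∑ t ∈ Finset.range n, (Al M U (N D t) (N D (t + 1))).card ≤ U.card := by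
    intro D
    rw [← sum_card_le U (N D) (hNm D) n _ (hAl D)]
    apply Finset.card_le_card
    intro e he
    obtain ⟨t, _, ht⟩ := Finset.mem_biUnion.1 he
    exact (Finset.mem_filter.1 ht).1
  obtain ⟨-, hsum, hm2, -, -⟩ := h0 (1 / 2) (by norm_num) (by norm_num)
  have step1 : ∀ D, Ex tt (fun T0 => ∑ t ∈ Finset.range n,
      (((((T0 \ D) ∩ U).filter (fun y => y ∈ N D (t + 1) ∧ y ∉ N D t)).card : ℝ) -
        ((rk M (N D t ∪ ↑(((T0 \ D) ∩ U).filter
          (fun y => y ∈ N D (t + 1) ∧ y ∉ N D t))) : ℝ) - rk M (N D t)))) ≤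
      tt * (Y D).card + gam * tt ^ 2 * U.card := by
    intro D
    rw [Ex_sum]
    refine (Finset.sum_le_sum (fun t _ => layer M h0 h1 U D (hNm D t (t + 1) (Nat.le_succ t))
      (hNE D (t + 1)) (hNc D (t + 1)) hU)).trans ?_
    rw [Finset.sum_add_distrib, ← Finset.mul_sum, ← Finset.mul_sum, hYc D]
    have := hAc D
    have h3 : (∑ t ∈ Finset.range n, ((Al M U (N D t) (N D (t + 1))).card : ℝ)) ≤ U.card := by
      exact_mod_cast this
    push_cast
    have : (0 : ℝ) ≤ gam * tt ^ 2 := by positivity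
    nlinarith
  have hk2 : (2 : ℝ) ≤ (kap : ℝ) := by unfold kap; norm_num
  have hsumU : ∀ (f : Fin k → ℕ), (∀ e, e ∉ U → f e = 0) → ∑ e, f e = ∑ e ∈ U, f e := by
    intro f hf
    exact (Finset.sum_subset (Finset.subset_univ U) (fun e _ he => hf e he)).symm
  have step2 : Ex (1 / 2) (fun D => ((Y D).card : ℝ)) ≤
      18 * ((U.card / (kap : ℝ)) * (Real.log (kap : ℝ) + 2)) := by
    rw [Ex_eq]
    refine U73.exp_card_of_code U (kap : ℝ) hk2 (fun s => Y (toF s)) (fun s => b (toF s))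
      (fun s => m (toF s)) (fun s => hb0 _) (fun s => hm0 _) (fun s => ?_) (fun s => ?_)
      (fun s s' e1 e2 => ?_) (fun s => ?_)
    · rw [hsumU _ (hb0 _)]; exact_mod_cast hb (toF s)
    · rw [hsumU _ (hm0 _)]; exact_mod_cast hm (toF s)
    · have hd := hdet _ _ e1 e2
      simp only [hY]
      refine Finset.biUnion_congr rfl (fun t ht => ?_)
      have ht' := Finset.mem_range.1 ht
      simp only [hN]
      rw [hd t (by omega), hd (t + 1) (by omega)]
    · have hp : ∀ t, 4 * ((Yl M U (N (toF s) t) (N (toF s) (t + 1))).filter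
          (fun e => e ∈ toF s)).card ≤ (Yl M U (N (toF s) t) (N (toF s) (t + 1))).card := fun t =>
        poor M U (toF s) (hNm _ t (t + 1) (Nat.le_succ t)) (hNE _ (t + 1))
          (h2 (toF s ∩ U) (S t) (hS t)).1
      rw [hYc]
      refine le_trans ?_ (Finset.sum_le_sum (fun t _ => hp t))
      rw [← Finset.mul_sum]
      refine Nat.mul_le_mul_left 4 (le_trans (Finset.card_le_card ?_) Finset.card_biUnion_le)
      intro e he
      obtain ⟨he1, he2⟩ := Finset.mem_filter.1 he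
      obtain ⟨t, ht, het⟩ := Finset.mem_biUnion.1 he1
      exact Finset.mem_biUnion.2 ⟨t, ht, Finset.mem_filter.2 ⟨het, (mem_toF s e).2 he2⟩⟩
  refine (hm2 _ _ step1).trans ?_
  rw [Ex_add, Ex_mul]
  have hconst : Ex (1 / 2) (fun _ : Finset (Fin k) => (gam : ℝ) * tt ^ 2 * U.card) =
      gam * tt ^ 2 * U.card := by
    unfold Ex
    rw [← Finset.sum_mul, hsum, one_mul]
  rw [hconst]
  have c1 := const_le
  have c2 : (gam : ℝ) * tt ≤ 1 / 32 := by unfold gam tt; norm_num
  have hU0 : (0 : ℝ) ≤ U.card := Nat.cast_nonneg _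
  have ht := tt_nonneg
  have s2 : Ex (1 / 2) (fun D => ((Y D).card : ℝ)) ≤ 1 / 32 * U.card := by
    refine step2.trans ?_
    have : 18 * ((U.card / (kap : ℝ)) * (Real.log (kap : ℝ) + 2)) =
        18 * ((1 / (kap : ℝ)) * (Real.log (kap : ℝ) + 2)) * U.card := by ring
    rw [this]
    exact mul_le_mul_of_nonneg_right c1 hU0
  have s3 : (gam : ℝ) * tt ^ 2 * U.card ≤ 1 / 32 * (tt * U.card) := by
    have := mul_le_mul_of_nonneg_right c2 (mul_nonneg ht hU0)
    nlinarith
  have s4 := mul_le_mul_of_nonneg_left s2 ht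
  nlinarith

end Crest.Agent.R305
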