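import Mathlib
import Crest.Agent.R305.AlphaGlue51
import Crest.Agent.R305.Alpha23b

/-! Row 305: COMPRESS from helper23's abstract compression lemma, hence ALPHA. -/

set_option autoImplicit false

open Classical

namespace Crest.Agent.R305

variable {k : ℕ}

namespace AF51

noncomputable def tf (X : Set (Fin k)) : Finset (Fin k) := Finset.univ.filter (fun e => e ∈ X)

theorem mem_tf (X : Set (Fin k)) (e : Fin k) : e ∈ tf X ↔ e ∈ X := by simp [tf]

theorem coe_tf (X : Set (Fin k)) : (tf X : Set (Fin k)) = X := by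
  ext e; simp [tf]

theorem tf_mono {X Y : Set (Fin k)} (h : X ⊆ Y) : tf X ⊆ tf Y := fun e he =>
  (mem_tf Y e).2 (h ((mem_tf X e).1 he))

theorem isRk (M : Matroid (Fin k)) (h1 : RANK M) :
    A23.IsRk (fun A : Finset (Fin k) => rk M (A : Set (Fin k))) where
  mono A B h := h1.1 _ _ (Finset.coe_subset.2 h)
  submod A B := by simpa using h1.2.1 (A : Set (Fin k)) B
  ins a A := by
    have := h1.2.2.2.2.2.1 (A : Set (Fin k)) {a}
    simpa [Set.union_comm] using this

theorem fval_coe (M : Matroid (Fin k)) (D Q : Finset (Fin k)) :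
    fval M D (Q : Set (Fin k)) = ((D ∩ Q).card : ℤ) - (kap : ℤ) * (rk M (Q : Set (Fin k)) : ℤ) := by
  unfold fval
  congr 3
  ext e
  simp

theorem mm (M : Matroid (Fin k)) (h2 : EXPF M) (D : Finset (Fin k)) (S : Set (Fin k))
    (hS : S ⊆ M.E) :
    A23.MM (fun A : Finset (Fin k) => rk M (A : Set (Fin k))) (fun Q => (D ∩ Q).card) kap
      (tf M.E) (tf S) (tf (Exp M D S)) := by
  have hmax := (h2 D S hS).1
  have key : ∀ Q : Finset (Fin k), tf S ⊆ Q → Q ⊆ tf M.E →
      S ⊆ (Q : Set (Fin k)) ∧ (Q : Set (Fin k)) ⊆ M.E := fun Q a b =>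
    ⟨fun e he => a ((mem_tf S e).2 he), fun e he => (mem_tf _ e).1 (b he)⟩
  have hf := fval_coe M D (tf (Exp M D S))
  rw [coe_tf] at hf
  refine ⟨tf_mono hmax.1, tf_mono hmax.2.1, fun Q a b => ?_, fun Q a b c => ?_⟩
  · obtain ⟨a', b'⟩ := key Q a b
    have := hmax.2.2 Q a' b'
    rw [fval_coe, hf] at this
    simp only [coe_tf]
    zify
    linarith
  · obtain ⟨a', b'⟩ := key Q a b
    simp only [coe_tf] at c
    have hc : fval M D (Exp M D S) ≤ fval M D (Q : Set (Fin k)) := by
      rw [fval_coe, hf]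
      zify at c
      linarith
    have hQ : IsMax M D S (Q : Set (Fin k)) :=
      ⟨a', b', fun Q' x y => (hmax.2.2 Q' x y).trans hc⟩
    intro e he
    exact (mem_tf _ e).2 (Set.mem_sUnion.2 ⟨_, hQ, he⟩)

end AF51

open AF51 in
theorem compress51 (M : Matroid (Fin k)) (h1 : RANK M) (h2 : EXPF M) : COMPRESS M := by
  intro U S n hU hS hmono
  have hk : 0 < kap := by unfold kap; positivity
  have H : ∀ D : Finset (Fin k), ∃ (B : Finset (Fin k)) (β : Fin k → Fin k), B ⊆ D ∩ U ∧
      (∀ a ∈ B, β a ∈ D ∩ U) ∧ kap * B.card ≤ (D ∩ U).card ∧ ∀ t ≤ n,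
      A23.MM (fun A : Finset (Fin k) => rk M (A : Set (Fin k))) (A23.wt (k + 1) B β) (k + 1)
        (tf M.E) (tf (S t)) (tf (Exp M (D ∩ U) (S t))) := fun D =>
    A23.compress (isRk M h1) hk (by
        have := Finset.card_le_univ (D ∩ U)
        simp only [Fintype.card_fin] at this
        omega)
      (fun t => tf_mono (hmono t (t + 1) (Nat.le_succ t)))
      (fun t => tf_mono ((h2 (D ∩ U) (S t) (hS t)).2.2.2.1 _ (hmono t (t + 1) (Nat.le_succ t))
        (hS (t + 1))))
      (fun t => mm M h2 (D ∩ U) (S t) (hS t)) n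
  choose B β hB hβ hc hMM using H
  have hcU : ∀ D, kap * (B D).card ≤ U.card := fun D =>
    (hc D).trans (Finset.card_le_card Finset.inter_subset_right)
  refine ⟨fun D e => if e ∈ B D then 1 else 0,
    fun D e => ((B D).filter (fun a => β D a = e)).card, ?_, ?_, ?_, ?_, ?_⟩
  · intro D e he
    exact if_neg (fun h => he (Finset.mem_inter.1 (hB D h)).2)
  · intro D e he
    rw [Finset.card_eq_zero, Finset.filter_eq_empty_iff]
    intro a ha h
    exact he (h ▸ (Finset.mem_inter.1 (hβ D a ha)).2)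
  · intro D
    refine le_trans (Nat.mul_le_mul_left _ ?_) (hcU D)
    rw [← Finset.card_filter]
    exact Finset.card_le_card (fun e he => (Finset.mem_filter.1 he).2)
  · intro D
    refine le_trans (Nat.mul_le_mul_left _ (le_of_eq ?_)) (hcU D)
    exact (Finset.card_eq_sum_card_fiberwise
      (fun a ha => (Finset.mem_inter.1 (hβ D a ha)).2)).symm
  · intro D D2 e1 e2 t ht
    have hcode : A23.code (B D) (β D) = A23.code (B D2) (β D2) := by
      funext e
      have a1 := congrFun e1 e
      have a2 := congrFun e2 e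
      unfold A23.code
      simp only at a1 a2
      rw [a1, a2]
    have hw : A23.wt (k + 1) (B D) (β D) = A23.wt (k + 1) (B D2) (β D2) := by
      rw [← A23.wty_code, ← A23.wty_code, hcode]
    have m1 := hMM D t ht
    have m2 := hMM D2 t ht
    rw [hw] at m1
    have := congrArg (fun A : Finset (Fin k) => (A : Set (Fin k))) (m1.unique m2)
    simpa only [coe_tf] using this

/-- B12 -/
theorem alpha51 (M : Matroid (Fin k)) (h0 : EXB k) (h1 : RANK M) (h2 : EXPF M) : ALPHA M :=
  alpha_of_compress M h0 h1 h2 (compress51 M h1 h2)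

end Crest.Agent.R305
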