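import Crest.Agent.R305.RGDefs55

/-! Block B13: (alpha) in place, from (alpha) for a fixed chain. -/

set_option autoImplicit false

open Classical

namespace Crest.Agent.R305

variable {k : ℕ}

namespace A22

theorem tt_nonneg : (0 : ℝ) ≤ tt := by unfold tt; positivity

theorem tt_le_one : tt ≤ (1 : ℝ) := by
  unfold tt
  exact pow_le_one₀ (by norm_num) (by norm_num)

theorem Ex_comm (p q : ℝ) (f : Finset (Fin k) → Finset (Fin k) → ℝ) :
    Ex p (fun A => Ex q (fun B => f A B)) = Ex q (fun B => Ex p (fun A => f A B)) := by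
  unfold Ex
  simp only [Finset.mul_sum]
  rw [Finset.sum_comm]
  apply Finset.sum_congr rfl; intro B _
  apply Finset.sum_congr rfl; intro A _
  ring

theorem Ex_le_const (h0 : EXB k) (p : ℝ) (hp : 0 ≤ p) (hp1 : p ≤ 1) (f : Finset (Fin k) → ℝ)
    (C : ℝ) (h : ∀ A, f A ≤ C) : Ex p f ≤ C := by
  obtain ⟨-, h2, h3, -, -⟩ := h0 p hp hp1
  calc Ex p f ≤ Ex p (fun _ => C) := h3 _ _ h
    _ = C := by unfold Ex; rw [← Finset.sum_mul, h2, one_mul]

theorem St_congr (M : Matroid (Fin k)) (L : ℕ) (U : ℕ → Finset (Fin k))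
    (D C D' C' : Finset (Fin k)) (i : ℕ)
    (h : ∀ i', i' < i → D ∩ U (L - i') = D' ∩ U (L - i') ∧ C ∩ U (L - i') = C' ∩ U (L - i')) :
    St M L U D C i = St M L U D' C' i := by
  induction i with
  | zero => rfl
  | succ i ih =>
    have h1 := h i (Nat.lt_succ_self i)
    simp only [St]
    rw [ih (fun i' hi => h i' (hi.trans (Nat.lt_succ_self i))), h1.1, h1.2]

/-- the summand of `ALPHA` -/
noncomputable def aterm (M : Matroid (Fin k)) (U : Finset (Fin k)) (S : ℕ → Set (Fin k))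
    (D T0 : Finset (Fin k)) (t : ℕ) : ℝ :=
  (((((T0 \ D) ∩ U).filter (fun y => y ∈ Exp M (D ∩ U) (S (t + 1)) ∧
          y ∉ Exp M (D ∩ U) (S t))).card : ℝ) -
        ((rk M (Exp M (D ∩ U) (S t) ∪ ↑(((T0 \ D) ∩ U).filter
          (fun y => y ∈ Exp M (D ∩ U) (S (t + 1)) ∧ y ∉ Exp M (D ∩ U) (S t)))) : ℝ) -
          rk M (Exp M (D ∩ U) (S t))))

theorem aterm_congr (M : Matroid (Fin k)) (U : Finset (Fin k)) (S : ℕ → Set (Fin k))
    (D T0 D' T0' : Finset (Fin k)) (t : ℕ) (h1 : D ∩ U = D' ∩ U)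
    (h2 : (T0 \ D) ∩ U = (T0' \ D') ∩ U) : aterm M U S D T0 t = aterm M U S D' T0' t := by
  unfold aterm
  rw [h1, h2]

theorem null_eq (M : Matroid (Fin k)) (L : ℕ) (U : ℕ → Finset (Fin k)) (D T0 : Finset (Fin k))
    (j t : ℕ) : null M L U D T0 j (3 * j + 2 + t) =
      aterm M (U j) (fun s => St M L U D (Cg D T0) (L - j) (3 * j + 1 + s)) D T0 t := by
  have e1 : Nm M L U D T0 j (3 * j + 2 + t) =
      Exp M (D ∩ U j) (St M L U D (Cg D T0) (L - j) (3 * j + 1 + (t + 1))) := by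
    unfold Nm Nstep
    rw [if_pos (by omega)]
    congr 2
    omega
  have e2 : Nm M L U D T0 j (3 * j + 2 + t - 1) =
      Exp M (D ∩ U j) (St M L U D (Cg D T0) (L - j) (3 * j + 1 + t)) := by
    unfold Nm Nstep
    rw [if_pos (by omega)]
    congr 2
    omega
  unfold null Tband aterm
  simp only [e1, e2]

theorem sum_null_eq (M : Matroid (Fin k)) (L : ℕ) (U : ℕ → Finset (Fin k))
    (D T0 : Finset (Fin k)) (j : ℕ) :
    ∑ b ∈ times L j, null M L U D T0 j b = ∑ t ∈ Finset.range (3 * L + 3 + 1 - (3 * j + 2)),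
      aterm M (U j) (fun s => St M L U D (Cg D T0) (L - j) (3 * j + 1 + s)) D T0 t := by
  unfold times
  rw [← Finset.Ico_add_one_right_eq_Icc, Finset.sum_Ico_eq_sum_range]
  apply Finset.sum_congr rfl
  intro t _
  exact null_eq M L U D T0 j t

end A22

open A22 in
theorem alphas22 (M : Matroid (Fin k)) (h0 : EXB k) (h18 : STOP k) (h3 : CHAIN M)
    (h12 : ALPHA M) : ALPHAS M := by
  intro L U j hP hj1 hjL
  set Y := U j with hY
  rw [h18 (1 / 2) (fun _ => Y) _ (by norm_num) (by norm_num) (fun _ _ _ => rfl)]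
  apply Ex_le_const h0 _ (by norm_num) (by norm_num)
  intro D
  rw [Ex_comm]
  rw [h18 tt (fun _ => Y) _ tt_nonneg tt_le_one (fun _ _ _ => rfl)]
  apply Ex_le_const h0 _ tt_nonneg tt_le_one
  intro T0
  rw [Ex_comm]
  have hc := h3 L U D (Cg D T0)
  have key := h12 Y (fun s => St M L U D (Cg D T0) (L - j) (3 * j + 1 + s))
    (3 * L + 3 + 1 - (3 * j + 2)) (hP.1 j)
    (fun t => by rw [← hc.1 (L - j) (3 * j + 1 + t)]; exact M.closure_subset_ground _)
    (fun t t' h => hc.2.1 _ _ _ (by omega))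
  refine le_trans (le_of_eq ?_) key
  congr 1
  funext D2
  congr 1
  funext T2
  rw [sum_null_eq]
  have hS : St M L U ((D \ Y) ∪ (D2 ∩ Y)) (Cg ((D \ Y) ∪ (D2 ∩ Y)) ((T0 \ Y) ∪ (T2 ∩ Y))) (L - j)
      = St M L U D (Cg D T0) (L - j) := by
    apply St_congr
    intro i hi
    have hd : Disjoint (U (L - i)) Y := hP.2 _ _ (by omega)
    rw [Finset.disjoint_left] at hd
    constructor
    · ext x
      simp only [Finset.mem_inter, Finset.mem_union, Finset.mem_sdiff]
      have := @hd x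
      tauto
    · ext x
      simp only [Cg, Finset.mem_inter, Finset.mem_union, Finset.mem_sdiff, Finset.mem_compl]
      have := @hd x
      tauto
  rw [hS]
  apply Finset.sum_congr rfl
  intro t _
  refine (aterm_congr M Y _ _ _ D2 T2 t ?_ ?_).trans rfl
  · ext x
    simp only [Finset.mem_inter, Finset.mem_union, Finset.mem_sdiff]
    tauto
  · ext x
    simp only [Finset.mem_inter, Finset.mem_union, Finset.mem_sdiff]
    tauto

end Crest.Agent.R305
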