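import Crest.Agent.R305.Comp73
import Crest.Agent.R305.Union73
import Crest.Agent.R305.Alphas22

/-! Block B12 from the compression statement. -/

set_option autoImplicit false

open Classical

namespace Crest.Agent.R305

variable {k : ℕ}

namespace G22

theorem Ex_add (p : ℝ) (f g : Finset (Fin k) → ℝ) :
    Ex p (fun A => f A + g A) = Ex p f + Ex p g := by
  unfold Ex
  rw [← Finset.sum_add_distrib]
  apply Finset.sum_congr rfl; intro A _; ring

theorem Ex_mul (p c : ℝ) (f : Finset (Fin k) → ℝ) :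
    Ex p (fun A => c * f A) = c * Ex p f := by
  unfold Ex
  rw [Finset.mul_sum]
  apply Finset.sum_congr rfl; intro A _; ring

theorem Ex_sum {ι : Type*} (p : ℝ) (s : Finset ι) (f : ι → Finset (Fin k) → ℝ) :
    Ex p (fun A => ∑ i ∈ s, f i A) = ∑ i ∈ s, Ex p (f i) := by
  unfold Ex
  simp only [Finset.mul_sum]
  rw [Finset.sum_comm]

theorem Ex_const (h0 : EXB k) (p : ℝ) (hp : 0 ≤ p) (hp1 : p ≤ 1) (C : ℝ) :
    Ex p (fun _ : Finset (Fin k) => C) = C := by
  obtain ⟨-, h2, -, -, -⟩ := h0 p hp hp1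
  unfold Ex; rw [← Finset.sum_mul, h2, one_mul]

/-- thinning -/
theorem thin (h0 : EXB k) (t g : ℝ) (ht : 0 ≤ t) (ht1 : t ≤ 1) (W : Finset (Fin k))
    (sp : Finset (Fin k) → Fin k → Prop) (hmono : ∀ X Y e, X ⊆ Y → sp X e → sp Y e)
    (hsp : ∀ X, X ⊆ W → ((W.filter (sp X)).card : ℝ) ≤ g * X.card) :
    Ex t (fun T => ((W.filter (fun e => e ∈ T ∧ sp ((T ∩ W).erase e) e)).card : ℝ)) ≤
      g * t ^ 2 * W.card := by
  obtain ⟨-, -, h3, h4, h5⟩ := h0 t ht ht1
  have e1 : (fun T : Finset (Fin k) =>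
      ((W.filter (fun e => e ∈ T ∧ sp ((T ∩ W).erase e) e)).card : ℝ)) =
      fun T => ∑ e ∈ W, (if e ∈ T then (if sp ((T ∩ W).erase e) e then (1 : ℝ) else 0) else 0) := by
    funext T
    rw [Finset.card_filter]
    push_cast
    apply Finset.sum_congr rfl
    intro e _
    by_cases h1 : e ∈ T <;> by_cases h2 : sp ((T ∩ W).erase e) e <;> simp [h1, h2]
  rw [e1, Ex_sum]
  have e2 : ∀ e ∈ W, Ex t (fun T => if e ∈ T then
      (if sp ((T ∩ W).erase e) e then (1 : ℝ) else 0) else 0) ≤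
      t * Ex t (fun T => if sp (T ∩ W) e then (1 : ℝ) else 0) := by
    intro e _
    rw [h4 e (fun T => if sp ((T ∩ W).erase e) e then (1 : ℝ) else 0)]
    · apply mul_le_mul_of_nonneg_left _ ht
      apply h3
      intro T
      by_cases h2 : sp ((T ∩ W).erase e) e
      · rw [if_pos h2, if_pos (hmono _ _ _ (Finset.erase_subset _ _) h2)]
      · rw [if_neg h2]; split_ifs <;> norm_num
    · intro T
      have : (insert e T ∩ W).erase e = (T.erase e ∩ W).erase e := by
        ext x
        simp only [Finset.mem_erase, Finset.mem_inter, Finset.mem_insert]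
        tauto
      rw [this]
  refine (Finset.sum_le_sum e2).trans ?_
  rw [← Finset.mul_sum, ← Ex_sum]
  have e3 : Ex t (fun T => ∑ e ∈ W, if sp (T ∩ W) e then (1 : ℝ) else 0) ≤
      Ex t (fun T => g * ((T ∩ W).card : ℝ)) := by
    apply h3
    intro T
    have := hsp (T ∩ W) Finset.inter_subset_right
    rw [Finset.card_filter] at this
    push_cast at this
    exact this
  rw [Ex_mul, h5] at e3
  calc _ ≤ t * (g * (t * W.card)) := mul_le_mul_of_nonneg_left e3 ht
    _ = _ := by ring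

/-- elements that are not spanned add their full number to the rank -/
theorem rk_free (M : Matroid (Fin k)) (h1 : RANK M) (N Q : Set (Fin k)) (hNQ : N ⊆ Q)
    (A : Finset (Fin k)) (hA : (A : Set (Fin k)) ⊆ M.E) (G : Finset (Fin k)) (hG : G ⊆ A)
    (hf : ∀ e ∈ G, e ∉ M.closure (Q ∪ ↑(A.erase e))) :
    rk M (N ∪ ↑G) = rk M N + G.card := by
  induction G using Finset.induction_on with
  | empty => simp
  | insert e G he ih =>
    have hGA : G ⊆ A := (Finset.subset_insert _ _).trans hG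
    have heA : e ∈ A := hG (Finset.mem_insert_self _ _)
    have h2 := ih hGA (fun x hx => hf x (Finset.mem_insert_of_mem hx))
    have h3 : e ∉ M.closure (N ∪ ↑G) := by
      intro hh
      apply hf e (Finset.mem_insert_self _ _)
      refine M.closure_subset_closure ?_ hh
      apply Set.union_subset_union hNQ
      intro x hx
      simp only [Finset.coe_erase, Set.mem_diff, Finset.mem_coe, Set.mem_singleton_iff]
      exact ⟨hGA hx, fun hxe => he (hxe ▸ hx)⟩
    have h4 := h1.2.2.2.1 _ e (hA heA) h3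
    rw [Finset.coe_insert, Set.union_insert, h4, h2, Finset.card_insert_of_notMem he]
    ring

/-- population objective -/
noncomputable def gv (M : Matroid (Fin k)) (U : Finset (Fin k)) (Q : Set (Fin k)) : ℤ :=
  ((U.filter (fun e => e ∈ Q)).card : ℤ) - 4 * (kap : ℤ) * (rk M Q : ℤ)

theorem exists_hull (M : Matroid (Fin k)) (U : Finset (Fin k)) (P N : Set (Fin k)) :
    ∃ Q : Set (Fin k), P ⊆ N → (P ⊆ Q ∧ Q ⊆ N ∧ ∀ Q', P ⊆ Q' → Q' ⊆ N → gv M U Q' ≤ gv M U Q) := by
  by_cases h : P ⊆ N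
  · obtain ⟨Q, hQ, hmax⟩ := Set.exists_max_image {Q : Set (Fin k) | P ⊆ Q ∧ Q ⊆ N} (gv M U)
      (Set.toFinite _) ⟨P, subset_rfl, h⟩
    exact ⟨Q, fun _ => ⟨hQ.1, hQ.2, fun Q' h1 h2 => hmax Q' ⟨h1, h2⟩⟩⟩
  · exact ⟨P, fun hh => absurd hh h⟩

noncomputable def hull (M : Matroid (Fin k)) (U : Finset (Fin k)) (P N : Set (Fin k)) :
    Set (Fin k) := (exists_hull M U P N).choose

theorem hull_spec (M : Matroid (Fin k)) (U : Finset (Fin k)) (P N : Set (Fin k)) (h : P ⊆ N) :
    P ⊆ hull M U P N ∧ hull M U P N ⊆ N ∧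
      ∀ Q', P ⊆ Q' → Q' ⊆ N → gv M U Q' ≤ gv M U (hull M U P N) :=
  (exists_hull M U P N).choose_spec h

theorem card_split (U : Finset (Fin k)) (P Q : Set (Fin k)) (h : P ⊆ Q) :
    (U.filter (fun e => e ∈ Q)).card =
      (U.filter (fun e => e ∈ P)).card + (U.filter (fun e => e ∈ Q ∧ e ∉ P)).card := by
  rw [← Finset.card_union_of_disjoint]
  · congr 1
    ext x
    simp only [Finset.mem_filter, Finset.mem_union]
    have := @h x
    tauto
  · rw [Finset.disjoint_left]
    intro x hx hx'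
    simp only [Finset.mem_filter] at hx hx'
    exact hx'.2.2 hx.2

/-- pieces between consecutive members of a chain are disjoint -/
theorem sum_pieces (N : ℕ → Set (Fin k)) (hN : ∀ t t', t ≤ t' → N t ⊆ N t')
    (Z : ℕ → Finset (Fin k)) (hZ : ∀ t, ∀ e ∈ Z t, e ∈ N (t + 1) ∧ e ∉ N t) (n : ℕ) :
    ((Finset.range n).biUnion Z).card = ∑ t ∈ Finset.range n, (Z t).card := by
  apply Finset.card_biUnion
  intro s _ t _ hst
  rw [Function.onFun, Finset.disjoint_left]
  intro e hs ht
  rcases lt_or_gt_of_ne hst with h | h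
  · exact (hZ t e ht).2 (hN _ _ (by omega) (hZ s e hs).1)
  · exact (hZ s e hs).2 (hN _ _ (by omega) (hZ t e ht).1)

theorem Ex_bool (f : Finset (Fin k) → ℝ) :
    Ex (1 / 2) f = ∑ s : Fin k → Bool, (∏ i, (if s i then (1/2 : ℝ) else 1 - 1/2)) *
      f (Finset.univ.filter (fun i => s i = true)) := by
  unfold Ex
  symm
  refine Fintype.sum_bijective (fun s : Fin k → Bool => Finset.univ.filter (fun i => s i = true))
    ⟨?_, ?_⟩ _ _ ?_
  · intro s s' h
    funext i
    have : i ∈ Finset.univ.filter (fun i => s i = true) ↔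
        i ∈ Finset.univ.filter (fun i => s' i = true) := by
      simp only at h; rw [h]
    simp only [Finset.mem_filter, Finset.mem_univ, true_and] at this
    cases hs : s i <;> cases hs' : s' i <;> simp_all
  · intro A
    refine ⟨fun i => decide (i ∈ A), ?_⟩
    ext i; simp
  · intro s
    unfold bern
    congr 1
    apply Finset.prod_congr rfl
    intro i _
    by_cases h : s i = true <;> simp [h]

theorem log_kap : Real.log ((kap : ℕ) : ℝ) ≤ 20 := by
  unfold kap
  push_cast
  have : Real.log ((2 : ℝ) ^ 20) = 20 * Real.log 2 := by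
    rw [Real.log_pow]; norm_num
  have h2 : Real.log 2 ≤ 1 := by
    have := Real.log_le_sub_one_of_pos (show (0 : ℝ) < 2 by norm_num)
    linarith
  have h3 : ((1048576 : ℝ)) = 2 ^ 20 := by norm_num
  first
    | (rw [h3, this]; linarith)
    | (rw [this]; linarith)

end G22

set_option maxHeartbeats 4000000 in
open G22 in
theorem alphaG22 (M : Matroid (Fin k)) (h0 : EXB k) (h1 : RANK M) (h2 : EXPF M)
    (hc : COMPRESS73 M) : ALPHA M := by
  intro U S n hU hS hSm
  obtain ⟨b, m, hb0, hm0, hb, hm, hdet⟩ := hc U S n hU hS hSm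
  set N : Finset (Fin k) → ℕ → Set (Fin k) := fun D t => Exp M (D ∩ U) (S t) with hNdef
  have hNm : ∀ D t t', t ≤ t' → N D t ⊆ N D t' := fun D t t' h =>
    (h2 (D ∩ U) (S t) (hS t)).2.2.2.1 _ (hSm _ _ h) (hS t')
  have hNc : ∀ D t, M.closure (N D t) = N D t := fun D t => (h2 (D ∩ U) (S t) (hS t)).2.1
  have hNx : ∀ D t, IsMax M (D ∩ U) (S t) (N D t) := fun D t => (h2 (D ∩ U) (S t) (hS t)).1
  set Q : Finset (Fin k) → ℕ → Set (Fin k) := fun D t => hull M U (N D t) (N D (t + 1)) with hQdef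
  have hQ : ∀ D t, N D t ⊆ Q D t ∧ Q D t ⊆ N D (t + 1) ∧
      ∀ Q', N D t ⊆ Q' → Q' ⊆ N D (t + 1) → gv M U Q' ≤ gv M U (Q D t) := fun D t =>
    hull_spec M U _ _ (hNm D t (t + 1) (by omega))
  set Yt : Finset (Fin k) → ℕ → Finset (Fin k) :=
    fun D t => U.filter (fun e => e ∈ Q D t ∧ e ∉ N D t) with hYt
  set Wt : Finset (Fin k) → ℕ → Finset (Fin k) :=
    fun D t => (U \ D).filter (fun e => e ∈ N D (t + 1) ∧ e ∉ Q D t) with hWt
  have hYp : ∀ D t, ∀ e ∈ Yt D t, e ∈ N D (t + 1) ∧ e ∉ N D t := by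
    intro D t e he
    simp only [hYt, Finset.mem_filter] at he
    exact ⟨(hQ D t).2.1 he.2.1, he.2.2⟩
  have hWp : ∀ D t, ∀ e ∈ Wt D t, e ∈ N D (t + 1) ∧ e ∉ N D t := by
    intro D t e he
    simp only [hWt, Finset.mem_filter] at he
    exact ⟨he.2.1, fun hh => he.2.2 ((hQ D t).1 hh)⟩
  -- poor
  have hpoor : ∀ D t, 4 * (D ∩ Yt D t).card ≤ (Yt D t).card := by
    intro D t
    have a1 := (hNx D t).2.2 (Q D t) ((hNx D t).1.trans (hQ D t).1)
      ((hQ D t).2.1.trans (hNx D (t + 1)).2.1)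
    have a2 := (hQ D t).2.2 (N D t) subset_rfl (hNm D t (t + 1) (by omega))
    unfold fval at a1
    unfold gv at a2
    rw [card_split (D ∩ U) _ _ (hQ D t).1] at a1
    rw [card_split U _ _ (hQ D t).1] at a2
    have a3 : D ∩ Yt D t = (D ∩ U).filter (fun e => e ∈ Q D t ∧ e ∉ N D t) := by
      ext x
      simp only [hYt, Finset.mem_filter, Finset.mem_inter]
      tauto
    rw [a3]
    simp only [hYt]
    push_cast at a1 a2
    zify
    nlinarith
  -- sparse
  have hsparse : ∀ D t (X : Finset (Fin k)), X ⊆ Wt D t →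
      (((Wt D t).filter (fun e => e ∈ M.closure (Q D t ∪ ↑X))).card : ℝ) ≤
        (4 * (kap : ℝ)) * X.card := by
    intro D t X hX
    have hQE : Q D t ⊆ M.E := (hQ D t).2.1.trans (hNx D (t + 1)).2.1
    have hXN : (X : Set (Fin k)) ⊆ N D (t + 1) := fun x hx => (hWp D t x (hX hx)).1
    have b1 : Q D t ⊆ M.closure (Q D t ∪ ↑X) :=
      (M.subset_closure _ hQE).trans (M.closure_subset_closure Set.subset_union_left)
    have b2 : M.closure (Q D t ∪ ↑X) ⊆ N D (t + 1) := by
      rw [← hNc D (t + 1)]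
      exact M.closure_subset_closure (Set.union_subset (hQ D t).2.1 hXN)
    have a2 := (hQ D t).2.2 _ ((hQ D t).1.trans b1) b2
    unfold gv at a2
    rw [card_split U _ _ b1, h1.2.2.1] at a2
    have a3 := h1.2.2.2.2.2.1 (Q D t) X
    have a4 : ((Wt D t).filter (fun e => e ∈ M.closure (Q D t ∪ ↑X))).card ≤
        (U.filter (fun e => e ∈ M.closure (Q D t ∪ ↑X) ∧ e ∉ Q D t)).card := by
      apply Finset.card_le_card
      intro x hx
      simp only [hWt, Finset.mem_filter, Finset.mem_sdiff] at hx ⊢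
      exact ⟨hx.1.1.1, hx.2, hx.1.2.2⟩
    have a5 : (((Wt D t).filter (fun e => e ∈ M.closure (Q D t ∪ ↑X))).card : ℤ) ≤
        4 * (kap : ℤ) * X.card := by
      push_cast at a2
      have a3' : (rk M (Q D t ∪ ↑X) : ℤ) ≤ rk M (Q D t) + X.card := by exact_mod_cast a3
      have a4' : (((Wt D t).filter (fun e => e ∈ M.closure (Q D t ∪ ↑X))).card : ℤ) ≤
        (U.filter (fun e => e ∈ M.closure (Q D t ∪ ↑X) ∧ e ∉ Q D t)).card := by exact_mod_cast a4
      have hk : (0 : ℤ) ≤ 4 * (kap : ℤ) := by positivity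
      nlinarith [mul_le_mul_of_nonneg_left a3' hk]
    exact_mod_cast a5
  -- the deterministic split
  have hsplit : ∀ D T0 t, A22.aterm M U S D T0 t ≤ ((T0 ∩ Yt D t).card : ℝ) +
      (((Wt D t).filter (fun e => e ∈ T0 ∧
        e ∈ M.closure (Q D t ∪ ↑((T0 ∩ Wt D t).erase e)))).card : ℝ) := by
    intro D T0 t
    set A := T0 ∩ Wt D t with hA
    set Tt := ((T0 \ D) ∩ U).filter (fun y => y ∈ N D (t + 1) ∧ y ∉ N D t) with hTt
    set G := A.filter (fun e => e ∉ M.closure (Q D t ∪ ↑(A.erase e))) with hG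
    have hAE : (A : Set (Fin k)) ⊆ M.E := by
      intro x hx
      have := (Finset.mem_inter.mp hx).2
      simp only [hWt, Finset.mem_filter, Finset.mem_sdiff] at this
      exact hU this.1.1
    have c1 := rk_free M h1 (N D t) (Q D t) (hQ D t).1 A hAE G (Finset.filter_subset _ _)
      (fun e he => (Finset.mem_filter.mp he).2)
    have c2 : G ⊆ Tt := by
      intro x hx
      have hx1 := (Finset.mem_filter.mp hx).1
      have hx2 := Finset.mem_inter.mp hx1
      have hx3 := hWp D t x hx2.2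
      have hx4 := hx2.2
      simp only [hWt, Finset.mem_filter, Finset.mem_sdiff] at hx4
      simp only [hTt, Finset.mem_filter, Finset.mem_inter, Finset.mem_sdiff]
      exact ⟨⟨⟨hx2.1, hx4.1.2⟩, hx4.1.1⟩, hx3⟩
    have c3 : rk M (N D t ∪ ↑G) ≤ rk M (N D t ∪ ↑Tt) :=
      h1.1 _ _ (Set.union_subset_union_right _ (by exact_mod_cast c2))
    have c4 : Tt.card ≤ (T0 ∩ Yt D t).card + ((Wt D t).filter (fun e => e ∈ T0 ∧
        e ∈ M.closure (Q D t ∪ ↑(A.erase e)))).card + G.card := by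
      refine le_trans ?_ (le_trans (Finset.card_union_le _ _)
        (Nat.add_le_add_right (Finset.card_union_le _ _) _))
      apply Finset.card_le_card
      intro x hx
      simp only [hTt, Finset.mem_filter, Finset.mem_inter, Finset.mem_sdiff] at hx
      simp only [Finset.mem_union]
      by_cases hq : x ∈ Q D t
      · left; left
        simp only [hYt, Finset.mem_filter, Finset.mem_inter]
        exact ⟨hx.1.1.1, hx.1.2, hq, hx.2.2⟩
      · have hxW : x ∈ Wt D t := by
          simp only [hWt, Finset.mem_filter, Finset.mem_sdiff]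
          exact ⟨⟨hx.1.2, hx.1.1.2⟩, hx.2.1, hq⟩
        by_cases hcl : x ∈ M.closure (Q D t ∪ ↑(A.erase x))
        · left; right
          exact Finset.mem_filter.mpr ⟨hxW, hx.1.1.1, hcl⟩
        · right
          exact Finset.mem_filter.mpr ⟨Finset.mem_inter.mpr ⟨hx.1.1.1, hxW⟩, hcl⟩
    show (Tt.card : ℝ) - ((rk M (N D t ∪ ↑Tt) : ℝ) - rk M (N D t)) ≤ _
    have c1' : (rk M (N D t ∪ ↑G) : ℝ) = rk M (N D t) + G.card := by exact_mod_cast c1
    have c3' : (rk M (N D t ∪ ↑G) : ℝ) ≤ rk M (N D t ∪ ↑Tt) := by exact_mod_cast c3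
    have c4' : (Tt.card : ℝ) ≤ (T0 ∩ Yt D t).card + (((Wt D t).filter (fun e => e ∈ T0 ∧
        e ∈ M.closure (Q D t ∪ ↑(A.erase e)))).card : ℝ) + G.card := by exact_mod_cast c4
    linarith
  have ht0 := A22.tt_nonneg
  have ht1 := A22.tt_le_one
  set Y : Finset (Fin k) → Finset (Fin k) := fun D => (Finset.range n).biUnion (Yt D) with hY
  -- given D
  have hD : ∀ D, Ex tt (fun T0 => ∑ t ∈ Finset.range n, A22.aterm M U S D T0 t) ≤
      tt * (Y D).card + 4 * (kap : ℝ) * tt ^ 2 * U.card := by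
    intro D
    rw [Ex_sum]
    have d1 : ∀ t ∈ Finset.range n, Ex tt (fun T0 => A22.aterm M U S D T0 t) ≤
        tt * (Yt D t).card + 4 * (kap : ℝ) * tt ^ 2 * (Wt D t).card := by
      intro t _
      refine ((h0 tt ht0 ht1).2.2.1 _ _ (fun T0 => hsplit D T0 t)).trans ?_
      rw [Ex_add, (h0 tt ht0 ht1).2.2.2.2]
      have := thin h0 tt (4 * (kap : ℝ)) ht0 ht1 (Wt D t)
        (fun X e => e ∈ M.closure (Q D t ∪ ↑X))
        (fun X X' e hX he => M.closure_subset_closure
          (Set.union_subset_union_right _ (by exact_mod_cast hX)) he) (hsparse D t)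
      linarith
    refine (Finset.sum_le_sum d1).trans ?_
    rw [Finset.sum_add_distrib, ← Finset.mul_sum, ← Finset.mul_sum]
    have d2 : ((Y D).card : ℝ) = ∑ t ∈ Finset.range n, ((Yt D t).card : ℝ) := by
      simp only [hY]
      rw [sum_pieces (N D) (hNm D) (Yt D) (hYp D) n]; push_cast; rfl
    have d3 : ∑ t ∈ Finset.range n, ((Wt D t).card : ℝ) ≤ U.card := by
      have := sum_pieces (N D) (hNm D) (Wt D) (hWp D) n
      have h4 : ((Finset.range n).biUnion (Wt D)).card ≤ U.card := by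
        apply Finset.card_le_card
        intro x hx
        obtain ⟨t, _, hx⟩ := Finset.mem_biUnion.mp hx
        simp only [hWt, Finset.mem_filter, Finset.mem_sdiff] at hx
        exact hx.1.1
      rw [this] at h4
      exact_mod_cast h4
    rw [← d2]
    have hk : (0 : ℝ) ≤ 4 * (kap : ℝ) * tt ^ 2 := by positivity
    have := mul_le_mul_of_nonneg_left d3 hk
    linarith
  have hk2 : (2 : ℝ) ≤ ((kap : ℕ) : ℝ) := by unfold kap; norm_num
  have hEY : Ex (1 / 2) (fun D => ((Y D).card : ℝ)) ≤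
      18 * ((U.card / ((kap : ℕ) : ℝ)) * (Real.log ((kap : ℕ) : ℝ) + 2)) := by
    rw [Ex_bool]
    refine U73.exp_card_of_code U _ hk2
      (fun s => Y (Finset.univ.filter (fun i => s i = true)))
      (fun s => b (Finset.univ.filter (fun i => s i = true)))
      (fun s => m (Finset.univ.filter (fun i => s i = true)))
      (fun s i hi => hb0 _ i hi) (fun s i hi => hm0 _ i hi)
      (fun s => by exact_mod_cast hb _) (fun s => by exact_mod_cast hm _) ?_ ?_
    · intro s s' e1 e2
      have e3 := hdet _ _ e1 e2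
      simp only [hY]
      apply Finset.biUnion_congr rfl
      intro t ht
      have ht' := Finset.mem_range.mp ht
      have f1 := e3 t (by omega)
      have f2 := e3 (t + 1) (by omega)
      simp only [hYt, hQdef, hNdef, f1, f2]
    · intro s
      set D := Finset.univ.filter (fun i => s i = true) with hDd
      have g1 : (Y D).filter (fun i => s i = true) = (Finset.range n).biUnion
          (fun t => D ∩ Yt D t) := by
        ext x
        simp only [hY, hDd, Finset.mem_filter, Finset.mem_biUnion, Finset.mem_inter,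
          Finset.mem_univ, true_and]
        constructor
        · rintro ⟨⟨t, h1, h2⟩, h3⟩; exact ⟨t, h1, h3, h2⟩
        · rintro ⟨t, h1, h3, h2⟩; exact ⟨⟨t, h1, h2⟩, h3⟩
      have g2 := sum_pieces (N D) (hNm D) (fun t => D ∩ Yt D t)
        (fun t e he => hYp D t e (Finset.mem_inter.mp he).2) n
      have g3 := sum_pieces (N D) (hNm D) (Yt D) (hYp D) n
      show 4 * ((Y D).filter (fun i => s i = true)).card ≤ (Y D).card
      rw [g1, g2]
      simp only [hY]
      rw [g3, Finset.mul_sum]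
      exact Finset.sum_le_sum (fun t _ => hpoor D t)
  have hfin := (h0 (1 / 2) (by norm_num) (by norm_num)).2.2.1 _ _ hD
  rw [Ex_add, Ex_mul, Ex_const h0 _ (by norm_num) (by norm_num)] at hfin
  refine le_trans (le_of_eq rfl) (hfin.trans ?_)
  have hU0 : (0 : ℝ) ≤ U.card := by positivity
  have k1 : 18 * ((U.card / ((kap : ℕ) : ℝ)) * (Real.log ((kap : ℕ) : ℝ) + 2)) ≤ U.card / 32 := by
    have l1 := log_kap
    have l2 : (U.card / ((kap : ℕ) : ℝ)) * (Real.log ((kap : ℕ) : ℝ) + 2) ≤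
        (U.card / ((kap : ℕ) : ℝ)) * 22 :=
      mul_le_mul_of_nonneg_left (by linarith) (by positivity)
    have l3 : ((kap : ℕ) : ℝ) = 1048576 := by unfold kap; norm_num
    rw [l3] at l2 ⊢
    linarith
  have k2 : 4 * (kap : ℝ) * tt ≤ 1 / 32 := by
    unfold kap tt; norm_num
  have k3 : 4 * (kap : ℝ) * tt ^ 2 * U.card ≤ tt * (U.card / 32) := by
    have : 4 * (kap : ℝ) * tt ^ 2 * U.card = (4 * (kap : ℝ) * tt) * (tt * U.card) := by ring
    rw [this]
    have := mul_le_mul_of_nonneg_right k2 (mul_nonneg ht0 hU0)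
    linarith
  have k4 := mul_le_mul_of_nonneg_left (hEY.trans k1) ht0
  linarith

end Crest.Agent.R305
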