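import Crest.Agent.R305.RGDefs55

set_option autoImplicit false

namespace Crest.Agent.R305

variable {k : ℕ}

/-- compression of the chain of maximal maximisers into two small multiplicity functions -/
def COMPRESS73 (M : Matroid (Fin k)) : Prop :=
  ∀ (U : Finset (Fin k)) (S : ℕ → Set (Fin k)) (n : ℕ), (U : Set (Fin k)) ⊆ M.E →
    (∀ t, S t ⊆ M.E) → (∀ t t', t ≤ t' → S t ⊆ S t') →
    ∃ b m : Finset (Fin k) → Fin k → ℕ,
      (∀ D i, i ∉ U → b D i = 0) ∧ (∀ D i, i ∉ U → m D i = 0) ∧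
      (∀ D, kap * ∑ i, b D i ≤ U.card) ∧ (∀ D, kap * ∑ i, m D i ≤ U.card) ∧
      ∀ D D', b D = b D' → m D = m D' → ∀ t, t ≤ n →
        Exp M (D ∩ U) (S t) = Exp M (D' ∩ U) (S t)

end Crest.Agent.R305
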