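import Mathlib

/-!
Row 305, block PROB (helper24): finite product expectations, resampling on a stopping set,
single-coordinate lemmas, thinning.  General labels `L` with weights `p` (`pwL`, `ExL`) and the
Boolean case (`pw`, `Ex`).
-/

set_option autoImplicit false
open Finset

namespace Crest.Agent.R305.P24

section General
variable {ι L : Type*} [Fintype ι] [DecidableEq ι] [Fintype L]

/-- Product weight of a label vector. -/
def pwL (p : L → ℝ) (w : ι → L) : ℝ := ∏ i, p (w i)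

/-- Expectation over independent labels with weights `p`. -/
def ExL (p : L → ℝ) (f : (ι → L) → ℝ) : ℝ := ∑ w : ι → L, pwL p w * f w

omit [DecidableEq ι] [Fintype L] in
theorem pwL_nonneg {p : L → ℝ} (hp : ∀ l, 0 ≤ p l) (w : ι → L) : 0 ≤ pwL p w :=
  Finset.prod_nonneg fun _ _ => hp _

theorem sum_pwL {p : L → ℝ} (h1 : ∑ l, p l = 1) : ∑ w : ι → L, pwL p w = 1 := by
  have h := Finset.prod_univ_sum (fun _ : ι => (univ : Finset L)) (fun _ l => p l)
  rw [Fintype.piFinset_univ] at h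
  unfold pwL
  rw [← h]
  simp [h1]

theorem ExL_const {p : L → ℝ} (h1 : ∑ l, p l = 1) (c : ℝ) :
    ExL p (fun _ : ι → L => c) = c := by
  unfold ExL
  rw [← Finset.sum_mul, sum_pwL h1, one_mul]

theorem ExL_add (p : L → ℝ) (f g : (ι → L) → ℝ) :
    ExL p (fun w => f w + g w) = ExL p f + ExL p g := by
  unfold ExL
  rw [← Finset.sum_add_distrib]
  exact Finset.sum_congr rfl fun _ _ => mul_add _ _ _

theorem ExL_sub (p : L → ℝ) (f g : (ι → L) → ℝ) :
    ExL p (fun w => f w - g w) = ExL p f - ExL p g := by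
  unfold ExL
  rw [← Finset.sum_sub_distrib]
  exact Finset.sum_congr rfl fun _ _ => mul_sub _ _ _

theorem ExL_const_mul (p : L → ℝ) (c : ℝ) (f : (ι → L) → ℝ) :
    ExL p (fun w => c * f w) = c * ExL p f := by
  unfold ExL
  rw [Finset.mul_sum]
  exact Finset.sum_congr rfl fun _ _ => by ring

theorem ExL_mul_const (p : L → ℝ) (c : ℝ) (f : (ι → L) → ℝ) :
    ExL p (fun w => f w * c) = ExL p f * c := by
  unfold ExL
  rw [Finset.sum_mul]
  exact Finset.sum_congr rfl fun _ _ => by ring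

theorem ExL_zero (p : L → ℝ) : ExL p (fun _ : ι → L => 0) = 0 := by
  simp [ExL]

theorem ExL_sum {κ : Type*} (p : L → ℝ) (s : Finset κ) (f : κ → (ι → L) → ℝ) :
    ExL p (fun w => ∑ a ∈ s, f a w) = ∑ a ∈ s, ExL p (f a) := by
  unfold ExL
  rw [Finset.sum_comm]
  exact Finset.sum_congr rfl fun _ _ => Finset.mul_sum _ _ _

theorem ExL_mono {p : L → ℝ} (hp : ∀ l, 0 ≤ p l) {f g : (ι → L) → ℝ} (h : ∀ w, f w ≤ g w) :
    ExL p f ≤ ExL p g :=
  Finset.sum_le_sum fun w _ => mul_le_mul_of_nonneg_left (h w) (pwL_nonneg hp w)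

theorem ExL_nonneg {p : L → ℝ} (hp : ∀ l, 0 ≤ p l) {f : (ι → L) → ℝ} (h : ∀ w, 0 ≤ f w) :
    0 ≤ ExL p f :=
  Finset.sum_nonneg fun w _ => mul_nonneg (pwL_nonneg hp w) (h w)

theorem ExL_le_const {p : L → ℝ} (hp : ∀ l, 0 ≤ p l) (h1 : ∑ l, p l = 1)
    {f : (ι → L) → ℝ} {c : ℝ} (h : ∀ w, f w ≤ c) : ExL p f ≤ c :=
  (ExL_mono hp h).trans (ExL_const h1 c).le

theorem const_le_ExL {p : L → ℝ} (hp : ∀ l, 0 ≤ p l) (h1 : ∑ l, p l = 1)
    {f : (ι → L) → ℝ} {c : ℝ} (h : ∀ w, c ≤ f w) : c ≤ ExL p f :=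
  (ExL_const h1 c).ge.trans (ExL_mono hp h)

/-- Fubini for two independent label vectors (possibly of different types). -/
theorem ExL_comm {ι' L' : Type*} [Fintype ι'] [DecidableEq ι'] [Fintype L'] (p : L → ℝ)
    (p' : L' → ℝ) (F : (ι → L) → (ι' → L') → ℝ) :
    ExL p (fun w => ExL p' (fun w' => F w w')) = ExL p' (fun w' => ExL p (fun w => F w w')) := by
  unfold ExL
  simp only [Finset.mul_sum]
  rw [Finset.sum_comm]
  exact Finset.sum_congr rfl fun _ _ => Finset.sum_congr rfl fun _ _ => by ring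

omit [Fintype L] in
theorem pwL_piecewise (p : L → ℝ) (Q : Finset ι) (s s' : ι → L) :
    pwL p (Q.piecewise s' s) * pwL p (Q.piecewise s s') = pwL p s * pwL p s' := by
  unfold pwL
  rw [← Finset.prod_mul_distrib, ← Finset.prod_mul_distrib]
  refine Finset.prod_congr rfl fun i _ => ?_
  by_cases hi : i ∈ Q
  · rw [Finset.piecewise_eq_of_mem _ _ _ hi, Finset.piecewise_eq_of_mem _ _ _ hi, mul_comm]
  · rw [Finset.piecewise_eq_of_notMem _ _ _ hi, Finset.piecewise_eq_of_notMem _ _ _ hi]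

/-- Two-sample swap on a stopping set. -/
theorem ExL_swap (p : L → ℝ) (Q : (ι → L) → Finset ι)
    (hQ : ∀ s s' : ι → L, (∀ i, i ∉ Q s → s' i = s i) → Q s' = Q s)
    (F : (ι → L) → (ι → L) → ℝ) :
    ExL p (fun s => ExL p (fun s' => F s s')) =
      ExL p (fun s => ExL p (fun s' => F ((Q s).piecewise s' s) ((Q s).piecewise s s'))) := by
  let φ : (ι → L) × (ι → L) → (ι → L) × (ι → L) :=
    fun x => ((Q x.1).piecewise x.2 x.1, (Q x.1).piecewise x.1 x.2)
  have hφ : Function.Involutive φ := by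
    intro x
    have hq : Q ((Q x.1).piecewise x.2 x.1) = Q x.1 :=
      hQ _ _ fun i hi => Finset.piecewise_eq_of_notMem _ _ _ hi
    refine Prod.ext ?_ ?_
    · funext i
      by_cases hi : i ∈ Q x.1
      · have hi' : i ∈ Q ((Q x.1).piecewise x.2 x.1) := by rw [hq]; exact hi
        exact (Finset.piecewise_eq_of_mem _ _ _ hi').trans (Finset.piecewise_eq_of_mem _ _ _ hi)
      · have hi' : i ∉ Q ((Q x.1).piecewise x.2 x.1) := by rw [hq]; exact hi
        exact (Finset.piecewise_eq_of_notMem _ _ _ hi').trans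
          (Finset.piecewise_eq_of_notMem _ _ _ hi)
    · funext i
      by_cases hi : i ∈ Q x.1
      · have hi' : i ∈ Q ((Q x.1).piecewise x.2 x.1) := by rw [hq]; exact hi
        exact (Finset.piecewise_eq_of_mem _ _ _ hi').trans (Finset.piecewise_eq_of_mem _ _ _ hi)
      · have hi' : i ∉ Q ((Q x.1).piecewise x.2 x.1) := by rw [hq]; exact hi
        exact (Finset.piecewise_eq_of_notMem _ _ _ hi').trans
          (Finset.piecewise_eq_of_notMem _ _ _ hi)
  have h1 : ∀ G : (ι → L) → (ι → L) → ℝ, ExL p (fun s => ExL p (fun s' => G s s')) =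
      ∑ x : (ι → L) × (ι → L), pwL p x.1 * pwL p x.2 * G x.1 x.2 := by
    intro G
    unfold ExL
    rw [Fintype.sum_prod_type]
    refine Finset.sum_congr rfl fun s _ => ?_
    rw [Finset.mul_sum]
    exact Finset.sum_congr rfl fun _ _ => by ring
  rw [h1, h1, ← Equiv.sum_comp hφ.toPerm]
  refine Finset.sum_congr rfl fun x _ => ?_
  change pwL p ((Q x.1).piecewise x.2 x.1) * pwL p ((Q x.1).piecewise x.1 x.2) * _ = _
  rw [pwL_piecewise]
  rfl

/-- RESAMPLE: labels inside a stopping set may be drawn afresh. -/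
theorem ExL_resample {p : L → ℝ} (h1 : ∑ l, p l = 1) (Q : (ι → L) → Finset ι)
    (hQ : ∀ s s' : ι → L, (∀ i, i ∉ Q s → s' i = s i) → Q s' = Q s) (f : (ι → L) → ℝ) :
    ExL p f = ExL p (fun s => ExL p (fun s' => f ((Q s).piecewise s' s))) := by
  rw [← ExL_swap p Q hQ (fun s _ => f s)]
  simp only [ExL_const h1]

/-- Comparison through resampling: an inequality for every frozen outside is enough. -/
theorem ExL_le_of_resample {p : L → ℝ} (hp : ∀ l, 0 ≤ p l) (h1 : ∑ l, p l = 1)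
    (Q : (ι → L) → Finset ι)
    (hQ : ∀ s s' : ι → L, (∀ i, i ∉ Q s → s' i = s i) → Q s' = Q s) (f g : (ι → L) → ℝ)
    (h : ∀ s, ExL p (fun s' => f ((Q s).piecewise s' s)) ≤
      ExL p (fun s' => g ((Q s).piecewise s' s))) : ExL p f ≤ ExL p g := by
  rw [ExL_resample h1 Q hQ f, ExL_resample h1 Q hQ g]
  exact ExL_mono hp h

/-- The law of one coordinate. -/
theorem ExL_coord {p : L → ℝ} (h1 : ∑ l, p l = 1) (i : ι) (g : L → ℝ) :
    ExL p (fun w : ι → L => g (w i)) = ∑ l, p l * g l := by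
  have h := Finset.prod_univ_sum (fun _ : ι => (univ : Finset L))
    (fun j l => p l * (if j = i then g l else 1))
  rw [Fintype.piFinset_univ] at h
  have h2 : ∏ j : ι, ∑ l : L, p l * (if j = i then g l else 1) = ∑ l, p l * g l := by
    rw [Finset.prod_eq_single i]
    · simp
    · intro j _ hj
      simp [hj, h1]
    · simp
  rw [← h2, h]
  unfold ExL pwL
  refine Finset.sum_congr rfl fun w _ => ?_
  rw [Finset.prod_mul_distrib]
  simp

/-- FLIP: resample the single coordinate `i`. -/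
theorem ExL_update {p : L → ℝ} (h1 : ∑ l, p l = 1) (i : ι) (f : (ι → L) → ℝ) :
    ExL p f = ExL p (fun s => ∑ l, p l * f (Function.update s i l)) := by
  rw [ExL_resample h1 (fun _ => {i}) (fun _ _ _ => rfl) f]
  congr 1
  funext s
  rw [← ExL_coord h1 i (fun l => f (Function.update s i l))]
  congr 1
  funext s'
  rw [Finset.piecewise_singleton]

/-- FACTOR: a function that ignores coordinate `i` is independent of it. -/
theorem ExL_factor {p : L → ℝ} (h1 : ∑ l, p l = 1) (i : ι) (g : L → ℝ) (F : (ι → L) → ℝ)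
    (hF : ∀ s l, F (Function.update s i l) = F s) :
    ExL p (fun s => g (s i) * F s) = (∑ l, p l * g l) * ExL p F := by
  rw [ExL_update h1 i, ← ExL_const_mul]
  congr 1
  funext s
  rw [Finset.sum_mul]
  refine Finset.sum_congr rfl fun l _ => ?_
  rw [hF, Function.update_self]
  ring

/-- Relabelling inside a set of labels: `F` is invariant when coordinate `i` moves inside `P`. -/
theorem ExL_relabel {p : L → ℝ} (h1 : ∑ l, p l = 1) (i : ι) (P : L → Prop) (g g' : L → ℝ)
    (hg : ∀ l, ¬ P l → g l = 0) (hg' : ∀ l, ¬ P l → g' l = 0) (F : (ι → L) → ℝ)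
    (hF : ∀ s l l', P l → P l' → F (Function.update s i l) = F (Function.update s i l')) :
    (∑ l, p l * g' l) * ExL p (fun s => g (s i) * F s) =
      (∑ l, p l * g l) * ExL p (fun s => g' (s i) * F s) := by
  rw [ExL_update h1 i (fun s => g (s i) * F s), ExL_update h1 i (fun s => g' (s i) * F s),
    ← ExL_const_mul, ← ExL_const_mul]
  congr 1
  funext s
  simp only [Function.update_self]
  rw [Finset.sum_mul_sum, Finset.sum_mul_sum, Finset.sum_comm]
  refine Finset.sum_congr rfl fun l _ => Finset.sum_congr rfl fun l' _ => ?_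
  by_cases hl : P l
  · by_cases hl' : P l'
    · rw [hF s l l' hl hl']
      ring
    · simp [hg' l' hl']
  · simp [hg l hl]

/-- THINNING: expected weighted size of the elements of `A` with a label in `P`. -/
theorem ExL_sum_filter {p : L → ℝ} (h1 : ∑ l, p l = 1) (P : L → Prop) [DecidablePred P]
    (A : Finset ι) (x : ι → ℝ) :
    ExL p (fun s => ∑ e ∈ A.filter (fun e => P (s e)), x e) =
      (∑ l ∈ univ.filter P, p l) * ∑ e ∈ A, x e := by
  simp only [Finset.sum_filter]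
  rw [ExL_sum, Finset.mul_sum]
  refine Finset.sum_congr rfl fun e _ => ?_
  rw [ExL_coord h1 e (fun l => if P l then x e else 0), Finset.sum_mul]
  refine Finset.sum_congr rfl fun l _ => ?_
  split_ifs <;> simp

theorem ExL_card_filter {p : L → ℝ} (h1 : ∑ l, p l = 1) (P : L → Prop) [DecidablePred P]
    (A : Finset ι) :
    ExL p (fun s => (#(A.filter (fun e => P (s e))) : ℝ)) = (∑ l ∈ univ.filter P, p l) * #A := by
  have := ExL_sum_filter h1 P A (fun _ => 1)
  simpa using this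

/-- A function of the labels on a product of two label types. -/
theorem ExL_prod {L' : Type*} [Fintype L'] (p : L → ℝ) (p' : L' → ℝ) (F : (ι → L × L') → ℝ) :
    ExL (fun l : L × L' => p l.1 * p' l.2) F =
      ExL p (fun w => ExL p' (fun w' => F (fun i => (w i, w' i)))) := by
  unfold ExL
  simp only [Finset.mul_sum]
  rw [← Fintype.sum_prod_type', ← Equiv.sum_comp (Equiv.arrowProdEquivProdArrow ι _ _).symm]
  refine Finset.sum_congr rfl fun x _ => ?_
  unfold pwL
  rw [← mul_assoc, ← Finset.prod_mul_distrib]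
  rfl

end General

section Boolean
variable {ι : Type*} [Fintype ι] [DecidableEq ι]

/-- Bernoulli weights. -/
def bw (τ : ℝ) (b : Bool) : ℝ := if b then τ else 1 - τ

/-- Product weight of a Boolean vector. -/
def pw (τ : ℝ) (s : ι → Bool) : ℝ := ∏ i, (if s i then τ else 1 - τ)

/-- Expectation over an independent Bernoulli(`τ`) vector. -/
def Ex (τ : ℝ) (f : (ι → Bool) → ℝ) : ℝ := ∑ s : ι → Bool, pw τ s * f s

theorem Ex_eq (τ : ℝ) (f : (ι → Bool) → ℝ) : Ex τ f = ExL (bw τ) f := rfl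

theorem sum_bw (τ : ℝ) : ∑ b, bw τ b = 1 := by simp [bw]

theorem bw_nonneg {τ : ℝ} (h0 : 0 ≤ τ) (h1 : τ ≤ 1) (b : Bool) : 0 ≤ bw τ b := by
  cases b <;> simp [bw, h0, h1]

omit [DecidableEq ι] in
theorem pw_nonneg {τ : ℝ} (h0 : 0 ≤ τ) (h1 : τ ≤ 1) (s : ι → Bool) : 0 ≤ pw τ s :=
  pwL_nonneg (bw_nonneg h0 h1) s

theorem sum_pw (τ : ℝ) : ∑ s : ι → Bool, pw τ s = 1 := sum_pwL (sum_bw τ)

theorem Ex_const (τ c : ℝ) : Ex τ (fun _ : ι → Bool => c) = c := ExL_const (sum_bw τ) c

theorem Ex_zero (τ : ℝ) : Ex τ (fun _ : ι → Bool => 0) = 0 := ExL_zero (bw τ)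

theorem Ex_add (τ : ℝ) (f g : (ι → Bool) → ℝ) :
    Ex τ (fun w => f w + g w) = Ex τ f + Ex τ g := ExL_add (bw τ) f g

theorem Ex_sub (τ : ℝ) (f g : (ι → Bool) → ℝ) :
    Ex τ (fun w => f w - g w) = Ex τ f - Ex τ g := ExL_sub (bw τ) f g

theorem Ex_const_mul (τ c : ℝ) (f : (ι → Bool) → ℝ) :
    Ex τ (fun w => c * f w) = c * Ex τ f := ExL_const_mul (bw τ) c f

theorem Ex_mul_const (τ c : ℝ) (f : (ι → Bool) → ℝ) :
    Ex τ (fun w => f w * c) = Ex τ f * c := ExL_mul_const (bw τ) c f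

theorem Ex_sum {κ : Type*} (τ : ℝ) (s : Finset κ) (f : κ → (ι → Bool) → ℝ) :
    Ex τ (fun w => ∑ a ∈ s, f a w) = ∑ a ∈ s, Ex τ (f a) := ExL_sum (bw τ) s f

theorem Ex_mono {τ : ℝ} (h0 : 0 ≤ τ) (h1 : τ ≤ 1) {f g : (ι → Bool) → ℝ} (h : ∀ w, f w ≤ g w) :
    Ex τ f ≤ Ex τ g := ExL_mono (bw_nonneg h0 h1) h

theorem Ex_nonneg {τ : ℝ} (h0 : 0 ≤ τ) (h1 : τ ≤ 1) {f : (ι → Bool) → ℝ} (h : ∀ w, 0 ≤ f w) :
    0 ≤ Ex τ f := ExL_nonneg (bw_nonneg h0 h1) h

theorem Ex_le_const {τ : ℝ} (h0 : 0 ≤ τ) (h1 : τ ≤ 1) {f : (ι → Bool) → ℝ} {c : ℝ}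
    (h : ∀ w, f w ≤ c) : Ex τ f ≤ c := ExL_le_const (bw_nonneg h0 h1) (sum_bw τ) h

theorem const_le_Ex {τ : ℝ} (h0 : 0 ≤ τ) (h1 : τ ≤ 1) {f : (ι → Bool) → ℝ} {c : ℝ}
    (h : ∀ w, c ≤ f w) : c ≤ Ex τ f := const_le_ExL (bw_nonneg h0 h1) (sum_bw τ) h

theorem Ex_comm {ι' : Type*} [Fintype ι'] [DecidableEq ι'] (τ σ : ℝ)
    (F : (ι → Bool) → (ι' → Bool) → ℝ) :
    Ex τ (fun w => Ex σ (fun w' => F w w')) = Ex σ (fun w' => Ex τ (fun w => F w w')) :=
  ExL_comm (bw τ) (bw σ) F

theorem Ex_swap (τ : ℝ) (Q : (ι → Bool) → Finset ι)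
    (hQ : ∀ s s' : ι → Bool, (∀ i, i ∉ Q s → s' i = s i) → Q s' = Q s)
    (F : (ι → Bool) → (ι → Bool) → ℝ) :
    Ex τ (fun s => Ex τ (fun s' => F s s')) =
      Ex τ (fun s => Ex τ (fun s' => F ((Q s).piecewise s' s) ((Q s).piecewise s s'))) :=
  ExL_swap (bw τ) Q hQ F

/-- RESAMPLE on a stopping set. -/
theorem Ex_resample (τ : ℝ) (Q : (ι → Bool) → Finset ι)
    (hQ : ∀ s s' : ι → Bool, (∀ i, i ∉ Q s → s' i = s i) → Q s' = Q s) (f : (ι → Bool) → ℝ) :
    Ex τ f = Ex τ (fun s => Ex τ (fun s' => f ((Q s).piecewise s' s))) :=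
  ExL_resample (sum_bw τ) Q hQ f

theorem Ex_le_of_resample {τ : ℝ} (h0 : 0 ≤ τ) (h1 : τ ≤ 1) (Q : (ι → Bool) → Finset ι)
    (hQ : ∀ s s' : ι → Bool, (∀ i, i ∉ Q s → s' i = s i) → Q s' = Q s) (f g : (ι → Bool) → ℝ)
    (h : ∀ s, Ex τ (fun s' => f ((Q s).piecewise s' s)) ≤
      Ex τ (fun s' => g ((Q s).piecewise s' s))) : Ex τ f ≤ Ex τ g :=
  ExL_le_of_resample (bw_nonneg h0 h1) (sum_bw τ) Q hQ f g h

/-- FLIP: single coordinate. -/
theorem Ex_flip (τ : ℝ) (i : ι) (f : (ι → Bool) → ℝ) :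
    Ex τ f = Ex τ (fun s => τ * f (Function.update s i true) +
      (1 - τ) * f (Function.update s i false)) := by
  rw [Ex_eq, ExL_update (sum_bw τ) i f, Ex_eq]
  simp [bw]

/-- FACTOR, `true` side. -/
theorem Ex_ite_true (τ : ℝ) (i : ι) (F : (ι → Bool) → ℝ)
    (hF : ∀ s b, F (Function.update s i b) = F s) :
    Ex τ (fun s => if s i then F s else 0) = τ * Ex τ F := by
  have := ExL_factor (sum_bw τ) i (fun b => if b then 1 else 0) F hF
  simpa [bw, Ex_eq] using this

/-- FACTOR, `false` side. -/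
theorem Ex_ite_false (τ : ℝ) (i : ι) (F : (ι → Bool) → ℝ)
    (hF : ∀ s b, F (Function.update s i b) = F s) :
    Ex τ (fun s => if s i then 0 else F s) = (1 - τ) * Ex τ F := by
  have := ExL_factor (sum_bw τ) i (fun b => if b then 0 else 1) F hF
  simpa [bw, Ex_eq] using this

/-- General single-coordinate splitting: the part with `s i = true`. -/
theorem Ex_ite_true' (τ : ℝ) (i : ι) (F : (ι → Bool) → ℝ) :
    Ex τ (fun s => if s i then F s else 0) = τ * Ex τ (fun s => F (Function.update s i true)) := by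
  rw [Ex_flip τ i, ← Ex_const_mul]
  simp

theorem Ex_ite_false' (τ : ℝ) (i : ι) (F : (ι → Bool) → ℝ) :
    Ex τ (fun s => if s i then 0 else F s) =
      (1 - τ) * Ex τ (fun s => F (Function.update s i false)) := by
  rw [Ex_flip τ i, ← Ex_const_mul]
  simp

/-- THINNING. -/
theorem Ex_sum_filter (τ : ℝ) (A : Finset ι) (x : ι → ℝ) :
    Ex τ (fun s => ∑ e ∈ A.filter (fun e => s e = true), x e) = τ * ∑ e ∈ A, x e := by
  have := ExL_sum_filter (sum_bw τ) (fun b => b = true) A x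
  rw [Ex_eq, this]
  simp [bw, Finset.sum_filter]

theorem Ex_sum_filter_false (τ : ℝ) (A : Finset ι) (x : ι → ℝ) :
    Ex τ (fun s => ∑ e ∈ A.filter (fun e => s e = false), x e) = (1 - τ) * ∑ e ∈ A, x e := by
  have := ExL_sum_filter (sum_bw τ) (fun b => b = false) A x
  rw [Ex_eq, this]
  simp [bw, Finset.sum_filter]

theorem Ex_card_filter (τ : ℝ) (A : Finset ι) :
    Ex τ (fun s => (#(A.filter (fun e => s e = true)) : ℝ)) = τ * #A := by
  have := Ex_sum_filter τ A (fun _ => 1)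
  simpa using this

theorem Ex_card_filter_false (τ : ℝ) (A : Finset ι) :
    Ex τ (fun s => (#(A.filter (fun e => s e = false)) : ℝ)) = (1 - τ) * #A := by
  have := Ex_sum_filter_false τ A (fun _ => 1)
  simpa using this

/-- SPARSE THINNING: if every `X ⊆ A` spans at most `γ * #X` elements of `A`, the expected number of
sampled elements spanned by the other sampled elements is at most `γ τ² #A`. -/
theorem Ex_sparse {τ : ℝ} (h0 : 0 ≤ τ) (h1 : τ ≤ 1) (A : Finset ι) (sp : Finset ι → ι → Prop)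
    [∀ X, DecidablePred (sp X)] (hmono : ∀ X Y e, X ⊆ Y → sp X e → sp Y e) (γ : ℝ)
    (hsp : ∀ X, X ⊆ A → (#(A.filter (sp X)) : ℝ) ≤ γ * #X) :
    Ex τ (fun s => (#(A.filter fun e =>
        s e = true ∧ sp ((A.filter fun f => s f = true).erase e) e) : ℝ)) ≤ γ * τ ^ 2 * #A := by
  have hcard : ∀ s : ι → Bool, (#(A.filter fun e =>
        s e = true ∧ sp ((A.filter fun f => s f = true).erase e) e) : ℝ) =
      ∑ e ∈ A, (if s e then
        (if sp ((A.filter fun f => s f = true).erase e) e then (1 : ℝ) else 0) else 0) := by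
    intro s
    rw [Finset.card_filter]
    push_cast
    refine Finset.sum_congr rfl fun e _ => ?_
    by_cases h : s e = true <;> simp [h]
  simp only [hcard]
  rw [Ex_sum]
  have h2 : ∀ e ∈ A, Ex τ (fun s => if s e then
        (if sp ((A.filter fun f => s f = true).erase e) e then (1 : ℝ) else 0) else 0) ≤
      τ * Ex τ (fun s => if sp (A.filter fun f => s f = true) e then (1 : ℝ) else 0) := by
    intro e _
    rw [Ex_ite_true]
    · refine mul_le_mul_of_nonneg_left (Ex_mono h0 h1 fun s => ?_) h0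
      split_ifs with ha hb
      · exact le_rfl
      · exact absurd (hmono _ _ _ (Finset.erase_subset _ _) ha) hb
      · exact zero_le_one
      · exact le_rfl
    · intro s b
      have : (A.filter fun f => Function.update s e b f = true).erase e =
          (A.filter fun f => s f = true).erase e := by
        ext f
        by_cases hf : f = e
        · simp [hf]
        · simp [hf]
      rw [this]
  refine (Finset.sum_le_sum h2).trans ?_
  rw [← Finset.mul_sum, ← Ex_sum]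
  have h3 : Ex τ (fun s => ∑ e ∈ A, if sp (A.filter fun f => s f = true) e then (1 : ℝ) else 0) ≤
      Ex τ (fun s => γ * (#(A.filter fun f => s f = true) : ℝ)) := by
    refine Ex_mono h0 h1 fun s => ?_
    have := hsp (A.filter fun f => s f = true) (Finset.filter_subset _ _)
    rw [Finset.card_filter] at this
    push_cast at this
    exact this
  rw [Ex_const_mul, Ex_card_filter] at h3
  calc _ ≤ τ * (γ * (τ * #A)) := mul_le_mul_of_nonneg_left h3 h0
    _ = _ := by ring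

end Boolean

end Crest.Agent.R305.P24
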