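import Crest.Agent.R305.Exb9
import Crest.Agent.R305.Union73
import Crest.Agent.R305.Comp73
import Crest.Agent.R305.Prob24

/-! Row 305: (alpha) from the compression lemma (helper24). -/

set_option autoImplicit false
open Classical

namespace Crest.Agent.R305

variable {k : ℕ}

namespace G24

theorem Ex_eq24 (p : ℝ) (f : Finset (Fin k) → ℝ) :
    Ex p f = P24.Ex p (fun s => f (toB9.symm s)) := Ex_eq9 p f

/-- a maximiser of `#X - γ r(P ∪ X)` among the subsets of `L` -/
theorem exists_hull (M : Matroid (Fin k)) (P : Set (Fin k)) (L : Finset (Fin k)) :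
    ∃ Z, Z ⊆ L ∧ ∀ X, X ⊆ L → ((X.card : ℤ) - 4 * kap * (rk M (P ∪ ↑X) : ℤ)) ≤
      (Z.card : ℤ) - 4 * kap * (rk M (P ∪ ↑Z) : ℤ) := by
  obtain ⟨Z, hZ, h⟩ := Finset.exists_max_image L.powerset
    (fun X : Finset (Fin k) => (X.card : ℤ) - 4 * kap * (rk M (P ∪ ↑X) : ℤ))
    ⟨∅, Finset.empty_mem_powerset _⟩
  exact ⟨Z, Finset.mem_powerset.1 hZ, fun X hX => h X (Finset.mem_powerset.2 hX)⟩

noncomputable def hull (M : Matroid (Fin k)) (P : Set (Fin k)) (L : Finset (Fin k)) :
    Finset (Fin k) := (exists_hull M P L).choose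

theorem hull_sub (M : Matroid (Fin k)) (P : Set (Fin k)) (L : Finset (Fin k)) : hull M P L ⊆ L :=
  (exists_hull M P L).choose_spec.1

theorem hull_max (M : Matroid (Fin k)) (P : Set (Fin k)) (L X : Finset (Fin k)) (hX : X ⊆ L) :
    ((X.card : ℤ) - 4 * kap * (rk M (P ∪ ↑X) : ℤ)) ≤
      ((hull M P L).card : ℤ) - 4 * kap * (rk M (P ∪ ↑(hull M P L)) : ℤ) :=
  (exists_hull M P L).choose_spec.2 X hX

theorem hull_sparse (M : Matroid (Fin k)) (h1 : RANK M) (P : Set (Fin k)) (L : Finset (Fin k))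
    (hP : P ⊆ M.E) (hL : (L : Set (Fin k)) ⊆ M.E) (A : Finset (Fin k))
    (hA : A ⊆ L \ hull M P L) (X : Finset (Fin k)) :
    ((A.filter (fun e => e ∈ M.closure (P ∪ ↑(hull M P L) ∪ ↑X))).card : ℝ) ≤
      4 * kap * X.card := by
  obtain ⟨hmono, -, hcl, -, -, hadd, -, -, -⟩ := h1
  set Z := hull M P L with hZ
  set Y := A.filter (fun e => e ∈ M.closure (P ∪ ↑Z ∪ ↑X)) with hY
  have hYA : Y ⊆ L \ Z := (Finset.filter_subset _ _).trans hA
  have hZL : Z ⊆ L := hull_sub M P L
  have hsub : Z ∪ Y ⊆ L := Finset.union_subset hZL (hYA.trans Finset.sdiff_subset)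
  have hdisj : Disjoint Z Y := by
    rw [Finset.disjoint_left]
    intro e he heY
    exact (Finset.mem_sdiff.1 (hYA heY)).2 he
  have h2 := hull_max M P L (Z ∪ Y) hsub
  rw [Finset.card_union_of_disjoint hdisj, ← hZ] at h2
  have h3 : rk M (P ∪ ↑(Z ∪ Y)) ≤ rk M (P ∪ ↑Z) + X.card := by
    refine le_trans (hmono _ (M.closure (P ∪ ↑Z ∪ ↑X)) ?_) ?_
    · intro e he
      rcases he with he | he
      · exact M.mem_closure_of_mem' (Or.inl (Or.inl he)) (hP he)
      · rcases Finset.mem_union.1 (Finset.mem_coe.1 he) with he | he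
        · exact M.mem_closure_of_mem' (Or.inl (Or.inr he)) (hL (hZL he))
        · exact (Finset.mem_filter.1 he).2
    · rw [hcl]
      exact hadd _ _
  have h4 : (rk M (P ∪ ↑(Z ∪ Y)) : ℤ) ≤ rk M (P ∪ ↑Z) + X.card := by exact_mod_cast h3
  have hk : (0 : ℤ) ≤ 4 * kap := by positivity
  have h5 : (Y.card : ℤ) ≤ 4 * kap * X.card := by
    have := mul_le_mul_of_nonneg_left h4 hk
    push_cast at h2
    push_cast at this
    linarith
  exact_mod_cast h5

theorem hull_poor (M : Matroid (Fin k)) (D : Finset (Fin k)) (S P : Set (Fin k))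
    (hmax : IsMax M D S P) (L : Finset (Fin k)) (hL : (L : Set (Fin k)) ⊆ M.E)
    (hLP : ∀ e ∈ L, e ∉ P) :
    4 * ((hull M P L).filter (fun e => e ∈ D)).card ≤ (hull M P L).card := by
  set Z := hull M P L with hZ
  have hZL : Z ⊆ L := hull_sub M P L
  have h1 := hull_max M P L ∅ (Finset.empty_subset _)
  rw [← hZ] at h1
  simp only [Finset.card_empty, Finset.coe_empty, Set.union_empty] at h1
  have h2 := hmax.2.2 (P ∪ ↑Z) (hmax.1.trans Set.subset_union_left)
    (Set.union_subset hmax.2.1 (fun e he => hL (hZL he)))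
  unfold fval at h2
  have h3 : (D.filter (fun e => e ∈ P)).card + (Z.filter (fun e => e ∈ D)).card ≤
      (D.filter (fun e => e ∈ P ∪ ↑Z)).card := by
    rw [← Finset.card_union_of_disjoint]
    · refine Finset.card_le_card fun e he => ?_
      rcases Finset.mem_union.1 he with he | he
      · exact Finset.mem_filter.2 ⟨(Finset.mem_filter.1 he).1, Or.inl (Finset.mem_filter.1 he).2⟩
      · exact Finset.mem_filter.2 ⟨(Finset.mem_filter.1 he).2, Or.inr (Finset.mem_filter.1 he).1⟩
    · rw [Finset.disjoint_left]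
      intro e he he'
      exact hLP e (hZL (Finset.mem_filter.1 he').1) (Finset.mem_filter.1 he).2
  have h4 : ((D.filter (fun e => e ∈ P)).card : ℤ) + (Z.filter (fun e => e ∈ D)).card ≤
      (D.filter (fun e => e ∈ P ∪ ↑Z)).card := by exact_mod_cast h3
  have h5 : (4 : ℤ) * (Z.filter (fun e => e ∈ D)).card ≤ Z.card := by
    have h2' : ((D.filter (fun e => e ∈ P ∪ ↑Z)).card : ℤ) - (kap : ℤ) * (rk M (P ∪ ↑Z) : ℤ) ≤
        ((D.filter (fun e => e ∈ P)).card : ℤ) - (kap : ℤ) * (rk M P : ℤ) := by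
      convert h2
    push_cast at h1
    linarith
  exact_mod_cast h5

theorem rk_union_free (M : Matroid (Fin k)) (h1 : RANK M) (P : Set (Fin k)) (G : Finset (Fin k))
    (hG : (G : Set (Fin k)) ⊆ M.E) (h : ∀ e ∈ G, e ∉ M.closure (P ∪ ↑(G.erase e))) :
    rk M (P ∪ ↑G) = rk M P + G.card := by
  induction G using Finset.induction_on with
  | empty => simp
  | insert a G ha ih =>
    have hG' : (G : Set (Fin k)) ⊆ M.E := fun e he => hG (by simp [Finset.mem_coe.1 he])
    have h' : ∀ e ∈ G, e ∉ M.closure (P ∪ ↑(G.erase e)) := by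
      intro e he hc
      refine h e (Finset.mem_insert_of_mem he) (M.closure_subset_closure ?_ hc)
      refine Set.union_subset_union_right _ ?_
      exact Finset.coe_subset.2 (Finset.erase_subset_erase _ (Finset.subset_insert _ _))
    have ha' := h a (Finset.mem_insert_self _ _)
    rw [Finset.erase_insert ha] at ha'
    have h2 := h1.2.2.2.1 (P ∪ ↑G) a (hG (by simp)) ha'
    rw [Finset.coe_insert, Set.union_insert, h2, ih hG' h', Finset.card_insert_of_notMem ha]
    omega

/-- deterministic nullity bound -/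
theorem null_le (M : Matroid (Fin k)) (h1 : RANK M) (P : Set (Fin k)) (B Z A : Finset (Fin k))
    (hA : (A : Set (Fin k)) ⊆ M.E) (hAB : A ⊆ B) (Z' : Finset (Fin k)) (hB : B ⊆ Z' ∪ A) :
    (B.card : ℝ) - ((rk M (P ∪ ↑B) : ℝ) - rk M P) ≤
      Z'.card + ((A.filter (fun e => e ∈ M.closure (P ∪ ↑Z ∪ ↑(A.erase e)))).card : ℝ) := by
  set G := A.filter (fun e => ¬ e ∈ M.closure (P ∪ ↑Z ∪ ↑(A.erase e))) with hG
  have hGA : G ⊆ A := Finset.filter_subset _ _
  have h2 : rk M (P ∪ ↑G) = rk M P + G.card := by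
    refine rk_union_free M h1 P G (fun e he => hA (hGA he)) fun e he hc => ?_
    refine (Finset.mem_filter.1 he).2 (M.closure_subset_closure ?_ hc)
    refine Set.union_subset_union Set.subset_union_left ?_
    exact Finset.coe_subset.2 (Finset.erase_subset_erase _ hGA)
  have h3 : rk M (P ∪ ↑G) ≤ rk M (P ∪ ↑B) :=
    h1.1 _ _ (Set.union_subset_union_right _ (Finset.coe_subset.2 (hGA.trans hAB)))
  have h4 := Finset.card_filter_add_card_filter_not (s := A)
    (fun e => e ∈ M.closure (P ∪ ↑Z ∪ ↑(A.erase e)))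
  have h5 : B.card ≤ Z'.card + A.card :=
    (Finset.card_le_card hB).trans (Finset.card_union_le _ _)
  have h6 : B.card + rk M P ≤ rk M (P ∪ ↑B) + (Z'.card +
      (A.filter (fun e => e ∈ M.closure (P ∪ ↑Z ∪ ↑(A.erase e)))).card) := by
    rw [← hG] at h4
    omega
  have h7 : (B.card : ℝ) + rk M P ≤ rk M (P ∪ ↑B) + (Z'.card +
      (A.filter (fun e => e ∈ M.closure (P ∪ ↑Z ∪ ↑(A.erase e)))).card) := by exact_mod_cast h6
  linarith

/-- the band between two flats -/
noncomputable def band (U : Finset (Fin k)) (P N : Set (Fin k)) : Finset (Fin k) :=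
  U.filter (fun y => y ∈ N ∧ y ∉ P)

/-- one band, expectation over the listened labels -/
theorem one_band (M : Matroid (Fin k)) (h1 : RANK M) (U D : Finset (Fin k))
    (hU : (U : Set (Fin k)) ⊆ M.E) (P N : Set (Fin k)) (hP : P ⊆ M.E) :
    Ex tt (fun T0 => (((((T0 \ D) ∩ U).filter (fun y => y ∈ N ∧ y ∉ P)).card : ℝ) -
        ((rk M (P ∪ ↑(((T0 \ D) ∩ U).filter (fun y => y ∈ N ∧ y ∉ P))) : ℝ) - rk M P))) ≤
      tt * (hull M P (band U P N)).card + 4 * kap * tt ^ 2 * (band U P N).card := by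
  have ht0 : (0 : ℝ) ≤ tt := by unfold tt; positivity
  have ht1 : tt ≤ 1 := by unfold tt; norm_num
  set L := band U P N with hL
  set Z := hull M P L with hZ
  set A := (L \ Z) \ D with hA
  have hLE : (L : Set (Fin k)) ⊆ M.E := fun e he => hU (Finset.mem_filter.1 he).1
  have hAL : A ⊆ L \ Z := Finset.sdiff_subset
  have hAL' : A ⊆ L := hAL.trans Finset.sdiff_subset
  rw [Ex_eq24]
  have hs := P24.Ex_sparse ht0 ht1 A (fun X e => e ∈ M.closure (P ∪ ↑Z ∪ ↑X))
    (fun X Y e hXY he => M.closure_subset_closure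
      (Set.union_subset_union_right _ (Finset.coe_subset.2 hXY)) he) (4 * kap)
    (fun X _ => by
      have := hull_sparse M h1 P L hP hLE A hAL X
      convert this)
  have hz := P24.Ex_card_filter tt Z
  have hc : (4 * kap : ℝ) * tt ^ 2 * A.card ≤ 4 * kap * tt ^ 2 * L.card := by
    refine mul_le_mul_of_nonneg_left ?_
      (mul_nonneg (mul_nonneg (by norm_num) (Nat.cast_nonneg _)) (pow_nonneg ht0 2))
    exact_mod_cast Finset.card_le_card hAL'
  refine le_trans (P24.Ex_mono ht0 ht1 (g := fun s =>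
    ((Z.filter (fun e => s e = true)).card : ℝ) + ((A.filter fun e => s e = true ∧
      e ∈ M.closure (P ∪ ↑Z ∪ ↑((A.filter fun f => s f = true).erase e))).card : ℝ)) fun s => ?_) ?_
  · have := null_le M h1 P (((toB9.symm s \ D) ∩ U).filter (fun y => y ∈ N ∧ y ∉ P)) Z
      (A.filter fun f => s f = true)
      (fun e he => hLE (hAL' (Finset.mem_filter.1 he).1)) ?_ (Z.filter (fun e => s e = true)) ?_
    · rw [Finset.filter_filter] at this
      convert this
    · intro e he
      obtain ⟨heA, hes⟩ := Finset.mem_filter.1 he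
      have heL := Finset.mem_filter.1 (hAL' heA)
      exact Finset.mem_filter.2 ⟨Finset.mem_inter.2 ⟨Finset.mem_sdiff.2
        ⟨(mem_toB9 s e).2 hes, (Finset.mem_sdiff.1 heA).2⟩, heL.1⟩, heL.2⟩
    · intro e he
      obtain ⟨he1, he2⟩ := Finset.mem_filter.1 he
      obtain ⟨he3, heU⟩ := Finset.mem_inter.1 he1
      obtain ⟨heT, heD⟩ := Finset.mem_sdiff.1 he3
      have hes := (mem_toB9 s e).1 heT
      have heL : e ∈ L := Finset.mem_filter.2 ⟨heU, he2⟩
      by_cases hz : e ∈ Z
      · exact Finset.mem_union_left _ (Finset.mem_filter.2 ⟨hz, hes⟩)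
      · exact Finset.mem_union_right _ (Finset.mem_filter.2
          ⟨Finset.mem_sdiff.2 ⟨Finset.mem_sdiff.2 ⟨heL, hz⟩, heD⟩, hes⟩)
  · rw [P24.Ex_add, hz]
    have hs' : P24.Ex tt (fun s => ((A.filter fun e => s e = true ∧
      e ∈ M.closure (P ∪ ↑Z ∪ ↑((A.filter fun f => s f = true).erase e))).card : ℝ)) ≤
        4 * kap * tt ^ 2 * A.card := by
      convert hs
    linarith

theorem band_disj (U : Finset (Fin k)) (N : ℕ → Set (Fin k))
    (hN : ∀ t t', t ≤ t' → N t ⊆ N t') (t t' : ℕ) (h : t ≠ t') :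
    Disjoint (band U (N t) (N (t + 1))) (band U (N t') (N (t' + 1))) := by
  rw [Finset.disjoint_left]
  intro e he he'
  have h1 := (Finset.mem_filter.1 he).2
  have h2 := (Finset.mem_filter.1 he').2
  rcases lt_or_gt_of_ne h with hlt | hlt
  · exact h2.2 (hN _ _ hlt h1.1)
  · exact h1.2 (hN _ _ hlt h2.1)

/-- the dense part of the whole chain -/
noncomputable def dense (M : Matroid (Fin k)) (U : Finset (Fin k)) (N : ℕ → Set (Fin k)) (n : ℕ) :
    Finset (Fin k) :=
  (Finset.range n).biUnion (fun t => hull M (N t) (band U (N t) (N (t + 1))))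

theorem card_dense (M : Matroid (Fin k)) (U : Finset (Fin k)) (N : ℕ → Set (Fin k))
    (hN : ∀ t t', t ≤ t' → N t ⊆ N t') (n : ℕ) :
    (dense M U N n).card = ∑ t ∈ Finset.range n, (hull M (N t) (band U (N t) (N (t + 1)))).card := by
  refine Finset.card_biUnion fun t _ t' _ h => ?_
  exact Finset.disjoint_of_subset_left (hull_sub _ _ _)
    (Finset.disjoint_of_subset_right (hull_sub _ _ _) (band_disj U N hN t t' h))

theorem sum_band (U : Finset (Fin k)) (N : ℕ → Set (Fin k))
    (hN : ∀ t t', t ≤ t' → N t ⊆ N t') (n : ℕ) :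
    ∑ t ∈ Finset.range n, (band U (N t) (N (t + 1))).card ≤ U.card := by
  rw [← Finset.card_biUnion (fun t _ t' _ h => band_disj U N hN t t' h)]
  refine Finset.card_le_card fun e he => ?_
  obtain ⟨t, _, ht⟩ := Finset.mem_biUnion.1 he
  exact (Finset.mem_filter.1 ht).1

theorem dense_congr (M : Matroid (Fin k)) (U : Finset (Fin k)) (N N' : ℕ → Set (Fin k)) (n : ℕ)
    (h : ∀ t, t ≤ n → N t = N' t) : dense M U N n = dense M U N' n := by
  unfold dense
  refine Finset.biUnion_congr rfl fun t ht => ?_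
  have := Finset.mem_range.1 ht
  rw [h t (by omega), h (t + 1) (by omega)]

theorem const24 : 18 * ((1 / (kap : ℝ)) * (Real.log kap + 2)) ≤ 1 / 32 := by
  have h : Real.log (kap : ℝ) ≤ 20 := by
    unfold kap
    push_cast
    rw [show (1048576 : ℝ) = 2 ^ 20 by norm_num, Real.log_pow]
    have := Real.log_two_lt_d9
    push_cast
    linarith
  have hk : (kap : ℝ) = 1048576 := by unfold kap; norm_num
  rw [hk] at h ⊢
  nlinarith

end G24

open G24 in
theorem alpha24 (M : Matroid (Fin k)) (h1 : RANK M) (h2 : EXPF M) (hc : COMPRESS73 M) :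
    ALPHA M := by
  intro U S n hU hS hSm
  obtain ⟨b, m, hb0, hm0, hb, hm, hdet⟩ := hc U S n hU hS hSm
  have ht0 : (0 : ℝ) ≤ tt := by unfold tt; positivity
  set N : Finset (Fin k) → ℕ → Set (Fin k) := fun D t => Exp M (D ∩ U) (S t) with hN
  have hNm : ∀ D t t', t ≤ t' → N D t ⊆ N D t' := fun D t t' h =>
    (h2 (D ∩ U) (S t) (hS t)).2.2.2.1 (S t') (hSm t t' h) (hS t')
  have hmax : ∀ D t, IsMax M (D ∩ U) (S t) (N D t) := fun D t => (h2 (D ∩ U) (S t) (hS t)).1
  have hk2 : (2 : ℝ) ≤ (kap : ℝ) := by unfold kap; norm_num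
  have hW := U73.exp_card_of_code U (kap : ℝ) hk2 (fun s => dense M U (N (toB9.symm s)) n)
    (fun s => b (toB9.symm s)) (fun s => m (toB9.symm s))
    (fun s i hi => hb0 _ i hi) (fun s i hi => hm0 _ i hi)
    (fun s => by exact_mod_cast hb _) (fun s => by exact_mod_cast hm _)
    (fun s s' e1 e2 => dense_congr M U _ _ n (hdet _ _ e1 e2))
    (fun s => by
      rw [card_dense M U _ (hNm _)]
      unfold dense
      rw [Finset.filter_biUnion]
      refine le_trans (Nat.mul_le_mul_left _ Finset.card_biUnion_le) ?_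
      rw [Finset.mul_sum]
      refine Finset.sum_le_sum fun t _ => ?_
      refine le_trans (Nat.mul_le_mul_left _ (Finset.card_le_card ?_))
        (hull_poor M (toB9.symm s ∩ U) (S t) _ (hmax _ t) _
          (fun e he => hU (Finset.mem_filter.1 he).1) (fun e he => (Finset.mem_filter.1 he).2.2))
      intro e he
      obtain ⟨he1, he2⟩ := Finset.mem_filter.1 he
      exact Finset.mem_filter.2 ⟨he1, Finset.mem_inter.2 ⟨(mem_toB9 s e).2 he2,
        (Finset.mem_filter.1 (hull_sub _ _ _ he1)).1⟩⟩)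
  have hW' : P24.Ex (1 / 2) (fun s => ((dense M U (N (toB9.symm s)) n).card : ℝ)) ≤
      U.card / 32 := by
    refine le_trans hW ?_
    have h := const24
    have hU0 : (0 : ℝ) ≤ U.card := Nat.cast_nonneg _
    calc 18 * ((U.card / (kap : ℝ)) * (Real.log kap + 2))
        = U.card * (18 * ((1 / (kap : ℝ)) * (Real.log kap + 2))) := by ring
      _ ≤ U.card * (1 / 32) := mul_le_mul_of_nonneg_left h hU0
      _ = U.card / 32 := by ring
  rw [Ex_eq24]
  refine le_trans (P24.Ex_mono (by norm_num) (by norm_num) (g := fun s =>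
    tt * ((dense M U (N (toB9.symm s)) n).card : ℝ) + 4 * kap * tt ^ 2 * U.card) fun s => ?_) ?_
  · rw [Ex_eq24, P24.Ex_sum]
    refine le_trans (Finset.sum_le_sum (g := fun t =>
      tt * ((hull M (N (toB9.symm s) t) (band U (N (toB9.symm s) t)
        (N (toB9.symm s) (t + 1)))).card : ℝ) + 4 * kap * tt ^ 2 *
        ((band U (N (toB9.symm s) t) (N (toB9.symm s) (t + 1))).card : ℝ)) fun t _ => ?_) ?_
    · have := one_band M h1 U (toB9.symm s) hU (N (toB9.symm s) t) (N (toB9.symm s) (t + 1))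
        (hmax _ t).2.1
      rw [Ex_eq24] at this
      exact this
    · rw [Finset.sum_add_distrib, ← Finset.mul_sum, ← Finset.mul_sum, card_dense M U _ (hNm _)]
      have h3 := sum_band U (N (toB9.symm s)) (hNm _) n
      have h4 : ∑ t ∈ Finset.range n,
          ((band U (N (toB9.symm s) t) (N (toB9.symm s) (t + 1))).card : ℝ) ≤ U.card := by
        exact_mod_cast h3
      have h5 : (0 : ℝ) ≤ 4 * kap * tt ^ 2 := by positivity
      have h6 := mul_le_mul_of_nonneg_left h4 h5
      push_cast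
      linarith
  · rw [P24.Ex_add, P24.Ex_const_mul, P24.Ex_const]
    have h7 := mul_le_mul_of_nonneg_left hW' ht0
    have h8 : (4 * kap : ℝ) * tt ≤ 1 / 32 := by unfold kap tt; norm_num
    have hU0 : (0 : ℝ) ≤ U.card := Nat.cast_nonneg _
    have h9 : (4 * kap : ℝ) * tt ^ 2 * U.card ≤ 1 / 32 * (tt * U.card) := by
      have := mul_le_mul_of_nonneg_right h8 (mul_nonneg ht0 hU0)
      calc (4 * kap : ℝ) * tt ^ 2 * U.card = 4 * kap * tt * (tt * U.card) := by ring
        _ ≤ _ := this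
    linarith

end Crest.Agent.R305
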