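import Crest.Agent.R305.RGDefs55

/-! Row 305, block B8: the listened part of an independent set that is born after the bottom. -/

set_option autoImplicit false

open Classical

namespace Crest.Agent.R305

variable {k : ℕ}

namespace B25

lemma Ex_sub (p : ℝ) (f g : Finset (Fin k) → ℝ) :
    Ex p (fun A => f A - g A) = Ex p f - Ex p g := by
  unfold Ex
  rw [← Finset.sum_sub_distrib]
  exact Finset.sum_congr rfl fun A _ => by ring

lemma Ex_add (p : ℝ) (f g : Finset (Fin k) → ℝ) :
    Ex p (fun A => f A + g A) = Ex p f + Ex p g := by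
  unfold Ex
  rw [← Finset.sum_add_distrib]
  exact Finset.sum_congr rfl fun A _ => by ring

lemma Ex_mul (p c : ℝ) (f : Finset (Fin k) → ℝ) :
    Ex p (fun A => c * f A) = c * Ex p f := by
  unfold Ex
  rw [Finset.mul_sum]
  exact Finset.sum_congr rfl fun A _ => by ring

lemma Ex_const (p c : ℝ) (h : ∑ A : Finset (Fin k), bern p A = 1) :
    Ex p (fun _ : Finset (Fin k) => c) = c := by
  unfold Ex
  rw [← Finset.sum_mul, h, one_mul]

lemma tt_nonneg : (0 : ℝ) ≤ tt := by unfold tt; positivity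

lemma tt_le_one : tt ≤ 1 := by
  unfold tt
  exact pow_le_one₀ (by norm_num) (by norm_num)

/-- the bottom flat has small rank -/
lemma rk_bottom (M : Matroid (Fin k)) (hR : RANK M) (hX : EXPF M) (D : Finset (Fin k)) :
    64 * rk M (Exp M D (M.closure ∅)) ≤ D.card := by
  obtain ⟨-, -, hcl, -, -, -, -, h0, -⟩ := hR
  have hE : M.closure ∅ ⊆ M.E := M.closure_subset_ground _
  obtain ⟨⟨-, -, hmax⟩, -⟩ := hX D (M.closure ∅) hE
  have h1 := hmax (M.closure ∅) subset_rfl hE
  unfold fval at h1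
  rw [hcl, h0] at h1
  have h2 : (D.filter (fun e => e ∈ Exp M D (M.closure ∅))).card ≤ D.card :=
    Finset.card_filter_le _ _
  have h3 : (kap : ℤ) = 1048576 := by unfold kap; norm_num
  rw [h3] at h1
  omega

/-- every element outside the bottom flat is born at a counted time -/
lemma born (M : Matroid (Fin k)) (hN : NCHAIN M) (L : ℕ) (U : ℕ → Finset (Fin k))
    (D T0 : Finset (Fin k)) (j : ℕ) (h1 : 1 ≤ j) (hL : j ≤ L) (e : Fin k) (he : e ∈ M.E)
    (hn : e ∉ Nm M L U D T0 j (3 * j + 1)) :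
    ∃ b ∈ times L j, e ∈ Nm M L U D T0 j b ∧ e ∉ Nm M L U D T0 j (b - 1) := by
  obtain ⟨-, hmono, -, -, -, htop, -⟩ := hN L U D T0 j h1 hL
  have hex : ∃ b, e ∈ Nm M L U D T0 j b := ⟨3 * L + 3, by rw [htop _ le_rfl]; exact he⟩
  have hb := Nat.find_spec hex
  have hle : Nat.find hex ≤ 3 * L + 3 := Nat.find_min' hex (by rw [htop _ le_rfl]; exact he)
  have hge : 3 * j + 2 ≤ Nat.find hex := by
    by_contra hlt
    exact hn (hmono _ _ (by omega) hb)
  refine ⟨Nat.find hex, Finset.mem_Icc.2 ⟨hge, hle⟩, hb, Nat.find_min hex (by omega)⟩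

end B25

open B25 in
theorem bottom25 (M : Matroid (Fin k)) (hE : EXB k) (hR : RANK M) (hX : EXPF M)
    (hN : NCHAIN M) : BOTTOM M := by
  intro L U O j hP h1 hL hO hI
  obtain ⟨-, hs2, hm2, -, hc2⟩ := hE (1 / 2) (by norm_num) (by norm_num)
  obtain ⟨-, hst, hmt, -, hct⟩ := hE tt tt_nonneg tt_le_one
  have key : ∀ D : Finset (Fin k), tt * ((O.card : ℝ) - ((D ∩ O).card : ℝ)) - tt / 64 * (U j).card ≤
      Ex tt (fun T0 => ∑ b ∈ times L j, ((Tband M L U D T0 j b).card : ℝ)) := by
    intro D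
    set N := Exp M (D ∩ U j) (M.closure ∅) with hNdef
    set Z : Finset (Fin k) := O.filter (fun e => e ∈ N) with hZ
    have hZc : 64 * Z.card ≤ (U j).card := by
      have a1 : 64 * rk M N ≤ (D ∩ U j).card := rk_bottom M hR hX (D ∩ U j)
      have a2 : (D ∩ U j).card ≤ (U j).card := Finset.card_le_card Finset.inter_subset_right
      have a3 : M.Indep (Z : Set (Fin k)) :=
        hI.subset (Finset.coe_subset.2 (Finset.filter_subset _ _))
      have a4 := (hR.2.2.2.2.2.2.1 Z).1 a3
      have a5 : rk M (Z : Set (Fin k)) ≤ rk M N := hR.1 _ _ (by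
        intro e he
        exact (Finset.mem_filter.1 (Finset.mem_coe.1 he)).2)
      omega
    have hpt : ∀ T0 : Finset (Fin k), ((T0 ∩ (O \ D)).card : ℝ) - ((T0 ∩ Z).card : ℝ) ≤
        ∑ b ∈ times L j, ((Tband M L U D T0 j b).card : ℝ) := by
      intro T0
      have hsub : T0 ∩ (O \ D) ⊆
          (T0 ∩ Z) ∪ (times L j).biUnion (fun b => Tband M L U D T0 j b) := by
        intro e he
        obtain ⟨heT, heO⟩ := Finset.mem_inter.1 he
        obtain ⟨heO, heD⟩ := Finset.mem_sdiff.1 heO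
        by_cases hn : e ∈ N
        · exact Finset.mem_union_left _ (Finset.mem_inter.2 ⟨heT, Finset.mem_filter.2 ⟨heO, hn⟩⟩)
        · have hb : Nm M L U D T0 j (3 * j + 1) = N := (hN L U D T0 j h1 hL).2.2.2.2.2.2
          obtain ⟨b, hbt, hb1, hb2⟩ := born M hN L U D T0 j h1 hL e
            (hP.1 j (Finset.mem_coe.2 (hO heO))) (by rw [hb]; exact hn)
          refine Finset.mem_union_right _ (Finset.mem_biUnion.2 ⟨b, hbt, ?_⟩)
          unfold Tband
          exact Finset.mem_filter.2 ⟨Finset.mem_inter.2 ⟨Finset.mem_sdiff.2 ⟨heT, heD⟩, hO heO⟩,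
            hb1, hb2⟩
      have h3 := (Finset.card_le_card hsub).trans (Finset.card_union_le _ _)
      have h4 : ((times L j).biUnion (fun b => Tband M L U D T0 j b)).card ≤
          ∑ b ∈ times L j, (Tband M L U D T0 j b).card := Finset.card_biUnion_le
      have h5 : ((T0 ∩ (O \ D)).card : ℝ) ≤ ((T0 ∩ Z).card : ℝ) +
          ∑ b ∈ times L j, ((Tband M L U D T0 j b).card : ℝ) := by
        exact_mod_cast h3.trans (Nat.add_le_add_left h4 _)
      linarith
    refine le_trans ?_ (hmt _ _ hpt)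
    rw [Ex_sub, hct, hct]
    have h6 : ((O \ D).card : ℝ) = (O.card : ℝ) - ((D ∩ O).card : ℝ) := by
      have := Finset.card_sdiff_add_card_inter O D
      rw [Finset.inter_comm D O]
      have h7 : ((O \ D).card : ℝ) + ((O ∩ D).card : ℝ) = O.card := by exact_mod_cast this
      linarith
    have h8 : (64 : ℝ) * Z.card ≤ (U j).card := by exact_mod_cast hZc
    rw [h6]
    nlinarith [tt_nonneg]
  refine le_trans (le_of_eq ?_) (hm2 _ _ key)
  rw [Ex_sub, Ex_mul, Ex_sub, hc2, Ex_const _ _ hs2, Ex_const _ _ hs2]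
  ring

end Crest.Agent.R305
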