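import Crest.Agent.R305.RGDefs55

/-! Row 305, blocks B3 and B3'. -/

set_option autoImplicit false

namespace Crest.Agent.R305

variable {k : ℕ}

namespace C26

/-- a closed, monotone path -/
def Good (M : Matroid (Fin k)) (S : ℕ → Set (Fin k)) : Prop :=
  (∀ t, M.closure (S t) = S t) ∧ ∀ t t', t ≤ t' → S t ⊆ S t'

variable {M : Matroid (Fin k)}

theorem Good.ground {S : ℕ → Set (Fin k)} (h : Good M S) (t : ℕ) : S t ⊆ M.E := by
  rw [← h.1 t]; exact M.closure_subset_ground _

theorem sub_N (h2 : EXPF M) {S : ℕ → Set (Fin k)} (h : Good M S) (Dm : Finset (Fin k)) (m t : ℕ) :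
    S t ⊆ Nstep M Dm m S t := by
  unfold Nstep
  split_ifs
  · exact (h2 Dm (S t) (h.ground t)).1.1
  · exact subset_rfl

theorem good_N (h2 : EXPF M) {S : ℕ → Set (Fin k)} (h : Good M S) (Dm : Finset (Fin k)) (m : ℕ) :
    Good M (Nstep M Dm m S) := by
  constructor
  · intro t
    unfold Nstep
    split_ifs
    · exact (h2 Dm (S t) (h.ground t)).2.1
    · exact h.1 t
  · intro t t' htt
    by_cases h1 : 3 * m ≤ t
    · have h3 : 3 * m ≤ t' := h1.trans htt
      unfold Nstep
      rw [if_pos h1, if_pos h3]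
      exact (h2 Dm (S t) (h.ground t)).2.2.2.1 (S t') (h.2 t t' htt) (h.ground t')
    · have : Nstep M Dm m S t = S t := by unfold Nstep; rw [if_neg h1]
      rw [this]
      exact (h.2 t t' htt).trans (sub_N h2 h Dm m t')

theorem N_sub_S (h2 : EXPF M) {S : ℕ → Set (Fin k)} (h : Good M S) (Dm Cm : Finset (Fin k))
    (m t : ℕ) : Nstep M Dm m S t ⊆ Sstep M Dm Cm m S t := by
  unfold Sstep
  split_ifs with h1
  · intro x hx
    exact M.mem_closure_of_mem' (Or.inl hx) ((good_N h2 h Dm m).ground t hx)
  · unfold Nstep; rw [if_neg h1]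

theorem S_sub_N (h2 : EXPF M) {S : ℕ → Set (Fin k)} (h : Good M S) (Dm Cm : Finset (Fin k))
    (m t : ℕ) : Sstep M Dm Cm m S t ⊆ Nstep M Dm m S (t + 1) := by
  have hN := good_N h2 h Dm m
  unfold Sstep
  split_ifs with h1
  · rw [← hN.1 (t + 1)]
    refine M.closure_subset_closure_of_subset_closure ?_
    rw [hN.1 (t + 1)]
    exact Set.union_subset (hN.2 t (t + 1) (Nat.le_succ t)) Set.inter_subset_right
  · exact (h.2 t (t + 1) (Nat.le_succ t)).trans (sub_N h2 h Dm m (t + 1))

theorem good_S (h2 : EXPF M) {S : ℕ → Set (Fin k)} (h : Good M S) (Dm Cm : Finset (Fin k))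
    (m : ℕ) : Good M (Sstep M Dm Cm m S) := by
  have hN := good_N h2 h Dm m
  constructor
  · intro t
    unfold Sstep
    split_ifs
    · exact M.closure_closure _
    · exact h.1 t
  · intro t t' htt
    rcases Nat.eq_or_lt_of_le htt with rfl | hlt
    · exact subset_rfl
    · exact (S_sub_N h2 h Dm Cm m t).trans ((hN.2 _ _ hlt).trans (N_sub_S h2 h Dm Cm m t'))

theorem good_St (h2 : EXPF M) (L : ℕ) (U : ℕ → Finset (Fin k)) (D C : Finset (Fin k)) (i : ℕ) :
    Good M (St M L U D C i) := by
  induction i with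
  | zero =>
    constructor
    · intro t
      simp only [St, S0]
      split_ifs
      · exact M.closure_closure _
      · exact M.closure_ground
    · intro t t' htt
      simp only [St, S0]
      split_ifs with h1 h3 h3
      · exact subset_rfl
      · exact M.closure_subset_ground _
      · omega
      · exact subset_rfl
  | succ i ih => exact good_S h2 ih _ _ _

theorem St_succ (h2 : EXPF M) (L : ℕ) (U : ℕ → Finset (Fin k)) (D C : Finset (Fin k)) (i t : ℕ) :
    St M L U D C i t ⊆ St M L U D C (i + 1) t :=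
  (sub_N h2 (good_St h2 L U D C i) _ _ t).trans (N_sub_S h2 (good_St h2 L U D C i) _ _ _ t)

theorem St_mono (h2 : EXPF M) (L : ℕ) (U : ℕ → Finset (Fin k)) (D C : Finset (Fin k))
    {i i' : ℕ} (t : ℕ) (h : i ≤ i') : St M L U D C i t ⊆ St M L U D C i' t := by
  induction h with
  | refl => exact subset_rfl
  | step _ ih => exact ih.trans (St_succ h2 L U D C _ t)

theorem St_low (L : ℕ) (U : ℕ → Finset (Fin k)) (D C : Finset (Fin k)) (t : ℕ) :
    ∀ i, i ≤ L → t < 3 * (L - i) + 3 → St M L U D C i t = M.closure ∅ := by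
  intro i
  induction i with
  | zero =>
    intro _ ht
    simp only [St, S0]
    rw [if_pos (by omega)]
  | succ i ih =>
    intro hi ht
    simp only [St, Sstep]
    rw [if_neg (by omega)]
    exact ih (by omega) (by omega)

theorem St_gen (h2 : EXPF M) (L : ℕ) (U : ℕ → Finset (Fin k)) (D C : Finset (Fin k)) (j t : ℕ)
    (hj : 1 ≤ j) (hjL : j ≤ L) : ∀ i, L - j + 1 ≤ i → i ≤ L → St M L U D C i t ⊆
      M.closure (St M L U D C (L - j + 1) t ∪ ↑((Finset.Ico 1 j).biUnion U)) := by
  intro i hi
  induction i, hi using Nat.le_induction with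
  | base =>
    intro _ x hx
    exact M.mem_closure_of_mem' (Or.inl hx) ((good_St h2 L U D C _).ground t hx)
  | succ i hi ih =>
    intro hiL
    have ih := ih (by omega)
    have hg := good_St h2 L U D C i
    have hU : ∀ x, x ∈ U (L - i) → x ∈ (Finset.Ico 1 j).biUnion U := fun x hx =>
      Finset.mem_biUnion.2 ⟨L - i, Finset.mem_Ico.2 ⟨by omega, by omega⟩, hx⟩
    generalize St M L U D C (L - j + 1) t = W at ih ⊢
    simp only [St, Sstep]
    split_ifs with h1
    · refine M.closure_subset_closure_of_subset_closure (Set.union_subset ?_ ?_)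
      · unfold Nstep
        rw [if_pos h1]
        refine ((h2 _ _ (hg.ground t)).2.2.1).trans ?_
        rw [← M.closure_inter_ground]
        refine M.closure_subset_closure_of_subset_closure ?_
        rintro x ⟨hx | hx, hxE⟩
        · exact ih hx
        · exact M.mem_closure_of_mem'
            (Or.inr (hU x (Finset.mem_inter.1 (Finset.mem_coe.1 hx)).2)) hxE
      · rintro x ⟨hx, hxN⟩
        exact M.mem_closure_of_mem'
          (Or.inr (hU x (Finset.mem_inter.1 (Finset.mem_coe.1 hx)).2))
          ((good_N h2 hg _ _).ground _ hxN)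
    · exact ih

end C26

open C26 in
theorem chain26 {M : Matroid (Fin k)} (h2 : EXPF M) : CHAIN M := by
  intro L U D C
  refine ⟨fun i t => (good_St h2 L U D C i).1 t, fun i t t' h => (good_St h2 L U D C i).2 t t' h,
    fun i i' t h => St_mono h2 L U D C t h, ?_, ?_, ?_⟩
  · intro i t ht
    refine Set.Subset.antisymm ((good_St h2 L U D C i).ground t) ?_
    refine Set.Subset.trans ?_ (St_mono h2 L U D C t (Nat.zero_le i))
    simp only [St, S0]
    rw [if_neg (by omega)]
  · intro j t hj ht
    exact St_low L U D C t (L - j) (by omega) (by omega)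
  · intro j t hj hjL
    exact St_gen h2 L U D C j t hj hjL L (by omega) le_rfl

open C26 in
theorem nchain26 {M : Matroid (Fin k)} (h2 : EXPF M) : NCHAIN M := by
  intro L U D T0 m hm hmL
  have hg := good_St h2 L U D (Cg D T0) (L - m)
  have hN := good_N h2 hg (D ∩ U m) m
  have hS : St M L U D (Cg D T0) (L - m + 1) =
      Sstep M (D ∩ U m) (Cg D T0 ∩ U m) m (St M L U D (Cg D T0) (L - m)) := by
    have : L - (L - m) = m := by omega
    simp only [St, this]
  refine ⟨hN.1, hN.2, fun t => sub_N h2 hg _ _ t, fun t => ?_, fun t => ?_, fun t ht => ?_, ?_⟩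
  · rw [hS]; exact N_sub_S h2 hg _ _ _ t
  · rw [hS]; exact S_sub_N h2 hg _ _ _ t
  · refine Set.Subset.antisymm (hN.ground t) ?_
    have := (chain26 h2 L U D (Cg D T0)).2.2.2.1 (L - m) t ht
    rw [← this]
    exact sub_N h2 hg _ _ t
  · unfold Nm Nstep
    rw [if_pos (by omega), St_low L U D (Cg D T0) (3 * m + 1) (L - m) (by omega) (by omega)]

end Crest.Agent.R305
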