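import Crest.Agent.R305.RGDefs55

/-! Row 305: block B17 (`CORE`) from `EXB`, `GREEDY`, `POOLW`, `GIVENH`. -/

set_option autoImplicit false

open Classical

namespace Crest.Agent.R305

namespace C89

variable {k : ℕ}

lemma wt_nonneg (B L m : ℕ) : 0 ≤ wt B L m := by
  unfold wt; split_ifs
  · positivity
  · exact le_rfl

lemma Ex_add (p : ℝ) (f g : Finset (Fin k) → ℝ) :
    Ex p (fun A => f A + g A) = Ex p f + Ex p g := by
  simp only [Ex, mul_add, Finset.sum_add_distrib]

lemma Ex_sub (p : ℝ) (f g : Finset (Fin k) → ℝ) :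
    Ex p (fun A => f A - g A) = Ex p f - Ex p g := by
  simp only [Ex, mul_sub, Finset.sum_sub_distrib]

lemma Ex_mul (p a : ℝ) (f : Finset (Fin k) → ℝ) :
    Ex p (fun A => a * f A) = a * Ex p f := by
  simp only [Ex, Finset.mul_sum]
  exact Finset.sum_congr rfl (fun A _ => by ring)

lemma Ex_sum {ι : Type} (p : ℝ) (s : Finset ι) (f : ι → Finset (Fin k) → ℝ) :
    Ex p (fun A => ∑ i ∈ s, f i A) = ∑ i ∈ s, Ex p (f i) := by
  simp only [Ex, Finset.mul_sum]
  exact Finset.sum_comm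

lemma Ex_const (hE : EXB k) (p : ℝ) (h0 : 0 ≤ p) (h1 : p ≤ 1) (a : ℝ) :
    Ex (k := k) p (fun _ => a) = a := by
  simp only [Ex]
  rw [← Finset.sum_mul, (hE p h0 h1).2.1, one_mul]

lemma tt_nonneg : 0 ≤ tt := by unfold tt; positivity

lemma tt_le_one : tt ≤ 1 := by
  unfold tt; exact pow_le_one₀ (by norm_num) (by norm_num)

/-- geometric tail of the weights -/
lemma tail (L i : ℕ) (hi : 1 ≤ i) (hiL : i ≤ L) :
    ∑ j ∈ Finset.Ioc i L, wt BB L j ≤ tt / 512 * wt BB L i := by
  have hB : ((BB : ℕ) : ℝ)⁻¹ = tt / 1024 := by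
    unfold BB tt; push_cast; norm_num
  have hq0 : (0 : ℝ) ≤ tt / 1024 := by have := tt_nonneg; linarith
  have hq1 : tt / 1024 ≤ 1 / 2 := by have := tt_le_one; linarith
  have key : ∀ n : ℕ, ∑ j ∈ Finset.Ioc i (i + n), (tt / 1024) ^ j ≤
      2 * (tt / 1024) ^ (i + 1) - 2 * (tt / 1024) ^ (i + n + 1) := by
    intro n
    induction n with
    | zero => simp
    | succ n ih =>
      rw [← add_assoc, Finset.sum_Ioc_succ_top (by omega)]
      have h2 : (tt / 1024) ^ (i + n + 1 + 1) ≤ (tt / 1024) ^ (i + n + 1) * (1 / 2) := by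
        rw [pow_succ _ (i + n + 1)]
        exact mul_le_mul_of_nonneg_left hq1 (pow_nonneg hq0 _)
      linarith
  have h1 : ∑ j ∈ Finset.Ioc i L, wt BB L j = ∑ j ∈ Finset.Ioc i L, (tt / 1024) ^ j := by
    refine Finset.sum_congr rfl (fun j hj => ?_)
    rw [Finset.mem_Ioc] at hj
    unfold wt
    rw [if_pos ⟨by omega, hj.2⟩, hB]
  have h2 : wt BB L i = (tt / 1024) ^ i := by
    unfold wt; rw [if_pos ⟨hi, hiL⟩, hB]
  obtain ⟨n, rfl⟩ := Nat.exists_eq_add_of_le hiL
  rw [h1, h2]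
  have h3 := key n
  have h4 : 0 ≤ (tt / 1024) ^ (i + n + 1) := pow_nonneg hq0 _
  have h5 : 2 * (tt / 1024) ^ (i + 1) = tt / 512 * (tt / 1024) ^ i := by
    rw [pow_succ]; ring
  linarith

lemma loss (L : ℕ) (U : ℕ → Finset (Fin k)) :
    ∑ j ∈ Finset.Icc 1 L, wt BB L j * (((Finset.Ico 1 j).biUnion U).card : ℝ) ≤
      tt / 512 * ∑ m ∈ Finset.Icc 1 L, wt BB L m * ((U m).card : ℝ) := by
  have h1 : ∀ j ∈ Finset.Icc 1 L, wt BB L j * (((Finset.Ico 1 j).biUnion U).card : ℝ) ≤
      ∑ i ∈ Finset.Icc 1 L, if i < j then wt BB L j * ((U i).card : ℝ) else 0 := by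
    intro j hj
    rw [Finset.mem_Icc] at hj
    have hc : (((Finset.Ico 1 j).biUnion U).card : ℝ) ≤ ∑ i ∈ Finset.Ico 1 j, ((U i).card : ℝ) := by
      exact_mod_cast Finset.card_biUnion_le
    rw [← Finset.sum_filter]
    have hs : (Finset.Icc 1 L).filter (fun i => i < j) = Finset.Ico 1 j := by
      ext i; simp only [Finset.mem_filter, Finset.mem_Icc, Finset.mem_Ico]; omega
    rw [hs, ← Finset.mul_sum]
    exact mul_le_mul_of_nonneg_left hc (wt_nonneg _ _ _)
  refine (Finset.sum_le_sum h1).trans ?_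
  rw [Finset.sum_comm, Finset.mul_sum]
  refine Finset.sum_le_sum (fun i hi => ?_)
  rw [Finset.mem_Icc] at hi
  rw [← Finset.sum_filter]
  have hs : (Finset.Icc 1 L).filter (fun j => i < j) = Finset.Ioc i L := by
    ext j; simp only [Finset.mem_filter, Finset.mem_Icc, Finset.mem_Ioc]; omega
  rw [hs, ← Finset.sum_mul, ← mul_assoc]
  exact mul_le_mul_of_nonneg_right (tail L i hi.1 hi.2) (by positivity)

lemma mem_UH (M : Matroid (Fin k)) (L : ℕ) (c : Fin k → ℕ) (H : Finset (Fin k)) (m : ℕ)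
    (e : Fin k) (he : e ∈ UH M L c H m) : e ∉ H ∧ c e = m := by
  unfold UH at he
  rw [Finset.mem_filter] at he
  exact ⟨he.2.1, he.2.2.2.1⟩

lemma val_ge (M : Matroid (Fin k)) (L : ℕ) (c : Fin k → ℕ) (H A : Finset (Fin k)) :
    ∑ j ∈ Finset.Icc 1 L, wt BB L j * ((A ∩ UH M L c H j).card : ℝ) ≤
      ∑ e ∈ A, wt BB L (c e) := by
  have h1 : ∀ j ∈ Finset.Icc 1 L, wt BB L j * ((A ∩ UH M L c H j).card : ℝ) ≤
      ∑ e ∈ A, if c e = j then wt BB L (c e) else 0 := by
    intro j _
    rw [← Finset.sum_filter]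
    have hsub : A ∩ UH M L c H j ⊆ A.filter (fun e => c e = j) := by
      intro e he
      rw [Finset.mem_inter] at he
      exact Finset.mem_filter.2 ⟨he.1, (mem_UH M L c H j e he.2).2⟩
    have h2 : ∑ e ∈ A.filter (fun e => c e = j), wt BB L (c e) =
        wt BB L j * ((A.filter (fun e => c e = j)).card : ℝ) := by
      rw [Finset.sum_congr rfl (g := fun _ => wt BB L j)]
      · rw [Finset.sum_const, nsmul_eq_mul, mul_comm]
      · intro e he; rw [(Finset.mem_filter.1 he).2]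
    rw [h2]
    exact mul_le_mul_of_nonneg_left (by exact_mod_cast Finset.card_le_card hsub) (wt_nonneg _ _ _)
  refine (Finset.sum_le_sum h1).trans ?_
  rw [Finset.sum_comm]
  refine Finset.sum_le_sum (fun e _ => ?_)
  rw [Finset.sum_ite_eq]
  split_ifs
  · exact le_rfl
  · exact wt_nonneg _ _ _

lemma opt_split (M : Matroid (Fin k)) (L : ℕ) (c : Fin k → ℕ) :
    ∑ e ∈ greedy M L c Finset.univ, wt BB L (c e) =
      ∑ j ∈ Finset.Icc 1 L, wt BB L j *
        (((greedy M L c Finset.univ).filter (fun e => c e = j)).card : ℝ) := by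
  rw [← Finset.sum_fiberwise_of_maps_to (s := greedy M L c Finset.univ) (t := Finset.Icc 1 L)
    (g := c)]
  · refine Finset.sum_congr rfl (fun j _ => ?_)
    rw [Finset.sum_congr rfl (g := fun _ => wt BB L j)]
    · rw [Finset.sum_const, nsmul_eq_mul, mul_comm]
    · intro e he; rw [(Finset.mem_filter.1 he).2]
  · intro e he
    unfold greedy at he
    rw [Finset.mem_filter] at he
    exact Finset.mem_Icc.2 ⟨he.2.2.1, he.2.2.2.1⟩

lemma seed_sum (F : Seed k → ℝ) :
    ∑ l : Seed k, pS l * F l =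
      Ex (1 / 2) (fun H => Ex (1 / 2) (fun D => Ex tt (fun T0 =>
        ∑ ep : Fin 3, F (H, D, T0, ep) / 3))) := by
  simp only [Ex, Fintype.sum_prod_type, pS, Finset.mul_sum]
  refine Finset.sum_congr rfl (fun H _ => Finset.sum_congr rfl (fun D _ =>
    Finset.sum_congr rfl (fun T0 _ => Finset.sum_congr rfl (fun ep _ => by ring))))

end C89

open C89 in
theorem core89 {k : ℕ} (M : Matroid (Fin k)) (hE : EXB k) (hG : GREEDY M) (hP : POOLW M)
    (hH : GIVENH M) : CORE M := by
  intro L c sel I hI hsel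
  obtain ⟨hind, hopt, hpools, hmem⟩ := hG L c
  set O := greedy M L c Finset.univ with hO
  set W := ∑ e ∈ O, wt BB L (c e) with hW
  have mono2 := (hE (1 / 2) (by norm_num) (by norm_num)).2.2.1
  have monot := (hE tt tt_nonneg tt_le_one).2.2.1
  have hcard := (hE (1 / 2) (by norm_num) (by norm_num)).2.2.2.2
  -- the bound for a fixed `H`
  have hfix : ∀ H : Finset (Fin k),
      tt / 6 * (∑ j ∈ Finset.Icc 1 L, wt BB L j * (((O.filter (fun e => c e = j)) \ H).card : ℝ)) -
        (tt / 32 + tt / 512) * (∑ m ∈ Finset.Icc 1 L, wt BB L m * ((UH M L c H m).card : ℝ)) ≤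
      Ex (1 / 2) (fun D => Ex tt (fun T0 =>
        ∑ ep : Fin 3, (∑ e ∈ sel (H, D, T0, ep), wt BB L (c e)) / 3)) := by
    intro H
    have hj : ∀ j ∈ Finset.Icc 1 L,
        wt BB L j * ((tt / 2 * (((O.filter (fun e => c e = j)) \ H).card : ℝ) -
          3 * tt / 32 * ((UH M L c H j).card : ℝ)) / 3 -
          (((Finset.Ico 1 j).biUnion (UH M L c H)).card : ℝ)) ≤
        wt BB L j * Ex (1 / 2) (fun D => Ex tt (fun T0 =>
          ∑ ep : Fin 3, ((sel (H, D, T0, ep) ∩ UH M L c H j).card : ℝ) / 3)) := by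
      intro j hj
      rw [Finset.mem_Icc] at hj
      refine mul_le_mul_of_nonneg_left ?_ (wt_nonneg _ _ _)
      refine hH L (UH M L c H) ((O.filter (fun e => c e = j)) \ H) j
        (fun D T0 ep => sel (H, D, T0, ep)) (hpools H) hj.1 hj.2 ?_ ?_ ?_
      · intro e he
        rw [Finset.mem_sdiff, Finset.mem_filter] at he
        have := hmem H e he.1.1 he.2
        rwa [he.1.2] at this
      · refine (hind Finset.univ).subset ?_
        intro e he
        rw [Finset.mem_coe, Finset.mem_sdiff, Finset.mem_filter] at he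
        exact he.1.1
      · intro D T0 ep
        obtain ⟨_, h2, h3⟩ := hsel (H, D, T0, ep)
        refine ⟨h2, fun b e he hn => h3 e ?_ hn⟩
        unfold Thi at he
        rw [Finset.mem_biUnion] at he
        obtain ⟨m, _, he⟩ := he
        unfold Tband at he
        rw [Finset.mem_filter, Finset.mem_inter, Finset.mem_sdiff] at he
        have := (mem_UH M L c H m e he.1.2).1
        unfold TS
        simp only [Finset.mem_sdiff, Finset.mem_union, not_or]
        exact ⟨he.1.1.1, this, he.1.1.2⟩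
    have hs := Finset.sum_le_sum hj
    have hl := loss L (UH M L c H)
    have hR : ∑ j ∈ Finset.Icc 1 L, wt BB L j * Ex (1 / 2) (fun D => Ex tt (fun T0 =>
          ∑ ep : Fin 3, ((sel (H, D, T0, ep) ∩ UH M L c H j).card : ℝ) / 3)) ≤
        Ex (1 / 2) (fun D => Ex tt (fun T0 =>
          ∑ ep : Fin 3, (∑ e ∈ sel (H, D, T0, ep), wt BB L (c e)) / 3)) := by
      simp only [← Ex_mul]
      rw [← Ex_sum]
      refine mono2 _ _ (fun D => ?_)
      rw [← Ex_sum]
      refine monot _ _ (fun T0 => ?_)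
      simp only [Finset.mul_sum]
      rw [Finset.sum_comm]
      refine Finset.sum_le_sum (fun ep _ => ?_)
      have := val_ge M L c H (sel (H, D, T0, ep))
      have h3 : ∑ j ∈ Finset.Icc 1 L, wt BB L j * (((sel (H, D, T0, ep) ∩ UH M L c H j).card : ℝ) / 3)
          = (∑ j ∈ Finset.Icc 1 L, wt BB L j * ((sel (H, D, T0, ep) ∩ UH M L c H j).card : ℝ)) / 3 := by
        rw [Finset.sum_div]
        exact Finset.sum_congr rfl (fun j _ => by ring)
      rw [h3]
      linarith
    have hL : ∑ j ∈ Finset.Icc 1 L,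
        wt BB L j * ((tt / 2 * (((O.filter (fun e => c e = j)) \ H).card : ℝ) -
          3 * tt / 32 * ((UH M L c H j).card : ℝ)) / 3 -
          (((Finset.Ico 1 j).biUnion (UH M L c H)).card : ℝ)) =
        tt / 6 * (∑ j ∈ Finset.Icc 1 L, wt BB L j * (((O.filter (fun e => c e = j)) \ H).card : ℝ)) -
        tt / 32 * (∑ m ∈ Finset.Icc 1 L, wt BB L m * ((UH M L c H m).card : ℝ)) -
        ∑ j ∈ Finset.Icc 1 L, wt BB L j * (((Finset.Ico 1 j).biUnion (UH M L c H)).card : ℝ) := by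
      rw [Finset.mul_sum, Finset.mul_sum, ← Finset.sum_sub_distrib, ← Finset.sum_sub_distrib]
      exact Finset.sum_congr rfl (fun j _ => by ring)
    rw [hL] at hs
    linarith
  have hE1 := mono2 _ _ hfix
  rw [Ex_sub, Ex_mul, Ex_mul, Ex_sum] at hE1
  have hhalf : ∑ j ∈ Finset.Icc 1 L, Ex (1 / 2) (fun H : Finset (Fin k) =>
      wt BB L j * (((O.filter (fun e => c e = j)) \ H).card : ℝ)) = W / 2 := by
    rw [hW, hO, opt_split M L c, Finset.sum_div]
    refine Finset.sum_congr rfl (fun j _ => ?_)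
    rw [Ex_mul]
    set X := (greedy M L c Finset.univ).filter (fun e => c e = j)
    have h1 : ∀ H : Finset (Fin k), ((X \ H).card : ℝ) = (X.card : ℝ) - ((H ∩ X).card : ℝ) := by
      intro H
      have := Finset.card_sdiff_add_card_inter X H
      rw [Finset.inter_comm] at this
      have h' : ((X \ H).card : ℝ) + ((H ∩ X).card : ℝ) = X.card := by exact_mod_cast this
      linarith
    simp only [h1]
    rw [Ex_sub, Ex_const hE _ (by norm_num) (by norm_num), hcard X]
    ring
  rw [hhalf] at hE1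
  have hp := hP L c
  rw [← hO, ← hW] at hp
  have hI' := hopt I hI
  rw [seed_sum (fun l => ∑ e ∈ sel l, wt BB L (c e))]
  have hW0 : 0 ≤ W := Finset.sum_nonneg (fun e _ => wt_nonneg _ _ _)
  have ht := tt_nonneg
  have h1 : (tt / 32 + tt / 512) * Ex (1 / 2) (fun H => ∑ m ∈ Finset.Icc 1 L,
      wt BB L m * ((UH M L c H m).card : ℝ)) ≤ (tt / 32 + tt / 512) * W :=
    mul_le_mul_of_nonneg_left hp (by linarith)
  have h2 : tt / 32 * ∑ e ∈ I, wt BB L (c e) ≤ tt / 32 * W :=
    mul_le_mul_of_nonneg_left hI' (by linarith)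
  have h3 : 0 ≤ tt * W := mul_nonneg ht hW0
  nlinarith

end Crest.Agent.R305
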