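import Mathlib

set_option autoImplicit false

namespace Crest.Agent.R305.C69

open Finset

variable {α : Type*} [DecidableEq α]

/-- abstract rank axioms -/
structure RK (r : Finset α → ℕ) : Prop where
  zero : r ∅ = 0
  mono : ∀ A B : Finset α, A ⊆ B → r A ≤ r B
  sub : ∀ A B : Finset α, r (A ∪ B) + r (A ∩ B) ≤ r A + r B
  ins : ∀ (e : α) (S : Finset α), r (insert e S) ≤ r S + 1

variable {r : Finset α → ℕ}

/-- diminishing returns -/
theorem RK.dim (h : RK r) {Z Z' : Finset α} (hZ : Z ⊆ Z') (X : Finset α) :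
    r (Z' ∪ X) + r Z ≤ r (Z ∪ X) + r Z' := by
  have h1 := h.sub (Z ∪ X) Z'
  have h2 : (Z ∪ X) ∪ Z' = Z' ∪ X := by
    ext a; simp only [mem_union]; constructor
    · rintro ((ha | ha) | ha)
      · exact Or.inl (hZ ha)
      · exact Or.inr ha
      · exact Or.inl ha
    · rintro (ha | ha)
      · exact Or.inr ha
      · exact Or.inl (Or.inr ha)
  have h3 : r Z ≤ r ((Z ∪ X) ∩ Z') := h.mono _ _ (fun a ha =>
    mem_inter.2 ⟨mem_union_left _ ha, hZ ha⟩)
  rw [h2] at h1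
  omega

theorem RK.union_le (h : RK r) (Z X : Finset α) : r (Z ∪ X) ≤ r Z + X.card := by
  induction X using Finset.induction_on with
  | empty => simp
  | insert a X ha ih =>
    rw [union_insert, card_insert_of_notMem ha]
    have := h.ins a (Z ∪ X)
    omega

/-- spanning is monotone in the spanning set -/
theorem RK.span_mono (h : RK r) {Z Z' : Finset α} (hZ : Z ⊆ Z') {e : α}
    (he : r (insert e Z) = r Z) : r (insert e Z') = r Z' := by
  have h1 := h.dim hZ {e}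
  rw [union_comm Z', union_comm Z, ← insert_eq, ← insert_eq] at h1
  have h2 := h.mono Z' (insert e Z') (subset_insert _ _)
  omega

theorem RK.span_all (h : RK r) {Z X : Finset α} (hX : ∀ e ∈ X, r (insert e Z) = r Z) :
    r (Z ∪ X) = r Z := by
  induction X using Finset.induction_on with
  | empty => simp
  | insert a X ha ih =>
    rw [union_insert]
    have h1 := ih (fun e he => hX e (mem_insert_of_mem he))
    rw [h.span_mono (subset_union_left (s₂ := X)) (hX a (mem_insert_self _ _)), h1]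

/-- elements unspanned by the others add full rank -/
theorem RK.good_rank (h : RK r) (Z Gd : Finset α)
    (hG : ∀ e ∈ Gd, r (insert e (Z ∪ Gd.erase e)) ≠ r (Z ∪ Gd.erase e)) :
    r Z + Gd.card ≤ r (Z ∪ Gd) := by
  induction Gd using Finset.induction_on with
  | empty => simp
  | insert a X ha ih =>
    rw [union_insert, card_insert_of_notMem ha]
    have h1 := hG a (mem_insert_self _ _)
    rw [erase_insert ha] at h1
    have h2 := h.mono (Z ∪ X) (insert a (Z ∪ X)) (subset_insert _ _)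
    have h3 := ih (fun e he hc => hG e (mem_insert_of_mem he)
      (h.span_mono (union_subset_union (Subset.refl _)
        (erase_subset_erase _ (subset_insert _ _))) hc))
    omega

/-- One birth time. `S0 ⊆ S1` are the own chain at times `b-3` and `b`, `F` the contracted flat,
`G` the heavier elements, `Tj`/`Tl` own-class / lighter listened elements, `A` the selected set. -/
theorem RK.count_one (h : RK r) {S0 S1 F G Tj Tl A : Finset α}
    (h01 : S0 ⊆ S1) (hTj : Tj ⊆ S1) (hTl : Tl ⊆ S1)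
    (hF : ∀ e ∈ F, r (insert e (S0 ∪ G)) = r (S0 ∪ G))
    (hA : A ⊆ Tj ∪ Tl ∪ G)
    (hmax : ∀ e ∈ Tj, r (insert e (F ∪ A)) = r (F ∪ A)) :
    r (S0 ∪ Tl ∪ Tj) + r (S1 ∪ G) + r S0 ≤
      (A ∩ Tj).card + r (S0 ∪ Tl) + r (S0 ∪ G) + r S1 := by
  -- W spans F, hence Tj
  set W : Finset α := S0 ∪ Tl ∪ G ∪ (A ∩ Tj) with hW
  have hSG : S0 ∪ G ⊆ W := by
    intro a ha; rw [hW]; simp only [mem_union] at ha ⊢; tauto
  have hWF : r (W ∪ F) = r W := h.span_all (fun e he => h.span_mono hSG (hF e he))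
  have hFA : F ∪ A ⊆ W ∪ F := by
    intro a ha
    rcases mem_union.1 ha with ha | ha
    · exact mem_union_right _ ha
    · have := hA ha
      rw [hW]; simp only [mem_union, mem_inter] at this ⊢; tauto
  have hWT : r (W ∪ F ∪ Tj) = r (W ∪ F) :=
    h.span_all (fun e he => h.span_mono hFA (hmax e he))
  have h1 : r (S0 ∪ Tl ∪ Tj ∪ G) ≤ r (W ∪ F ∪ Tj) := h.mono _ _ (by
    intro a ha; rw [hW]; simp only [mem_union] at ha ⊢; tauto)
  have h2 : r W ≤ r (S0 ∪ Tl ∪ G) + (A ∩ Tj).card := h.union_le _ _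
  have h3 := h.dim (subset_union_left : S0 ⊆ S0 ∪ Tl) G
  have h4 := h.dim (union_subset (union_subset h01 hTl) hTj : S0 ∪ Tl ∪ Tj ⊆ S1) G
  omega

/-- telescoping along one residue class mod 3 -/
theorem tele (δ : ℕ → ℤ) (hδ : ∀ a b, a ≤ b → δ b ≤ δ a) (h0 : ∀ a, 0 ≤ δ a)
    (Bs : Finset ℕ) (ε : ℕ) (hB : ∀ b ∈ Bs, 3 ≤ b ∧ b % 3 = ε) :
    ∑ b ∈ Bs, (δ (b - 3) - δ b) ≤ δ 0 := by
  have key : ∀ n : ℕ, ∑ i ∈ range n, (δ (3 * i + ε) - δ (3 * (i + 1) + ε)) = δ ε - δ (3 * n + ε) := by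
    intro n
    induction n with
    | zero => simp
    | succ n ih => rw [sum_range_succ, ih]; ring
  set n := Bs.sup id + 1
  have hsub : Bs ⊆ (range n).image (fun i => 3 * (i + 1) + ε) := by
    intro b hb
    obtain ⟨h3, hm⟩ := hB b hb
    have hle : b ≤ Bs.sup id := le_sup (f := id) hb
    refine mem_image.2 ⟨b / 3 - 1, mem_range.2 (by omega), by omega⟩
  calc ∑ b ∈ Bs, (δ (b - 3) - δ b)
      ≤ ∑ b ∈ (range n).image (fun i => 3 * (i + 1) + ε), (δ (b - 3) - δ b) :=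
        sum_le_sum_of_subset_of_nonneg hsub (fun b _ _ => sub_nonneg.2 (hδ _ _ (by omega)))
    _ = ∑ i ∈ range n, (δ (3 * i + ε) - δ (3 * (i + 1) + ε)) := by
        rw [sum_image (fun a _ b _ hab => by omega)]
        refine sum_congr rfl (fun i _ => ?_)
        rw [show 3 * (i + 1) + ε - 3 = 3 * i + ε by omega]
    _ = δ ε - δ (3 * n + ε) := key n
    _ ≤ δ 0 := by have := h0 (3 * n + ε); have := hδ 0 ε (Nat.zero_le _); linarith

/-- RANK FORM of the count. -/
theorem RK.count_rank (h : RK r) (S F Tj Tl A : ℕ → Finset α) (G : Finset α)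
    (Bs : Finset ℕ) (ε : ℕ) (hB : ∀ b ∈ Bs, 3 ≤ b ∧ b % 3 = ε)
    (hS : ∀ a b, a ≤ b → S a ⊆ S b)
    (hTj : ∀ b ∈ Bs, Tj b ⊆ S b) (hTl : ∀ b ∈ Bs, Tl b ⊆ S b)
    (hF : ∀ b ∈ Bs, ∀ e ∈ F (b - 3), r (insert e (S (b - 3) ∪ G)) = r (S (b - 3) ∪ G))
    (hA : ∀ b ∈ Bs, A b ⊆ Tj b ∪ Tl b ∪ G)
    (hmax : ∀ b ∈ Bs, ∀ e ∈ Tj b, r (insert e (F (b - 3) ∪ A b)) = r (F (b - 3) ∪ A b)) :
    ∑ b ∈ Bs, ((r (S (b - 3) ∪ Tl b ∪ Tj b) : ℤ) - r (S (b - 3) ∪ Tl b)) ≤
      ∑ b ∈ Bs, ((A b ∩ Tj b).card : ℤ) + G.card := by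
  set δ : ℕ → ℤ := fun b => (r (S b ∪ G) : ℤ) - r (S b) with hδ
  have hanti : ∀ a b, a ≤ b → δ b ≤ δ a := by
    intro a b hab
    have := h.dim (hS a b hab) G
    simp only [hδ]; omega
  have hnn : ∀ a, 0 ≤ δ a := by
    intro a
    have := h.mono (S a) (S a ∪ G) subset_union_left
    simp only [hδ]; omega
  have ht := tele δ hanti hnn Bs ε hB
  have h0 : δ 0 ≤ G.card := by
    have := h.union_le (S 0) G
    simp only [hδ]; omega
  have hb : ∀ b ∈ Bs, ((r (S (b - 3) ∪ Tl b ∪ Tj b) : ℤ) - r (S (b - 3) ∪ Tl b)) ≤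
      ((A b ∩ Tj b).card : ℤ) + (δ (b - 3) - δ b) := by
    intro b hb
    have := h.count_one (hS (b - 3) b (by omega)) (hTj b hb) (hTl b hb) (hF b hb) (hA b hb)
      (hmax b hb)
    simp only [hδ]; omega
  have := sum_le_sum hb
  rw [sum_add_distrib] at this
  linarith

/-- GOOD-ELEMENT FORM of the count: `N b ⊇ S (b-3)` (e.g. `N_(b-2)`), `X b ⊇ Gd b`. -/
theorem RK.count (h : RK r) (S F Tj Tl A Gd : ℕ → Finset α) (G : Finset α)
    (Bs : Finset ℕ) (ε : ℕ) (hB : ∀ b ∈ Bs, 3 ≤ b ∧ b % 3 = ε)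
    (hS : ∀ a b, a ≤ b → S a ⊆ S b)
    (hTj : ∀ b ∈ Bs, Tj b ⊆ S b) (hTl : ∀ b ∈ Bs, Tl b ⊆ S b)
    (hF : ∀ b ∈ Bs, ∀ e ∈ F (b - 3), r (insert e (S (b - 3) ∪ G)) = r (S (b - 3) ∪ G))
    (hA : ∀ b ∈ Bs, A b ⊆ Tj b ∪ Tl b ∪ G)
    (hmax : ∀ b ∈ Bs, ∀ e ∈ Tj b, r (insert e (F (b - 3) ∪ A b)) = r (F (b - 3) ∪ A b))
    (hGd : ∀ b ∈ Bs, Gd b ⊆ Tj b)
    (hgood : ∀ b ∈ Bs, ∀ e ∈ Gd b, ∃ Z : Finset α, S (b - 3) ∪ Tl b ∪ (Gd b).erase e ⊆ Z ∧
      r (insert e Z) ≠ r Z) :
    ∑ b ∈ Bs, (Gd b).card ≤ ∑ b ∈ Bs, (A b ∩ Tj b).card + G.card := by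
  have h1 := h.count_rank S F Tj Tl A G Bs ε hB hS hTj hTl hF hA hmax
  have h2 : ∀ b ∈ Bs, ((Gd b).card : ℤ) ≤
      ((r (S (b - 3) ∪ Tl b ∪ Tj b) : ℤ) - r (S (b - 3) ∪ Tl b)) := by
    intro b hb
    have h3 := h.good_rank (S (b - 3) ∪ Tl b) (Gd b) (fun e he hc => by
      obtain ⟨Z, hZ, hne⟩ := hgood b hb e he
      exact hne (h.span_mono hZ hc))
    have h4 := h.mono _ _ (union_subset_union (Subset.refl (S (b - 3) ∪ Tl b)) (hGd b hb))
    omega
  have h5 := (sum_le_sum h2).trans h1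
  exact_mod_cast h5

/-- chain independence: parts independent modulo the flat three steps before their birth. -/
theorem RK.chain_indep (h : RK r) (F : ℕ → Finset α) (hF : ∀ a b, a ≤ b → F a ⊆ F b)
    (birth : α → ℕ) (ε : ℕ) (A : Finset α)
    (hb : ∀ e ∈ A, 3 ≤ birth e ∧ birth e % 3 = ε ∧ e ∈ F (birth e))
    (hind : ∀ b, r (F (b - 3) ∪ A.filter (fun e => birth e = b)) =
      r (F (b - 3)) + (A.filter (fun e => birth e = b)).card) :
    r A = A.card := by
  have key : ∀ n, r (A.filter (fun e => birth e < n)) = (A.filter (fun e => birth e < n)).card := by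
    intro n
    induction n with
    | zero => simp [h.zero]
    | succ n ih =>
      have hsplit : A.filter (fun e => birth e < n + 1) =
          A.filter (fun e => birth e < n) ∪ A.filter (fun e => birth e = n) := by
        ext a; simp only [mem_filter, mem_union]; constructor
        · rintro ⟨ha, hl⟩
          rcases Nat.lt_succ_iff_lt_or_eq.1 hl with h1 | h1
          · exact Or.inl ⟨ha, h1⟩
          · exact Or.inr ⟨ha, h1⟩
        · rintro (⟨ha, h1⟩ | ⟨ha, h1⟩)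
          · exact ⟨ha, by omega⟩
          · exact ⟨ha, by omega⟩
      have hdisj : Disjoint (A.filter (fun e => birth e < n)) (A.filter (fun e => birth e = n)) := by
        rw [disjoint_left]; intro a h1 h2
        have := (mem_filter.1 h1).2; have := (mem_filter.1 h2).2; omega
      rw [hsplit, card_union_of_disjoint hdisj]
      rcases (A.filter (fun e => birth e = n)).eq_empty_or_nonempty with he | ⟨x, hx⟩
      · rw [he]; simpa using ih
      · obtain ⟨hxA, hxn⟩ := mem_filter.1 hx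
        obtain ⟨hx3, hxm, -⟩ := hb x hxA
        have hsub : A.filter (fun e => birth e < n) ⊆ F (n - 3) := by
          intro a ha
          obtain ⟨haA, hal⟩ := mem_filter.1 ha
          obtain ⟨-, ham, haF⟩ := hb a haA
          exact hF _ _ (by omega) haF
        have h1 := h.dim hsub (A.filter (fun e => birth e = n))
        have h2 := hind n
        have h3 := h.union_le (A.filter (fun e => birth e < n)) (A.filter (fun e => birth e = n))
        omega
  have := key (A.sup birth + 1)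
  rwa [filter_true_of_mem (fun a ha => Nat.lt_succ_of_le (le_sup ha))] at this

omit [DecidableEq α] in
/-- weighted loss: `∑_j q^j |U_{<j}| ≤ q/(1-q) ∑_{e ∈ U} q^{c e}`. -/
theorem weight_loss (U : Finset α) (c : α → ℕ) (q : ℝ) (hq0 : 0 ≤ q) (hq1 : q < 1)
    (J : Finset ℕ) :
    ∑ j ∈ J, q ^ j * ((U.filter (fun e => c e < j)).card : ℝ) ≤
      q / (1 - q) * ∑ e ∈ U, q ^ c e := by
  have h1 : ∀ j, ((U.filter (fun e => c e < j)).card : ℝ) =
      ∑ e ∈ U, if c e < j then (1 : ℝ) else 0 := by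
    intro j; rw [card_filter]; push_cast; rfl
  simp_rw [h1, mul_sum]
  rw [sum_comm]
  refine sum_le_sum (fun e _ => ?_)
  have h2 : ∑ j ∈ J, q ^ j * (if c e < j then (1 : ℝ) else 0) =
      ∑ j ∈ J.filter (fun j => c e < j), q ^ j := by
    rw [sum_filter]; refine sum_congr rfl (fun j _ => ?_); split_ifs <;> simp
  rw [h2]
  set n := J.sup id + 1
  have hsub : J.filter (fun j => c e < j) ⊆ (range n).image (fun i => c e + 1 + i) := by
    intro j hj
    obtain ⟨hjJ, hl⟩ := mem_filter.1 hj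
    have hle : j ≤ J.sup id := le_sup (f := id) hjJ
    exact mem_image.2 ⟨j - (c e + 1), mem_range.2 (by omega), by omega⟩
  calc ∑ j ∈ J.filter (fun j => c e < j), q ^ j
      ≤ ∑ j ∈ (range n).image (fun i => c e + 1 + i), q ^ j :=
        sum_le_sum_of_subset_of_nonneg hsub (fun j _ _ => pow_nonneg hq0 _)
    _ = q ^ (c e + 1) * ∑ i ∈ range n, q ^ i := by
        rw [sum_image (fun a _ b _ hab => by omega), mul_sum]
        exact sum_congr rfl (fun i _ => by rw [pow_add])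
    _ ≤ q ^ (c e + 1) * (1 - q)⁻¹ := by
        refine mul_le_mul_of_nonneg_left ?_ (pow_nonneg hq0 _)
        rw [← tsum_geometric_of_lt_one hq0 hq1]
        exact (summable_geometric_of_lt_one hq0 hq1).sum_le_tsum _ (fun i _ => pow_nonneg hq0 _)
    _ = q / (1 - q) * q ^ c e := by rw [pow_succ]; ring

end Crest.Agent.R305.C69
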