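import Crest.Agent.R305.RGDefs55
import Crest.Agent.R305.Count69

set_option autoImplicit false

open Classical

namespace Crest.Agent.R305

variable {k : ℕ}

theorem rk69 (M : Matroid (Fin k)) (h1 : RANK M) :
    C69.RK (fun X : Finset (Fin k) => rk M (X : Set (Fin k))) := by
  obtain ⟨hm, hs, -, -, -, hu, -, h0, -⟩ := h1
  refine ⟨by simpa using h0, fun A B h => hm _ _ (Finset.coe_subset.2 h), fun A B => ?_,
    fun e S => ?_⟩
  · simpa [Finset.coe_union, Finset.coe_inter] using hs A B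
  · have := hu (S : Set (Fin k)) {e}
    simpa [Finset.coe_insert, Set.union_singleton] using this

theorem mem_thi69 {M : Matroid (Fin k)} {L : ℕ} {U : ℕ → Finset (Fin k)} {D T0 : Finset (Fin k)}
    {j b : ℕ} {y : Fin k} : y ∈ Thi M L U D T0 j b ↔
      ∃ m, (j + 1 ≤ m ∧ m ≤ L) ∧ 3 * m + 2 ≤ b ∧ y ∈ Tband M L U D T0 m b := by
  simp only [Thi, Finset.mem_biUnion, Finset.mem_filter, Finset.mem_Icc, and_assoc]

theorem mem_tband69 {M : Matroid (Fin k)} {L : ℕ} {U : ℕ → Finset (Fin k)} {D T0 : Finset (Fin k)}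
    {m b : ℕ} {y : Fin k} : y ∈ Tband M L U D T0 m b ↔
      (y ∈ T0 \ D ∧ y ∈ U m) ∧ y ∈ Nm M L U D T0 m b ∧ y ∉ Nm M L U D T0 m (b - 1) := by
  simp only [Tband, Finset.mem_filter, Finset.mem_inter]

theorem birth_unique69 {M : Matroid (Fin k)} (h4 : NCHAIN M) {L : ℕ} {U : ℕ → Finset (Fin k)}
    {D T0 : Finset (Fin k)} (hP : Pools M U) {b b' : ℕ} {y : Fin k}
    (hb : y ∈ Thi M L U D T0 0 b) (hb' : y ∈ Thi M L U D T0 0 b') : b = b' := by
  obtain ⟨m, ⟨hm1, hmL⟩, -, hy⟩ := mem_thi69.1 hb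
  obtain ⟨m', -, -, hy'⟩ := mem_thi69.1 hb'
  obtain ⟨⟨-, hU⟩, hN, hN1⟩ := mem_tband69.1 hy
  obtain ⟨⟨-, hU'⟩, hN', hN1'⟩ := mem_tband69.1 hy'
  have hmm : m = m' := by
    by_contra hne
    exact Finset.disjoint_left.1 (hP.2 m m' hne) hU hU'
  subst hmm
  have hmono := (h4 L U D T0 m (by omega) hmL).2.1
  by_contra hne
  rcases Nat.lt_or_gt_of_ne hne with hl | hl
  · exact hN1' (hmono b (b' - 1) (by omega) hN)
  · exact hN1 (hmono b' (b - 1) (by omega) hN')

theorem count69 (M : Matroid (Fin k)) (h1 : RANK M) (h3 : CHAIN M) (h4 : NCHAIN M) : COUNT M := by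
  intro L U D T0 ep A j hP hj1 hjL hJ hmaxA
  have hR := rk69 M h1
  obtain ⟨hm, -, -, -, hsp, -, -, -, -⟩ := h1
  obtain ⟨-, -, hc3, -, -, hc6⟩ := h3 L U D (Cg D T0)
  obtain ⟨-, hn2, hn3, -, hn5, -, -⟩ := h4 L U D T0 j hj1 hjL
  set Bs := (times L j).filter (fun b => b % 3 = ep.val) with hBs
  have hB : ∀ b ∈ Bs, 3 * j + 2 ≤ b ∧ b ≤ 3 * L + 3 ∧ b % 3 = ep.val := by
    intro b hb
    obtain ⟨h, h'⟩ := Finset.mem_filter.1 hb
    have := Finset.mem_Icc.1 h
    exact ⟨this.1, this.2, h'⟩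
  have hTT : ∀ b ∈ Bs, ∀ e ∈ Tband M L U D T0 j b, e ∈ Thi M L U D T0 0 b := fun b hb e he =>
    mem_thi69.2 ⟨j, ⟨by omega, hjL⟩, (hB b hb).1, he⟩
  have key := hR.count_rank (fun t => (Nm M L U D T0 j (t + 1)).toFinset)
    (fun t => (Ff M L U D T0 t).toFinset) (fun b => Tband M L U D T0 j b)
    (fun b => Thi M L U D T0 j b) (fun b => A ∩ Thi M L U D T0 0 b)
    ((Finset.Ico 1 j).biUnion U) Bs ep.val
    (fun b hb => ⟨by have := (hB b hb).1; omega, (hB b hb).2.2⟩)
    (fun a b hab => Set.toFinset_subset_toFinset.2 (hn2 _ _ (by omega)))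
    (fun b _ y hy => Set.mem_toFinset.2 (hn2 b (b + 1) (by omega) (mem_tband69.1 hy).2.1))
    (fun b _ y hy => by
      obtain ⟨m, ⟨hm1, hmL⟩, -, hy⟩ := mem_thi69.1 hy
      have h5 := (h4 L U D T0 m (by omega) hmL).2.2.2.1 b (mem_tband69.1 hy).2.1
      exact Set.mem_toFinset.2 (hn2 b (b + 1) (by omega)
        (hn3 b (hc3 (L - m + 1) (L - j) b (by omega) h5))))
    (fun b _ e he => by
      have h5 := hc6 j (b - 3) hj1 hjL (Set.mem_toFinset.1 he)
      have h6 := M.closure_subset_closure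
        (Set.union_subset_union_left (↑((Finset.Ico 1 j).biUnion U) : Set (Fin k)) (hn5 (b - 3))) h5
      have h7 := hsp _ e h6
      simpa only [Finset.coe_insert, Finset.coe_union, Set.coe_toFinset] using h7)
    (fun b _ y hy => by
      obtain ⟨m, ⟨hm1, hmL⟩, hmb, hy⟩ := mem_thi69.1 (Finset.mem_inter.1 hy).2
      simp only [Finset.mem_union]
      rcases lt_trichotomy m j with h | h | h
      · exact Or.inr (Finset.mem_biUnion.2 ⟨m, Finset.mem_Ico.2 ⟨by omega, h⟩,
          (mem_tband69.1 hy).1.2⟩)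
      · subst h; exact Or.inl (Or.inl hy)
      · exact Or.inl (Or.inr (mem_thi69.2 ⟨m, ⟨h, hmL⟩, hmb, hy⟩)))
    (fun b hb e he => by
      have heT := hTT b hb e he
      by_cases heA : e ∈ A
      · rw [Finset.insert_eq_of_mem (Finset.mem_union_right _ (Finset.mem_inter.2 ⟨heA, heT⟩))]
      · have hnJ := hmaxA b e heT heA
        have h8 : ¬ ∀ b', rk M (Ff M L U D T0 (b' - 3) ∪ ↑(insert e A ∩ Thi M L U D T0 0 b')) =
            rk M (Ff M L U D T0 (b' - 3)) + (insert e A ∩ Thi M L U D T0 0 b').card := by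
          intro h
          refine hnJ ⟨fun y hy => ?_, h⟩
          rcases Finset.mem_insert.1 hy with rfl | hy
          · exact ⟨b, (hB b hb).2.1, (hB b hb).2.2, heT⟩
          · exact hJ.1 y hy
        obtain ⟨b', hb'⟩ := not_forall.1 h8
        by_cases heb : e ∈ Thi M L U D T0 0 b'
        · have hbb := birth_unique69 h4 hP heT heb
          subst hbb
          rw [Finset.insert_inter_of_mem heT,
            Finset.card_insert_of_notMem (fun h => heA (Finset.mem_inter.1 h).1)] at hb'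
          have h9 := hJ.2 b
          have h10 := hR.ins e ((Ff M L U D T0 (b - 3)).toFinset ∪ A ∩ Thi M L U D T0 0 b)
          have h11 := hR.mono _ _ (Finset.subset_insert e
            ((Ff M L U D T0 (b - 3)).toFinset ∪ A ∩ Thi M L U D T0 0 b))
          simp only [Finset.coe_insert, Finset.coe_union, Set.coe_toFinset,
            Set.union_insert] at hb' h10 h11 ⊢
          omega
        · rw [Finset.insert_inter_of_notMem heb] at hb'
          exact absurd (hJ.2 b') hb')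
  have hcard : ∑ b ∈ Bs, ((A ∩ Thi M L U D T0 0 b) ∩ Tband M L U D T0 j b).card ≤
      (A ∩ U j).card := by
    rw [← Finset.card_biUnion]
    · refine Finset.card_le_card (fun y hy => ?_)
      obtain ⟨b, -, hy⟩ := Finset.mem_biUnion.1 hy
      obtain ⟨hy1, hy2⟩ := Finset.mem_inter.1 hy
      exact Finset.mem_inter.2 ⟨(Finset.mem_inter.1 hy1).1, (mem_tband69.1 hy2).1.2⟩
    · intro b _ b' _ hne
      refine Finset.disjoint_left.2 (fun y hy hy' => hne ?_)
      exact birth_unique69 h4 hP (Finset.mem_inter.1 (Finset.mem_inter.1 hy).1).2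
        (Finset.mem_inter.1 (Finset.mem_inter.1 hy').1).2
  have hg : ∀ b ∈ Bs, gain M L U D T0 j b =
      (((rk M (↑((Nm M L U D T0 j (b - 3 + 1)).toFinset ∪ Thi M L U D T0 j b ∪
          Tband M L U D T0 j b) : Set (Fin k)) : ℤ) -
        rk M (↑((Nm M L U D T0 j (b - 3 + 1)).toFinset ∪ Thi M L U D T0 j b) : Set (Fin k)) : ℤ) : ℝ) := by
    intro b hb
    have : b - 3 + 1 = b - 2 := by have := (hB b hb).1; omega
    rw [this]
    simp only [gain, Finset.coe_union, Set.coe_toFinset]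
    push_cast; rfl
  rw [Finset.sum_congr rfl hg, ← Int.cast_sum]
  have hcard' : (∑ b ∈ Bs, (((A ∩ Thi M L U D T0 0 b) ∩ Tband M L U D T0 j b).card : ℤ)) ≤
      ((A ∩ U j).card : ℤ) := by exact_mod_cast hcard
  have hfin := key.trans (add_le_add_left hcard' _)
  exact_mod_cast hfin

end Crest.Agent.R305
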