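import Crest.Agent.R305.RGDefs55

set_option autoImplicit false

open Classical

namespace Crest.Agent.R305.F10

variable {k : ℕ} {M : Matroid (Fin k)}

theorem kap_pos : 0 < kap := by unfold kap; positivity

/-- `|D ∩ Q|` -/
noncomputable def cnt (D : Finset (Fin k)) (Q : Set (Fin k)) : ℕ :=
  (D.filter (fun e => e ∈ Q)).card

theorem cnt_eq (D : Finset (Fin k)) (Q : Set (Fin k)) (p : Fin k → Prop) [DecidablePred p]
    (h : ∀ e ∈ D, e ∈ Q ↔ p e) : cnt D Q = (D.filter p).card := by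
  unfold cnt
  congr 1
  ext e
  simp only [Finset.mem_filter]
  exact ⟨fun hh => ⟨hh.1, (h e hh.1).1 hh.2⟩, fun hh => ⟨hh.1, (h e hh.1).2 hh.2⟩⟩

theorem fval_eq (D : Finset (Fin k)) (Q : Set (Fin k)) :
    fval M D Q = (cnt D Q : ℤ) - (kap : ℤ) * (rk M Q : ℤ) := rfl

theorem cnt_union_inter (D : Finset (Fin k)) (P Q : Set (Fin k)) :
    cnt D (P ∪ Q) + cnt D (P ∩ Q) = cnt D P + cnt D Q := by
  unfold cnt
  rw [← Finset.card_union_add_card_inter (D.filter (fun e => e ∈ P)) (D.filter (fun e => e ∈ Q))]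
  congr 1
  · congr 1; ext e; simp only [Finset.mem_filter, Finset.mem_union, Set.mem_union]; tauto
  · congr 1; ext e; simp only [Finset.mem_filter, Finset.mem_inter, Set.mem_inter_iff]; tauto

theorem cnt_mono (D : Finset (Fin k)) {P Q : Set (Fin k)} (h : ∀ e ∈ D, e ∈ P → e ∈ Q) :
    cnt D P ≤ cnt D Q := by
  unfold cnt
  apply Finset.card_le_card
  intro e he
  rw [Finset.mem_filter] at he ⊢
  exact ⟨he.1, h e he.1 he.2⟩

theorem cnt_le_card (D : Finset (Fin k)) (Q : Set (Fin k)) : cnt D Q ≤ D.card :=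
  Finset.card_filter_le _ _

theorem cnt_empty (D : Finset (Fin k)) : cnt D ∅ = 0 := by
  unfold cnt; simp

theorem cnt_diff_add (D : Finset (Fin k)) {Q N : Set (Fin k)} (hQN : Q ⊆ N) :
    cnt D (N \ Q) + cnt D Q = cnt D N := by
  have h := cnt_union_inter D (N \ Q) Q
  rw [Set.sdiff_union_of_subset hQN, Set.sdiff_inter_self, cnt_empty] at h
  omega

theorem fval_supermod (hR : RANK M) (D : Finset (Fin k)) (P Q : Set (Fin k)) :
    fval M D P + fval M D Q ≤ fval M D (P ∪ Q) + fval M D (P ∩ Q) := by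
  have h1 := cnt_union_inter D P Q
  have h2 := hR.2.1 P Q
  zify at h1 h2
  have h3 := mul_le_mul_of_nonneg_left h2 (Int.natCast_nonneg kap)
  simp only [fval_eq]
  linarith

theorem isMax_union (hR : RANK M) {D : Finset (Fin k)} {S S' P Q : Set (Fin k)}
    (hP : IsMax M D S P) (hQ : IsMax M D S' Q) (hSS : S ⊆ S') : IsMax M D S' (P ∪ Q) := by
  refine ⟨hQ.1.trans Set.subset_union_right, Set.union_subset hP.2.1 hQ.2.1, fun Q' hQ' hE => ?_⟩
  have h1 := fval_supermod hR D P Q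
  have h2 := hP.2.2 (P ∩ Q) (Set.subset_inter hP.1 (hSS.trans hQ.1))
    (Set.inter_subset_left.trans hP.2.1)
  have h3 := hQ.2.2 Q' hQ' hE
  linarith

theorem exists_isMax (D : Finset (Fin k)) {S : Set (Fin k)} (hS : S ⊆ M.E) :
    ∃ Q, IsMax M D S Q := by
  obtain ⟨Q, hQ, hmax⟩ := Set.exists_max_image {Q : Set (Fin k) | S ⊆ Q ∧ Q ⊆ M.E}
    (fval M D) (Set.toFinite _) ⟨S, Set.Subset.rfl, hS⟩
  exact ⟨Q, hQ.1, hQ.2, fun Q' h1 h2 => hmax Q' ⟨h1, h2⟩⟩

theorem subset_Exp_of_isMax {D : Finset (Fin k)} {S Q : Set (Fin k)} (hQ : IsMax M D S Q) :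
    Q ⊆ Exp M D S := Set.subset_sUnion_of_mem hQ

theorem isMax_Exp (hR : RANK M) (D : Finset (Fin k)) {S : Set (Fin k)} (hS : S ⊆ M.E) :
    IsMax M D S (Exp M D S) := by
  obtain ⟨Q0, hQ0⟩ := exists_isMax D hS
  obtain ⟨N, hN, hmax⟩ := Set.exists_max_image {Q : Set (Fin k) | IsMax M D S Q}
    Set.ncard (Set.toFinite _) ⟨Q0, hQ0⟩
  have hall : ∀ Q, IsMax M D S Q → Q ⊆ N := by
    intro Q hQ
    have hU : IsMax M D S (Q ∪ N) := isMax_union hR hQ hN Set.Subset.rfl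
    have hc := hmax (Q ∪ N) hU
    have : N = Q ∪ N := Set.eq_of_subset_of_ncard_le Set.subset_union_right hc (Set.toFinite _)
    rw [this]; exact Set.subset_union_left
  have : Exp M D S = N :=
    Set.Subset.antisymm (Set.sUnion_subset hall) (subset_Exp_of_isMax hN)
  rw [this]; exact hN

theorem subset_Exp (hR : RANK M) (D : Finset (Fin k)) {S : Set (Fin k)} (hS : S ⊆ M.E) :
    S ⊆ Exp M D S := (isMax_Exp hR D hS).1

theorem Exp_subset_ground (hR : RANK M) (D : Finset (Fin k)) {S : Set (Fin k)} (hS : S ⊆ M.E) :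
    Exp M D S ⊆ M.E := (isMax_Exp hR D hS).2.1

theorem fval_le_closure (hR : RANK M) (D : Finset (Fin k)) {Q : Set (Fin k)} (hQ : Q ⊆ M.E) :
    fval M D Q ≤ fval M D (M.closure Q) := by
  have h1 := cnt_mono D (P := Q) (Q := M.closure Q)
    (fun e _ he => M.subset_closure Q hQ he)
  zify at h1
  simp only [fval_eq]
  rw [hR.2.2.1]
  linarith

theorem closure_Exp (hR : RANK M) (D : Finset (Fin k)) {S : Set (Fin k)} (hS : S ⊆ M.E) :
    M.closure (Exp M D S) = Exp M D S := by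
  have hN := isMax_Exp hR D hS
  apply Set.Subset.antisymm _ (M.subset_closure _ hN.2.1)
  apply subset_Exp_of_isMax
  exact ⟨hN.1.trans (M.subset_closure _ hN.2.1), M.closure_subset_ground _,
    fun Q' h1 h2 => (hN.2.2 Q' h1 h2).trans (fval_le_closure hR D hN.2.1)⟩

theorem Exp_subset_closure_inter (hR : RANK M) (D : Finset (Fin k)) {S : Set (Fin k)}
    (hS : S ⊆ M.E) : Exp M D S ⊆ M.closure (S ∪ (↑D ∩ Exp M D S)) := by
  have hN := isMax_Exp hR D hS
  have hsub : S ∪ (↑D ∩ Exp M D S) ⊆ Exp M D S := Set.union_subset hN.1 Set.inter_subset_right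
  have h1 := hN.2.2 _ Set.subset_union_left (hsub.trans hN.2.1)
  have h2 := cnt_mono D (P := Exp M D S) (Q := S ∪ (↑D ∩ Exp M D S))
    (fun e he hN => Or.inr ⟨he, hN⟩)
  zify at h2
  apply hR.2.2.2.2.2.2.2.2 _ _ hsub hN.2.1
  simp only [fval_eq] at h1
  have h3 : (kap : ℤ) * (rk M (Exp M D S) : ℤ) ≤ (kap : ℤ) * (rk M (S ∪ (↑D ∩ Exp M D S)) : ℤ) := by
    linarith
  have hk : (0 : ℤ) < (kap : ℤ) := by exact_mod_cast kap_pos
  have h4 := le_of_mul_le_mul_left h3 hk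
  exact_mod_cast h4

theorem Exp_subset_closure (hR : RANK M) (D : Finset (Fin k)) {S : Set (Fin k)}
    (hS : S ⊆ M.E) : Exp M D S ⊆ M.closure (S ∪ ↑D) :=
  (Exp_subset_closure_inter hR D hS).trans
    (M.closure_subset_closure (Set.union_subset_union_right _ Set.inter_subset_left))

theorem Exp_mono (hR : RANK M) (D : Finset (Fin k)) {S S' : Set (Fin k)} (hSS : S ⊆ S')
    (hS' : S' ⊆ M.E) : Exp M D S ⊆ Exp M D S' :=
  Set.subset_union_left.trans (subset_Exp_of_isMax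
    (isMax_union hR (isMax_Exp hR D (hSS.trans hS')) (isMax_Exp hR D hS') hSS))

theorem fval_lt_of_not_subset (hR : RANK M) (D : Finset (Fin k)) {S Q : Set (Fin k)}
    (hSQ : S ⊆ Q) (hQ : Q ⊆ M.E) (hne : ¬ Q ⊆ Exp M D S) :
    fval M D Q < fval M D (Exp M D S) := by
  have hN := isMax_Exp hR D (hSQ.trans hQ)
  by_contra hlt
  rw [not_lt] at hlt
  exact hne (subset_Exp_of_isMax ⟨hSQ, hQ, fun Q' h1 h2 => (hN.2.2 Q' h1 h2).trans hlt⟩)

/-- B2 -/
theorem expf_of_rank (hR : RANK M) : EXPF M := by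
  intro D S hS
  refine ⟨isMax_Exp hR D hS, closure_Exp hR D hS, Exp_subset_closure hR D hS,
    fun S' h1 h2 => Exp_mono hR D h1 h2, fun Q h1 h2 h3 => ?_⟩
  exact fval_lt_of_not_subset hR D ((subset_Exp hR D hS).trans h1) h2
    (fun hh => h3 (Set.Subset.antisymm hh h1))

/-! ### derived facts -/

/-- UP -/
theorem Exp_up (hR : RANK M) (D : Finset (Fin k)) {S Q : Set (Fin k)} (hS : S ⊆ M.E)
    (hSQ : S ⊆ Q) (hQ : Q ⊆ Exp M D S) :
    kap * rk M (Exp M D S) ≤ cnt D (Exp M D S \ Q) + kap * rk M Q := by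
  have hN := isMax_Exp hR D hS
  have h1 := hN.2.2 Q hSQ (hQ.trans hN.2.1)
  have h2 := cnt_diff_add D hQ
  simp only [fval_eq] at h1
  zify at h2 ⊢
  linarith

/-- strict DOWN -/
theorem Exp_down_lt (hR : RANK M) (D : Finset (Fin k)) {S X : Set (Fin k)} (hS : S ⊆ M.E)
    (hX : X ⊆ M.E) (hne : ¬ X ⊆ Exp M D S) :
    cnt D (X \ Exp M D S) + kap * rk M (Exp M D S) < kap * rk M (Exp M D S ∪ X) := by
  have hN := isMax_Exp hR D hS
  have h1 := fval_lt_of_not_subset hR D (S := S) (Q := Exp M D S ∪ X)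
    (hN.1.trans Set.subset_union_left) (Set.union_subset hN.2.1 hX)
    (fun hh => hne (Set.subset_union_right.trans hh))
  have h2 := cnt_diff_add D (Set.subset_union_left : Exp M D S ⊆ Exp M D S ∪ X)
  rw [Set.union_sdiff_left] at h2
  simp only [fval_eq] at h1
  zify at h2 ⊢
  linarith

/-- weak DOWN -/
theorem Exp_down_le (hR : RANK M) (D : Finset (Fin k)) {S X : Set (Fin k)} (hS : S ⊆ M.E)
    (hX : X ⊆ M.E) :
    cnt D (X \ Exp M D S) + kap * rk M (Exp M D S) ≤ kap * rk M (Exp M D S ∪ X) := by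
  by_cases hne : X ⊆ Exp M D S
  · rw [Set.union_eq_self_of_subset_right hne, Set.sdiff_eq_empty.2 hne, cnt_empty]
    simp
  · exact (Exp_down_lt hR D hS hX hne).le

/-- generated rank -/
theorem Exp_rank_le (hR : RANK M) (D : Finset (Fin k)) {S : Set (Fin k)} (hS : S ⊆ M.E) :
    kap * rk M (Exp M D S) ≤ D.card + kap * rk M S := by
  have h1 := Exp_up hR D hS Set.Subset.rfl (subset_Exp hR D hS)
  have h2 := cnt_le_card D (Exp M D S \ S)
  omega

theorem Exp_loops_rank_le (hR : RANK M) (D : Finset (Fin k)) :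
    kap * rk M (Exp M D (M.closure ∅)) ≤ D.card := by
  have h1 := Exp_rank_le hR D (M.closure_subset_ground ∅)
  rw [hR.2.2.1, hR.2.2.2.2.2.2.2.1] at h1
  simpa using h1

theorem Exp_between (hR : RANK M) (D : Finset (Fin k)) {S R : Set (Fin k)} (hS : S ⊆ M.E)
    (hSR : S ⊆ R) (hR' : R ⊆ Exp M D S) : Exp M D R = Exp M D S := by
  have hN := isMax_Exp hR D hS
  have hRE : R ⊆ M.E := hR'.trans hN.2.1
  apply Set.Subset.antisymm _ (Exp_mono hR D hSR hRE)
  have hN' := isMax_Exp hR D hRE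
  apply subset_Exp_of_isMax
  exact ⟨hSR.trans hN'.1, hN'.2.1,
    fun Q' h1 h2 => (hN.2.2 Q' h1 h2).trans (hN'.2.2 _ hR' hN.2.1)⟩

theorem Exp_ground (hR : RANK M) (D : Finset (Fin k)) : Exp M D M.E = M.E :=
  Set.Subset.antisymm (Exp_subset_ground hR D Set.Subset.rfl) (subset_Exp hR D Set.Subset.rfl)

end Crest.Agent.R305.F10

theorem Crest.Agent.R305.expf10 {k : ℕ} (M : Matroid (Fin k)) (h1 : Crest.Agent.R305.RANK M) :
    Crest.Agent.R305.EXPF M := Crest.Agent.R305.F10.expf_of_rank h1
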