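import Crest.Agent.R305.RGDefs55

/-! Row 305, block B7 (`GAIN`). -/

set_option autoImplicit false

open Classical

namespace Crest.Agent.R305.G70

variable {k : ℕ}

theorem upper (M : Matroid (Fin k)) (hR : RANK M) (A : Set (Fin k)) (X : Finset (Fin k)) :
    rk M (A ∪ ↑X) ≤ rk M A +
      (X.filter (fun e => e ∉ M.closure (A ∪ ↑(X.filter (fun f => f < e))))).card := by
  obtain ⟨-, -, -, -, h5, h6, -, -, -⟩ := hR
  induction X using Finset.induction_on_max with
  | empty => simp
  | insert a s hs ih =>
    have ha : a ∉ s := fun h => lt_irrefl _ (hs a h)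
    have hfa : (insert a s).filter (fun f => f < a) = s := by
      ext f
      simp only [Finset.mem_filter, Finset.mem_insert]
      constructor
      · rintro ⟨h | h, h'⟩
        · exact absurd h' (by rw [h]; exact lt_irrefl _)
        · exact h
      · intro h; exact ⟨Or.inr h, hs f h⟩
    have hfe : ∀ e ∈ s, (insert a s).filter (fun f => f < e) = s.filter (fun f => f < e) := by
      intro e he
      ext f
      simp only [Finset.mem_filter, Finset.mem_insert]
      constructor
      · rintro ⟨h | h, h'⟩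
        · exact absurd (lt_trans (h ▸ h') (hs e he)) (lt_irrefl _)
        · exact ⟨h, h'⟩
      · rintro ⟨h, h'⟩; exact ⟨Or.inr h, h'⟩
    have hun : A ∪ ↑(insert a s) = insert a (A ∪ ↑s) := by
      ext x; simp only [Finset.coe_insert, Set.mem_union, Set.mem_insert_iff]; tauto
    have hcongr : s.filter (fun e => e ∉ M.closure (A ∪ ↑((insert a s).filter (fun f => f < e)))) =
        s.filter (fun e => e ∉ M.closure (A ∪ ↑(s.filter (fun f => f < e)))) := by
      apply Finset.filter_congr
      intro e he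
      rw [hfe e he]
    rw [Finset.filter_insert, hfa, hcongr, hun]
    split_ifs with h
    · rw [h5 _ _ h]
      exact ih
    · rw [Finset.card_insert_of_notMem (fun h' => ha (Finset.mem_filter.1 h').1)]
      have := h6 (A ∪ ↑s) {a}
      have e1 : A ∪ ↑s ∪ ↑({a} : Finset (Fin k)) = insert a (A ∪ ↑s) := by
        ext x; simp only [Finset.coe_singleton, Set.mem_union, Set.mem_insert_iff,
          Set.mem_singleton_iff]; tauto
      rw [e1, Finset.card_singleton] at this
      omega

theorem lower (M : Matroid (Fin k)) (hR : RANK M) (H : Set (Fin k)) (G : Finset (Fin k))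
    (hE : ∀ e ∈ G, e ∈ M.E)
    (hG : ∀ e ∈ G, e ∉ M.closure (H ∪ ↑(G.filter (fun f => f < e)))) :
    rk M (H ∪ ↑G) = rk M H + G.card := by
  obtain ⟨-, -, -, h4, -, -, -, -, -⟩ := hR
  induction G using Finset.induction_on_max with
  | empty => simp
  | insert a s hs ih =>
    have ha : a ∉ s := fun h => lt_irrefl _ (hs a h)
    have hfa : (insert a s).filter (fun f => f < a) = s := by
      ext f
      simp only [Finset.mem_filter, Finset.mem_insert]
      constructor
      · rintro ⟨h | h, h'⟩
        · exact absurd h' (by rw [h]; exact lt_irrefl _)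
        · exact h
      · intro h; exact ⟨Or.inr h, hs f h⟩
    have hun : H ∪ ↑(insert a s) = insert a (H ∪ ↑s) := by
      ext x; simp only [Finset.coe_insert, Set.mem_union, Set.mem_insert_iff]; tauto
    have h1 := hG a (Finset.mem_insert_self _ _)
    rw [hfa] at h1
    rw [hun, h4 _ _ (hE a (Finset.mem_insert_self _ _)) h1, Finset.card_insert_of_notMem ha]
    rw [ih (fun e he => hE e (Finset.mem_insert_of_mem he))]
    · omega
    · intro e he hc
      refine hG e (Finset.mem_insert_of_mem he) (M.closure_subset_closure ?_ hc)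
      refine Set.union_subset_union_right _ ?_
      intro x hx
      simp only [Finset.coe_filter, Set.mem_ofPred_eq, Finset.mem_insert] at hx ⊢
      exact ⟨Or.inr hx.1, hx.2⟩

end Crest.Agent.R305.G70

namespace Crest.Agent.R305

variable {k : ℕ}

theorem gain70 (M : Matroid (Fin k)) (hR : RANK M) : GAIN M := by
  intro L U D T0 j b hP hj hjL hb
  set N1 := Nm M L U D T0 j (b - 1) with hN1
  set N2 := Nm M L U D T0 j (b - 2) with hN2
  set Th := Thi M L U D T0 j b with hTh
  set Tb := Tband M L U D T0 j b with hTb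
  set Xp : Finset (Fin k) := ((T0 \ D) ∩ U j).filter (fun f => f ∈ Nm M L U D T0 j b) with hXp
  have hX0 : ∀ e, X0 M L U D T0 j b e = Xp.filter (fun f => f < e) := by
    intro e
    ext f
    simp only [X0, hXp, Finset.mem_filter]
    tauto
  have hXE : ∀ e ∈ Xp, e ∈ M.E := by
    intro e he
    have := (Finset.mem_inter.1 (Finset.mem_filter.1 he).1).2
    exact hP.1 j (Finset.mem_coe.2 this)
  have hTbX : Tb ⊆ Xp := by
    intro e he
    simp only [hTb, Tband, hXp, Finset.mem_filter] at he ⊢
    exact ⟨he.1, he.2.1⟩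
  set G := Xp.filter (fun e => e ∉ M.closure (N1 ∪ ↑(Xp.filter (fun f => f < e)))) with hG
  have hup : rk M (N1 ∪ ↑Tb) ≤ rk M N1 + G.card := by
    refine le_trans (hR.1 _ _ ?_) (G70.upper M hR N1 Xp)
    exact Set.union_subset_union_right _ (Finset.coe_subset.2 hTbX)
  have hGT : G ⊆ Tb := by
    intro e he
    have he' := Finset.mem_filter.1 he
    have hex := Finset.mem_filter.1 he'.1
    simp only [hTb, Tband, Finset.mem_filter]
    refine ⟨hex.1, hex.2, fun h => he'.2 ?_⟩
    exact M.mem_closure_of_mem' (Or.inl h) (hXE e he'.1)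
  set Gg := G.filter (fun e => e ∉ M.closure (N2 ∪ ↑Th ∪ ↑(Xp.filter (fun f => f < e)))) with hGg
  set Gb := G.filter (fun e => ¬ e ∉ M.closure (N2 ∪ ↑Th ∪ ↑(Xp.filter (fun f => f < e)))) with hGb
  have hsplit : Gg.card + Gb.card = G.card := Finset.card_filter_add_card_filter_not _
  have hlow : rk M (N2 ∪ ↑Th ∪ ↑Gg) = rk M (N2 ∪ ↑Th) + Gg.card := by
    apply G70.lower M hR
    · intro e he
      exact hXE e (Finset.mem_filter.1 (Finset.mem_filter.1 he).1).1
    · intro e he hc
      refine (Finset.mem_filter.1 he).2 (M.closure_subset_closure ?_ hc)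
      refine Set.union_subset_union_right _ ?_
      intro x hx
      have hx' := Finset.mem_filter.1 (Finset.mem_coe.1 hx)
      exact Finset.mem_coe.2 (Finset.mem_filter.2
        ⟨(Finset.mem_filter.1 (Finset.mem_filter.1 hx'.1).1).1, hx'.2⟩)
  have hmono : rk M (N2 ∪ ↑Th ∪ ↑Gg) ≤ rk M (N2 ∪ ↑Th ∪ ↑Tb) := by
    apply hR.1
    refine Set.union_subset_union_right _ (Finset.coe_subset.2 ?_)
    exact (Finset.filter_subset _ _).trans hGT
  have hbad : Gb.card ≤ (Finset.univ.filter (fun e => Harm M L U D T0 j b e)).card := by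
    apply Finset.card_le_card
    intro e he
    have he1 := Finset.mem_filter.1 he
    have he2 := Finset.mem_filter.1 he1.1
    have he3 := Finset.mem_filter.1 he2.1
    refine Finset.mem_filter.2 ⟨Finset.mem_univ _, he3.1, he3.2, ?_, ?_⟩
    · rw [hX0]; exact not_not.1 he1.2
    · rw [hX0]; exact he2.2
  unfold null harm gain
  rw [← hN1, ← hN2, ← hTh, ← hTb]
  have h1 : (rk M (N1 ∪ ↑Tb) : ℝ) ≤ rk M N1 + G.card := by exact_mod_cast hup
  have h2 : (rk M (N2 ∪ ↑Th) : ℝ) + Gg.card ≤ rk M (N2 ∪ ↑Th ∪ ↑Tb) := by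
    have : rk M (N2 ∪ ↑Th) + Gg.card ≤ rk M (N2 ∪ ↑Th ∪ ↑Tb) := hlow ▸ hmono
    exact_mod_cast this
  have h3 : (Gg.card : ℝ) + Gb.card = G.card := by exact_mod_cast hsplit
  have h4 : (Gb.card : ℝ) ≤ ((Finset.univ.filter (fun e => Harm M L U D T0 j b e)).card : ℝ) := by
    exact_mod_cast hbad
  linarith

end Crest.Agent.R305
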