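import Crest.Agent.R305.RGDefs55

set_option autoImplicit false

open Classical

namespace Crest.Agent.R305

variable {k : ℕ}

theorem ex_lin05 (p : ℝ) (hs : ∑ A : Finset (Fin k), bern p A = 1)
    (f g h : Finset (Fin k) → ℝ) (c : ℝ) :
    Ex p (fun A => (f A - g A - h A) / 3 - c) = (Ex p f - Ex p g - Ex p h) / 3 - c := by
  unfold Ex
  have : ∀ A : Finset (Fin k), bern p A * ((f A - g A - h A) / 3 - c) =
      (bern p A * f A) / 3 - (bern p A * g A) / 3 - (bern p A * h A) / 3 - bern p A * c := by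
    intro A; ring
  simp only [this, Finset.sum_sub_distrib, ← Finset.sum_div, ← Finset.sum_mul, hs]
  ring

theorem ex_const05 (p : ℝ) (hs : ∑ A : Finset (Fin k), bern p A = 1) (c : ℝ) :
    Ex p (fun _ : Finset (Fin k) => c) = c := by
  unfold Ex
  rw [← Finset.sum_mul, hs, one_mul]

theorem tt_nonneg05 : 0 ≤ tt := by unfold tt; positivity

theorem tt_le_one05 : tt ≤ 1 := by
  unfold tt
  exact pow_le_one₀ (by norm_num) (by norm_num)

theorem sum_mod05 (s : Finset ℕ) (g : ℕ → ℝ) :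
    ∑ ep : Fin 3, ∑ b ∈ s.filter (fun b => b % 3 = ep.val), g b = ∑ b ∈ s, g b := by
  simp only [Finset.sum_filter]
  rw [Finset.sum_comm]
  refine Finset.sum_congr rfl fun b _ => ?_
  have hb : b % 3 < 3 := Nat.mod_lt _ (by norm_num)
  rw [Finset.sum_eq_single (⟨b % 3, hb⟩ : Fin 3)]
  · simp
  · intro e _ he
    rw [if_neg]
    intro h
    exact he (Fin.ext h.symm)
  · intro h; exact absurd (Finset.mem_univ _) h

theorem givenh05 (M : Matroid (Fin k)) (hE : EXB k) (hC : COUNT M) (hG : GAIN M)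
    (hB : BOTTOM M) (hS : SAFE M) (hA : ALPHAS M) : GIVENH M := by
  intro L U O j sel hP hj1 hjL hO hI hsel
  obtain ⟨-, hs1, hm1, -, -⟩ := hE (1 / 2) (by norm_num) (by norm_num)
  obtain ⟨-, hs2, hm2, -, -⟩ := hE tt tt_nonneg05 tt_le_one05
  set G : ℝ := (((Finset.Ico 1 j).biUnion U).card : ℝ) with hGdef
  have hpt : ∀ D T0 : Finset (Fin k),
      ((∑ b ∈ times L j, ((Tband M L U D T0 j b).card : ℝ)) -
        (∑ b ∈ times L j, null M L U D T0 j b) -
        (∑ b ∈ times L j, harm M L U D T0 j b)) / 3 - G ≤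
      ∑ ep : Fin 3, ((sel D T0 ep ∩ U j).card : ℝ) / 3 := by
    intro D T0
    have h1 : ∀ ep : Fin 3,
        ∑ b ∈ (times L j).filter (fun b => b % 3 = ep.val), gain M L U D T0 j b ≤
          ((sel D T0 ep ∩ U j).card : ℝ) + G := fun ep =>
      hC L U D T0 ep (sel D T0 ep) j hP hj1 hjL (hsel D T0 ep).1 (hsel D T0 ep).2
    have h2 : ∑ b ∈ times L j, gain M L U D T0 j b ≤
        ∑ ep : Fin 3, (((sel D T0 ep ∩ U j).card : ℝ) + G) := by
      rw [← sum_mod05]
      exact Finset.sum_le_sum fun ep _ => h1 ep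
    have h3 : ∑ b ∈ times L j, (((Tband M L U D T0 j b).card : ℝ) - null M L U D T0 j b -
        harm M L U D T0 j b) ≤ ∑ b ∈ times L j, gain M L U D T0 j b :=
      Finset.sum_le_sum fun b hb => hG L U D T0 j b hP hj1 hjL hb
    rw [Finset.sum_sub_distrib, Finset.sum_sub_distrib] at h3
    rw [Finset.sum_add_distrib] at h2
    simp only [Finset.sum_const, Finset.card_univ, Fintype.card_fin, nsmul_eq_mul,
      Nat.cast_ofNat] at h2
    rw [← Finset.sum_div]
    linarith
  have hin : ∀ D : Finset (Fin k),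
      (Ex tt (fun T0 => ∑ b ∈ times L j, ((Tband M L U D T0 j b).card : ℝ)) -
        Ex tt (fun T0 => ∑ b ∈ times L j, null M L U D T0 j b) -
        tt / 64 * ((U j).card : ℝ)) / 3 - G ≤
      Ex tt (fun T0 => ∑ ep : Fin 3, ((sel D T0 ep ∩ U j).card : ℝ) / 3) := by
    intro D
    have h1 := hm2 _ _ (hpt D)
    rw [ex_lin05 tt hs2] at h1
    have h2 := hS L U D j hP hj1 hjL
    linarith
  have h1 := hm1 _ _ hin
  rw [ex_lin05 (1 / 2) hs1 _ _ (fun _ => tt / 64 * ((U j).card : ℝ)), ex_const05 _ hs1] at h1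
  have h2 := hB L U O j hP hj1 hjL hO hI
  have h3 := hA L U j hP hj1 hjL
  linarith

end Crest.Agent.R305
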