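import Mathlib

/-! Row 305: greedy basis and the `H`-swap bound. -/

set_option autoImplicit false

namespace Crest.Agent.R305.U38
open Finset

variable {ι : Type*} [Fintype ι] [DecidableEq ι]

open Classical in
/-- Greedy selection inside `H` along the order `pos`. -/
noncomputable def greedy (M : Matroid ι) (pos : ι → ℕ) (H : Finset ι) : Finset ι :=
  H.filter (fun e => e ∈ M.E ∧ e ∉ M.closure (↑(H.filter (fun f => pos f < pos e)) : Set ι))

omit [Fintype ι] [DecidableEq ι] in
theorem mem_greedy {M : Matroid ι} {pos : ι → ℕ} {H : Finset ι} {e : ι} :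
    e ∈ greedy M pos H ↔ e ∈ H ∧ e ∈ M.E ∧
      e ∉ M.closure (↑(H.filter (fun f => pos f < pos e)) : Set ι) := by
  classical
  unfold greedy
  rw [Finset.mem_filter]

omit [Fintype ι] in
theorem greedy_indep (M : Matroid ι) {pos : ι → ℕ} (hpos : Function.Injective pos)
    (H : Finset ι) : M.Indep (greedy M pos H : Set ι) := by
  suffices h : ∀ A : Finset ι, A ⊆ greedy M pos H → M.Indep (A : Set ι) from h _ subset_rfl
  intro A
  induction A using Finset.induction_on_max_value pos with
  | empty => intro _; simp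
  | insert a s has hle ih =>
    intro hsub
    have hs : s ⊆ greedy M pos H := (Finset.subset_insert a s).trans hsub
    have ha := mem_greedy.1 (hsub (Finset.mem_insert_self a s))
    rw [Finset.coe_insert, (ih hs).insert_indep_iff_of_notMem (by simpa using has)]
    refine ⟨ha.2.1, fun hc => ha.2.2 (M.closure_subset_closure ?_ hc)⟩
    intro x hx
    have hx' : x ∈ s := by simpa using hx
    have hxH := (mem_greedy.1 (hs hx')).1
    have hne : pos x ≠ pos a := fun h => has (hpos h ▸ hx')
    simp only [Finset.coe_filter, Set.mem_ofPred_eq]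
    exact ⟨hxH, lt_of_le_of_ne (hle x hx') hne⟩

omit [Fintype ι] [DecidableEq ι] in
theorem greedy_spans (M : Matroid ι) (pos : ι → ℕ) (H : Finset ι) (n : ℕ) :
    ∀ e ∈ H, e ∈ M.E → pos e ≤ n →
      e ∈ M.closure (↑((greedy M pos H).filter (fun f => pos f ≤ n)) : Set ι) := by
  classical
  induction n using Nat.strong_induction_on with
  | _ n ih =>
    intro e heH heE hn
    by_cases hg : e ∈ greedy M pos H
    · refine M.mem_closure_of_mem' ?_ heE
      simp only [Finset.coe_filter, Set.mem_ofPred_eq]
      exact ⟨hg, hn⟩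
    · have hc : e ∈ M.closure (↑(H.filter (fun f => pos f < pos e)) : Set ι) := by
        by_contra hc
        exact hg (mem_greedy.2 ⟨heH, heE, hc⟩)
      rw [← M.closure_inter_ground] at hc
      refine M.closure_subset_closure_of_subset_closure ?_ hc
      rintro x ⟨hx, hxE⟩
      simp only [Finset.coe_filter, Set.mem_ofPred_eq] at hx
      have := ih (pos x) (lt_of_lt_of_le hx.2 hn) x hx.1 hxE le_rfl
      refine M.closure_subset_closure ?_ this
      intro y hy
      simp only [Finset.coe_filter, Set.mem_ofPred_eq] at hy ⊢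
      exact ⟨hy.1, hy.2.trans (hx.2.le.trans hn)⟩

omit [Fintype ι] [DecidableEq ι] in
theorem card_le_of_subset_closure (M : Matroid ι) {I B : Finset ι} (hI : M.Indep (I : Set ι))
    (h : (I : Set ι) ⊆ M.closure (B : Set ι)) : I.card ≤ B.card := by
  have h1 : (I : Set ι).encard ≤ (B : Set ι).encard := by
    rw [← hI.eRk_eq_encard]
    exact (M.eRk_mono h).trans ((M.eRk_closure_eq _).le.trans (M.eRk_le_encard _))
  simpa using h1

omit [DecidableEq ι] in
theorem sum_le_of_card_le (pos : ι → ℕ) (w : ι → ℝ) (hw : ∀ e, 0 ≤ w e)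
    (hanti : ∀ e f, pos e ≤ pos f → w f ≤ w e) (A B : Finset ι)
    (h : ∀ n, (A.filter (fun f => pos f ≤ n)).card ≤ (B.filter (fun f => pos f ≤ n)).card) :
    ∑ e ∈ A, w e ≤ ∑ e ∈ B, w e := by
  classical
  set W : ℕ → ℝ := fun n =>
    (((univ.filter (fun f => n ≤ pos f)).sup (fun f => (w f).toNNReal) : NNReal) : ℝ) with hW
  have hWa : ∀ n, W (n + 1) ≤ W n := by
    intro n
    simp only [hW, NNReal.coe_le_coe]
    exact Finset.sup_mono (fun f hf => by
      simp only [Finset.mem_filter, Finset.mem_univ, true_and] at hf ⊢; omega)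
  have hWe : ∀ e, W (pos e) = w e := by
    intro e
    have : (univ.filter (fun f => pos e ≤ pos f)).sup (fun f => (w f).toNNReal)
        = (w e).toNNReal := by
      apply le_antisymm
      · refine Finset.sup_le (fun f hf => Real.toNNReal_le_toNNReal (hanti e f ?_))
        simpa using hf
      · exact Finset.le_sup (f := fun f => (w f).toNNReal) (by simp)
    simp only [hW, this, Real.coe_toNNReal _ (hw e)]
  set N : ℕ := univ.sup pos + 1 with hN
  have hlt : ∀ e, pos e < N := fun e =>
    Nat.lt_succ_of_le (Finset.le_sup (f := pos) (Finset.mem_univ e))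
  have hWN : W N = 0 := by
    have : univ.filter (fun f => N ≤ pos f) = ∅ := by
      refine Finset.filter_eq_empty_iff.2 (fun f _ => ?_)
      have := hlt f; omega
    simp [hW, this]
  have hrep : ∀ e, w e = ∑ n ∈ range N, if pos e ≤ n then W n - W (n + 1) else 0 := by
    intro e
    rw [← Finset.sum_filter]
    have : (range N).filter (fun n => pos e ≤ n) = Ico (pos e) N := by
      ext n; simp [and_comm]
    rw [this, Finset.sum_Ico_eq_sum_range]
    have h2 := Finset.sum_range_sub' (fun i => W (pos e + i)) (N - pos e)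
    simp only [add_zero] at h2
    rw [Nat.add_sub_cancel' (hlt e).le, hWN, sub_zero, hWe] at h2
    rw [← h2]
    rfl
  have hsum : ∀ C : Finset ι, ∑ e ∈ C, w e =
      ∑ n ∈ range N, ((C.filter (fun f => pos f ≤ n)).card : ℝ) * (W n - W (n + 1)) := by
    intro C
    rw [Finset.sum_congr rfl (fun e _ => hrep e), Finset.sum_comm]
    refine Finset.sum_congr rfl (fun n _ => ?_)
    rw [← Finset.sum_filter, Finset.sum_const, nsmul_eq_mul]
  rw [hsum A, hsum B]
  refine Finset.sum_le_sum (fun n _ => ?_)
  exact mul_le_mul_of_nonneg_right (by exact_mod_cast h n) (sub_nonneg.2 (hWa n))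

omit [DecidableEq ι] in
/-- Greedy is optimal inside `H`. -/
theorem greedy_opt (M : Matroid ι) (pos : ι → ℕ) (w : ι → ℝ) (hw : ∀ e, 0 ≤ w e)
    (hanti : ∀ e f, pos e ≤ pos f → w f ≤ w e) (H I : Finset ι) (hI : M.Indep (I : Set ι))
    (hIH : I ⊆ H) : ∑ e ∈ I, w e ≤ ∑ e ∈ greedy M pos H, w e := by
  classical
  refine sum_le_of_card_le pos w hw hanti _ _ (fun n => ?_)
  refine card_le_of_subset_closure M (hI.subset (by intro x hx; simp only [Finset.coe_filter, Set.mem_ofPred_eq] at hx; exact hx.1)) ?_
  intro e he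
  simp only [Finset.coe_filter, Set.mem_ofPred_eq] at he
  exact greedy_spans M pos H n e (hIH he.1) (hI.subset_ground (by simpa using he.1)) he.2

/-- Product weight of a label vector. -/
noncomputable def pw {L : Type*} (p : L → ℝ) (l : ι → L) : ℝ := ∏ i, p (l i)

theorem pw_update {L : Type*} (p : L → ℝ) (l : ι → L) (e : ι) (a : L) :
    pw p (Function.update l e a) * p (l e) = pw p l * p a := by
  unfold pw
  rw [← Finset.mul_prod_erase univ (fun i => p (Function.update l e a i)) (mem_univ e),
    ← Finset.mul_prod_erase univ (fun i => p (l i)) (mem_univ e)]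
  have : ∏ i ∈ univ.erase e, p (Function.update l e a i) = ∏ i ∈ univ.erase e, p (l i) := by
    refine Finset.prod_congr rfl (fun i hi => ?_)
    rw [Function.update_of_ne (Finset.ne_of_mem_erase hi)]
  rw [this, Function.update_self]
  ring

/-- One coordinate is independent of the others. -/
theorem sum_pw_mul {L : Type*} [Fintype L] (p : L → ℝ) (hp : ∑ a, p a = 1) (e : ι)
    (φ : L → ℝ) (g : (ι → L) → ℝ) (hg : ∀ l a, g (Function.update l e a) = g l) :
    ∑ l, pw p l * (φ (l e) * g l) = (∑ a, p a * φ a) * ∑ l, pw p l * g l := by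
  have h1 : ∑ l, pw p l * (φ (l e) * g l)
      = ∑ q : (ι → L) × L, pw p q.1 * p q.2 * (φ (q.1 e) * g q.1) := by
    rw [Fintype.sum_prod_type]
    refine Finset.sum_congr rfl (fun l _ => ?_)
    simp only
    rw [← Finset.sum_mul, ← Finset.mul_sum, hp, mul_one]
  have hinv : Function.Involutive
      (fun q : (ι → L) × L => (Function.update q.1 e q.2, q.1 e)) := by
    rintro ⟨l, a⟩
    simp
  rw [h1, ← Equiv.sum_comp hinv.toPerm]
  simp only [Function.Involutive.coe_toPerm, Function.update_self, hg, pw_update]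
  rw [Fintype.sum_prod_type, Finset.mul_sum]
  refine Finset.sum_congr rfl (fun l _ => ?_)
  simp only
  rw [Finset.sum_mul]
  refine Finset.sum_congr rfl (fun a _ => by ring)

open Classical in
/-- The `H`-labelled elements. -/
noncomputable def Hset {L : Type*} (isH : L → Prop) (l : ι → L) : Finset ι :=
  univ.filter (fun f => isH (l f))

open Classical in
/-- Non-`H` elements of the ground set that the earlier `H` elements do not span. -/
noncomputable def Uset {L : Type*} (M : Matroid ι) (pos : ι → ℕ) (isH : L → Prop) (l : ι → L) :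
    Finset ι :=
  univ.filter (fun e => ¬ isH (l e) ∧ e ∈ M.E ∧
    e ∉ M.closure (↑((Hset isH l).filter (fun f => pos f < pos e)) : Set ι))

omit [DecidableEq ι] in
theorem mem_Hset {L : Type*} {isH : L → Prop} {l : ι → L} {f : ι} :
    f ∈ Hset isH l ↔ isH (l f) := by
  classical
  unfold Hset
  simp

omit [DecidableEq ι] in
theorem mem_Uset {L : Type*} {M : Matroid ι} {pos : ι → ℕ} {isH : L → Prop} {l : ι → L} {e : ι} :
    e ∈ Uset M pos isH l ↔ ¬ isH (l e) ∧ e ∈ M.E ∧
      e ∉ M.closure (↑((Hset isH l).filter (fun f => pos f < pos e)) : Set ι) := by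
  classical
  unfold Uset
  rw [Finset.mem_filter]
  simp only [Finset.mem_univ, true_and]

omit [DecidableEq ι] in
theorem mem_Uset_of_greedy {L : Type*} {M : Matroid ι} {pos : ι → ℕ} {isH : L → Prop}
    {l : ι → L} {e : ι} (he : e ∈ greedy M pos univ) (hH : ¬ isH (l e)) :
    e ∈ Uset M pos isH l := by
  classical
  have h := mem_greedy.1 he
  refine mem_Uset.2 ⟨hH, h.2.1, fun hc => h.2.2 (M.closure_subset_closure ?_ hc)⟩
  intro x hx
  simp only [Finset.coe_filter, Set.mem_ofPred_eq] at hx ⊢
  exact ⟨Finset.mem_univ x, hx.2⟩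

open Classical in
/-- The `H`-swap: `h · E w(U) ≤ (1 - h) · w(O)`. -/
theorem uswap {L : Type*} [Fintype L] (M : Matroid ι) {pos : ι → ℕ}
    (hpos : Function.Injective pos) (w : ι → ℝ) (hw : ∀ e, 0 ≤ w e)
    (hanti : ∀ e f, pos e ≤ pos f → w f ≤ w e) (p : L → ℝ) (hp0 : ∀ a, 0 ≤ p a)
    (hp : ∑ a, p a = 1) (isH : L → Prop) (h : ℝ)
    (hh : h = ∑ a, if isH a then p a else 0) :
    h * ∑ l, pw p l * ∑ e ∈ Uset M pos isH l, w e
      ≤ (1 - h) * ∑ e ∈ greedy M pos univ, w e := by
  set g : ι → (ι → L) → ℝ := fun e l => if e ∈ M.E ∧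
    e ∉ M.closure (↑((Hset isH l).filter (fun f => pos f < pos e)) : Set ι) then w e else 0
    with hgdef
  have hg : ∀ e l a, g e (Function.update l e a) = g e l := by
    intro e l a
    have : (Hset isH (Function.update l e a)).filter (fun f => pos f < pos e)
        = (Hset isH l).filter (fun f => pos f < pos e) := by
      ext f
      simp only [Finset.mem_filter, mem_Hset]
      constructor
      · rintro ⟨h1, h2⟩
        have hne : f ≠ e := fun h => by simp [h] at h2
        rw [Function.update_of_ne hne] at h1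
        exact ⟨h1, h2⟩
      · rintro ⟨h1, h2⟩
        have hne : f ≠ e := fun h => by simp [h] at h2
        rw [Function.update_of_ne hne]
        exact ⟨h1, h2⟩
    simp only [hgdef, this]
  have hU : ∀ l, ∑ e ∈ Uset M pos isH l, w e
      = ∑ e, (if isH (l e) then (0 : ℝ) else 1) * g e l := by
    intro l
    rw [← Finset.sum_filter_add_sum_filter_not univ (fun e => e ∈ Uset M pos isH l)]
    rw [Finset.filter_mem_eq_inter, Finset.univ_inter]
    have h0 : ∑ e ∈ univ.filter (fun e => ¬ e ∈ Uset M pos isH l),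
        (if isH (l e) then (0 : ℝ) else 1) * g e l = 0 := by
      refine Finset.sum_eq_zero (fun e he => ?_)
      have he' := (Finset.mem_filter.1 he).2
      rw [mem_Uset] at he'
      by_cases h1 : isH (l e)
      · simp [h1]
      · simp only [hgdef]
        rw [if_neg (fun hc => he' ⟨h1, hc⟩), mul_zero]
    rw [h0, add_zero]
    refine Finset.sum_congr rfl (fun e he => ?_)
    have he' := mem_Uset.1 he
    simp only [hgdef]
    rw [if_neg he'.1, if_pos he'.2, one_mul]
  have hG : ∀ l, ∑ e ∈ greedy M pos (Hset isH l), w e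
      = ∑ e, (if isH (l e) then (1 : ℝ) else 0) * g e l := by
    intro l
    rw [← Finset.sum_filter_add_sum_filter_not univ (fun e => e ∈ greedy M pos (Hset isH l))]
    rw [Finset.filter_mem_eq_inter, Finset.univ_inter]
    have h0 : ∑ e ∈ univ.filter (fun e => ¬ e ∈ greedy M pos (Hset isH l)),
        (if isH (l e) then (1 : ℝ) else 0) * g e l = 0 := by
      refine Finset.sum_eq_zero (fun e he => ?_)
      have he' := (Finset.mem_filter.1 he).2
      rw [mem_greedy, mem_Hset] at he'
      by_cases h1 : isH (l e)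
      · simp only [hgdef]
        rw [if_neg (fun hc => he' ⟨h1, hc⟩), mul_zero]
      · simp [h1]
    rw [h0, add_zero]
    refine Finset.sum_congr rfl (fun e he => ?_)
    have he' := mem_greedy.1 he
    simp only [hgdef]
    rw [if_pos (mem_Hset.1 he'.1), if_pos he'.2, one_mul]
  have hc1 : ∑ a, p a * (if isH a then (1 : ℝ) else 0) = h := by
    rw [hh]; refine Finset.sum_congr rfl (fun a _ => ?_); split_ifs <;> simp
  have hc0 : ∑ a, p a * (if isH a then (0 : ℝ) else 1) = 1 - h := by
    rw [← hc1, ← hp, ← Finset.sum_sub_distrib]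
    refine Finset.sum_congr rfl (fun a _ => ?_)
    rw [hp]; split_ifs <;> simp
  have e1 : ∑ l, pw p l * ∑ e ∈ Uset M pos isH l, w e
      = (1 - h) * ∑ e, ∑ l, pw p l * g e l := by
    simp only [hU]
    rw [Finset.sum_congr rfl (fun l _ => Finset.mul_sum univ _ (pw p l)), Finset.sum_comm,
      Finset.mul_sum]
    refine Finset.sum_congr rfl (fun e _ => ?_)
    rw [sum_pw_mul p hp e (fun a => if isH a then (0 : ℝ) else 1) (g e) (hg e), hc0]
  have e2 : ∑ l, pw p l * ∑ e ∈ greedy M pos (Hset isH l), w e
      = h * ∑ e, ∑ l, pw p l * g e l := by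
    simp only [hG]
    rw [Finset.sum_congr rfl (fun l _ => Finset.mul_sum univ _ (pw p l)), Finset.sum_comm,
      Finset.mul_sum]
    refine Finset.sum_congr rfl (fun e _ => ?_)
    rw [sum_pw_mul p hp e (fun a => if isH a then (1 : ℝ) else 0) (g e) (hg e), hc1]
  have hpw : ∀ l : ι → L, 0 ≤ pw p l := fun l => Finset.prod_nonneg (fun i _ => hp0 _)
  have htot : ∑ l : ι → L, pw p l = 1 := by
    unfold pw
    rw [← Fintype.piFinset_univ, ← Finset.prod_univ_sum]
    simp [hp]
  have e3 : ∑ l, pw p l * ∑ e ∈ greedy M pos (Hset isH l), w e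
      ≤ ∑ e ∈ greedy M pos univ, w e := by
    calc _ ≤ ∑ l : ι → L, pw p l * ∑ e ∈ greedy M pos univ, w e :=
          Finset.sum_le_sum (fun l _ => mul_le_mul_of_nonneg_left
            (greedy_opt M pos w hw hanti univ _ (greedy_indep M hpos _) (subset_univ _)) (hpw l))
      _ = _ := by rw [← Finset.sum_mul, htot, one_mul]
  have h1 : 0 ≤ 1 - h := by
    rw [← hc0]
    exact Finset.sum_nonneg (fun a _ => mul_nonneg (hp0 a) (by split_ifs <;> simp))
  rw [e1, mul_left_comm, ← e2]
  exact mul_le_mul_of_nonneg_left e3 h1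

end Crest.Agent.R305.U38
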