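import Crest.Agent.R305.RGDefs55
import Crest.Agent.R305.USwap38

/-! Row 305: blocks B15 (`GREEDY`) and B16 (`POOLW`). -/

set_option autoImplicit false

open Classical

namespace Crest.Agent.R305

variable {k : ℕ}

/-- position in the order (class, index) -/
def pos38 (c : Fin k → ℕ) (e : Fin k) : ℕ := c e * k + e.val

theorem pos38_lt_iff (c : Fin k → ℕ) (f e : Fin k) : pos38 c f < pos38 c e ↔ prec c f e := by
  unfold pos38 prec
  have hf := f.isLt
  have he := e.isLt
  constructor
  · intro h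
    rcases lt_trichotomy (c f) (c e) with h1 | h1 | h1
    · exact Or.inl h1
    · refine Or.inr ⟨h1, ?_⟩
      rw [h1] at h
      exact Fin.lt_def.2 (by omega)
    · exfalso
      have : (c e + 1) * k ≤ c f * k := Nat.mul_le_mul_right k h1
      rw [Nat.add_mul] at this
      omega
  · rintro (h1 | ⟨h1, h2⟩)
    · have : (c f + 1) * k ≤ c e * k := Nat.mul_le_mul_right k h1
      rw [Nat.add_mul] at this
      omega
    · rw [h1]
      have := Fin.lt_def.1 h2
      omega

theorem pos38_inj (c : Fin k → ℕ) : Function.Injective (pos38 c) := by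
  intro e f h
  rcases lt_trichotomy (c e) (c f) with h1 | h1 | h1
  · exact absurd ((pos38_lt_iff c e f).2 (Or.inl h1)) (by omega)
  · unfold pos38 at h
    rw [h1] at h
    exact Fin.ext (by omega)
  · exact absurd ((pos38_lt_iff c f e).2 (Or.inl h1)) (by omega)

theorem c_le_of_pos38 (c : Fin k → ℕ) (e f : Fin k) (h : pos38 c e ≤ pos38 c f) : c e ≤ c f := by
  by_contra hc
  have := (pos38_lt_iff c f e).2 (Or.inl (not_le.1 hc))
  omega

theorem before_eq38 (L : ℕ) (c : Fin k → ℕ) (A : Finset (Fin k)) (e : Fin k) :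
    before L c A e = (↑((A.filter (fun f => 1 ≤ c f ∧ c f ≤ L)).filter
      (fun f => pos38 c f < pos38 c e)) : Set (Fin k)) := by
  ext f
  simp only [before, Set.mem_ofPred_eq, Finset.coe_filter, Finset.mem_filter, pos38_lt_iff]
  tauto

theorem greedy_eq38 (M : Matroid (Fin k)) (L : ℕ) (c : Fin k → ℕ) (A : Finset (Fin k)) :
    greedy M L c A = U38.greedy M (pos38 c) (A.filter (fun f => 1 ≤ c f ∧ c f ≤ L)) := by
  ext e
  rw [U38.mem_greedy, ← before_eq38]
  simp only [greedy, Finset.mem_filter]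
  tauto

theorem greedy_opt38 (M : Matroid (Fin k)) (L : ℕ) (c : Fin k → ℕ) (I : Finset (Fin k))
    (hI : M.Indep (I : Set (Fin k))) :
    ∑ e ∈ I, wt BB L (c e) ≤ ∑ e ∈ greedy M L c Finset.univ, wt BB L (c e) := by
  have hB1 : (1 : ℝ) ≤ (BB : ℝ) := by unfold BB; norm_num
  have hB0 : (0 : ℝ) ≤ (BB : ℝ)⁻¹ := inv_nonneg.2 (by linarith)
  have hB2 : (BB : ℝ)⁻¹ ≤ 1 := inv_le_one_of_one_le₀ hB1
  have h1 : ∑ e ∈ I, wt BB L (c e)
      = ∑ e ∈ I.filter (fun f => 1 ≤ c f ∧ c f ≤ L), (BB : ℝ)⁻¹ ^ (c e) := by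
    rw [Finset.sum_filter]
    rfl
  have h2 : ∑ e ∈ greedy M L c Finset.univ, wt BB L (c e)
      = ∑ e ∈ greedy M L c Finset.univ, (BB : ℝ)⁻¹ ^ (c e) := by
    refine Finset.sum_congr rfl (fun e he => ?_)
    simp only [greedy, Finset.mem_filter] at he
    unfold wt
    rw [if_pos ⟨he.2.2.1, he.2.2.2.1⟩]
  rw [h1, h2, greedy_eq38]
  refine U38.greedy_opt M (pos38 c) (fun e => (BB : ℝ)⁻¹ ^ (c e)) (fun e => pow_nonneg hB0 _)
    (fun e f h => pow_le_pow_of_le_one hB0 hB2 (c_le_of_pos38 c e f h)) _ _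
    (hI.subset (Finset.coe_subset.2 (Finset.filter_subset _ _))) ?_
  exact Finset.filter_subset_filter _ (Finset.subset_univ I)

theorem greedy38 (M : Matroid (Fin k)) : GREEDY M := by
  intro L c
  refine ⟨fun A => ?_, fun I hI => greedy_opt38 M L c I hI, fun H => ⟨fun m => ?_, ?_⟩, ?_⟩
  · rw [greedy_eq38]
    exact U38.greedy_indep M (pos38_inj c) _
  · intro e he
    simp only [UH, Finset.coe_filter, Set.mem_ofPred_eq] at he
    exact he.2.2.1
  · intro m m' hne
    rw [Finset.disjoint_left]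
    intro e h1 h2
    simp only [UH, Finset.mem_filter] at h1 h2
    exact hne (h1.2.2.2.1.symm.trans h2.2.2.2.1)
  · intro H e he hH
    simp only [greedy, Finset.mem_filter] at he
    simp only [UH, Finset.mem_filter]
    refine ⟨Finset.mem_univ _, hH, he.2.1, trivial, he.2.2.1, he.2.2.2.1, fun hc =>
      he.2.2.2.2 (M.closure_subset_closure ?_ hc)⟩
    intro f hf
    exact ⟨Finset.mem_univ _, hf.2⟩

theorem poolw38 (M : Matroid (Fin k)) (hE : EXB k) : POOLW M := by
  intro L c
  obtain ⟨hb0, hb1, hmono, hflip, -⟩ := hE (1 / 2) (by norm_num) (by norm_num)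
  set g : Fin k → Finset (Fin k) → ℝ := fun e H =>
    if e ∈ M.E ∧ 1 ≤ c e ∧ c e ≤ L ∧ e ∉ M.closure (before L c H e) then wt BB L (c e) else 0
    with hg
  have hblind : ∀ e A, g e (insert e A) = g e (A.erase e) := by
    intro e A
    have : before L c (insert e A) e = before L c (A.erase e) e := by
      ext f
      simp only [before, Set.mem_ofPred_eq, Finset.mem_insert, Finset.mem_erase]
      have hne : prec c f e → f ≠ e := by
        rintro h rfl
        rcases h with h | ⟨-, h⟩ <;> exact lt_irrefl _ h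
      constructor
      · rintro ⟨h1 | h1, h2⟩
        · exact absurd h1 (hne h2.2.2)
        · exact ⟨⟨hne h2.2.2, h1⟩, h2⟩
      · rintro ⟨h1, h2⟩
        exact ⟨Or.inr h1.2, h2⟩
    simp only [hg, this]
  have hU : ∀ H, ∑ m ∈ Finset.Icc 1 L, wt BB L m * ((UH M L c H m).card : ℝ)
      = ∑ e, (g e H - if e ∈ H then g e H else 0) := by
    intro H
    have : ∀ m, wt BB L m * ((UH M L c H m).card : ℝ)
        = ∑ e, if c e = m then (g e H - if e ∈ H then g e H else 0) else 0 := by
      intro m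
      rw [Finset.card_eq_sum_ones, Nat.cast_sum, Finset.mul_sum, UH, Finset.sum_filter]
      refine Finset.sum_congr rfl (fun e _ => ?_)
      by_cases hm : c e = m
      · subst hm
        by_cases hH : e ∈ H
        · simp [hH]
        · simp only [hg, hH, not_false_eq_true, true_and, if_true, if_false, sub_zero,
            Nat.cast_one, mul_one]
      · simp [hm]
    simp only [this]
    rw [Finset.sum_comm]
    refine Finset.sum_congr rfl (fun e _ => ?_)
    rw [Finset.sum_ite_eq]
    split_ifs with h1 h2 h3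
    · rfl
    · rfl
    · simp
    · have : ¬ (e ∈ M.E ∧ 1 ≤ c e ∧ c e ≤ L ∧ e ∉ M.closure (before L c H e)) :=
        fun hc => h1 (Finset.mem_Icc.2 ⟨hc.2.1, hc.2.2.1⟩)
      simp only [hg, if_neg this, sub_zero]
  have hG : ∀ H, ∑ e, (if e ∈ H then g e H else 0) = ∑ e ∈ greedy M L c H, wt BB L (c e) := by
    intro H
    rw [greedy, Finset.sum_filter, ← Finset.sum_filter, Finset.filter_mem_eq_inter,
      Finset.univ_inter]
  have hEx : Ex (1 / 2) (fun H => ∑ e, (g e H - if e ∈ H then g e H else 0))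
      = Ex (1 / 2) (fun H => ∑ e, if e ∈ H then g e H else 0) := by
    have h1 : ∀ e, Ex (1 / 2) (fun H => g e H - if e ∈ H then g e H else 0)
        = Ex (1 / 2) (fun H => if e ∈ H then g e H else 0) := by
      intro e
      have := hflip e (g e) (hblind e)
      have h2 : Ex (1 / 2) (fun H => g e H - if e ∈ H then g e H else 0)
          = Ex (1 / 2) (g e) - Ex (1 / 2) (fun H => if e ∈ H then g e H else 0) := by
        simp only [Ex, mul_sub, Finset.sum_sub_distrib]
      rw [h2, this]
      ring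
    simp only [Ex, Finset.mul_sum] at h1 ⊢
    rw [Finset.sum_comm, Finset.sum_comm (s := Finset.univ) (t := Finset.univ)
      (f := fun A e => bern (1 / 2) A * if e ∈ A then g e A else 0)]
    exact Finset.sum_congr rfl (fun e _ => h1 e)
  simp only [hU]
  rw [hEx]
  simp only [hG]
  refine (hmono _ (fun _ => ∑ e ∈ greedy M L c Finset.univ, wt BB L (c e))
    (fun H => greedy_opt38 M L c _ ((greedy38 M L c).1 H))).trans ?_
  simp only [Ex]
  rw [← Finset.sum_mul, hb1, one_mul]

end Crest.Agent.R305
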