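import Crest.Agent.R305.RGDefs55

/-! Row 305, blocks B4 (SHELL) and B5 (INDEP). -/

set_option autoImplicit false

open Classical

namespace Crest.Agent.R305

variable {k : ℕ}

theorem p74_mem_Thi {M : Matroid (Fin k)} {L : ℕ} {U : ℕ → Finset (Fin k)}
    {D T0 : Finset (Fin k)} {j b : ℕ} {y : Fin k} :
    y ∈ Thi M L U D T0 j b ↔ ∃ m, (j + 1 ≤ m ∧ m ≤ L) ∧ 3 * m + 2 ≤ b ∧
      (y ∈ T0 ∧ y ∉ D) ∧ y ∈ U m ∧ y ∈ Nm M L U D T0 m b ∧ y ∉ Nm M L U D T0 m (b - 1) := by
  unfold Thi Tband
  simp only [Finset.mem_biUnion, Finset.mem_filter, Finset.mem_Icc, Finset.mem_inter,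
    Finset.mem_sdiff]
  constructor
  · rintro ⟨m, ⟨h1, h2⟩, ⟨h3, h4⟩, h5, h6⟩
    exact ⟨m, h1, h2, h3, h4, h5, h6⟩
  · rintro ⟨m, h1, h2, h3, h4, h5, h6⟩
    exact ⟨m, ⟨h1, h2⟩, ⟨h3, h4⟩, h5, h6⟩

/-- an element born at time `b` lies in the final path at time `b` -/
theorem p74_Thi_sub {M : Matroid (Fin k)} (h3 : CHAIN M) (h4 : NCHAIN M) {L : ℕ}
    {U : ℕ → Finset (Fin k)} {D T0 : Finset (Fin k)} {j b : ℕ} {y : Fin k}
    (hy : y ∈ Thi M L U D T0 j b) : y ∈ Ff M L U D T0 b := by
  obtain ⟨m, ⟨h1, h2⟩, -, -, -, h5, -⟩ := p74_mem_Thi.1 hy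
  have hN := (h4 L U D T0 m (by omega) h2).2.2.2.1 b h5
  exact (h3 L U D (Cg D T0)).2.2.1 (L - m + 1) L b (by omega) hN

/-- B5 -/
theorem indep74 (M : Matroid (Fin k)) (h1 : RANK M) (h3 : CHAIN M) (h4 : NCHAIN M) :
    INDEP M := by
  intro L U D T0 ep A _ hJ
  obtain ⟨hmono, hsub, -, -, -, hadd, hind, h0, -⟩ := h1
  have key : ∀ n : ℕ, rk M (↑(A.filter (fun y => ∃ b, b < n ∧ b % 3 = ep.val ∧
      y ∈ Thi M L U D T0 0 b)) : Set (Fin k)) =
      (A.filter (fun y => ∃ b, b < n ∧ b % 3 = ep.val ∧ y ∈ Thi M L U D T0 0 b)).card := by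
    intro n
    induction n with
    | zero => simp [h0]
    | succ n ih =>
      by_cases hn : n % 3 = ep.val
      · set P := A.filter (fun y => ∃ b, b < n ∧ b % 3 = ep.val ∧ y ∈ Thi M L U D T0 0 b) with hP
        have e1 : A.filter (fun y => ∃ b, b < n + 1 ∧ b % 3 = ep.val ∧ y ∈ Thi M L U D T0 0 b) =
            P ∪ (A ∩ Thi M L U D T0 0 n) := by
          ext y
          simp only [hP, Finset.mem_filter, Finset.mem_union, Finset.mem_inter]
          constructor
          · rintro ⟨ha, b, hb, hb2, hb3⟩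
            by_cases hbn : b = n
            · subst hbn; exact Or.inr ⟨ha, hb3⟩
            · exact Or.inl ⟨ha, b, by omega, hb2, hb3⟩
          · rintro (⟨ha, b, hb, hb2, hb3⟩ | ⟨ha, hb⟩)
            · exact ⟨ha, b, by omega, hb2, hb3⟩
            · exact ⟨ha, n, by omega, hn, hb⟩
        rw [e1]
        have hPF : (↑P : Set (Fin k)) ⊆ Ff M L U D T0 (n - 3) := by
          intro y hy
          have hy' : y ∈ P := hy
          rw [hP, Finset.mem_filter] at hy'
          obtain ⟨-, b, hb, hb2, hb3⟩ := hy'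
          have := p74_Thi_sub h3 h4 hb3
          exact (h3 L U D (Cg D T0)).2.1 L b (n - 3) (by omega) this
        set Q := A ∩ Thi M L U D T0 0 n with hQ
        set F := Ff M L U D T0 (n - 3) with hF
        have hJn : rk M (F ∪ ↑Q) = rk M F + Q.card := hJ.2 n
        have s1 := hsub F (↑(P ∪ Q) : Set (Fin k))
        have s2 : rk M (F ∪ ↑Q) ≤ rk M (F ∪ ↑(P ∪ Q)) := by
          apply hmono
          apply Set.union_subset_union_right
          rw [Finset.coe_union]
          exact Set.subset_union_right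
        have s3 : rk M (↑P : Set (Fin k)) ≤ rk M (F ∩ ↑(P ∪ Q)) := by
          apply hmono
          apply Set.subset_inter hPF
          rw [Finset.coe_union]
          exact Set.subset_union_left
        have s4 := hadd ∅ (P ∪ Q)
        rw [Set.empty_union, h0] at s4
        have s5 := Finset.card_union_le P Q
        omega
      · have e1 : A.filter (fun y => ∃ b, b < n + 1 ∧ b % 3 = ep.val ∧ y ∈ Thi M L U D T0 0 b) =
            A.filter (fun y => ∃ b, b < n ∧ b % 3 = ep.val ∧ y ∈ Thi M L U D T0 0 b) := by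
          ext y
          simp only [Finset.mem_filter]
          constructor
          · rintro ⟨ha, b, hb, hb2, hb3⟩
            by_cases hbn : b = n
            · subst hbn; exact absurd hb2 hn
            · exact ⟨ha, b, by omega, hb2, hb3⟩
          · rintro ⟨ha, b, hb, hb2, hb3⟩
            exact ⟨ha, b, by omega, hb2, hb3⟩
        rw [e1]; exact ih
  have e2 : A.filter (fun y => ∃ b, b < 3 * L + 4 ∧ b % 3 = ep.val ∧
      y ∈ Thi M L U D T0 0 b) = A := by
    apply Finset.filter_true_of_mem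
    intro y hy
    obtain ⟨b, hb, hb2, hb3⟩ := hJ.1 y hy
    exact ⟨b, by omega, hb2, hb3⟩
  have := key (3 * L + 4)
  rw [e2] at this
  exact (hind A).2 this

theorem p74_St_congr (M : Matroid (Fin k)) (L : ℕ) (U U' : ℕ → Finset (Fin k))
    (D C : Finset (Fin k)) (hD : ∀ m, D ∩ U m = D ∩ U' m) (hC : ∀ m, C ∩ U m = C ∩ U' m)
    (i : ℕ) : St M L U D C i = St M L U' D C i := by
  induction i with
  | zero => rfl
  | succ i ih => simp only [St]; rw [ih, hD, hC]

theorem p74_Jc_congr (M : Matroid (Fin k)) (L : ℕ) (U U' : ℕ → Finset (Fin k))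
    (D T0 : Finset (Fin k)) (ep : Fin 3) (A : Finset (Fin k))
    (h : ∀ m e, (e ∈ D ∨ e ∉ T0 ∨ e ∈ A) → (e ∈ U m ↔ e ∈ U' m))
    (hJ : Jc M L U D T0 ep A) : Jc M L U' D T0 ep A := by
  have hD : ∀ m, D ∩ U m = D ∩ U' m := by
    intro m; ext e
    simp only [Finset.mem_inter]
    exact and_congr_right fun he => h m e (Or.inl he)
  have hC : ∀ m, Cg D T0 ∩ U m = Cg D T0 ∩ U' m := by
    intro m; ext e
    simp only [Finset.mem_inter]
    refine and_congr_right fun he => h m e (Or.inr (Or.inl ?_))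
    unfold Cg at he
    simp only [Finset.mem_compl, Finset.mem_union, not_or] at he
    exact he.2
  have hS := p74_St_congr M L U U' D (Cg D T0) hD hC
  have hN : ∀ m t, Nm M L U D T0 m t = Nm M L U' D T0 m t := by
    intro m t; unfold Nm; rw [hS, hD]
  have hF : ∀ t, Ff M L U D T0 t = Ff M L U' D T0 t := by
    intro t; unfold Ff; rw [hS]
  have hT : ∀ b y, y ∈ A → (y ∈ Thi M L U D T0 0 b ↔ y ∈ Thi M L U' D T0 0 b) := by
    intro b y hy
    rw [p74_mem_Thi, p74_mem_Thi]
    refine exists_congr fun m => ?_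
    rw [h m y (Or.inr (Or.inr hy)), hN, hN]
  have hA : ∀ b, A ∩ Thi M L U D T0 0 b = A ∩ Thi M L U' D T0 0 b := by
    intro b; ext y
    simp only [Finset.mem_inter]
    exact and_congr_right fun hy => hT b y hy
  refine ⟨fun y hy => ?_, fun b => ?_⟩
  · obtain ⟨b, h1, h2, h3⟩ := hJ.1 y hy
    exact ⟨b, h1, h2, (hT b y hy).1 h3⟩
  · rw [← hA, ← hF]; exact hJ.2 b

theorem p74_Jc_down (M : Matroid (Fin k)) (h1 : RANK M) (L : ℕ) (U : ℕ → Finset (Fin k))
    (D T0 : Finset (Fin k)) (ep : Fin 3) (A A' : Finset (Fin k)) (hA : A' ⊆ A)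
    (hJ : Jc M L U D T0 ep A) : Jc M L U D T0 ep A' := by
  obtain ⟨-, -, -, -, -, hadd, -, -, -⟩ := h1
  refine ⟨fun y hy => hJ.1 y (hA hy), fun b => ?_⟩
  have h := hJ.2 b
  set Q := A ∩ Thi M L U D T0 0 b with hQ
  set Q' := A' ∩ Thi M L U D T0 0 b with hQ'
  set F := Ff M L U D T0 (b - 3) with hF
  have hs : Q' ⊆ Q := Finset.inter_subset_inter_right hA
  have s1 := hadd F Q'
  have s2 := hadd (F ∪ ↑Q') (Q \ Q')
  have e1 : (F ∪ ↑Q') ∪ (↑(Q \ Q') : Set (Fin k)) = F ∪ ↑Q := by
    rw [Set.union_assoc, ← Finset.coe_union, Finset.union_sdiff_of_subset hs]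
  rw [e1] at s2
  have s3 := Finset.card_sdiff_add_card_eq_card hs
  omega

theorem p74_tt_nonneg : (0 : ℝ) ≤ tt := by unfold tt; positivity

theorem p74_tt_le_one : tt ≤ 1 := by
  unfold tt
  exact pow_le_one₀ (by norm_num) (by norm_num)

/-- B4 -/
theorem shell74 (M : Matroid (Fin k)) (h0 : EXB k) (h1 : RANK M) : SHELL M := by
  have ha := h0 (1 / 2) (by norm_num) (by norm_num)
  have hb := h0 tt p74_tt_nonneg p74_tt_le_one
  refine ⟨fun l => ?_, ?_, fun L l c => ?_, fun L l c c' A hc hJ => ?_,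
    fun L l c A A' hA hJ => p74_Jc_down M h1 _ _ _ _ _ A A' hA hJ, fun L l c A hJ => ?_⟩
  · unfold pS
    exact div_nonneg (mul_nonneg (mul_nonneg (ha.1 _) (ha.1 _)) (hb.1 _)) (by norm_num)
  · unfold pS
    simp only [Fintype.sum_prod_type]
    have e1 : ∀ a b c : Finset (Fin k),
        ∑ _ep : Fin 3, bern (1 / 2) a * bern (1 / 2) b * bern tt c / 3 =
          bern (1 / 2) a * (bern (1 / 2) b * bern tt c) := by
      intro a b c
      simp only [Finset.sum_const, Finset.card_univ, Fintype.card_fin, nsmul_eq_mul]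
      push_cast
      ring
    simp only [e1, ← Finset.mul_sum, hb.2.1, mul_one, ha.2.1]
  · unfold JS Jc
    simp
  · unfold JS at hJ ⊢
    refine p74_Jc_congr M L _ _ _ _ _ A ?_ hJ
    intro m e he
    have hH : ∀ f, f ∈ l.1 → c f = c' f := by
      intro f hf
      apply hc f (Or.inl _)
      unfold TS
      simp only [Finset.mem_sdiff, Finset.mem_union, not_and, not_not]
      intro _; exact Or.inl hf
    have hce : c e = c' e := by
      apply hc e
      rcases he with he | he | he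
      · left
        unfold TS
        simp only [Finset.mem_sdiff, Finset.mem_union, not_and, not_not]
        intro _; exact Or.inr he
      · left
        unfold TS
        simp only [Finset.mem_sdiff, Finset.mem_union, not_and, not_not]
        intro h; exact absurd h he
      · exact Or.inr he
    have hbef : before L c l.1 e = before L c' l.1 e := by
      ext f
      unfold before prec
      simp only [Set.mem_setOf_eq]
      refine and_congr_right fun hf => ?_
      rw [hH f hf, hce]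
    unfold UH
    simp only [Finset.mem_filter, Finset.mem_univ, true_and]
    rw [hbef, hce]
  · intro y hy
    obtain ⟨b, -, -, h3⟩ := hJ.1 y hy
    obtain ⟨m, -, -, ⟨h4, h5⟩, h6, -⟩ := p74_mem_Thi.1 h3
    unfold UH at h6
    simp only [Finset.mem_filter, Finset.mem_univ, true_and] at h6
    unfold TS
    simp only [Finset.mem_sdiff, Finset.mem_union, not_or]
    exact ⟨h4, h6.1, h5⟩

end Crest.Agent.R305
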