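import Crest.Agent.R305.RGDefs55

set_option autoImplicit false
open Classical

namespace Crest.Agent.R305

variable {k : ℕ}

theorem Ex_sum17 {β : Type*} (p : ℝ) (s : Finset β) (f : β → Finset (Fin k) → ℝ) :
    Ex p (fun A => ∑ b ∈ s, f b A) = ∑ b ∈ s, Ex p (f b) := by
  unfold Ex
  simp only [Finset.mul_sum]
  rw [Finset.sum_comm]

theorem Ex_mul17 (p c : ℝ) (f : Finset (Fin k) → ℝ) :
    Ex p (fun A => c * f A) = c * Ex p f := by
  unfold Ex
  rw [Finset.mul_sum]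
  exact Finset.sum_congr rfl fun A _ => by ring

theorem cnt_two17 (N : ℕ → Prop) (hN : ∀ t t', t ≤ t' → N t → N t') (s : Finset ℕ) :
    ∑ b ∈ s, (if N b ∧ ¬ N (b - 2) then (1 : ℝ) else 0) ≤ 2 ∨ (N 0) := by
  by_cases h0 : N 0
  · exact Or.inr h0
  left
  by_cases hex : ∃ t, N t
  · have hsub : s.filter (fun b => N b ∧ ¬ N (b - 2)) ⊆ {Nat.find hex, Nat.find hex + 1} := by
      intro b hb
      rw [Finset.mem_filter] at hb
      have h1 : Nat.find hex ≤ b := Nat.find_min' hex hb.2.1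
      have h2 : b - 2 < Nat.find hex := by
        by_contra h
        exact hb.2.2 (hN _ _ (not_lt.mp h) (Nat.find_spec hex))
      simp only [Finset.mem_insert, Finset.mem_singleton]
      omega
    rw [← Finset.sum_filter]
    simp only [Finset.sum_const, nsmul_eq_mul, mul_one]
    have h3 := (Finset.card_le_card hsub).trans Finset.card_le_two
    exact_mod_cast h3
  · have : ∀ b ∈ s, (if N b ∧ ¬ N (b - 2) then (1 : ℝ) else 0) = 0 := fun b _ =>
      if_neg fun h => hex ⟨b, h.1⟩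
    rw [Finset.sum_congr rfl this]; simp

theorem cnt_two17' (N : ℕ → Prop) (hN : ∀ t t', t ≤ t' → N t → N t') (s : Finset ℕ) :
    ∑ b ∈ s, (if N b ∧ ¬ N (b - 2) then (1 : ℝ) else 0) ≤ 2 := by
  rcases cnt_two17 N hN s with h | h
  · exact h
  · have : ∀ b ∈ s, (if N b ∧ ¬ N (b - 2) then (1 : ℝ) else 0) = 0 := fun b _ =>
      if_neg fun h' => h'.2 (hN _ _ (Nat.zero_le _) h)
    rw [Finset.sum_congr rfl this]; simp

theorem safe17 (M : Matroid (Fin k)) (h0 : EXB k) (h4 : NCHAIN M) (h10 : SAFE1 M) : SAFE M := by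
  intro L U D j hP hj1 hjL
  have htt0 : (0 : ℝ) ≤ tt := by unfold tt; positivity
  have htt1 : tt ≤ 1 / 1000 := by unfold tt; norm_num
  obtain ⟨-, -, hmono, -, hcard⟩ := h0 tt htt0 (by linarith)
  set ρ : ℝ := tt / (1 - 2 * tt) with hρ
  have hρ0 : 0 ≤ ρ := div_nonneg htt0 (by linarith)
  have hρ1 : ρ ≤ 1 / 128 := by
    rw [hρ, div_le_iff₀ (by linarith)]; linarith
  have h1 : ∀ T0 b, harm M L U D T0 j b =
      ∑ e : Fin k, (if Harm M L U D T0 j b e then (1 : ℝ) else 0) := by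
    intro T0 b
    unfold harm
    rw [← Finset.sum_filter]; simp
  simp only [h1]
  rw [Ex_sum17]
  simp only [Ex_sum17]
  have h2 : ∑ b ∈ times L j, ∑ e : Fin k,
      Ex tt (fun T0 => if Harm M L U D T0 j b e then (1 : ℝ) else 0) ≤
      ∑ b ∈ times L j, ∑ e : Fin k, ρ * Ex tt (fun T0 => if e ∈ T0 ∧ e ∈ U j ∧
        e ∈ Nm M L U D T0 j b ∧ e ∉ Nm M L U D T0 j (b - 2) then (1 : ℝ) else 0) :=
    Finset.sum_le_sum fun b hb => Finset.sum_le_sum fun e _ => h10 L U D j b e hP hj1 hjL hb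
  refine h2.trans ?_
  simp only [← Finset.mul_sum]
  have h3 : ∑ b ∈ times L j, ∑ e : Fin k, Ex tt (fun T0 => if e ∈ T0 ∧ e ∈ U j ∧
        e ∈ Nm M L U D T0 j b ∧ e ∉ Nm M L U D T0 j (b - 2) then (1 : ℝ) else 0) ≤
      Ex tt (fun T0 => 2 * (((T0 ∩ U j).card : ℕ) : ℝ)) := by
    simp only [← Ex_sum17]
    refine hmono _ _ fun T0 => ?_
    rw [Finset.sum_comm]
    have h5 : 2 * (((T0 ∩ U j).card : ℕ) : ℝ) =
        ∑ e : Fin k, (if e ∈ T0 ∩ U j then (2 : ℝ) else 0) := by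
      rw [← Finset.sum_filter, Finset.filter_mem_eq_inter, Finset.univ_inter, Finset.sum_const,
        nsmul_eq_mul, mul_comm]
    rw [h5]
    refine Finset.sum_le_sum fun e _ => ?_
    by_cases he : e ∈ T0 ∩ U j
    · rw [if_pos he]
      have he' := Finset.mem_inter.mp he
      simp only [he'.1, he'.2, true_and]
      exact cnt_two17' (fun t => e ∈ Nm M L U D T0 j t)
        (fun t t' h h' => (h4 L U D T0 j hj1 hjL).2.1 t t' h h') _
    · rw [if_neg he]
      refine le_of_eq (Finset.sum_eq_zero fun b _ => if_neg fun h => he ?_)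
      exact Finset.mem_inter.mpr ⟨h.1, h.2.1⟩
  rw [Ex_mul17, hcard] at h3
  have hc : (0 : ℝ) ≤ (U j).card := Nat.cast_nonneg _
  calc _ ≤ ρ * (2 * (tt * (U j).card)) := mul_le_mul_of_nonneg_left h3 hρ0
    _ ≤ 1 / 128 * (2 * (tt * (U j).card)) :=
        mul_le_mul_of_nonneg_right hρ1 (mul_nonneg (by norm_num) (mul_nonneg htt0 hc))
    _ = tt / 64 * (U j).card := by ring

end Crest.Agent.R305
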