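import Crest.Agent.R305.RGDefs55

/-! Row 305, block B7 (GAIN). -/

set_option autoImplicit false

open Classical

namespace Crest.Agent.R305

variable {k : ℕ}

/-- greedy count of the rank increase -/
theorem rk_union_eq_count21 (M : Matroid (Fin k)) (hR : RANK M) (X : Set (Fin k))
    (Z : Finset (Fin k)) (hZ : (Z : Set (Fin k)) ⊆ M.E) :
    rk M (X ∪ ↑Z) = rk M X +
      (Z.filter (fun e => e ∉ M.closure (X ∪ ↑(Z.filter (fun f => f < e))))).card := by
  obtain ⟨-, -, -, h4, h5, -⟩ := hR
  induction Z using Finset.induction_on_max with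
  | empty => simp
  | insert a s ha ih =>
    have hs : (s : Set (Fin k)) ⊆ M.E := fun x hx => hZ (by
      simp only [Finset.coe_insert, Set.mem_insert_iff]; exact Or.inr hx)
    have haE : a ∈ M.E := hZ (by simp)
    have has : a ∉ s := fun h => lt_irrefl _ (ha a h)
    have e1 : X ∪ (↑(insert a s) : Set (Fin k)) = insert a (X ∪ ↑s) := by
      ext x; simp only [Finset.coe_insert, Set.mem_union, Set.mem_insert_iff, Finset.mem_coe]; tauto
    have e2 : (insert a s).filter (fun f => f < a) = s := by
      ext x
      simp only [Finset.mem_filter, Finset.mem_insert]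
      constructor
      · rintro ⟨h | h, hlt⟩
        · exact absurd hlt (h ▸ lt_irrefl _)
        · exact h
      · intro h; exact ⟨Or.inr h, ha x h⟩
    have e3 : ∀ e ∈ s, (insert a s).filter (fun f => f < e) = s.filter (fun f => f < e) := by
      intro e he
      ext x
      simp only [Finset.mem_filter, Finset.mem_insert]
      constructor
      · rintro ⟨h | h, hlt⟩
        · exact absurd (h ▸ hlt) (not_lt.2 (ha e he).le)
        · exact ⟨h, hlt⟩
      · rintro ⟨h, hlt⟩; exact ⟨Or.inr h, hlt⟩
    have e4 : s.filter (fun e => e ∉ M.closure (X ∪ ↑((insert a s).filter (fun f => f < e))))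
        = s.filter (fun e => e ∉ M.closure (X ∪ ↑(s.filter (fun f => f < e)))) := by
      refine Finset.filter_congr fun e he => ?_
      rw [e3 e he]
    rw [e1, Finset.filter_insert, e2, e4]
    by_cases hc : a ∈ M.closure (X ∪ ↑s)
    · rw [h5 _ _ hc, if_neg (not_not.2 hc), ih hs]
    · rw [h4 _ _ haE hc, if_pos hc, Finset.card_insert_of_notMem
        (fun h => has (Finset.mem_filter.1 h).1), ih hs]
      ring

theorem gain_of_rank21 (M : Matroid (Fin k)) (hR : RANK M) : GAIN M := by
  intro L U D T0 j b hP _ _ _
  set Z := Tband M L U D T0 j b with hZdef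
  have hZ : (Z : Set (Fin k)) ⊆ M.E := by
    intro x hx
    have hx' : x ∈ Z := hx
    rw [hZdef, Tband, Finset.mem_filter, Finset.mem_inter] at hx'
    exact hP.1 j hx'.1.2
  have h1 := rk_union_eq_count21 M hR (Nm M L U D T0 j (b - 1)) Z hZ
  have h2 := rk_union_eq_count21 M hR (Nm M L U D T0 j (b - 2) ∪ ↑(Thi M L U D T0 j b)) Z hZ
  have h3 : (Z.filter (fun e => e ∉ M.closure (Nm M L U D T0 j (b - 1) ∪
        ↑(Z.filter (fun f => f < e))))).card ≤
      (Z.filter (fun e => e ∉ M.closure (Nm M L U D T0 j (b - 2) ∪ ↑(Thi M L U D T0 j b) ∪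
        ↑(Z.filter (fun f => f < e))))).card +
      (Finset.univ.filter (fun e => Harm M L U D T0 j b e)).card := by
    refine le_trans (Finset.card_le_card ?_) (Finset.card_union_le _ _)
    intro e he
    rw [Finset.mem_filter] at he
    obtain ⟨heZ, hne⟩ := he
    rw [Finset.mem_union]
    by_cases hc : e ∈ M.closure (Nm M L U D T0 j (b - 2) ∪ ↑(Thi M L U D T0 j b) ∪
        ↑(Z.filter (fun f => f < e)))
    · right
      rw [Finset.mem_filter]
      refine ⟨Finset.mem_univ _, ?_⟩
      have heZ' := heZ
      rw [hZdef, Tband, Finset.mem_filter] at heZ'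
      refine ⟨heZ'.1, heZ'.2.1, ?_, ?_⟩
      · refine M.closure_subset_closure ?_ hc
        refine Set.union_subset_union_right _ ?_
        intro f hf
        have hf' : f ∈ Z.filter (fun f => f < e) := hf
        rw [Finset.mem_filter, hZdef, Tband, Finset.mem_filter] at hf'
        show f ∈ X0 M L U D T0 j b e
        rw [X0, Finset.mem_filter]
        exact ⟨hf'.1.1, hf'.2, hf'.1.2.1⟩
      · intro hcl
        apply hne
        refine M.closure_subset_closure ?_ hcl
        rintro f (hf | hf)
        · exact Or.inl hf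
        · have hf' : f ∈ X0 M L U D T0 j b e := hf
          rw [X0, Finset.mem_filter] at hf'
          by_cases hfP : f ∈ Nm M L U D T0 j (b - 1)
          · exact Or.inl hfP
          · right
            show f ∈ Z.filter (fun f => f < e)
            rw [Finset.mem_filter, hZdef, Tband, Finset.mem_filter]
            exact ⟨⟨hf'.1, hf'.2.2, hfP⟩, hf'.2.1⟩
    · left
      exact Finset.mem_filter.2 ⟨heZ, hc⟩
  unfold null harm gain
  rw [← hZdef, h1, h2]
  have h3' := (Nat.cast_le (α := ℝ)).2 h3
  push_cast at h3' ⊢
  linarith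

end Crest.Agent.R305
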