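import Crest.Agent.R305.Base41
import Crest.Agent.R305.ExpF10
import Crest.Agent.R305.Chain26
import Crest.Agent.R305.Path74
import Crest.Agent.R305.CountB69
import Crest.Agent.R305.Gain21
import Crest.Agent.R305.Bottom25
import Crest.Agent.R305.Safe79
import Crest.Agent.R305.Safe17
import Crest.Agent.R305.Alphas22
import Crest.Agent.R305.GivenH05
import Crest.Agent.R305.Greedy38
import Crest.Agent.R305.Core89
import Crest.Agent.R305.Outer68

set_option autoImplicit false
universe u

namespace Crest.Agent.R305

/-- everything except (alpha) -/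
theorem outer_of_alpha13 {k : ℕ} (M : Matroid (Fin k)) (hA : ALPHA M) : OUTER.{u} M := by
  have h0 : EXB k := exb41
  have h1 : RANK M := rank41 M
  have h2 : EXPF M := F10.expf_of_rank h1
  have h3 : CHAIN M := chain26 h2
  have h4 : NCHAIN M := nchain26 h2
  have h15 : GREEDY M := greedy38 M
  exact outer68 M (shell74 M h0 h1) (indep74 M h1 h3 h4) h15
    (core89 M h0 h15 (poolw38 M h0)
      (givenh05 M h0 (count69 M h1 h3 h4) (gain_of_rank21 M h1) (bottom25 M h0 h1 h2 h4)
        (safe17 M h0 h4 (S79.safe1_79 M h2 h3 h4 h0)) (alphas22 M h0 stop41 h3 hA)))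

end Crest.Agent.R305
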