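import Crest.Agent.R305.RGDefs55
import Crest.Agent.R305.Prob9

set_option autoImplicit false
open Classical

namespace Crest.Agent.R305

variable {k : ℕ}

/-- subsets as Boolean vectors -/
noncomputable def toB9 : Finset (Fin k) ≃ (Fin k → Bool) where
  toFun A := fun e => decide (e ∈ A)
  invFun s := Finset.univ.filter (fun e => s e = true)
  left_inv A := by ext e; simp
  right_inv s := by funext e; simp

theorem bern_eq9 (p : ℝ) (A : Finset (Fin k)) : bern p A = P9.pw p (toB9 A) := by
  unfold bern P9.pw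
  refine Finset.prod_congr rfl fun e _ => ?_
  by_cases h : e ∈ A <;> simp [toB9, h]

theorem Ex_eq9 (p : ℝ) (f : Finset (Fin k) → ℝ) :
    Ex p f = P9.Ex p (fun s => f (toB9.symm s)) := by
  unfold Ex P9.Ex
  rw [← Equiv.sum_comp toB9]
  refine Finset.sum_congr rfl fun A _ => ?_
  rw [bern_eq9]
  simp only [Equiv.symm_apply_apply]

theorem mem_toB9 (s : Fin k → Bool) (e : Fin k) : e ∈ toB9.symm s ↔ s e = true := by
  simp [toB9]

theorem exb9 : EXB k := by
  intro p h0 h1
  refine ⟨fun A => ?_, ?_, fun f g h => ?_, fun e f hf => ?_, fun X => ?_⟩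
  · rw [bern_eq9]; exact P9.pw_nonneg h0 h1 _
  · have := Ex_eq9 (k := k) p (fun _ => 1)
    rw [P9.Ex_const] at this
    simpa [Ex] using this
  · rw [Ex_eq9, Ex_eq9]; exact P9.Ex_mono h0 h1 fun s => h _
  · rw [Ex_eq9, Ex_eq9, ← P9.factor_true p e]
    · refine P9.Ex_congr fun s => ?_
      by_cases h : s e = true <;> simp [mem_toB9, h]
    · intro s b
      have hA : ∀ A : Finset (Fin k), f A = f (A.erase e) := by
        intro A
        by_cases h : e ∈ A
        · rw [← hf A, Finset.insert_eq_of_mem h]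
        · rw [Finset.erase_eq_of_notMem h]
      rw [hA, hA (toB9.symm s)]
      congr 1
      ext y
      by_cases hy : y = e
      · simp [hy]
      · simp [hy, mem_toB9, Function.update_of_ne hy]
  · rw [Ex_eq9, ← P9.Ex_card_filter_true p X]
    refine P9.Ex_congr fun s => ?_
    congr 2
    ext y
    simp [mem_toB9, and_comm]

theorem stop9 : STOP k := by
  intro p Q f _ _ hQ
  rw [Ex_eq9, Ex_eq9, P9.resample p (fun s => Q (toB9.symm s))]
  · refine P9.Ex_congr fun s => ?_
    rw [Ex_eq9]
    refine P9.Ex_congr fun s' => ?_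
    congr 1
    ext y
    by_cases hy : y ∈ Q (toB9.symm s)
    · simp [mem_toB9, hy, Finset.piecewise_eq_of_mem _ _ _ hy]
    · simp [mem_toB9, hy, Finset.piecewise_eq_of_notMem _ _ _ hy]
  · intro s s' h
    refine hQ _ _ fun y hy => ?_
    rw [mem_toB9, mem_toB9, h y hy]

end Crest.Agent.R305
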