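import Crest.Agent.R305.Base37
import Crest.Agent.R305.Exb9
import Crest.Agent.R305.Path74
import Crest.Agent.R305.CountB69
import Crest.Agent.R305.Gain21
import Crest.Agent.R305.Bottom25
import Crest.Agent.R305.Safe79
import Crest.Agent.R305.Safe17
import Crest.Agent.R305.Alphas22
import Crest.Agent.R305.GivenH05
import Crest.Agent.R305.Greedy38
import Crest.Agent.R305.Core89
import Crest.Agent.R305.Outer68

set_option autoImplicit false

namespace Crest.Agent.R305

universe u

theorem h15_outer_of_alpha {k : ℕ} (M : Matroid (Fin k)) (hA : ALPHA M) : OUTER.{u} M := by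
  have h0 : EXB k := exb9
  have h18 : STOP k := stop9
  have h1 := rank37 M
  have h2 := expf37 M
  have h3 := chain37 M
  have h4 := nchain37 M
  have hS := shell74 M h0 h1
  have hI := indep74 M h1 h3 h4
  have hC := count69 M h1 h3 h4
  have hG := gain_of_rank21 M h1
  have hB := bottom25 M h0 h1 h2 h4
  have h10 := S79.safe1_79 M h2 h3 h4 h0
  have h11 := safe17 M h0 h4 h10
  have h13 := alphas22 M h0 h18 h3 hA
  have h14 := givenh05 M h0 hC hG hB h11 h13
  have h15 := greedy38 M
  have h16 := poolw38 M h0
  have h17 := core89 M h0 h15 h16 h14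
  exact outer68 M hS hI h15 h17

end Crest.Agent.R305
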