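import Crest.Agent.R305.RGDefs55

/-! Row 305: blocks B3 (CHAIN) and B3' (NCHAIN). -/

set_option autoImplicit false

open Classical

namespace Crest.Agent.R305

variable {k : ℕ}

namespace C66

variable {M : Matroid (Fin k)}

/-- A good path: closed sets, monotone in time. -/
structure Good (M : Matroid (Fin k)) (S : ℕ → Set (Fin k)) : Prop where
  cl : ∀ t, M.closure (S t) = S t
  mono : ∀ t t', t ≤ t' → S t ⊆ S t'

lemma Good.sub {S : ℕ → Set (Fin k)} (h : Good M S) (t : ℕ) : S t ⊆ M.E := by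
  rw [← h.cl t]; exact M.closure_subset_ground _

lemma exp_sub (h2 : EXPF M) (D : Finset (Fin k)) {S : Set (Fin k)} (hS : S ⊆ M.E) :
    S ⊆ Exp M D S := (h2 D S hS).1.1

lemma exp_ground (h2 : EXPF M) (D : Finset (Fin k)) {S : Set (Fin k)} (hS : S ⊆ M.E) :
    Exp M D S ⊆ M.E := (h2 D S hS).1.2.1

lemma le_N (h2 : EXPF M) {S : ℕ → Set (Fin k)} (h : Good M S) (Dm : Finset (Fin k)) (m t : ℕ) :
    S t ⊆ Nstep M Dm m S t := by
  unfold Nstep
  split_ifs
  · exact exp_sub h2 Dm (h.sub t)
  · exact subset_rfl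

lemma good_N (h2 : EXPF M) {S : ℕ → Set (Fin k)} (h : Good M S) (Dm : Finset (Fin k)) (m : ℕ) :
    Good M (Nstep M Dm m S) where
  cl t := by
    unfold Nstep
    split_ifs
    · exact (h2 Dm (S t) (h.sub t)).2.1
    · exact h.cl t
  mono t t' htt := by
    by_cases h1 : 3 * m ≤ t
    · have h1' : 3 * m ≤ t' := h1.trans htt
      unfold Nstep
      rw [if_pos h1, if_pos h1']
      exact (h2 Dm (S t) (h.sub t)).2.2.2.1 _ (h.mono t t' htt) (h.sub t')
    · refine Set.Subset.trans ?_ (le_N h2 h Dm m t')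
      unfold Nstep
      rw [if_neg h1]
      exact h.mono t t' htt

lemma N_le_S (h2 : EXPF M) {S : ℕ → Set (Fin k)} (h : Good M S) (Dm Cm : Finset (Fin k))
    (m t : ℕ) : Nstep M Dm m S t ⊆ Sstep M Dm Cm m S t := by
  by_cases h1 : 3 * m ≤ t
  · unfold Sstep
    rw [if_pos h1]
    exact (M.subset_closure _ ((good_N h2 h Dm m).sub t)).trans
      (M.closure_subset_closure Set.subset_union_left)
  · unfold Sstep Nstep
    rw [if_neg h1, if_neg h1]

lemma S_le_N (h2 : EXPF M) {S : ℕ → Set (Fin k)} (h : Good M S) (Dm Cm : Finset (Fin k))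
    (m t : ℕ) : Sstep M Dm Cm m S t ⊆ Nstep M Dm m S (t + 1) := by
  have hN := good_N h2 h Dm m
  by_cases h1 : 3 * m ≤ t
  · unfold Sstep
    rw [if_pos h1, ← hN.cl (t + 1)]
    refine M.closure_subset_closure (Set.union_subset (hN.mono _ _ (Nat.le_succ t)) ?_)
    rw [hN.cl (t + 1)]
    exact Set.inter_subset_right
  · unfold Sstep
    rw [if_neg h1]
    exact (h.mono _ _ (Nat.le_succ t)).trans (le_N h2 h Dm m (t + 1))

lemma good_S (h2 : EXPF M) {S : ℕ → Set (Fin k)} (h : Good M S) (Dm Cm : Finset (Fin k))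
    (m : ℕ) : Good M (Sstep M Dm Cm m S) where
  cl t := by
    unfold Sstep
    split_ifs
    · exact M.closure_closure _
    · exact h.cl t
  mono t t' htt := by
    rcases Nat.eq_or_lt_of_le htt with rfl | hlt
    · exact subset_rfl
    · exact (S_le_N h2 h Dm Cm m t).trans
        (((good_N h2 h Dm m).mono _ _ hlt).trans (N_le_S h2 h Dm Cm m t'))

lemma good_S0 (L : ℕ) : Good M (S0 M L) where
  cl t := by
    unfold S0
    split_ifs
    · exact M.closure_closure _
    · exact M.closure_ground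
  mono t t' htt := by
    unfold S0
    split_ifs with h1 h2 h2
    · exact subset_rfl
    · exact M.closure_subset_ground _
    · omega
    · exact subset_rfl

lemma good_St (h2 : EXPF M) (L : ℕ) (U : ℕ → Finset (Fin k)) (D C : Finset (Fin k)) :
    ∀ i, Good M (St M L U D C i)
  | 0 => good_S0 L
  | i + 1 => good_S h2 (good_St h2 L U D C i) _ _ _

lemma St_succ (h2 : EXPF M) (L : ℕ) (U : ℕ → Finset (Fin k)) (D C : Finset (Fin k)) (i t : ℕ) :
    St M L U D C i t ⊆ St M L U D C (i + 1) t :=
  (le_N h2 (good_St h2 L U D C i) _ _ t).trans (N_le_S h2 (good_St h2 L U D C i) _ _ _ t)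

lemma St_mono (h2 : EXPF M) (L : ℕ) (U : ℕ → Finset (Fin k)) (D C : Finset (Fin k))
    (i i' t : ℕ) (h : i ≤ i') : St M L U D C i t ⊆ St M L U D C i' t := by
  induction i', h using Nat.le_induction with
  | base => exact subset_rfl
  | succ n _ ih => exact ih.trans (St_succ h2 L U D C n t)

lemma St_low (L : ℕ) (U : ℕ → Finset (Fin k)) (D C : Finset (Fin k)) (t : ℕ) :
    ∀ i, i ≤ L → t < 3 * (L - i) + 3 → St M L U D C i t = M.closure ∅
  | 0, _, ht => by
    show S0 M L t = _
    unfold S0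
    rw [if_pos (by omega)]
  | i + 1, hi, ht => by
    show Sstep M _ _ _ _ t = _
    unfold Sstep
    rw [if_neg (by omega)]
    exact St_low L U D C t i (by omega) (by omega)

lemma S_le_cl (h2 : EXPF M) {S : ℕ → Set (Fin k)} (h : Good M S) (D C V : Finset (Fin k))
    (m t : ℕ) : Sstep M (D ∩ V) (C ∩ V) m S t ⊆ M.closure (S t ∪ ↑V) := by
  by_cases h1 : 3 * m ≤ t
  · unfold Sstep
    rw [if_pos h1]
    have hN : Nstep M (D ∩ V) m S t ⊆ M.closure (S t ∪ ↑V) := by
      unfold Nstep
      rw [if_pos h1]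
      refine (h2 (D ∩ V) (S t) (h.sub t)).2.2.1.trans (M.closure_subset_closure ?_)
      exact Set.union_subset_union_right _ (Finset.coe_subset.2 Finset.inter_subset_right)
    refine M.closure_subset_closure_of_subset_closure (Set.union_subset hN ?_)
    rintro x ⟨hx1, hx2⟩
    refine M.mem_closure_of_mem' (Or.inr ?_) ((good_N h2 h (D ∩ V) m).sub _ hx2)
    exact (Finset.mem_inter.1 hx1).2
  · unfold Sstep
    rw [if_neg h1]
    exact (M.subset_closure _ (h.sub t)).trans (M.closure_subset_closure Set.subset_union_left)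

lemma St_up (h2 : EXPF M) (L : ℕ) (U : ℕ → Finset (Fin k)) (D C : Finset (Fin k)) (j t : ℕ)
    (hj : 1 ≤ j) (hjL : j ≤ L) (i : ℕ) (hi : L - j + 1 ≤ i) : i ≤ L → St M L U D C i t ⊆
      M.closure (St M L U D C (L - j + 1) t ∪ ↑((Finset.Ico 1 j).biUnion U)) := by
  induction i, hi using Nat.le_induction with
  | base =>
    intro _
    exact (M.subset_closure _ ((good_St h2 L U D C _).sub t)).trans
      (M.closure_subset_closure Set.subset_union_left)
  | succ n hn ih =>
    intro hnL
    have h1 := S_le_cl h2 (good_St h2 L U D C n) D C (U (L - n)) (L - n) t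
    refine Set.Subset.trans h1 ?_
    have ih' := ih (by omega)
    calc M.closure (St M L U D C n t ∪ ↑(U (L - n)))
        ⊆ M.closure (M.closure (St M L U D C (L - j + 1) t ∪ ↑((Finset.Ico 1 j).biUnion U))
            ∪ ↑((Finset.Ico 1 j).biUnion U)) := by
          refine M.closure_subset_closure (Set.union_subset_union ih' ?_)
          refine Finset.coe_subset.2 (Finset.subset_biUnion_of_mem U ?_)
          rw [Finset.mem_Ico]
          omega
      _ = _ := by
          rw [M.closure_union_closure_left_eq, Set.union_assoc, Set.union_self]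

end C66

open C66 in
theorem chain66 (M : Matroid (Fin k)) (_h1 : RANK M) (h2 : EXPF M) : CHAIN M := by
  intro L U D C
  refine ⟨fun i t => (good_St h2 L U D C i).cl t, fun i t t' h => (good_St h2 L U D C i).mono t t' h,
    fun i i' t h => St_mono h2 L U D C i i' t h, fun i t ht => ?_, fun j t hj ht => ?_,
    fun j t hj hjL => ?_⟩
  · refine Set.Subset.antisymm ((good_St h2 L U D C i).sub t) ?_
    refine Set.Subset.trans ?_ (St_mono h2 L U D C 0 i t (Nat.zero_le i))
    show M.E ⊆ S0 M L t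
    unfold S0
    rw [if_neg (by omega)]
  · exact St_low L U D C t (L - j) (by omega) (by omega)
  · exact St_up h2 L U D C j t hj hjL L (by omega) le_rfl

open C66 in
theorem nchain66 (M : Matroid (Fin k)) (_h1 : RANK M) (h2 : EXPF M) (h3 : CHAIN M) :
    NCHAIN M := by
  intro L U D T0 m hm hmL
  have hg := good_St h2 L U D (Cg D T0) (L - m)
  have hN := good_N h2 hg (D ∩ U m) m
  have hS : St M L U D (Cg D T0) (L - m + 1)
      = Sstep M (D ∩ U m) (Cg D T0 ∩ U m) m (St M L U D (Cg D T0) (L - m)) := by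
    have : L - (L - m) = m := by omega
    show Sstep M _ _ _ _ = _
    rw [this]
  refine ⟨fun t => hN.cl t, fun t t' h => hN.mono t t' h, fun t => le_N h2 hg _ _ t,
    fun t => ?_, fun t => ?_, fun t ht => ?_, ?_⟩
  · rw [hS]; exact N_le_S h2 hg _ _ _ t
  · rw [hS]; exact S_le_N h2 hg _ _ _ t
  · refine Set.Subset.antisymm (hN.sub t) ?_
    have := (h3 L U D (Cg D T0)).2.2.2.1 (L - m) t ht
    rw [← this]
    exact le_N h2 hg _ _ t
  · unfold Nm Nstep
    rw [if_pos (by omega), (h3 L U D (Cg D T0)).2.2.2.2.1 m (3 * m + 1) hmL (by omega)]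

end Crest.Agent.R305
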