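import Mathlib

set_option autoImplicit false
set_option linter.unusedSectionVars false
open Finset

namespace Crest.Agent.R305.S13

variable {ι L : Type*} [Fintype ι] [DecidableEq ι] [Fintype L]

/-- product weight of a label vector -/
noncomputable def pw (p : L → ℝ) (w : ι → L) : ℝ := ∏ i, p (w i)

lemma pw_nonneg {p : L → ℝ} (hp : ∀ l, 0 ≤ p l) (w : ι → L) : 0 ≤ pw p w :=
  Finset.prod_nonneg fun i _ => hp (w i)

lemma pw_update (p : L → ℝ) (w : ι → L) (y : ι) (l : L) :
    pw p (Function.update w y l) * p (w y) = pw p w * p l := by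
  unfold pw
  rw [← Finset.mul_prod_erase _ _ (Finset.mem_univ y),
    ← Finset.mul_prod_erase _ (fun i => p (w i)) (Finset.mem_univ y)]
  have : ∏ i ∈ univ.erase y, p (Function.update w y l i) = ∏ i ∈ univ.erase y, p (w i) := by
    refine Finset.prod_congr rfl fun i hi => ?_
    rw [Function.update_of_ne (Finset.ne_of_mem_erase hi)]
  rw [this, Function.update_self]; ring

/-- resampling one coordinate -/
lemma sum_update (p : L → ℝ) (hp1 : ∑ l, p l = 1) (y : ι) (F : (ι → L) → ℝ) :
    ∑ w, pw p w * F w = ∑ w, pw p w * ∑ l, p l * F (Function.update w y l) := by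
  classical
  have h1 : ∑ w : ι → L, pw p w * F w = ∑ x : (ι → L) × L, pw p x.1 * p x.2 * F x.1 := by
    rw [Fintype.sum_prod_type]
    refine Finset.sum_congr rfl fun w _ => ?_
    have : ∑ l, pw p w * p l * F w = pw p w * F w * ∑ l, p l := by
      rw [Finset.mul_sum]; exact Finset.sum_congr rfl fun l _ => by ring
    simp only [this, hp1, mul_one]
  have h2 : ∑ w : ι → L, pw p w * ∑ l, p l * F (Function.update w y l)
      = ∑ x : (ι → L) × L, pw p x.1 * p x.2 * F (Function.update x.1 y x.2) := by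
    rw [Fintype.sum_prod_type]
    refine Finset.sum_congr rfl fun w _ => ?_
    rw [Finset.mul_sum]; exact Finset.sum_congr rfl fun l _ => by ring
  rw [h1, h2]
  let e : (ι → L) × L ≃ (ι → L) × L :=
    { toFun := fun x => (Function.update x.1 y x.2, x.1 y)
      invFun := fun x => (Function.update x.1 y x.2, x.1 y)
      left_inv := fun x => by simp
      right_inv := fun x => by simp }
  rw [← e.sum_comp]
  refine Finset.sum_congr rfl fun x _ => ?_
  show pw p (Function.update x.1 y x.2) * p (x.1 y) * F (Function.update x.1 y x.2) = _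
  rw [pw_update]

open Classical in
/-- hybrid set: elements of `S` that are fresh use the label `T`, all others the label `C` -/
noncomputable def hyb (isC isT : L → Prop) (Q : (ι → L) → Finset ι)
    (fresh : (ι → L) → ι → Prop) (S : Finset ι) (w : ι → L) : Finset ι :=
  (Q w).filter fun i => (i ∈ S ∧ fresh w i ∧ isT (w i)) ∨ (¬ (i ∈ S ∧ fresh w i) ∧ isC (w i))

open Classical in
/-- probability of a set of labels -/
noncomputable def pl (p : L → ℝ) (P : L → Prop) : ℝ := ∑ l, if P l then p l else 0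

lemma hyb_step (p : L → ℝ) (hp : ∀ l, 0 ≤ p l) (hp1 : ∑ l, p l = 1) (isC isT : L → Prop)
    (hct : pl p isT ≤ pl p isC)
    (Q : (ι → L) → Finset ι) (hQ : ∀ w w', (∀ i ∉ Q w, w i = w' i) → Q w' = Q w)
    (a : (ι → L) → Finset ι → ℝ) (ha : ∀ w w', (∀ i ∉ Q w, w i = w' i) → a w' = a w)
    (hmono : ∀ w S S', S ⊆ S' → a w S ≤ a w S')
    (ord : ι → ℕ) (fresh : (ι → L) → ι → Prop)
    (hf : ∀ w w' i, i ∈ Q w → (∀ j, (j ∉ Q w ∨ ord j < ord i) → w j = w' j) →
      (fresh w i ↔ fresh w' i))
    (g : (ι → L) → ℝ) (hg0 : ∀ w, 0 ≤ g w) (hg1 : ∀ w, g w ≤ 1)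
    (S : Finset ι) (y : ι) (hy : y ∉ S) (hS : ∀ x ∈ S, ord x ≤ ord y) :
    ∑ w, pw p w * (a w (hyb isC isT Q fresh (insert y S) w) *
        ((pl p isC - pl p isT) * g w + pl p isT))
      ≤ ∑ w, pw p w * (a w (hyb isC isT Q fresh S w) *
        ((pl p isC - pl p isT) * g w + pl p isT)) := by
  classical
  rw [sum_update p hp1 y, sum_update p hp1 y (fun w => a w (hyb isC isT Q fresh S w) * _)]
  refine Finset.sum_le_sum fun w _ => mul_le_mul_of_nonneg_left ?_ (pw_nonneg hp w)
  by_cases hex : ∃ l0, y ∈ Q (Function.update w y l0) ∧ fresh (Function.update w y l0) y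
  swap
  · refine le_of_eq (Finset.sum_congr rfl fun l _ => ?_)
    have : hyb isC isT Q fresh (insert y S) (Function.update w y l)
        = hyb isC isT Q fresh S (Function.update w y l) := by
      unfold hyb
      refine Finset.filter_congr fun i hi => ?_
      by_cases hiy : i = y
      · subst hiy
        have : ¬ fresh (Function.update w i l) i := fun h => hex ⟨l, hi, h⟩
        simp [this]
      · simp [hiy]
    rw [this]
  obtain ⟨l0, hyQ, hfy⟩ := hex
  set w0 := Function.update w y l0 with hw0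
  have hag : ∀ l, ∀ i, i ≠ y → w0 i = Function.update w y l i := by
    intro l i hi; rw [hw0, Function.update_of_ne hi, Function.update_of_ne hi]
  have hag' : ∀ l, ∀ i ∉ Q w0, w0 i = Function.update w y l i := by
    intro l i hi; exact hag l i (fun h => hi (h ▸ hyQ))
  have hQl : ∀ l, Q (Function.update w y l) = Q w0 := fun l => hQ _ _ (hag' l)
  have hal : ∀ l, a (Function.update w y l) = a w0 := fun l => ha _ _ (hag' l)
  have hfl : ∀ l, ∀ i ∈ Q w0, ord i ≤ ord y → (fresh w0 i ↔ fresh (Function.update w y l) i) := by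
    intro l i hi hle
    refine hf _ _ i hi fun j hj => hag l j ?_
    rintro rfl
    rcases hj with hj | hj
    · exact hj hyQ
    · omega
  set W : Finset ι := ((Q w0).erase y).filter fun i =>
    (i ∈ S ∧ fresh w0 i ∧ isT (w0 i)) ∨ (¬ (i ∈ S ∧ fresh w0 i) ∧ isC (w0 i)) with hW
  have hX : ∀ l, hyb isC isT Q fresh S (Function.update w y l)
      = if isC l then insert y W else W := by
    intro l
    ext i
    unfold hyb
    rw [hQl l]
    by_cases hiy : i = y
    · subst hiy
      by_cases hc : isC l <;> simp [hc, hW, hy, hyQ]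
    · have e1 : w0 i = w i := by rw [hw0, Function.update_of_ne hiy]
      by_cases hiQ : i ∈ Q w0
      · by_cases hiS : i ∈ S
        · have e2 := hfl l i hiQ (hS i hiS)
          by_cases hc : isC l <;> simp [hc, hW, hiy, hiQ, hiS, e1, ← e2]
        · by_cases hc : isC l <;> simp [hc, hW, hiy, hiQ, hiS, e1]
      · by_cases hc : isC l <;> simp [hc, hW, hiy, hiQ]
  have hX' : ∀ l, hyb isC isT Q fresh (insert y S) (Function.update w y l)
      = if isT l then insert y W else W := by
    intro l
    ext i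
    unfold hyb
    rw [hQl l]
    by_cases hiy : i = y
    · subst hiy
      have e2 := (hfl l i hyQ le_rfl).1 hfy
      by_cases hc : isT l <;> simp [hc, hW, hyQ, e2]
    · have e1 : w0 i = w i := by rw [hw0, Function.update_of_ne hiy]
      by_cases hiQ : i ∈ Q w0
      · by_cases hiS : i ∈ S
        · have e2 := hfl l i hiQ (hS i hiS)
          by_cases hc : isT l <;> simp [hc, hW, hiy, hiQ, hiS, e1, ← e2]
        · by_cases hc : isT l <;> simp [hc, hW, hiy, hiQ, hiS, e1]
      · by_cases hc : isT l <;> simp [hc, hW, hiy, hiQ]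
  have hmu : a w0 W ≤ a w0 (insert y W) := hmono _ _ _ (Finset.subset_insert _ _)
  set c := pl p isC with hc
  set t := pl p isT with ht
  set mu := a w0 (insert y W) - a w0 W with hmu'
  have hmu0 : 0 ≤ mu := by rw [hmu']; linarith
  rw [← sub_nonpos, ← Finset.sum_sub_distrib]
  have key : ∀ l, p l * (a (Function.update w y l)
        (hyb isC isT Q fresh (insert y S) (Function.update w y l)) *
        ((c - t) * g (Function.update w y l) + t)) -
      p l * (a (Function.update w y l) (hyb isC isT Q fresh S (Function.update w y l)) *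
        ((c - t) * g (Function.update w y l) + t))
      ≤ mu * (c * (if isT l then p l else 0) - t * (if isC l then p l else 0)) := by
    intro l
    rw [hX l, hX' l, hal l]
    have g0 := hg0 (Function.update w y l)
    have g1 := hg1 (Function.update w y l)
    set G := g (Function.update w y l)
    have hpl := hp l
    have hd : 0 ≤ c - t := by linarith
    have e1 : 0 ≤ p l * mu * ((c - t) * G) := by positivity
    have e2 : 0 ≤ p l * mu * ((c - t) * (1 - G)) := by
      have : 0 ≤ 1 - G := by linarith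
      positivity
    have e3 : 0 ≤ p l * mu * (c - t) := by positivity
    by_cases h1 : isT l <;> by_cases h2 : isC l <;> simp only [h1, h2, if_true, if_false] <;>
      rw [hmu'] at * <;> nlinarith
  refine (Finset.sum_le_sum fun l _ => key l).trans (le_of_eq ?_)
  rw [← Finset.mul_sum, Finset.sum_sub_distrib, ← Finset.mul_sum, ← Finset.mul_sum]
  have e1 : ∑ l, (if isT l then p l else 0) = t := by rw [ht]; unfold pl; congr
  have e2 : ∑ l, (if isC l then p l else 0) = c := by rw [hc]; unfold pl; congr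
  rw [e1, e2]; ring

/-- General (real valued) form of Lemma (*). -/
theorem star_gen (p : L → ℝ) (hp : ∀ l, 0 ≤ p l) (hp1 : ∑ l, p l = 1) (isC isT : L → Prop)
    (hct : pl p isT ≤ pl p isC)
    (Q : (ι → L) → Finset ι) (hQ : ∀ w w', (∀ i ∉ Q w, w i = w' i) → Q w' = Q w)
    (a : (ι → L) → Finset ι → ℝ) (ha : ∀ w w', (∀ i ∉ Q w, w i = w' i) → a w' = a w)
    (hmono : ∀ w S S', S ⊆ S' → a w S ≤ a w S')
    (ord : ι → ℕ) (fresh : (ι → L) → ι → Prop)
    (hf : ∀ w w' i, i ∈ Q w → (∀ j, (j ∉ Q w ∨ ord j < ord i) → w j = w' j) →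
      (fresh w i ↔ fresh w' i))
    (g : (ι → L) → ℝ) (hg0 : ∀ w, 0 ≤ g w) (hg1 : ∀ w, g w ≤ 1) (S : Finset ι) :
    ∑ w, pw p w * (a w (hyb isC isT Q fresh S w) * ((pl p isC - pl p isT) * g w + pl p isT))
      ≤ ∑ w, pw p w * (a w (hyb isC isT Q fresh ∅ w) *
        ((pl p isC - pl p isT) * g w + pl p isT)) := by
  classical
  induction S using Finset.induction_on_max_value ord with
  | empty => exact le_rfl
  | insert y S hy hS ih =>
    exact (hyb_step p hp hp1 isC isT hct Q hQ a ha hmono ord fresh hf g hg0 hg1 S y hy hS).trans ih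

open Classical in
/-- indicator of a proposition -/
noncomputable def ind (P : Prop) : ℝ := if P then 1 else 0

lemma pl_nonneg {p : L → ℝ} (hp : ∀ l, 0 ≤ p l) (P : L → Prop) : 0 ≤ pl p P := by
  unfold pl
  exact Finset.sum_nonneg fun l _ => by split_ifs <;> simp [hp l]

/-- **Lemma (*)** with a stopping set.  `X w` = (old and `C`) or (fresh and `T`) inside the pool,
`Cq w` = all `C` inside the pool; both are given through their membership. -/
theorem star (p : L → ℝ) (hp : ∀ l, 0 ≤ p l) (hp1 : ∑ l, p l = 1) (isC isT : L → Prop)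
    (Q : (ι → L) → Finset ι) (hQ : ∀ w w', (∀ i ∉ Q w, w i = w' i) → Q w' = Q w)
    (A : (ι → L) → Finset ι → Prop)
    (hA : ∀ w w', (∀ i ∉ Q w, w i = w' i) → ∀ S, (A w' S ↔ A w S))
    (hmono : ∀ w S S', S ⊆ S' → A w S → A w S')
    (ord : ι → ℕ) (fresh : (ι → L) → ι → Prop)
    (hf : ∀ w w' i, i ∈ Q w → (∀ j, (j ∉ Q w ∨ ord j < ord i) → w j = w' j) →
      (fresh w i ↔ fresh w' i))
    (X Cq : (ι → L) → Finset ι)
    (hX : ∀ w i, i ∈ X w ↔ i ∈ Q w ∧ ((fresh w i ∧ isT (w i)) ∨ (¬ fresh w i ∧ isC (w i))))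
    (hCq : ∀ w i, i ∈ Cq w ↔ i ∈ Q w ∧ isC (w i)) :
    (pl p isC - pl p isT) * ∑ w, pw p w * ind (A w (X w) ∧ ¬ A w (Cq w))
      ≤ pl p isT * ∑ w, pw p w * ind (¬ A w (X w)) := by
  classical
  have ind0 : ∀ P : Prop, 0 ≤ ind P := fun P => by unfold ind; split_ifs <;> norm_num
  have ind1 : ∀ P : Prop, ind P ≤ 1 := fun P => by unfold ind; split_ifs <;> norm_num
  have ht0 := pl_nonneg hp isT
  by_cases hct : pl p isT ≤ pl p isC
  swap
  · have h1 : 0 ≤ ∑ w, pw p w * ind (A w (X w) ∧ ¬ A w (Cq w)) :=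
      Finset.sum_nonneg fun w _ => mul_nonneg (pw_nonneg hp w) (ind0 _)
    have h2 : 0 ≤ ∑ w, pw p w * ind (¬ A w (X w)) :=
      Finset.sum_nonneg fun w _ => mul_nonneg (pw_nonneg hp w) (ind0 _)
    have h3 : pl p isC - pl p isT ≤ 0 := by linarith [not_le.1 hct]
    exact (mul_nonpos_of_nonpos_of_nonneg h3 h1).trans (mul_nonneg ht0 h2)
  have hXe : ∀ w, hyb isC isT Q fresh univ w = X w := by
    intro w; ext i; rw [hX]; unfold hyb; simp
  have hCe : ∀ w, hyb isC isT Q fresh ∅ w = Cq w := by
    intro w; ext i; rw [hCq]; unfold hyb; simp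
  have main := star_gen p hp hp1 isC isT hct Q hQ (fun w S => ind (A w S))
    (fun w w' h => funext fun S => by simp only [hA w w' h S])
    (fun w S S' h => by
      unfold ind
      by_cases h1 : A w S
      · simp [h1, hmono w S S' h h1]
      · simp only [h1, if_false]; split_ifs <;> norm_num)
    ord fresh hf (fun w => ind (¬ A w (Cq w))) (fun w => ind0 _) (fun w => ind1 _) univ
  simp only [hXe, hCe] at main
  rw [Finset.mul_sum, Finset.mul_sum, ← sub_nonpos, ← Finset.sum_sub_distrib]
  rw [← sub_nonpos, ← Finset.sum_sub_distrib] at main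
  refine le_trans (Finset.sum_le_sum fun w _ => ?_) main
  have hw := pw_nonneg hp w
  have e : 0 ≤ pw p w * pl p isT := mul_nonneg hw ht0
  unfold ind
  by_cases h1 : A w (X w) <;> by_cases h2 : A w (Cq w) <;> simp [h1, h2] <;> nlinarith

end Crest.Agent.R305.S13
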