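import Mathlib
import Crest.Agent.R305.RGDefs55
import Crest.Agent.R305.Star13

/-! Row 305: blocks LOCT and SAFE1 of `RGDefs55`. -/

set_option autoImplicit false

open Classical

namespace Crest.Agent.R305.S67

open Crest.Agent.R305

variable {k : ℕ}

/-- subsets as Boolean vectors -/
noncomputable def toSet (w : Fin k → Bool) : Finset (Fin k) := Finset.univ.filter (fun e => w e = true)

lemma mem_toSet (w : Fin k → Bool) (e : Fin k) : e ∈ toSet w ↔ w e = true := by
  simp [toSet]

noncomputable def setEquiv : (Fin k → Bool) ≃ Finset (Fin k) where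
  toFun := toSet
  invFun := fun A e => decide (e ∈ A)
  left_inv := by
    intro w
    funext e
    by_cases h : w e = true
    · simp [mem_toSet, h]
    · simp [mem_toSet, h]
  right_inv := by
    intro A
    ext e
    simp [mem_toSet]

lemma Ex_eq (t : ℝ) (f : Finset (Fin k) → ℝ) :
    Ex t f = ∑ w : Fin k → Bool, S13.pw (fun b : Bool => if b = true then t else 1 - t) w *
      f (toSet w) := by
  unfold Ex
  rw [← (setEquiv (k := k)).sum_comp]
  refine Finset.sum_congr rfl fun w _ => ?_
  have : bern t (setEquiv w) = S13.pw (fun b : Bool => if b = true then t else 1 - t) w := by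
    unfold bern S13.pw
    refine Finset.prod_congr rfl fun e _ => ?_
    have : e ∈ setEquiv w ↔ w e = true := mem_toSet w e
    by_cases h : w e = true
    · rw [if_pos (this.2 h)]; simp [h]
    · rw [if_neg (fun h' => h (this.1 h'))]; simp [h]
  rw [this]
  rfl

/-- Lemma (*) with a stopping set, in the `Ex` format. -/
theorem starEx (t : ℝ) (ht0 : 0 ≤ t) (ht1 : t ≤ 1)
    (Q : Finset (Fin k) → Finset (Fin k))
    (hQ : ∀ T T', (∀ i ∉ Q T, (i ∈ T ↔ i ∈ T')) → Q T' = Q T)
    (A : Finset (Fin k) → Finset (Fin k) → Prop)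
    (hA : ∀ T T', (∀ i ∉ Q T, (i ∈ T ↔ i ∈ T')) → ∀ S, (A T' S ↔ A T S))
    (hmono : ∀ T S S', S ⊆ S' → A T S → A T S')
    (ord : Fin k → ℕ) (fresh : Finset (Fin k) → Fin k → Prop)
    (hf : ∀ T T' i, i ∈ Q T → (∀ j, ord j < ord i → (j ∈ T ↔ j ∈ T')) →
      (fresh T i ↔ fresh T' i))
    (X Cq : Finset (Fin k) → Finset (Fin k))
    (hX : ∀ T i, i ∈ X T ↔ i ∈ Q T ∧ ((fresh T i ∧ i ∈ T) ∨ (¬ fresh T i ∧ i ∉ T)))
    (hCq : ∀ T i, i ∈ Cq T ↔ i ∈ Q T ∧ i ∉ T) :
    (1 - 2 * t) * Ex t (fun T => if A T (X T) ∧ ¬ A T (Cq T) then 1 else 0)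
      ≤ t * Ex t (fun T => if ¬ A T (X T) then 1 else 0) := by
  have key := S13.star (ι := Fin k) (L := Bool) (fun b : Bool => if b = true then t else 1 - t)
    (by intro l; cases l <;> simp <;> linarith) (by simp)
    (fun b => b = false) (fun b => b = true)
    (fun w => Q (toSet w))
    (by
      intro w w' h
      exact hQ _ _ fun i hi => by rw [mem_toSet, mem_toSet, h i hi])
    (fun w S => A (toSet w) S)
    (by
      intro w w' h S
      exact hA _ _ (fun i hi => by rw [mem_toSet, mem_toSet, h i hi]) S)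
    (fun w S S' h => hmono _ S S' h) ord (fun w i => fresh (toSet w) i)
    (by
      intro w w' i hi h
      exact hf _ _ i hi fun j hj => by rw [mem_toSet, mem_toSet, h j (Or.inr hj)])
    (fun w => X (toSet w)) (fun w => Cq (toSet w))
    (by
      intro w i
      rw [hX, mem_toSet]
      simp)
    (by
      intro w i
      rw [hCq, mem_toSet]
      simp)
  have e1 : S13.pl (fun b : Bool => if b = true then t else 1 - t) (fun b => b = false) = 1 - t := by
    unfold S13.pl
    simp
  have e2 : S13.pl (fun b : Bool => if b = true then t else 1 - t) (fun b => b = true) = t := by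
    unfold S13.pl
    simp
  rw [e1, e2] at key
  rw [Ex_eq, Ex_eq]
  have e3 : (1 - t - t) = 1 - 2 * t := by ring
  rw [e3] at key
  unfold S13.ind at key
  convert key using 4 <;> congr

lemma Nstep_congr (M : Matroid (Fin k)) (Dm : Finset (Fin k)) (m : ℕ) (S S' : ℕ → Set (Fin k))
    (t : ℕ) (h : S t = S' t) : Nstep M Dm m S t = Nstep M Dm m S' t := by
  unfold Nstep
  rw [h]

lemma mem_pool {M : Matroid (Fin k)} {L : ℕ} {U : ℕ → Finset (Fin k)} {D T0 : Finset (Fin k)}
    {j b : ℕ} {y : Fin k} : y ∈ pool M L U D T0 j b ↔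
      ∃ m, (j + 1 ≤ m ∧ m ≤ L) ∧ (y ∈ U m ∧ y ∉ D) ∧ y ∈ Nm M L U D T0 m b := by
  unfold pool
  simp [Finset.mem_biUnion, Finset.mem_filter]

lemma cls_eq {M : Matroid (Fin k)} {U : ℕ → Finset (Fin k)} (hP : Pools M U) {y : Fin k}
    {m m' : ℕ} (h : y ∈ U m) (h' : y ∈ U m') : m = m' := by
  by_contra hne
  exact Finset.disjoint_left.1 (hP.2 m m' hne) h h'

lemma mem_Cg {D T0 : Finset (Fin k)} {y : Fin k} : y ∈ Cg D T0 ↔ y ∉ D ∧ y ∉ T0 := by
  unfold Cg
  simp

theorem loct (M : Matroid (Fin k)) (hN : NCHAIN M) : LOCT M := by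
  intro L U D T0 T0' j b hP hj1 hjL h
  have key : ∀ i, i ≤ L - j → ∀ t, b ≤ t →
      St M L U D (Cg D T0') i t = St M L U D (Cg D T0) i t := by
    intro i
    induction i with
    | zero => intro _ t _; rfl
    | succ i ih =>
      intro hi t ht
      have ih' := ih (by omega)
      show Sstep M _ _ _ _ t = Sstep M _ _ _ _ t
      unfold Sstep
      rw [Nstep_congr M _ _ _ _ t (ih' t ht), Nstep_congr M _ _ _ _ (t + 1) (ih' (t + 1) (by omega)),
        ih' t ht]
      split_ifs with h3
      · congr 1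
        have hm : L - (L - i) = i := by omega
        have hNt : Nm M L U D T0 (L - i) t =
            Nstep M (D ∩ U (L - i)) (L - i) (St M L U D (Cg D T0) i) t := by
          unfold Nm
          rw [hm]
        have hnp : ∀ y, y ∈ U (L - i) →
            y ∉ Nstep M (D ∩ U (L - i)) (L - i) (St M L U D (Cg D T0) i) t →
            (y ∈ T0 ↔ y ∈ T0') := by
          intro y hy hy2
          apply h
          intro hp
          obtain ⟨m, hm1, hm2, hm3⟩ := mem_pool.1 hp
          have := cls_eq hP hm2.1 hy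
          subst this
          apply hy2
          rw [← hNt]
          exact (hN L U D T0 (L - i) (by omega) (by omega)).2.1 b t ht hm3
        ext y
        simp only [Set.mem_union, Set.mem_inter_iff, Finset.coe_inter, Finset.mem_coe, mem_Cg]
        by_cases hy2 : y ∈ Nstep M (D ∩ U (L - i)) (L - i) (St M L U D (Cg D T0) i) t
        · simp [hy2]
        · by_cases hy : y ∈ U (L - i)
          · have := hnp y hy hy2
            simp [hy2, hy, this]
          · simp [hy]
      · rfl
  intro m t hjm hmL hbt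
  unfold Nm
  exact Nstep_congr M _ _ _ _ t (key (L - m) (by omega) t hbt)

/-- the chain of round `m` only reads the labels of the lighter classes -/
lemma Nm_pred (M : Matroid (Fin k)) (L : ℕ) (U : ℕ → Finset (Fin k)) (D T T' : Finset (Fin k))
    (m : ℕ) (h : ∀ m', m < m' → m' ≤ L → ∀ y ∈ U m', (y ∈ T ↔ y ∈ T')) (t : ℕ) :
    Nm M L U D T m t = Nm M L U D T' m t := by
  have key : ∀ i, i ≤ L - m → St M L U D (Cg D T) i = St M L U D (Cg D T') i := by
    intro i
    induction i with
    | zero => intro _; rfl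
    | succ i ih =>
      intro hi
      have ih' := ih (by omega)
      show Sstep M _ _ _ _ = Sstep M _ _ _ _
      rw [ih']
      congr 1
      ext y
      simp only [Finset.mem_inter, mem_Cg]
      constructor
      · rintro ⟨⟨h1, h2⟩, h3⟩
        exact ⟨⟨h1, fun h4 => h2 ((h (L - i) (by omega) (by omega) y h3).2 h4)⟩, h3⟩
      · rintro ⟨⟨h1, h2⟩, h3⟩
        exact ⟨⟨h1, fun h4 => h2 ((h (L - i) (by omega) (by omega) y h3).1 h4)⟩, h3⟩
  unfold Nm
  rw [key (L - m) le_rfl]

/-- the level `b - 2` closure of a set of pool elements -/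
def tau (M : Matroid (Fin k)) (L : ℕ) (U : ℕ → Finset (Fin k)) (D : Finset (Fin k)) (b : ℕ)
    (S : Finset (Fin k)) : ℕ → Set (Fin k)
  | 0 => S0 M L (b - 2)
  | i + 1 => if 3 * (L - i) ≤ b - 2 then
      M.closure (Exp M (D ∩ U (L - i)) (tau M L U D b S i) ∪ ↑(S ∩ U (L - i)))
    else tau M L U D b S i

lemma S0_sub (M : Matroid (Fin k)) (L t : ℕ) : S0 M L t ⊆ M.E := by
  unfold S0
  split_ifs
  · exact M.closure_subset_ground _
  · exact subset_rfl

lemma tau_sub (M : Matroid (Fin k)) (L : ℕ) (U : ℕ → Finset (Fin k)) (D : Finset (Fin k)) (b : ℕ)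
    (S : Finset (Fin k)) (i : ℕ) : tau M L U D b S i ⊆ M.E := by
  induction i with
  | zero => exact S0_sub M L _
  | succ i ih =>
    unfold tau
    split_ifs
    · exact M.closure_subset_ground _
    · exact ih

lemma tau_mono (M : Matroid (Fin k)) (hE : EXPF M) (L : ℕ) (U : ℕ → Finset (Fin k))
    (D : Finset (Fin k)) (b : ℕ) {S S' : Finset (Fin k)} (h : S ⊆ S') (i : ℕ) :
    tau M L U D b S i ⊆ tau M L U D b S' i := by
  induction i with
  | zero => exact subset_rfl
  | succ i ih =>
    unfold tau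
    split_ifs
    · apply M.closure_subset_closure
      apply Set.union_subset_union
      · exact (hE _ _ (tau_sub M L U D b S i)).2.2.2.1 _ ih (tau_sub M L U D b S' i)
      · exact Finset.coe_subset.2 (Finset.inter_subset_inter h subset_rfl)
    · exact ih

lemma sub_closure_union (M : Matroid (Fin k)) {X Y : Set (Fin k)} (hX : X ⊆ M.E) :
    X ⊆ M.closure (X ∪ Y) :=
  (M.subset_closure X hX).trans (M.closure_subset_closure Set.subset_union_left)

lemma tau_step (M : Matroid (Fin k)) (hE : EXPF M) (L : ℕ) (U : ℕ → Finset (Fin k))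
    (D : Finset (Fin k)) (b : ℕ) (S : Finset (Fin k)) (i : ℕ) :
    tau M L U D b S i ⊆ tau M L U D b S (i + 1) := by
  conv_rhs => unfold tau
  split_ifs
  · have h := (hE (D ∩ U (L - i)) _ (tau_sub M L U D b S i)).1
    exact h.1.trans (sub_closure_union M h.2.1)
  · exact subset_rfl

lemma tau_le (M : Matroid (Fin k)) (hE : EXPF M) (L : ℕ) (U : ℕ → Finset (Fin k))
    (D : Finset (Fin k)) (b : ℕ) (S : Finset (Fin k)) {i i' : ℕ} (h : i ≤ i') :
    tau M L U D b S i ⊆ tau M L U D b S i' := by
  induction h with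
  | refl => exact subset_rfl
  | step _ ih => exact ih.trans (tau_step M hE L U D b S _)

lemma St_sub (M : Matroid (Fin k)) (hC : CHAIN M) (L : ℕ) (U : ℕ → Finset (Fin k))
    (D C : Finset (Fin k)) (i t : ℕ) : St M L U D C i t ⊆ M.E := by
  rw [← (hC L U D C).1 i t]
  exact M.closure_subset_ground _

/-- lower bound: the real level `b - 2` lies in `tau S` -/
lemma St_le_tau (M : Matroid (Fin k)) (hE : EXPF M) (hC : CHAIN M) (L : ℕ)
    (U : ℕ → Finset (Fin k)) (D T : Finset (Fin k)) (j b : ℕ) (hb : 2 ≤ b) (S : Finset (Fin k))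
    (hS : ∀ m, j < m → m ≤ L → 3 * m + 2 ≤ b → ∀ y ∈ U m, y ∈ Cg D T →
      y ∈ Nm M L U D T m (b - 1) → y ∈ S) (i : ℕ) (hi : i ≤ L - j) :
    St M L U D (Cg D T) i (b - 2) ⊆ tau M L U D b S i := by
  induction i with
  | zero => exact subset_rfl
  | succ i ih =>
    have ih' := ih (by omega)
    show Sstep M _ _ _ _ (b - 2) ⊆ _
    unfold Sstep tau
    split_ifs with h3
    · apply M.closure_subset_closure
      apply Set.union_subset_union
      · unfold Nstep
        rw [if_pos h3]
        exact (hE _ _ (St_sub M hC L U D _ i _)).2.2.2.1 _ ih' (tau_sub M L U D b S i)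
      · intro y hy
        simp only [Set.mem_inter_iff, Finset.coe_inter, Finset.mem_coe] at hy ⊢
        refine ⟨hS (L - i) (by omega) (by omega) (by omega) y hy.1.2 hy.1.1 ?_, hy.1.2⟩
        unfold Nm
        have hm : L - (L - i) = i := by omega
        have hb2 : b - 1 = b - 2 + 1 := by omega
        rw [hm, hb2]
        exact hy.2
    · exact ih'

/-- upper bound: `tau` of the guards of the pool lies in the real level `b - 1` -/
lemma tau_le_St (M : Matroid (Fin k)) (hE : EXPF M) (hC : CHAIN M) (L : ℕ)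
    (U : ℕ → Finset (Fin k)) (D T : Finset (Fin k)) (j b : ℕ) (hb : 2 ≤ b) (S : Finset (Fin k))
    (hS : ∀ m, j < m → m ≤ L → ∀ y ∈ U m, y ∈ S → y ∈ Cg D T ∧ y ∈ Nm M L U D T m b)
    (i : ℕ) (hi : i ≤ L - j) :
    tau M L U D b S i ⊆ St M L U D (Cg D T) i (b - 1) := by
  induction i with
  | zero => exact (hC L U D (Cg D T)).2.1 0 _ _ (by omega)
  | succ i ih =>
    have ih' := ih (by omega)
    unfold tau
    split_ifs with h3
    · show _ ⊆ Sstep M _ _ _ _ (b - 1)
      unfold Sstep
      rw [if_pos (by omega)]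
      apply M.closure_subset_closure
      apply Set.union_subset_union
      · unfold Nstep
        rw [if_pos (by omega)]
        exact (hE _ _ (tau_sub M L U D b S i)).2.2.2.1 _ ih' (St_sub M hC L U D _ i _)
      · intro y hy
        simp only [Set.mem_inter_iff, Finset.coe_inter, Finset.mem_coe] at hy ⊢
        have h1 := hS (L - i) (by omega) (by omega) y hy.2 hy.1
        refine ⟨⟨h1.1, hy.2⟩, ?_⟩
        have h2 := h1.2
        unfold Nm at h2
        have hm : L - (L - i) = i := by omega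
        have hb2 : b - 1 + 1 = b := by omega
        rw [hm] at h2
        rw [hb2]
        exact h2
    · exact ih'.trans ((hC L U D (Cg D T)).2.2.1 i (i + 1) _ (by omega))

lemma S_le_tau (M : Matroid (Fin k)) (hE : EXPF M) (L : ℕ) (U : ℕ → Finset (Fin k))
    (hP : Pools M U) (D : Finset (Fin k)) (j b : ℕ) (S : Finset (Fin k)) {m : ℕ} (hjm : j < m)
    (hmL : m ≤ L) (hb : 3 * m + 2 ≤ b) {y : Fin k} (hy : y ∈ U m) (hyS : y ∈ S) :
    y ∈ tau M L U D b S (L - j) := by
  have h1 : y ∈ tau M L U D b S (L - m + 1) := by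
    have hm : L - (L - m) = m := by omega
    unfold tau
    rw [hm, if_pos (by omega)]
    apply M.closure_subset_closure (Set.subset_union_right)
    apply M.subset_closure _ _ (by simp [hy, hyS])
    intro z hz
    simp only [Finset.coe_inter, Set.mem_inter_iff, Finset.mem_coe] at hz
    exact hP.1 m hz.2
  exact tau_le M hE L U D b S (by omega) h1

lemma Ex_mono {t : ℝ} (ht0 : 0 ≤ t) (ht1 : t ≤ 1) {f g : Finset (Fin k) → ℝ}
    (h : ∀ A, f A ≤ g A) : Ex t f ≤ Ex t g := by
  unfold Ex
  refine Finset.sum_le_sum fun A _ => mul_le_mul_of_nonneg_left (h A) ?_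
  unfold bern
  refine Finset.prod_nonneg fun e _ => ?_
  split_ifs <;> linarith

lemma tt_pos : 0 < tt := by unfold tt; positivity

lemma tt_small : tt ≤ 1 / 1000 := by unfold tt; norm_num

theorem safe1 (M : Matroid (Fin k)) (hE : EXPF M) (hC : CHAIN M) (hN : NCHAIN M) : SAFE1 M := by
  intro L U D j b e hP hj1 hjL hb
  have hb' : 3 * j + 2 ≤ b := (Finset.mem_Icc.1 hb).1
  have ht0 := tt_pos
  have ht1 := tt_small
  have hL := loct M hN
  let ord : Fin k → ℕ := fun y => if h : ∃ m, y ∈ U m then L - h.choose else 0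
  have hord : ∀ y m, y ∈ U m → ord y = L - m := by
    intro y m hy
    have h : ∃ m, y ∈ U m := ⟨m, hy⟩
    simp only [ord, dif_pos h]
    rw [cls_eq hP h.choose_spec hy]
  let fresh : Finset (Fin k) → Fin k → Prop := fun T y =>
    ∃ m, y ∈ U m ∧ 3 * m + 2 ≤ b ∧ y ∉ Nm M L U D T m (b - 1)
  let A : Finset (Fin k) → Finset (Fin k) → Prop := fun T S =>
    ¬ (e ∈ (T \ D) ∩ U j ∧ e ∈ Nm M L U D T j b) ∨
      e ∈ M.closure (Exp M (D ∩ U j) (tau M L U D b S (L - j)) ∪ ↑(X0 M L U D T j b e))
  let X : Finset (Fin k) → Finset (Fin k) := fun T =>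
    (pool M L U D T j b).filter (fun i => (fresh T i ∧ i ∈ T) ∨ (¬ fresh T i ∧ i ∉ T))
  let Cq : Finset (Fin k) → Finset (Fin k) := fun T => (pool M L U D T j b).filter (fun i => i ∉ T)
  have hnotpool : ∀ T y, y ∈ U j → y ∉ pool M L U D T j b := by
    intro T y hy hp
    obtain ⟨m, hm1, hm2, _⟩ := mem_pool.1 hp
    have := cls_eq hP hm2.1 hy
    omega
  have key := starEx tt ht0.le (by linarith) (fun T => pool M L U D T j b)
    (by
      intro T T' h
      ext y
      simp only [mem_pool]
      refine exists_congr fun m => and_congr_right fun hm => and_congr_right fun _ => ?_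
      rw [hL L U D T T' j b hP hj1 hjL h m b (by omega) hm.2 le_rfl])
    A
    (by
      intro T T' h S
      have h1 := hL L U D T T' j b hP hj1 hjL h j b le_rfl hjL le_rfl
      have h2 : (T' \ D) ∩ U j = (T \ D) ∩ U j := by
        ext y
        simp only [Finset.mem_inter, Finset.mem_sdiff]
        constructor
        · rintro ⟨⟨a, b⟩, c⟩
          exact ⟨⟨(h y (hnotpool T y c)).2 a, b⟩, c⟩
        · rintro ⟨⟨a, b⟩, c⟩
          exact ⟨⟨(h y (hnotpool T y c)).1 a, b⟩, c⟩
      have h3 : X0 M L U D T' j b e = X0 M L U D T j b e := by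
        unfold X0
        rw [h1, h2]
      simp only [A]
      rw [h1, h2, h3])
    (by
      intro T S S' h hA
      rcases hA with hA | hA
      · exact Or.inl hA
      · refine Or.inr (M.closure_subset_closure (Set.union_subset_union_left _ ?_) hA)
        exact (hE _ _ (tau_sub M L U D b S _)).2.2.2.1 _ (tau_mono M hE L U D b h _)
          (tau_sub M L U D b S' _))
    ord fresh
    (by
      intro T T' i hi h
      obtain ⟨m, hm1, hm2, _⟩ := mem_pool.1 hi
      have hNm : ∀ t, Nm M L U D T m t = Nm M L U D T' m t := by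
        apply Nm_pred
        intro m' h1 h2 y hy
        apply h
        rw [hord y m' hy, hord i m hm2.1]
        omega
      simp only [fresh]
      refine exists_congr fun m' => and_congr_right fun hm' => ?_
      rw [← cls_eq hP hm2.1 hm', hNm])
    X Cq (by intro T i; simp only [X, Finset.mem_filter])
    (by intro T i; simp only [Cq, Finset.mem_filter])
  have hN2 : ∀ T, Nm M L U D T j (b - 2) ⊆ Exp M (D ∩ U j) (tau M L U D b (X T) (L - j)) := by
    intro T
    unfold Nm Nstep
    rw [if_pos (by omega)]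
    refine (hE _ _ (St_sub M hC L U D _ _ _)).2.2.2.1 _ ?_ (tau_sub M L U D b _ _)
    refine St_le_tau M hE hC L U D T j b (by omega) (X T) ?_ _ le_rfl
    intro m h1 h2 h3 y hy hyC hyN
    simp only [X, Finset.mem_filter]
    refine ⟨mem_pool.2 ⟨m, ⟨h1, h2⟩, ⟨hy, (mem_Cg.1 hyC).1⟩,
      (hN L U D T m (by omega) h2).2.1 _ _ (by omega) hyN⟩, Or.inr ⟨?_, (mem_Cg.1 hyC).2⟩⟩
    rintro ⟨m', h4, _, h6⟩
    rw [cls_eq hP h4 hy] at h6
    exact h6 hyN
  have hEs : ∀ S, Exp M (D ∩ U j) (tau M L U D b S (L - j)) ⊆ M.E := fun S =>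
    (hE _ _ (tau_sub M L U D b S _)).1.2.1
  have h1 : Ex tt (fun T0 => if Harm M L U D T0 j b e then (1 : ℝ) else 0) ≤
      Ex tt (fun T => if A T (X T) ∧ ¬ A T (Cq T) then 1 else 0) := by
    apply Ex_mono ht0.le (by linarith)
    intro T
    by_cases hH : Harm M L U D T j b e
    · rw [if_pos hH, if_pos]
      obtain ⟨a1, a2, a3, a4⟩ := hH
      constructor
      · refine Or.inr (M.closure_subset_closure ?_ a3)
        apply Set.union_subset_union_left
        apply Set.union_subset (hN2 T)
        intro y hy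
        apply (hE _ _ (tau_sub M L U D b _ _)).1.1
        unfold Thi at hy
        simp only [Finset.coe_biUnion, Finset.coe_filter, Finset.mem_Icc, Set.mem_ofPred_eq,
          Set.mem_iUnion, Finset.mem_coe] at hy
        obtain ⟨m, ⟨⟨c1, c2⟩, c3⟩, hy⟩ := hy
        unfold Tband at hy
        simp only [Finset.mem_filter, Finset.mem_inter, Finset.mem_sdiff] at hy
        refine S_le_tau M hE L U hP D j b (X T) (by omega) c2 c3 hy.1.2 ?_
        simp only [X, Finset.mem_filter]
        exact ⟨mem_pool.2 ⟨m, ⟨c1, c2⟩, ⟨hy.1.2, hy.1.1.2⟩, hy.2.1⟩,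
          Or.inl ⟨⟨m, hy.1.2, c3, hy.2.2⟩, hy.1.1.1⟩⟩
      · rintro (hA | hA)
        · exact hA ⟨a1, a2⟩
        · apply a4
          refine M.closure_subset_closure (Set.union_subset_union_left _ ?_) hA
          unfold Nm Nstep
          rw [if_pos (by omega)]
          refine (hE _ _ (tau_sub M L U D b _ _)).2.2.2.1 _ ?_ (St_sub M hC L U D _ _ _)
          refine tau_le_St M hE hC L U D T j b (by omega) (Cq T) ?_ _ le_rfl
          intro m _ _ y hy hyS
          simp only [Cq, Finset.mem_filter] at hyS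
          obtain ⟨m', _, hm2, hm3⟩ := mem_pool.1 hyS.1
          rw [cls_eq hP hm2.1 hy] at hm3
          exact ⟨mem_Cg.2 ⟨hm2.2, hyS.2⟩, hm3⟩
    · rw [if_neg hH]
      split_ifs <;> norm_num
  have h2 : Ex tt (fun T => if ¬ A T (X T) then (1 : ℝ) else 0) ≤
      Ex tt (fun T0 => if e ∈ T0 ∧ e ∈ U j ∧ e ∈ Nm M L U D T0 j b ∧
        e ∉ Nm M L U D T0 j (b - 2) then 1 else 0) := by
    apply Ex_mono ht0.le (by linarith)
    intro T
    by_cases hA : A T (X T)
    · rw [if_neg (not_not.2 hA)]
      split_ifs <;> norm_num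
    · rw [if_pos hA, if_pos]
      simp only [A, not_or, not_not] at hA
      obtain ⟨⟨a1, a2⟩, a3⟩ := hA
      simp only [Finset.mem_inter, Finset.mem_sdiff] at a1
      exact ⟨a1.1.1, a1.2, a2, fun h => a3 (sub_closure_union M (hEs _) (hN2 T h))⟩
  have hpos : 0 < 1 - 2 * tt := by linarith
  rw [div_mul_eq_mul_div, le_div_iff₀ hpos]
  calc _ ≤ (1 - 2 * tt) * Ex tt (fun T => if A T (X T) ∧ ¬ A T (Cq T) then (1 : ℝ) else 0) := by
        rw [mul_comm]
        exact mul_le_mul_of_nonneg_left h1 hpos.le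
    _ ≤ tt * Ex tt (fun T => if ¬ A T (X T) then (1 : ℝ) else 0) := by convert key
    _ ≤ _ := by
        refine mul_le_mul_of_nonneg_left ?_ ht0.le
        convert h2

end Crest.Agent.R305.S67
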