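import Crest.Agent.R305.RGDefs55

/-! Row 305: blocks B3 (CHAIN) and B3' (NCHAIN). -/

set_option autoImplicit false

open Classical

namespace Crest.Agent.R305

namespace C80

variable {k : ℕ} {M : Matroid (Fin k)}

theorem sub_exp (h2 : EXPF M) (D : Finset (Fin k)) {S : Set (Fin k)} (hS : S ⊆ M.E) :
    S ⊆ Exp M D S := (h2 D S hS).1.1

theorem exp_sub (h2 : EXPF M) (D : Finset (Fin k)) {S : Set (Fin k)} (hS : S ⊆ M.E) :
    Exp M D S ⊆ M.E := (h2 D S hS).1.2.1

theorem sub_N (h2 : EXPF M) (Dm : Finset (Fin k)) (m : ℕ) {S : ℕ → Set (Fin k)}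
    (hS : ∀ t, S t ⊆ M.E) (t : ℕ) : S t ⊆ Nstep M Dm m S t := by
  unfold Nstep
  split_ifs
  · exact sub_exp h2 Dm (hS t)
  · exact subset_rfl

theorem N_sub (h2 : EXPF M) (Dm : Finset (Fin k)) (m : ℕ) {S : ℕ → Set (Fin k)}
    (hS : ∀ t, S t ⊆ M.E) (t : ℕ) : Nstep M Dm m S t ⊆ M.E := by
  unfold Nstep
  split_ifs
  · exact exp_sub h2 Dm (hS t)
  · exact hS t

theorem N_mono (h2 : EXPF M) (Dm : Finset (Fin k)) (m : ℕ) {S : ℕ → Set (Fin k)}
    (hS : ∀ t, S t ⊆ M.E) (hm : ∀ t t', t ≤ t' → S t ⊆ S t') (t t' : ℕ) (h : t ≤ t') :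
    Nstep M Dm m S t ⊆ Nstep M Dm m S t' := by
  by_cases h1 : 3 * m ≤ t
  · have h1' : 3 * m ≤ t' := h1.trans h
    simp only [Nstep, if_pos h1, if_pos h1']
    exact (h2 Dm (S t) (hS t)).2.2.2.1 (S t') (hm t t' h) (hS t')
  · have : Nstep M Dm m S t = S t := by simp only [Nstep, if_neg h1]
    rw [this]
    exact (hm t t' h).trans (sub_N h2 Dm m hS t')

theorem N_closed (h2 : EXPF M) (Dm : Finset (Fin k)) (m : ℕ) {S : ℕ → Set (Fin k)}
    (hS : ∀ t, S t ⊆ M.E) (hc : ∀ t, M.closure (S t) = S t) (t : ℕ) :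
    M.closure (Nstep M Dm m S t) = Nstep M Dm m S t := by
  unfold Nstep
  split_ifs
  · exact (h2 Dm (S t) (hS t)).2.1
  · exact hc t

theorem N_sub_S (h2 : EXPF M) (Dm Cm : Finset (Fin k)) (m : ℕ) {S : ℕ → Set (Fin k)}
    (hS : ∀ t, S t ⊆ M.E) (t : ℕ) : Nstep M Dm m S t ⊆ Sstep M Dm Cm m S t := by
  by_cases h1 : 3 * m ≤ t
  · simp only [Sstep, if_pos h1]
    exact (M.subset_closure _ (N_sub h2 Dm m hS t)).trans
      (M.closure_subset_closure Set.subset_union_left)
  · simp only [Sstep, Nstep, if_neg h1]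
    exact subset_rfl

theorem S_sub_N (h2 : EXPF M) (Dm Cm : Finset (Fin k)) (m : ℕ) {S : ℕ → Set (Fin k)}
    (hS : ∀ t, S t ⊆ M.E) (hc : ∀ t, M.closure (S t) = S t)
    (hm : ∀ t t', t ≤ t' → S t ⊆ S t') (t : ℕ) :
    Sstep M Dm Cm m S t ⊆ Nstep M Dm m S (t + 1) := by
  by_cases h1 : 3 * m ≤ t
  · simp only [Sstep, if_pos h1]
    rw [← N_closed h2 Dm m hS hc (t + 1)]
    refine M.closure_subset_closure (Set.union_subset ?_ ?_)
    · exact N_mono h2 Dm m hS hm t (t + 1) (Nat.le_succ t)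
    · rw [N_closed h2 Dm m hS hc (t + 1)]
      exact Set.inter_subset_right
  · simp only [Sstep, if_neg h1]
    exact (hm t (t + 1) (Nat.le_succ t)).trans (sub_N h2 Dm m hS (t + 1))

theorem st_closed (L : ℕ) (U : ℕ → Finset (Fin k)) (D C : Finset (Fin k)) (i t : ℕ) :
    M.closure (St M L U D C i t) = St M L U D C i t := by
  induction i with
  | zero =>
    simp only [St, S0]
    split_ifs
    · exact M.closure_closure _
    · exact M.closure_ground
  | succ i ih =>
    simp only [St, Sstep]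
    split_ifs
    · exact M.closure_closure _
    · exact ih

theorem st_sub (L : ℕ) (U : ℕ → Finset (Fin k)) (D C : Finset (Fin k)) (i t : ℕ) :
    St M L U D C i t ⊆ M.E := by
  rw [← st_closed L U D C i t]
  exact M.closure_subset_ground _

theorem st_mono_t (h2 : EXPF M) (L : ℕ) (U : ℕ → Finset (Fin k)) (D C : Finset (Fin k)) (i : ℕ) :
    ∀ t t', t ≤ t' → St M L U D C i t ⊆ St M L U D C i t' := by
  induction i with
  | zero =>
    intro t t' h
    simp only [St, S0]
    split_ifs with h1 h3 h3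
    · exact subset_rfl
    · exact M.closure_subset_ground _
    · omega
    · exact subset_rfl
  | succ i ih =>
    intro t t' h
    rcases h.eq_or_lt with rfl | h
    · exact subset_rfl
    · simp only [St]
      refine (S_sub_N h2 _ _ _ (st_sub L U D C i) (st_closed L U D C i) ih t).trans ?_
      refine (N_mono h2 _ _ (st_sub L U D C i) ih (t + 1) t' h).trans ?_
      exact N_sub_S h2 _ _ _ (st_sub L U D C i) t'

theorem st_succ (h2 : EXPF M) (L : ℕ) (U : ℕ → Finset (Fin k)) (D C : Finset (Fin k)) (i t : ℕ) :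
    St M L U D C i t ⊆ St M L U D C (i + 1) t := by
  simp only [St]
  exact (sub_N h2 _ _ (st_sub L U D C i) t).trans (N_sub_S h2 _ _ _ (st_sub L U D C i) t)

theorem st_mono_i (h2 : EXPF M) (L : ℕ) (U : ℕ → Finset (Fin k)) (D C : Finset (Fin k))
    (i i' t : ℕ) (h : i ≤ i') : St M L U D C i t ⊆ St M L U D C i' t := by
  induction h with
  | refl => exact subset_rfl
  | step _ ih => exact ih.trans (st_succ h2 L U D C _ t)

theorem st_top (h2 : EXPF M) (L : ℕ) (U : ℕ → Finset (Fin k)) (D C : Finset (Fin k))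
    (i t : ℕ) (h : 3 * L + 3 ≤ t) : St M L U D C i t = M.E := by
  refine (st_sub L U D C i t).antisymm ?_
  have h0 : St M L U D C 0 t = M.E := by
    simp only [St, S0, if_neg (not_lt.mpr h)]
  rw [← h0]
  exact st_mono_i h2 L U D C 0 i t (Nat.zero_le i)

theorem st_bot (L : ℕ) (U : ℕ → Finset (Fin k)) (D C : Finset (Fin k))
    (j t : ℕ) (hj : j ≤ L) (ht : t < 3 * j + 3) (i : ℕ) (hi : i ≤ L - j) :
    St M L U D C i t = M.closure ∅ := by
  induction i with
  | zero =>
    have : t < 3 * L + 3 := by omega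
    simp only [St, S0, if_pos this]
  | succ i ih =>
    have : ¬ 3 * (L - i) ≤ t := by omega
    simp only [St, Sstep, if_neg this]
    exact ih (by omega)

theorem st_final (h2 : EXPF M) (L : ℕ) (U : ℕ → Finset (Fin k)) (D C : Finset (Fin k))
    (j t : ℕ) (hj1 : 1 ≤ j) (hj : j ≤ L) (i : ℕ) (hi : L - j + 1 ≤ i) :
    i ≤ L → St M L U D C i t ⊆
      M.closure (St M L U D C (L - j + 1) t ∪ ↑((Finset.Ico 1 j).biUnion U)) := by
  induction hi with
  | refl =>
    intro _
    exact (M.subset_closure _ (st_sub L U D C _ t)).trans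
      (M.closure_subset_closure Set.subset_union_left)
  | @step i hi ih =>
    intro hiL
    have hi' : L - j + 1 ≤ i := hi
    have ih' := ih (by omega)
    set W : Set (Fin k) := St M L U D C (L - j + 1) t ∪ ↑((Finset.Ico 1 j).biUnion U) with hW
    have hU : (U (L - i) : Set (Fin k)) ⊆ W := by
      intro x hx
      refine Or.inr ?_
      simp only [Finset.coe_biUnion, Set.mem_iUnion]
      exact ⟨L - i, by simp only [Finset.coe_Ico, Set.mem_Ico]; omega, hx⟩
    show Sstep M (D ∩ U (L - i)) (C ∩ U (L - i)) (L - i) (St M L U D C i) t ⊆ _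
    unfold Sstep
    split_ifs with h1
    · refine M.closure_subset_closure_of_subset_closure (Set.union_subset ?_ ?_)
      · simp only [Nstep, if_pos h1]
        refine (h2 _ _ (st_sub L U D C i t)).2.2.1.trans ?_
        have e : M.closure (M.closure W ∪ W) = M.closure W := by
          rw [M.closure_union_closure_left_eq, Set.union_self]
        rw [← e]
        refine M.closure_subset_closure (Set.union_subset_union ih' ?_)
        intro x hx
        exact hU (Finset.mem_coe.mpr (Finset.mem_inter.mp (Finset.mem_coe.mp hx)).2)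
      · intro x hx
        refine M.inter_ground_subset_closure W ⟨?_, N_sub h2 _ _ (st_sub L U D C i) _ hx.2⟩
        exact hU (Finset.mem_coe.mpr (Finset.mem_inter.mp (Finset.mem_coe.mp hx.1)).2)
    · exact ih'

end C80

variable {k : ℕ}

theorem chain80' (M : Matroid (Fin k)) (h2 : EXPF M) : CHAIN M := fun L U D C =>
  ⟨C80.st_closed L U D C, C80.st_mono_t h2 L U D C, C80.st_mono_i h2 L U D C,
    C80.st_top h2 L U D C,
    fun j t hj ht => C80.st_bot L U D C j t hj ht (L - j) le_rfl,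
    fun j t hj1 hj => C80.st_final h2 L U D C j t hj1 hj L (by omega) le_rfl⟩

theorem nchain80' (M : Matroid (Fin k)) (h2 : EXPF M) : NCHAIN M := by
  intro L U D T0 m hm1 hmL
  have hS := C80.st_sub (M := M) L U D (Cg D T0) (L - m)
  have hc := C80.st_closed (M := M) L U D (Cg D T0) (L - m)
  have hm := C80.st_mono_t h2 L U D (Cg D T0) (L - m)
  have e : L - (L - m) = m := by omega
  have hs : St M L U D (Cg D T0) (L - m + 1) =
      Sstep M (D ∩ U m) (Cg D T0 ∩ U m) m (St M L U D (Cg D T0) (L - m)) := by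
    simp only [St, e]
  refine ⟨C80.N_closed h2 _ _ hS hc, C80.N_mono h2 _ _ hS hm, C80.sub_N h2 _ _ hS, ?_, ?_, ?_, ?_⟩
  · intro t
    rw [hs]
    exact C80.N_sub_S h2 _ _ _ hS t
  · intro t
    rw [hs]
    exact C80.S_sub_N h2 _ _ _ hS hc hm t
  · intro t ht
    refine (C80.N_sub h2 _ _ hS t).antisymm ?_
    rw [← C80.st_top h2 L U D (Cg D T0) (L - m) t ht]
    exact C80.sub_N h2 _ _ hS t
  · have h1 : 3 * m ≤ 3 * m + 1 := Nat.le_succ _
    simp only [Nm, Nstep, if_pos h1]
    rw [C80.st_bot L U D (Cg D T0) m (3 * m + 1) hmL (by omega) (L - m) le_rfl]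

theorem chain80 (M : Matroid (Fin k)) (_h1 : RANK M) (h2 : EXPF M) : CHAIN M := chain80' M h2

theorem nchain80 (M : Matroid (Fin k)) (_h1 : RANK M) (h2 : EXPF M) (_h3 : CHAIN M) :
    NCHAIN M := nchain80' M h2

end Crest.Agent.R305
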