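import Crest.Agent.R305.RGDefs55

/-! Row 305, block B6 (COUNT): a maximal acceptable set is large in every class. -/

set_option autoImplicit false

open Classical

namespace Crest.Agent.R305.C93

variable {k : ℕ}

theorem tele3 (h : ℕ → ℝ) (hanti : ∀ a b, a ≤ b → h b ≤ h a) (hpos : ∀ a, 0 ≤ h a)
    (S : Finset ℕ) (r : ℕ) (hS : ∀ b ∈ S, b % 3 = r) :
    ∑ b ∈ S, (h b - h (b + 3)) ≤ h 0 := by
  obtain ⟨n, hn⟩ : ∃ n, ∀ b ∈ S, b < n := ⟨S.sup id + 1, fun b hb => Nat.lt_succ_of_le (Finset.le_sup (f := id) hb)⟩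
  have hsub : S ⊆ (Finset.range n).image (fun i => 3 * i + r) := by
    intro b hb
    refine Finset.mem_image.2 ⟨b / 3, Finset.mem_range.2 ?_, ?_⟩
    · have := hn b hb; omega
    · have := hS b hb; omega
  have h1 : ∑ b ∈ S, (h b - h (b + 3)) ≤
      ∑ b ∈ (Finset.range n).image (fun i => 3 * i + r), (h b - h (b + 3)) :=
    Finset.sum_le_sum_of_subset_of_nonneg hsub (fun b _ _ => sub_nonneg.2 (hanti _ _ (by omega)))
  rw [Finset.sum_image (by intro a _ b _ hab; simp only at hab; omega)] at h1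
  have h2 : ∑ i ∈ Finset.range n, (h (3 * i + r) - h (3 * i + r + 3)) =
      h (3 * 0 + r) - h (3 * n + r) := by
    rw [← Finset.sum_range_sub' (fun i => h (3 * i + r)) n]
    refine Finset.sum_congr rfl (fun i _ => ?_)
    have : 3 * i + r + 3 = 3 * (i + 1) + r := by ring
    rw [this]
  rw [h2] at h1
  have := hpos (3 * n + r)
  have := hanti 0 (3 * 0 + r) (by omega)
  linarith

/-- diminishing returns -/
theorem dim (M : Matroid (Fin k)) (h1 : RANK M) (X Y Z : Set (Fin k)) (hXY : X ⊆ Y) :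
    rk M (Y ∪ Z) + rk M X ≤ rk M (X ∪ Z) + rk M Y := by
  have a := h1.2.1 (X ∪ Z) Y
  have b := h1.1 X ((X ∪ Z) ∩ Y) (fun x hx => ⟨Or.inl hx, hXY hx⟩)
  have c : X ∪ Z ∪ Y = Y ∪ Z := by
    ext x; simp only [Set.mem_union]; have := @hXY x; tauto
  rw [c] at a
  omega

theorem mem_Tband {M : Matroid (Fin k)} {L : ℕ} {U : ℕ → Finset (Fin k)} {D T0 : Finset (Fin k)}
    {m b : ℕ} {y : Fin k} : y ∈ Tband M L U D T0 m b ↔
      (y ∈ T0 ∧ y ∉ D) ∧ y ∈ U m ∧ y ∈ Nm M L U D T0 m b ∧ y ∉ Nm M L U D T0 m (b - 1) := by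
  simp only [Tband, Finset.mem_filter, Finset.mem_inter, Finset.mem_sdiff, and_assoc]

theorem mem_Thi {M : Matroid (Fin k)} {L : ℕ} {U : ℕ → Finset (Fin k)} {D T0 : Finset (Fin k)}
    {j b : ℕ} {y : Fin k} : y ∈ Thi M L U D T0 j b ↔
      ∃ m, (j + 1 ≤ m ∧ m ≤ L) ∧ 3 * m + 2 ≤ b ∧ y ∈ Tband M L U D T0 m b := by
  simp only [Thi, Finset.mem_biUnion, Finset.mem_filter, Finset.mem_Icc, and_assoc]

theorem birth_unique (M : Matroid (Fin k)) (h4 : NCHAIN M) {L : ℕ} {U : ℕ → Finset (Fin k)}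
    {D T0 : Finset (Fin k)} {m b b' : ℕ} {y : Fin k} (hm1 : 1 ≤ m) (hmL : m ≤ L)
    (hb : y ∈ Tband M L U D T0 m b) (hb' : y ∈ Tband M L U D T0 m b') : b = b' := by
  rw [mem_Tband] at hb hb'
  have mono := (h4 L U D T0 m hm1 hmL).2.1
  by_contra hne
  rcases Nat.lt_or_gt_of_ne hne with h | h
  · exact hb'.2.2.2 (mono b (b' - 1) (by omega) hb.2.2.1)
  · exact hb.2.2.2 (mono b' (b - 1) (by omega) hb'.2.2.1)

theorem Thi_unique (M : Matroid (Fin k)) (h4 : NCHAIN M) {L : ℕ} {U : ℕ → Finset (Fin k)}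
    (hP : Pools M U) {D T0 : Finset (Fin k)} {b b' : ℕ} {y : Fin k}
    (hb : y ∈ Thi M L U D T0 0 b) (hb' : y ∈ Thi M L U D T0 0 b') : b = b' := by
  obtain ⟨m, hm, -, h⟩ := mem_Thi.1 hb
  obtain ⟨m', hm', -, h'⟩ := mem_Thi.1 hb'
  have : m = m' := by
    by_contra hne
    exact Finset.disjoint_left.1 (hP.2 m m' hne) (mem_Tband.1 h).2.1 (mem_Tband.1 h').2.1
  subst this
  exact birth_unique M h4 (by omega) hm.2 h h'

/-- maximality: every eligible element is spanned -/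
theorem spanned (M : Matroid (Fin k)) (h1 : RANK M) (h4 : NCHAIN M) {L : ℕ}
    {U : ℕ → Finset (Fin k)} (hP : Pools M U) {D T0 : Finset (Fin k)} {ep : Fin 3}
    {A : Finset (Fin k)} (hJ : Jc M L U D T0 ep A)
    (hmax : ∀ b e, e ∈ Thi M L U D T0 0 b → e ∉ A → ¬ Jc M L U D T0 ep (insert e A))
    {b : ℕ} (hb : b ≤ 3 * L + 3) (hep : b % 3 = ep.val) {e : Fin k}
    (he : e ∈ Thi M L U D T0 0 b) :
    e ∈ M.closure (Ff M L U D T0 (b - 3) ∪ ↑(A ∩ Thi M L U D T0 0 b)) := by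
  have heE : e ∈ M.E := by
    obtain ⟨m, -, -, h⟩ := mem_Thi.1 he
    exact hP.1 m (mem_Tband.1 h).2.1
  by_cases heA : e ∈ A
  · exact M.mem_closure_of_mem' (Or.inr (by simp [heA, he])) heE
  by_contra hcl
  refine hmax b e he heA ⟨?_, ?_⟩
  · intro y hy
    rcases Finset.mem_insert.1 hy with rfl | hy
    · exact ⟨b, hb, hep, he⟩
    · exact hJ.1 y hy
  · intro b'
    by_cases hbb : b' = b
    · subst hbb
      have e1 : insert e A ∩ Thi M L U D T0 0 b' = insert e (A ∩ Thi M L U D T0 0 b') :=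
        Finset.insert_inter_of_mem he
      have e2 : e ∉ A ∩ Thi M L U D T0 0 b' := fun h => heA (Finset.mem_inter.1 h).1
      rw [e1, Finset.card_insert_of_notMem e2, Finset.coe_insert, Set.union_insert,
        h1.2.2.2.1 _ e heE hcl, hJ.2 b']
      omega
    · have e1 : insert e A ∩ Thi M L U D T0 0 b' = A ∩ Thi M L U D T0 0 b' :=
        Finset.insert_inter_of_notMem (fun h => hbb (Thi_unique M h4 hP h he))
      rw [e1]
      exact hJ.2 b'

theorem one_time (M : Matroid (Fin k)) (h1 : RANK M) (h3 : CHAIN M) (h4 : NCHAIN M) {L : ℕ}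
    {U : ℕ → Finset (Fin k)} (hP : Pools M U) {D T0 : Finset (Fin k)} {ep : Fin 3}
    {A : Finset (Fin k)} (hJ : Jc M L U D T0 ep A)
    (hmax : ∀ b e, e ∈ Thi M L U D T0 0 b → e ∉ A → ¬ Jc M L U D T0 ep (insert e A))
    {j b : ℕ} (hj1 : 1 ≤ j) (hjL : j ≤ L) (hb0 : 3 * j + 2 ≤ b) (hb : b ≤ 3 * L + 3)
    (hep : b % 3 = ep.val) :
    rk M (Nm M L U D T0 j (b - 2) ∪ ↑(Thi M L U D T0 j b) ∪ ↑(Tband M L U D T0 j b)) +
        rk M (Nm M L U D T0 j (b - 2)) +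
        rk M (Nm M L U D T0 j (b + 3 - 2) ∪ ↑((Finset.Ico 1 j).biUnion U)) ≤
      rk M (Nm M L U D T0 j (b - 2) ∪ ↑(Thi M L U D T0 j b)) +
        (A ∩ Tband M L U D T0 j b).card +
        rk M (Nm M L U D T0 j (b - 2) ∪ ↑((Finset.Ico 1 j).biUnion U)) +
        rk M (Nm M L U D T0 j (b + 3 - 2)) := by
  set Z : Set (Fin k) := ↑((Finset.Ico 1 j).biUnion U) with hZ
  set N : ℕ → Set (Fin k) := Nm M L U D T0 j with hN
  set P : Set (Fin k) := N (b - 2) ∪ ↑(Thi M L U D T0 j b) with hPd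
  set W : Set (Fin k) := P ∪ ↑(Tband M L U D T0 j b) with hW
  obtain ⟨-, nmono, nlo, -, nhi, -, -⟩ := h4 L U D T0 j hj1 hjL
  obtain ⟨-, -, cmono, -, -, cgen⟩ := h3 L U D (Cg D T0)
  -- `W` lies in `N (b+1)`
  have hWN : W ⊆ N (b + 3 - 2) := by
    have hb1 : N b ⊆ N (b + 3 - 2) := nmono _ _ (by omega)
    rintro y ((hy | hy) | hy)
    · exact nmono _ _ (by omega) hy
    · obtain ⟨m, hm, -, h⟩ := mem_Thi.1 (Finset.mem_coe.1 hy)
      have a1 := (h4 L U D T0 m (by omega) hm.2).2.2.2.1 b (mem_Tband.1 h).2.2.1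
      have a2 := cmono (L - m + 1) (L - j) b (by omega) a1
      exact hb1 (nlo b a2)
    · exact hb1 (mem_Tband.1 (Finset.mem_coe.1 hy)).2.2.1
  -- the final flat is generated by `N (b-2)` and `Z`
  have hF : Ff M L U D T0 (b - 3) ⊆ M.closure (N (b - 2) ∪ Z) := by
    refine (cgen j (b - 3) hj1 hjL).trans (M.closure_subset_closure ?_)
    refine Set.union_subset_union_left _ ?_
    have := nhi (b - 3)
    rwa [show b - 3 + 1 = b - 2 by omega] at this
  set R : Set (Fin k) := P ∪ Z ∪ ↑(A ∩ Tband M L U D T0 j b) with hR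
  have hAb : (↑(A ∩ Thi M L U D T0 0 b) : Set (Fin k)) ⊆ R := by
    intro y hy
    obtain ⟨hyA, hyT⟩ := Finset.mem_inter.1 (Finset.mem_coe.1 hy)
    obtain ⟨m, hm, hmb, h⟩ := mem_Thi.1 hyT
    rcases lt_trichotomy m j with hlt | heq | hgt
    · refine Or.inl (Or.inr ?_)
      exact Finset.mem_coe.2 (Finset.mem_biUnion.2
        ⟨m, Finset.mem_Ico.2 ⟨by omega, hlt⟩, (mem_Tband.1 h).2.1⟩)
    · subst heq
      exact Or.inr (Finset.mem_coe.2 (Finset.mem_inter.2 ⟨hyA, h⟩))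
    · exact Or.inl (Or.inl (Or.inr (Finset.mem_coe.2 (mem_Thi.2 ⟨m, ⟨hgt, hm.2⟩, hmb, h⟩))))
  have hT : (↑(Tband M L U D T0 j b) : Set (Fin k)) ⊆ M.closure R := by
    intro e he
    have he0 : e ∈ Thi M L U D T0 0 b :=
      mem_Thi.2 ⟨j, ⟨by omega, hjL⟩, hb0, Finset.mem_coe.1 he⟩
    have h0 := spanned M h1 h4 hP hJ hmax hb hep he0
    have h5 : M.closure (Ff M L U D T0 (b - 3) ∪ ↑(A ∩ Thi M L U D T0 0 b)) ⊆
        M.closure (M.closure R ∪ R) := by
      refine M.closure_subset_closure (Set.union_subset_union ?_ hAb)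
      refine hF.trans (M.closure_subset_closure ?_)
      rintro y (hy | hy)
      · exact Or.inl (Or.inl (Or.inl hy))
      · exact Or.inl (Or.inr hy)
    rw [M.closure_union_closure_left_eq, Set.union_self] at h5
    exact h5 h0
  have r1 : rk M (W ∪ Z) ≤ rk M (M.closure R ∪ R) := by
    refine h1.1 _ _ ?_
    rintro y ((hy | hy) | hy)
    · exact Or.inr (Or.inl (Or.inl hy))
    · exact Or.inl (hT hy)
    · exact Or.inr (Or.inl (Or.inr hy))
  have r2 : rk M (M.closure R ∪ R) = rk M R := by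
    rw [← h1.2.2.1 (M.closure R ∪ R), M.closure_union_closure_left_eq, Set.union_self, h1.2.2.1]
  have r3 : rk M R ≤ rk M (P ∪ Z) + (A ∩ Tband M L U D T0 j b).card := h1.2.2.2.2.2.1 _ _
  have r4 := dim M h1 (N (b - 2)) P Z Set.subset_union_left
  have r5 := dim M h1 W (N (b + 3 - 2)) Z hWN
  omega

end Crest.Agent.R305.C93

namespace Crest.Agent.R305

variable {k : ℕ}

theorem count93 (M : Matroid (Fin k)) (h1 : RANK M) (h3 : CHAIN M) (h4 : NCHAIN M) :
    COUNT M := by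
  intro L U D T0 ep A j hP hj1 hjL hJ hmax
  set Zf : Finset (Fin k) := (Finset.Ico 1 j).biUnion U with hZ
  set N : ℕ → Set (Fin k) := Nm M L U D T0 j with hN
  set Bs : Finset ℕ := (times L j).filter (fun b => b % 3 = ep.val) with hBs
  let h : ℕ → ℝ := fun b => (rk M (N (b - 2) ∪ ↑Zf) : ℝ) - rk M (N (b - 2))
  have nmono := (h4 L U D T0 j hj1 hjL).2.1
  have hanti : ∀ a b, a ≤ b → h b ≤ h a := by
    intro a b hab
    have := C93.dim M h1 (N (a - 2)) (N (b - 2)) (↑Zf) (nmono _ _ (by omega))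
    have h' : (rk M (N (b - 2) ∪ ↑Zf) : ℝ) + rk M (N (a - 2)) ≤
        rk M (N (a - 2) ∪ ↑Zf) + rk M (N (b - 2)) := by exact_mod_cast this
    simp only [h]; linarith
  have hpos : ∀ a, 0 ≤ h a := by
    intro a
    have := h1.1 (N (a - 2)) (N (a - 2) ∪ ↑Zf) Set.subset_union_left
    have h' : (rk M (N (a - 2)) : ℝ) ≤ rk M (N (a - 2) ∪ ↑Zf) := by exact_mod_cast this
    simp only [h]; linarith
  have h0 : h 0 ≤ Zf.card := by
    have := h1.2.2.2.2.2.1 (N (0 - 2)) Zf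
    have h' : (rk M (N (0 - 2) ∪ ↑Zf) : ℝ) ≤ rk M (N (0 - 2)) + Zf.card := by exact_mod_cast this
    simp only [h]; linarith
  have tel := C93.tele3 h hanti hpos Bs ep.val (fun b hb => (Finset.mem_filter.1 hb).2)
  have step : ∀ b ∈ Bs, gain M L U D T0 j b ≤
      ((A ∩ Tband M L U D T0 j b).card : ℝ) + (h b - h (b + 3)) := by
    intro b hb
    obtain ⟨hb1, hb2⟩ := Finset.mem_filter.1 hb
    obtain ⟨hb3, hb4⟩ := Finset.mem_Icc.1 hb1
    have := C93.one_time M h1 h3 h4 hP hJ hmax hj1 hjL hb3 hb4 hb2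
    have h' : (rk M (N (b - 2) ∪ ↑(Thi M L U D T0 j b) ∪ ↑(Tband M L U D T0 j b)) : ℝ) +
        rk M (N (b - 2)) + rk M (N (b + 3 - 2) ∪ ↑Zf) ≤
      rk M (N (b - 2) ∪ ↑(Thi M L U D T0 j b)) + (A ∩ Tband M L U D T0 j b).card +
        rk M (N (b - 2) ∪ ↑Zf) + rk M (N (b + 3 - 2)) := by exact_mod_cast this
    simp only [h, gain]
    linarith
  have hcard : ∑ b ∈ Bs, (A ∩ Tband M L U D T0 j b).card ≤ (A ∩ U j).card := by
    rw [← Finset.card_biUnion]
    · refine Finset.card_le_card ?_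
      intro y hy
      obtain ⟨b, -, hy⟩ := Finset.mem_biUnion.1 hy
      obtain ⟨h1', h2'⟩ := Finset.mem_inter.1 hy
      exact Finset.mem_inter.2 ⟨h1', (C93.mem_Tband.1 h2').2.1⟩
    · intro b _ b' _ hne
      refine Finset.disjoint_left.2 (fun y hy hy' => hne ?_)
      exact C93.birth_unique M h4 hj1 hjL (Finset.mem_inter.1 hy).2 (Finset.mem_inter.1 hy').2
  have hcard' : ∑ b ∈ Bs, ((A ∩ Tband M L U D T0 j b).card : ℝ) ≤ ((A ∩ U j).card : ℝ) := by
    exact_mod_cast hcard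
  have := Finset.sum_le_sum step
  rw [Finset.sum_add_distrib] at this
  linarith

end Crest.Agent.R305
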