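import Crest.Agent.R305.RGDefs55

set_option autoImplicit false

open Classical

namespace Crest.Agent.R305

variable {k : ℕ}

namespace B37

theorem eRk_ne_top (M : Matroid (Fin k)) (X : Set (Fin k)) : M.eRk X ≠ ⊤ :=
  ne_top_of_le_ne_top (Set.toFinite X).encard_lt_top.ne (M.eRk_le_encard X)

theorem cast_rk (M : Matroid (Fin k)) (X : Set (Fin k)) : ((rk M X : ℕ) : ℕ∞) = M.eRk X :=
  ENat.coe_toNat (eRk_ne_top M X)

end B37

open B37 in
theorem rank37 (M : Matroid (Fin k)) : RANK M := by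
  refine ⟨fun X Y h => ?_, fun X Y => ?_, fun X => ?_, fun X e he hX => ?_, fun X e he => ?_,
    fun X A => ?_, fun A => ?_, ?_, fun X Y h hY hr => ?_⟩
  · have := M.eRk_mono h
    rw [← cast_rk, ← cast_rk] at this
    exact_mod_cast this
  · have := M.eRk_inter_add_eRk_union_le X Y
    rw [← cast_rk, ← cast_rk, ← cast_rk, ← cast_rk, add_comm] at this
    exact_mod_cast this
  · unfold rk; rw [M.eRk_closure_eq]
  · have := M.eRk_insert_eq_add_one (X := X) (e := e) ⟨he, hX⟩
    rw [← cast_rk, ← cast_rk] at this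
    exact_mod_cast this
  · unfold rk
    rw [← M.eRk_insert_closure_eq, Set.insert_eq_of_mem he, M.eRk_closure_eq]
  · have := M.eRk_union_le_eRk_add_encard X (A : Set (Fin k))
    rw [← cast_rk, ← cast_rk, Set.encard_coe_eq_coe_finsetCard] at this
    exact_mod_cast this
  · rw [Matroid.indep_iff_eRk_eq_encard_of_finite (Set.toFinite _), ← cast_rk,
      Set.encard_coe_eq_coe_finsetCard]
    exact Nat.cast_inj
  · unfold rk; simp
  · intro e he
    by_contra hcon
    have h1 := M.eRk_insert_eq_add_one (X := X) (e := e) ⟨hY he, hcon⟩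
    have h2 := M.eRk_mono (Set.insert_subset he h)
    rw [h1, ← cast_rk, ← cast_rk] at h2
    have h3 : rk M X + 1 ≤ rk M Y := by exact_mod_cast h2
    omega

namespace B37

theorem fval_eq (M : Matroid (Fin k)) (D : Finset (Fin k)) (Q : Set (Fin k)) :
    fval M D Q = (((D : Set (Fin k)) ∩ Q).ncard : ℤ) - (kap : ℤ) * (rk M Q : ℤ) := by
  unfold fval
  congr 2
  rw [← Set.ncard_coe_finset]
  congr 1
  ext a; simp

theorem fval_super (M : Matroid (Fin k)) (D : Finset (Fin k)) (P Q : Set (Fin k)) :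
    fval M D P + fval M D Q ≤ fval M D (P ∪ Q) + fval M D (P ∩ Q) := by
  simp only [fval_eq]
  have h1 := Set.ncard_union_add_ncard_inter ((D : Set (Fin k)) ∩ P) ((D : Set (Fin k)) ∩ Q)
  rw [← Set.inter_union_distrib_left, ← Set.inter_inter_distrib_left] at h1
  have h1' : (((D : Set (Fin k)) ∩ (P ∪ Q)).ncard : ℤ) + ((D : Set (Fin k)) ∩ (P ∩ Q)).ncard =
      ((D : Set (Fin k)) ∩ P).ncard + ((D : Set (Fin k)) ∩ Q).ncard := by exact_mod_cast h1
  have h2 : (rk M (P ∪ Q) : ℤ) + rk M (P ∩ Q) ≤ rk M P + rk M Q := by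
    exact_mod_cast (rank37 M).2.1 P Q
  have h3 : (0 : ℤ) ≤ kap := Int.natCast_nonneg _
  have h4 := mul_le_mul_of_nonneg_left h2 h3
  linarith

theorem isMax_union {M : Matroid (Fin k)} {D : Finset (Fin k)} {S P Q : Set (Fin k)}
    (hP : IsMax M D S P) (hQ : IsMax M D S Q) : IsMax M D S (P ∪ Q) := by
  refine ⟨hP.1.trans Set.subset_union_left, Set.union_subset hP.2.1 hQ.2.1, fun Q' h1 h2 => ?_⟩
  have h3 := fval_super M D P Q
  have h4 := hP.2.2 (P ∩ Q) (Set.subset_inter hP.1 hQ.1) (Set.inter_subset_left.trans hP.2.1)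
  have h5 := hQ.2.2 Q' h1 h2
  linarith

theorem isMax_Exp (M : Matroid (Fin k)) (D : Finset (Fin k)) {S : Set (Fin k)} (hS : S ⊆ M.E) :
    IsMax M D S (Exp M D S) := by
  obtain ⟨Q₀, hQ₀, hmax⟩ := Set.exists_max_image {Q : Set (Fin k) | S ⊆ Q ∧ Q ⊆ M.E}
    (fval M D) (Set.toFinite _) ⟨S, subset_rfl, hS⟩
  have h0 : IsMax M D S Q₀ := ⟨hQ₀.1, hQ₀.2, fun Q' h1 h2 => hmax Q' ⟨h1, h2⟩⟩
  obtain ⟨N, hN, hcard⟩ := Set.exists_max_image {Q : Set (Fin k) | IsMax M D S Q}
    Set.ncard (Set.toFinite _) ⟨Q₀, h0⟩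
  have : Exp M D S = N := by
    refine Set.Subset.antisymm (Set.sUnion_subset (fun Q hQ => ?_)) (Set.subset_sUnion_of_mem hN)
    have h1 := hcard (N ∪ Q) (isMax_union hN hQ)
    have h2 : N = N ∪ Q := Set.eq_of_subset_of_ncard_le Set.subset_union_left h1 (Set.toFinite _)
    rw [h2]; exact Set.subset_union_right
  rw [this]; exact hN

theorem subset_Exp_of_le (M : Matroid (Fin k)) (D : Finset (Fin k)) {S Q : Set (Fin k)}
    (hS : S ⊆ M.E) (h1 : S ⊆ Q) (h2 : Q ⊆ M.E) (h : fval M D (Exp M D S) ≤ fval M D Q) :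
    Q ⊆ Exp M D S :=
  Set.subset_sUnion_of_mem (t := Q)
    ⟨h1, h2, fun Q' h3 h4 => ((isMax_Exp M D hS).2.2 Q' h3 h4).trans h⟩

end B37

open B37 in
theorem expf37 (M : Matroid (Fin k)) : EXPF M := by
  intro D S hS
  have hN := isMax_Exp M D hS
  have hR := rank37 M
  refine ⟨hN, ?_, ?_, fun S' h1 h2 => ?_, fun Q h1 h2 h3 => ?_⟩
  · refine Set.Subset.antisymm ?_ (M.subset_closure _ hN.2.1)
    refine subset_Exp_of_le M D hS (hN.1.trans (M.subset_closure _ hN.2.1))
      (M.closure_subset_ground _) ?_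
    simp only [fval_eq]
    rw [hR.2.2.1]
    have h' : (((D : Set (Fin k)) ∩ Exp M D S).ncard : ℤ) ≤
        ((D : Set (Fin k)) ∩ M.closure (Exp M D S)).ncard := by
      exact_mod_cast Set.ncard_le_ncard
        (Set.inter_subset_inter_right _ (M.subset_closure _ hN.2.1)) (Set.toFinite _)
    linarith
  · have h1 : S ⊆ Exp M D S ∩ (S ∪ ↑D) := Set.subset_inter hN.1 Set.subset_union_left
    have h2 := hN.2.2 _ h1 (Set.inter_subset_left.trans hN.2.1)
    simp only [fval_eq] at h2
    have h3' : (((D : Set (Fin k)) ∩ Exp M D S).ncard : ℤ) ≤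
        ((D : Set (Fin k)) ∩ (Exp M D S ∩ (S ∪ ↑D))).ncard := by
      have h3 : (D : Set (Fin k)) ∩ Exp M D S ⊆ (D : Set (Fin k)) ∩ (Exp M D S ∩ (S ∪ ↑D)) :=
        fun a ha => ⟨ha.1, ha.2, Or.inr ha.1⟩
      exact_mod_cast Set.ncard_le_ncard h3 (Set.toFinite _)
    have hk : (0 : ℤ) < kap := by unfold kap; positivity
    have h4 : (kap : ℤ) * rk M (Exp M D S) ≤ kap * rk M (Exp M D S ∩ (S ∪ ↑D)) := by
      linarith
    have h5 : rk M (Exp M D S) ≤ rk M (Exp M D S ∩ (S ∪ ↑D)) := by
      exact_mod_cast le_of_mul_le_mul_left h4 hk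
    exact (hR.2.2.2.2.2.2.2.2 _ _ Set.inter_subset_left hN.2.1 h5).trans
      (M.closure_subset_closure Set.inter_subset_right)
  · have hN' := isMax_Exp M D h2
    have h3 := fval_super M D (Exp M D S) (Exp M D S')
    have h4 := hN.2.2 (Exp M D S ∩ Exp M D S') (Set.subset_inter hN.1 (h1.trans hN'.1))
      (Set.inter_subset_left.trans hN.2.1)
    exact Set.subset_union_left.trans (subset_Exp_of_le M D h2
      (hN'.1.trans Set.subset_union_right) (Set.union_subset hN.2.1 hN'.2.1) (by linarith))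
  · by_contra hcon
    exact h3 (Set.Subset.antisymm
      (subset_Exp_of_le M D hS (hN.1.trans h1) h2 (not_lt.1 hcon)) h1)

namespace B37

/-- one round keeps a chain of flats a chain of flats -/
structure Good (M : Matroid (Fin k)) (S : ℕ → Set (Fin k)) : Prop where
  flat : ∀ t, M.closure (S t) = S t
  mono : ∀ t, S t ⊆ S (t + 1)

theorem Good.ground {M : Matroid (Fin k)} {S : ℕ → Set (Fin k)} (h : Good M S) (t : ℕ) :
    S t ⊆ M.E := by rw [← h.flat t]; exact M.closure_subset_ground _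

theorem mono_of_succ {S : ℕ → Set (Fin k)} (h : ∀ t, S t ⊆ S (t + 1)) {t t' : ℕ} (ht : t ≤ t') :
    S t ⊆ S t' := monotone_nat_of_le_succ h ht

section
variable {M : Matroid (Fin k)} {S : ℕ → Set (Fin k)} (Dm Cm : Finset (Fin k)) (m : ℕ)

theorem sub_Nstep (h : Good M S) (t : ℕ) : S t ⊆ Nstep M Dm m S t := by
  unfold Nstep; split_ifs
  · exact (expf37 M Dm _ (h.ground t)).1.1
  · exact subset_rfl

theorem good_Nstep (h : Good M S) : Good M (Nstep M Dm m S) := by
  refine ⟨fun t => ?_, fun t => ?_⟩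
  · unfold Nstep; split_ifs
    · exact (expf37 M Dm _ (h.ground t)).2.1
    · exact h.flat t
  · by_cases h1 : 3 * m ≤ t
    · unfold Nstep
      rw [if_pos h1, if_pos (by omega)]
      exact (expf37 M Dm _ (h.ground t)).2.2.2.1 _ (h.mono t) (h.ground _)
    · refine subset_trans ?_ ((h.mono t).trans (sub_Nstep Dm m h (t + 1)))
      unfold Nstep; rw [if_neg h1]

theorem Nstep_sub_Sstep (h : Good M S) (t : ℕ) : Nstep M Dm m S t ⊆ Sstep M Dm Cm m S t := by
  unfold Sstep; split_ifs with h1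
  · exact Set.subset_union_left.trans (M.subset_closure _ (Set.union_subset
      ((good_Nstep Dm m h).ground _) (Set.inter_subset_right.trans ((good_Nstep Dm m h).ground _))))
  · unfold Nstep; rw [if_neg h1]

theorem Sstep_sub_Nstep (h : Good M S) (t : ℕ) :
    Sstep M Dm Cm m S t ⊆ Nstep M Dm m S (t + 1) := by
  unfold Sstep; split_ifs with h1
  · rw [← (good_Nstep Dm m h).flat (t + 1)]
    refine M.closure_subset_closure (Set.union_subset ?_ ?_)
    · exact (good_Nstep Dm m h).mono t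
    · rw [(good_Nstep Dm m h).flat (t + 1)]; exact Set.inter_subset_right
  · exact (h.mono t).trans (sub_Nstep Dm m h (t + 1))

theorem good_Sstep (h : Good M S) : Good M (Sstep M Dm Cm m S) := by
  refine ⟨fun t => ?_, fun t => (Sstep_sub_Nstep Dm Cm m h t).trans (Nstep_sub_Sstep Dm Cm m h _)⟩
  unfold Sstep; split_ifs
  · exact M.closure_closure _
  · exact h.flat t

theorem Sstep_sub_closure (h : Good M S) (t : ℕ) :
    Sstep M Dm Cm m S t ⊆ M.closure (S t ∪ (↑Dm ∪ ↑Cm)) := by
  have h0 : S t ⊆ M.closure (S t ∪ (↑Dm ∪ ↑Cm)) := by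
    rw [← h.flat t, M.closure_union_closure_left_eq]
    exact M.closure_subset_closure Set.subset_union_left
  unfold Sstep; split_ifs with h1
  · refine M.closure_subset_closure_of_subset_closure (Set.union_subset ?_ ?_)
    · unfold Nstep; rw [if_pos h1]
      exact (expf37 M Dm _ (h.ground t)).2.2.1.trans (M.closure_subset_closure
        (Set.union_subset_union_right _ Set.subset_union_left))
    · intro a ha
      exact M.inter_ground_subset_closure _
        ⟨Or.inr (Or.inr ha.1), (good_Nstep Dm m h).ground _ ha.2⟩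
  · exact h0

end

theorem good_St (M : Matroid (Fin k)) (L : ℕ) (U : ℕ → Finset (Fin k)) (D C : Finset (Fin k))
    (i : ℕ) : Good M (St M L U D C i) := by
  induction i with
  | zero =>
    refine ⟨fun t => ?_, fun t => ?_⟩
    · show M.closure (S0 M L t) = S0 M L t
      unfold S0; split_ifs
      · exact M.closure_closure _
      · exact M.closure_ground
    · show S0 M L t ⊆ S0 M L (t + 1)
      unfold S0; split_ifs
      · exact subset_rfl
      · exact M.closure_subset_ground _
      · omega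
      · exact subset_rfl
  | succ i ih => exact good_Sstep _ _ _ ih

theorem St_succ_sub (M : Matroid (Fin k)) (L : ℕ) (U : ℕ → Finset (Fin k)) (D C : Finset (Fin k))
    (i t : ℕ) : St M L U D C i t ⊆ St M L U D C (i + 1) t :=
  (sub_Nstep _ _ (good_St M L U D C i) t).trans (Nstep_sub_Sstep _ _ _ (good_St M L U D C i) t)

theorem St_mono_i (M : Matroid (Fin k)) (L : ℕ) (U : ℕ → Finset (Fin k)) (D C : Finset (Fin k))
    {i i' : ℕ} (t : ℕ) (h : i ≤ i') : St M L U D C i t ⊆ St M L U D C i' t :=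
  monotone_nat_of_le_succ (f := fun i => St M L U D C i t) (fun i => St_succ_sub M L U D C i t) h

theorem St_top (M : Matroid (Fin k)) (L : ℕ) (U : ℕ → Finset (Fin k)) (D C : Finset (Fin k))
    (i t : ℕ) (ht : 3 * L + 3 ≤ t) : St M L U D C i t = M.E := by
  refine Set.Subset.antisymm ((good_St M L U D C i).ground t)
    (subset_trans ?_ (St_mono_i M L U D C t (Nat.zero_le i)))
  show M.E ⊆ S0 M L t
  unfold S0; rw [if_neg (by omega)]

theorem St_bot (M : Matroid (Fin k)) (L : ℕ) (U : ℕ → Finset (Fin k)) (D C : Finset (Fin k))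
    (i t : ℕ) (hi : i ≤ L) (ht : t < 3 * (L - i) + 3) : St M L U D C i t = M.closure ∅ := by
  induction i with
  | zero =>
    show S0 M L t = _
    unfold S0; rw [if_pos (by omega)]
  | succ i ih =>
    show Sstep M _ _ (L - i) (St M L U D C i) t = _
    unfold Sstep
    rw [if_neg (by omega)]
    exact ih (by omega) (by omega)

theorem St_gen (M : Matroid (Fin k)) (L : ℕ) (U : ℕ → Finset (Fin k)) (D C : Finset (Fin k))
    (j t : ℕ) (_h1 : 1 ≤ j) (h2 : j ≤ L) (n : ℕ) (hn : n + 1 ≤ j) :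
    St M L U D C (L - j + 1 + n) t ⊆
      M.closure (St M L U D C (L - j + 1) t ∪ ↑((Finset.Ico 1 j).biUnion U)) := by
  induction n with
  | zero =>
    have := (good_St M L U D C (L - j + 1)).flat t
    intro a ha
    exact M.inter_ground_subset_closure _ ⟨Or.inl ha, (good_St M L U D C _).ground t ha⟩
  | succ n ih =>
    have h3 := ih (by omega)
    refine (Sstep_sub_closure _ _ _ (good_St M L U D C (L - j + 1 + n)) t).trans ?_
    rw [← M.closure_inter_ground]
    refine M.closure_subset_closure_of_subset_closure ?_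
    rintro a ⟨ha, haE⟩
    have hU : ∀ x, x ∈ U (L - (L - j + 1 + n)) →
        x ∈ (((Finset.Ico 1 j).biUnion U : Finset (Fin k)) : Set (Fin k)) := fun x hx =>
      Finset.mem_coe.2 (Finset.mem_biUnion.2 ⟨_, Finset.mem_Ico.2 ⟨by omega, by omega⟩, hx⟩)
    rcases ha with ha | ha | ha
    · exact h3 ha
    · exact M.inter_ground_subset_closure _
        ⟨Or.inr (hU a (Finset.mem_inter.1 (Finset.mem_coe.1 ha)).2), haE⟩
    · exact M.inter_ground_subset_closure _
        ⟨Or.inr (hU a (Finset.mem_inter.1 (Finset.mem_coe.1 ha)).2), haE⟩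

end B37

open B37 in
theorem chain37 (M : Matroid (Fin k)) : CHAIN M := by
  intro L U D C
  refine ⟨fun i t => (good_St M L U D C i).flat t,
    fun i t t' h => mono_of_succ (good_St M L U D C i).mono h,
    fun i i' t h => St_mono_i M L U D C t h, fun i t h => St_top M L U D C i t h,
    fun j t h1 h2 => St_bot M L U D C (L - j) t (by omega) (by omega), fun j t h1 h2 => ?_⟩
  have := St_gen M L U D C j t h1 h2 (j - 1) (by omega)
  rwa [show L - j + 1 + (j - 1) = L by omega] at this

open B37 in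
theorem nchain37 (M : Matroid (Fin k)) : NCHAIN M := by
  intro L U D T0 m h1 h2
  have hg := good_St M L U D (Cg D T0) (L - m)
  have hm : L - (L - m) = m := by omega
  have hS : St M L U D (Cg D T0) (L - m + 1) =
      Sstep M (D ∩ U m) (Cg D T0 ∩ U m) m (St M L U D (Cg D T0) (L - m)) := by
    show Sstep M (D ∩ U (L - (L - m))) (Cg D T0 ∩ U (L - (L - m))) (L - (L - m)) _ = _
    rw [hm]
  refine ⟨fun t => (good_Nstep _ _ hg).flat t,
    fun t t' h => mono_of_succ (good_Nstep _ _ hg).mono h, fun t => sub_Nstep _ _ hg t,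
    fun t => ?_, fun t => ?_, fun t ht => ?_, ?_⟩
  · rw [hS]; exact Nstep_sub_Sstep _ _ _ hg t
  · rw [hS]; exact Sstep_sub_Nstep _ _ _ hg t
  · refine Set.Subset.antisymm ((good_Nstep _ _ hg).ground t) ?_
    rw [← St_top M L U D (Cg D T0) (L - m) t ht]
    exact sub_Nstep _ _ hg t
  · unfold Nm Nstep
    rw [if_pos (by omega), St_bot M L U D (Cg D T0) (L - m) _ (by omega) (by omega)]

end Crest.Agent.R305
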