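import Crest.Agent.R305.RGDefs55

set_option autoImplicit false

open Classical

namespace Crest.Agent.R305

variable {k : ℕ}

theorem h41_ne_top (M : Matroid (Fin k)) (X : Set (Fin k)) : M.eRk X ≠ ⊤ :=
  ne_top_of_le_ne_top (Set.toFinite X).encard_lt_top.ne (M.eRk_le_encard X)

theorem h41_cast (M : Matroid (Fin k)) (X : Set (Fin k)) : ((rk M X : ℕ) : ℕ∞) = M.eRk X :=
  ENat.natCast_toNat (h41_ne_top M X)

theorem rank41 (M : Matroid (Fin k)) : RANK M := by
  refine ⟨?_, ?_, ?_, ?_, ?_, ?_, ?_, ?_, ?_⟩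
  · intro X Y h
    have := M.eRk_mono h
    rw [← h41_cast, ← h41_cast] at this
    exact_mod_cast this
  · intro X Y
    have := M.eRk_inter_add_eRk_union_le X Y
    rw [← h41_cast, ← h41_cast, ← h41_cast, ← h41_cast] at this
    have h2 : rk M (X ∩ Y) + rk M (X ∪ Y) ≤ rk M X + rk M Y := by exact_mod_cast this
    omega
  · intro X
    unfold rk
    rw [M.eRk_closure_eq]
  · intro X e he hn
    have := Matroid.eRk_insert_eq_add_one (M := M) (X := X) (e := e) ⟨he, hn⟩
    rw [← h41_cast, ← h41_cast] at this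
    exact_mod_cast this
  · intro X e he
    unfold rk
    rw [← M.eRk_insert_closure_eq, Set.insert_eq_of_mem he, M.eRk_closure_eq]
  · intro X A
    have := M.eRk_union_le_eRk_add_encard X (A : Set (Fin k))
    rw [← h41_cast, ← h41_cast, Set.encard_coe_eq_coe_finsetCard] at this
    exact_mod_cast this
  · intro A
    rw [Matroid.indep_iff_eRk_eq_encard_of_finite (Set.toFinite _), ← h41_cast,
      Set.encard_coe_eq_coe_finsetCard]
    exact ⟨fun h => by exact_mod_cast h, fun h => by exact_mod_cast h⟩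
  · unfold rk
    rw [M.eRk_empty]; rfl
  · intro X Y hXY hY hr
    have hX : M.IsRkFinite X := Matroid.eRk_ne_top_iff.1 (h41_ne_top M X)
    have h2 : M.eRk Y ≤ M.eRk X := by
      rw [← h41_cast, ← h41_cast]; exact_mod_cast hr
    rw [hX.closure_eq_closure_of_subset_of_eRk_ge_eRk hXY h2]
    exact M.subset_closure Y hY

theorem h41_sum_prod (a b : Fin k → ℝ) :
    ∑ A : Finset (Fin k), ∏ e, (if e ∈ A then a e else b e) = ∏ e, (a e + b e) := by
  rw [Finset.prod_add, Finset.powerset_univ]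
  refine Finset.sum_congr rfl fun A _ => ?_
  rw [Finset.prod_ite]
  congr 1
  · refine Finset.prod_congr ?_ fun _ _ => rfl
    ext x; simp
  · refine Finset.prod_congr ?_ fun _ _ => rfl
    ext x; simp

theorem h41_bern_nonneg {p : ℝ} (h0 : 0 ≤ p) (h1 : p ≤ 1) (A : Finset (Fin k)) : 0 ≤ bern p A := by
  unfold bern
  refine Finset.prod_nonneg fun i _ => ?_
  split_ifs
  · exact h0
  · linarith

theorem h41_sum_bern (p : ℝ) : ∑ A : Finset (Fin k), bern p A = 1 := by
  unfold bern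
  rw [h41_sum_prod (fun _ => p) (fun _ => 1 - p)]
  simp

theorem h41_Ex_const (p c : ℝ) : Ex p (fun _ : Finset (Fin k) => c) = c := by
  unfold Ex
  rw [← Finset.sum_mul, h41_sum_bern, one_mul]

theorem h41_prob_mem (p : ℝ) (e : Fin k) :
    Ex p (fun A : Finset (Fin k) => if e ∈ A then (1 : ℝ) else 0) = p := by
  unfold Ex bern
  have h : ∀ A : Finset (Fin k), (∏ x, if x ∈ A then p else 1 - p) * (if e ∈ A then (1 : ℝ) else 0)
      = ∏ x, if x ∈ A then p else (if x = e then 0 else 1 - p) := by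
    intro A
    by_cases he : e ∈ A
    · rw [if_pos he, mul_one]
      refine Finset.prod_congr rfl fun x _ => ?_
      by_cases hx : x ∈ A
      · simp [hx]
      · have : x ≠ e := fun h => hx (h ▸ he)
        simp [hx, this]
    · rw [if_neg he, mul_zero]
      symm
      exact Finset.prod_eq_zero (Finset.mem_univ e) (by simp [he])
  rw [Finset.sum_congr rfl fun A _ => h A,
    h41_sum_prod (fun _ => p) (fun x => if x = e then 0 else 1 - p)]
  rw [Finset.prod_eq_single e]
  · simp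
  · intro x _ hx
    simp [hx]
  · simp

theorem h41_bern_swap (p : ℝ) (Q T T' : Finset (Fin k)) :
    bern p ((T \ Q) ∪ (T' ∩ Q)) * bern p ((T' \ Q) ∪ (T ∩ Q)) = bern p T * bern p T' := by
  unfold bern
  rw [← Finset.prod_mul_distrib, ← Finset.prod_mul_distrib]
  refine Finset.prod_congr rfl fun i _ => ?_
  by_cases hi : i ∈ Q
  · simp [hi, mul_comm]
  · simp [hi]

theorem h41_stop (p : ℝ) (Q : Finset (Fin k) → Finset (Fin k)) (f : Finset (Fin k) → ℝ)
    (hQ : ∀ T T', (∀ y, y ∉ Q T → (y ∈ T ↔ y ∈ T')) → Q T' = Q T) :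
    Ex p f = Ex p (fun T => Ex p (fun T' => f ((T \ Q T) ∪ (T' ∩ Q T)))) := by
  have h1 : Ex p f = Ex p (fun T => Ex p (fun _ : Finset (Fin k) => f T)) := by
    congr 1; funext T; rw [h41_Ex_const]
  rw [h1]
  unfold Ex
  simp only [Finset.mul_sum]
  rw [← Finset.sum_product', ← Finset.sum_product']
  let φ : Finset (Fin k) × Finset (Fin k) → Finset (Fin k) × Finset (Fin k) :=
    fun x => ((x.1 \ Q x.1) ∪ (x.2 ∩ Q x.1), (x.2 \ Q x.1) ∪ (x.1 ∩ Q x.1))
  have hQφ : ∀ x, Q (φ x).1 = Q x.1 := fun x =>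
    hQ x.1 _ fun i hi => by simp [φ, hi]
  have hinv : Function.Involutive φ := by
    intro x
    have h1 := hQφ x
    refine Prod.ext ?_ ?_
    · show ((φ x).1 \ Q (φ x).1) ∪ ((φ x).2 ∩ Q (φ x).1) = x.1
      rw [h1]
      ext i
      by_cases hi : i ∈ Q x.1 <;> simp [φ, hi]
    · show ((φ x).2 \ Q (φ x).1) ∪ ((φ x).1 ∩ Q (φ x).1) = x.2
      rw [h1]
      ext i
      by_cases hi : i ∈ Q x.1 <;> simp [φ, hi]
  rw [Finset.univ_product_univ]
  rw [← Equiv.sum_comp hinv.toPerm]
  refine Finset.sum_congr rfl fun x _ => ?_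
  have := h41_bern_swap p (Q x.1) x.1 x.2
  show bern p ((x.1 \ Q x.1) ∪ (x.2 ∩ Q x.1)) * (bern p ((x.2 \ Q x.1) ∪ (x.1 ∩ Q x.1)) *
    f ((x.1 \ Q x.1) ∪ (x.2 ∩ Q x.1))) = _
  rw [← mul_assoc, this, mul_assoc]

theorem stop41 : STOP k := fun p Q f _ _ hQ => h41_stop p Q f hQ

theorem h41_Ex_mul_left (p c : ℝ) (f : Finset (Fin k) → ℝ) :
    Ex p (fun A => c * f A) = c * Ex p f := by
  unfold Ex; rw [Finset.mul_sum]; exact Finset.sum_congr rfl fun s _ => by ring

theorem h41_Ex_sum {κ : Type*} (p : ℝ) (X : Finset κ) (f : κ → Finset (Fin k) → ℝ) :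
    Ex p (fun A => ∑ a ∈ X, f a A) = ∑ a ∈ X, Ex p (f a) := by
  unfold Ex
  rw [Finset.sum_comm]
  exact Finset.sum_congr rfl fun s _ => by rw [Finset.mul_sum]

theorem h41_factor (p : ℝ) (e : Fin k) (f : Finset (Fin k) → ℝ)
    (hf : ∀ A, f (insert e A) = f (A.erase e)) :
    Ex p (fun A => if e ∈ A then f A else 0) = p * Ex p f := by
  have hf1 : ∀ A, f (insert e A) = f A := by
    intro A
    by_cases he : e ∈ A
    · rw [Finset.insert_eq_of_mem he]
    · rw [hf, Finset.erase_eq_of_notMem he]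
  rw [h41_stop p (fun _ => {e}) _ (fun _ _ _ => rfl)]
  have h : ∀ T : Finset (Fin k), Ex p (fun T' : Finset (Fin k) =>
      if e ∈ (T \ {e}) ∪ (T' ∩ {e}) then f ((T \ {e}) ∪ (T' ∩ {e})) else 0) = p * f T := by
    intro T
    rw [mul_comm, ← h41_prob_mem (k := k) p e, ← h41_Ex_mul_left, h41_prob_mem]
    congr 1
    funext T'
    by_cases he : e ∈ T'
    · have : (T \ {e}) ∪ (T' ∩ {e}) = insert e T := by
        ext x
        by_cases hx : x = e
        · subst hx; simp [he]
        · simp [hx]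
      rw [this, if_pos (Finset.mem_insert_self e T), if_pos he, hf1, mul_one]
    · rw [if_neg he, if_neg (by simp [he]), mul_zero]
  rw [← h41_Ex_mul_left]
  congr 1
  funext T
  exact h T

theorem exb41 : EXB k := by
  intro p h0 h1
  refine ⟨h41_bern_nonneg h0 h1, h41_sum_bern p, ?_, fun e f hf => h41_factor p e f hf, ?_⟩
  · intro f g h
    unfold Ex
    exact Finset.sum_le_sum fun A _ => mul_le_mul_of_nonneg_left (h A) (h41_bern_nonneg h0 h1 A)
  · intro X
    have h : ∀ A : Finset (Fin k), ((A ∩ X).card : ℝ) = ∑ e ∈ X, if e ∈ A then (1 : ℝ) else 0 := by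
      intro A
      rw [Finset.sum_boole, Finset.inter_comm]
      congr 2
    simp only [h]
    rw [h41_Ex_sum]
    simp only [h41_prob_mem]
    rw [Finset.sum_const, nsmul_eq_mul, mul_comm]

end Crest.Agent.R305
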