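import Mathlib

/-! Resampling on a fixed coordinate set and the "blind parameter" lemma. -/

set_option autoImplicit false
open Classical

namespace Crest.Agent.R305.B17

variable {ι L : Type*} [Fintype ι] [DecidableEq ι] [Fintype L]

theorem sum_pw (p : L → ℝ) (hp : ∑ l, p l = 1) : ∑ w : ι → L, ∏ i, p (w i) = 1 := by
  have := Finset.prod_univ_sum (fun _ : ι => (Finset.univ : Finset L)) (fun _ l => p l)
  simp only [hp, Finset.prod_const_one, Fintype.piFinset_univ] at this
  exact this.symm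

/-- swap involution on pairs of label vectors -/
def swapE (U : Finset ι) : ((ι → L) × (ι → L)) ≃ ((ι → L) × (ι → L)) where
  toFun x := (U.piecewise x.2 x.1, U.piecewise x.1 x.2)
  invFun x := (U.piecewise x.2 x.1, U.piecewise x.1 x.2)
  left_inv x := by
    ext i <;> by_cases h : i ∈ U <;> simp [Finset.piecewise, h]
  right_inv x := by
    ext i <;> by_cases h : i ∈ U <;> simp [Finset.piecewise, h]

theorem resample (p : L → ℝ) (hp : ∑ l, p l = 1) (U : Finset ι) (f : (ι → L) → ℝ) :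
    ∑ w : ι → L, (∏ i, p (w i)) * f w =
      ∑ w : ι → L, (∏ i, p (w i)) * ∑ w' : ι → L, (∏ i, p (w' i)) * f (U.piecewise w' w) := by
  have h1 : ∑ w : ι → L, (∏ i, p (w i)) * f w =
      ∑ x : (ι → L) × (ι → L), (∏ i, p (x.1 i)) * (∏ i, p (x.2 i)) * f x.1 := by
    rw [Fintype.sum_prod_type]
    refine Finset.sum_congr rfl fun w _ => ?_
    have : ∑ y : ι → L, (∏ i, p (w i)) * (∏ i, p (y i)) * f w
        = (∏ i, p (w i)) * f w * ∑ y : ι → L, ∏ i, p (y i) := by
      rw [Finset.mul_sum]; exact Finset.sum_congr rfl fun y _ => by ring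
    rw [this, sum_pw p hp, mul_one]
  rw [h1, ← (swapE (L := L) U).sum_comp, Fintype.sum_prod_type]
  refine Finset.sum_congr rfl fun w _ => ?_
  rw [Finset.mul_sum]
  refine Finset.sum_congr rfl fun w' _ => ?_
  have h2 : (∏ i, p (U.piecewise w' w i)) * (∏ i, p (U.piecewise w w' i))
      = (∏ i, p (w i)) * ∏ i, p (w' i) := by
    rw [← Finset.prod_mul_distrib, ← Finset.prod_mul_distrib]
    refine Finset.prod_congr rfl fun i _ => ?_
    by_cases h : i ∈ U <;> simp [Finset.piecewise, h, mul_comm]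
  simp only [swapE, Equiv.coe_fn_mk]
  rw [h2]; ring

/-- one label vector: a parameter `G w` blind to the labels on `U`. -/
theorem blind (p : L → ℝ) (hp0 : ∀ l, 0 ≤ p l) (hp : ∑ l, p l = 1) (U : Finset ι) {β : Type*}
    (G : (ι → L) → β) (hG : ∀ w w', (∀ i, i ∉ U → w i = w' i) → G w = G w')
    (F : β → (ι → L) → ℝ) (hF : ∀ g w w', (∀ i ∈ U, w i = w' i) → F g w = F g w')
    (c : ℝ) (hc : ∀ w₀, ∑ w : ι → L, (∏ i, p (w i)) * F (G w₀) w ≤ c) :
    ∑ w : ι → L, (∏ i, p (w i)) * F (G w) w ≤ c := by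
  rw [resample p hp U]
  calc _ ≤ ∑ w : ι → L, (∏ i, p (w i)) * c := by
        refine Finset.sum_le_sum fun w _ => mul_le_mul_of_nonneg_left ?_
          (Finset.prod_nonneg fun i _ => hp0 _)
        refine le_of_eq_of_le (Finset.sum_congr rfl fun w' _ => ?_) (hc w)
        rw [hG (U.piecewise w' w) w (fun i hi => by simp [Finset.piecewise, hi]),
          hF _ (U.piecewise w' w) w' (fun i hi => by simp [Finset.piecewise, hi])]
    _ = c := by rw [← Finset.sum_mul, sum_pw p hp, one_mul]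

/-- two label vectors `d`, `t`: a parameter `G d t` blind to the labels on `U`. -/
theorem blind2 {L' : Type*} [Fintype L'] (p : L → ℝ) (hp0 : ∀ l, 0 ≤ p l) (hp : ∑ l, p l = 1)
    (q : L' → ℝ) (hq0 : ∀ l, 0 ≤ q l) (hq : ∑ l, q l = 1) (U : Finset ι) {β : Type*}
    (G : (ι → L) → (ι → L') → β)
    (hG : ∀ d d' t t', (∀ i, i ∉ U → d i = d' i) → (∀ i, i ∉ U → t i = t' i) → G d t = G d' t')
    (F : β → (ι → L) → (ι → L') → ℝ)
    (hF : ∀ g d d' t t', (∀ i ∈ U, d i = d' i) → (∀ i ∈ U, t i = t' i) → F g d t = F g d' t')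
    (c : ℝ)
    (hc : ∀ d₀ t₀, ∑ d : ι → L, (∏ i, p (d i)) * ∑ t : ι → L', (∏ i, q (t i)) * F (G d₀ t₀) d t ≤ c) :
    ∑ d : ι → L, (∏ i, p (d i)) * ∑ t : ι → L', (∏ i, q (t i)) * F (G d t) d t ≤ c := by
  rw [resample p hp U]
  have key : ∀ d : ι → L, ∑ d' : ι → L, (∏ i, p (d' i)) *
      ∑ t : ι → L', (∏ i, q (t i)) * F (G (U.piecewise d' d) t) (U.piecewise d' d) t ≤ c := by
    intro d
    have h1 : ∀ d' : ι → L, ∑ t : ι → L', (∏ i, q (t i)) *
        F (G (U.piecewise d' d) t) (U.piecewise d' d) t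
        = ∑ t : ι → L', (∏ i, q (t i)) * ∑ t' : ι → L', (∏ i, q (t' i)) * F (G d t) d' t' := by
      intro d'
      rw [resample q hq U]
      refine Finset.sum_congr rfl fun t _ => ?_
      congr 1
      refine Finset.sum_congr rfl fun t' _ => ?_
      rw [hG (U.piecewise d' d) d (U.piecewise t' t) t (fun i hi => by simp [Finset.piecewise, hi])
          (fun i hi => by simp [Finset.piecewise, hi]),
        hF _ (U.piecewise d' d) d' (U.piecewise t' t) t' (fun i hi => by simp [Finset.piecewise, hi])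
          (fun i hi => by simp [Finset.piecewise, hi])]
    simp only [h1]
    have h2 : ∑ d' : ι → L, (∏ i, p (d' i)) * ∑ t : ι → L', (∏ i, q (t i)) *
        ∑ t' : ι → L', (∏ i, q (t' i)) * F (G d t) d' t'
        = ∑ t : ι → L', (∏ i, q (t i)) * ∑ d' : ι → L, (∏ i, p (d' i)) *
          ∑ t' : ι → L', (∏ i, q (t' i)) * F (G d t) d' t' := by
      simp only [Finset.mul_sum]
      rw [Finset.sum_comm]
      refine Finset.sum_congr rfl fun t _ => Finset.sum_congr rfl fun d' _ =>
        Finset.sum_congr rfl fun t' _ => by ring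
    rw [h2]
    calc _ ≤ ∑ t : ι → L', (∏ i, q (t i)) * c :=
          Finset.sum_le_sum fun t _ => mul_le_mul_of_nonneg_left (hc d t)
            (Finset.prod_nonneg fun i _ => hq0 _)
      _ = c := by rw [← Finset.sum_mul, sum_pw q hq, one_mul]
  calc _ ≤ ∑ d : ι → L, (∏ i, p (d i)) * c :=
        Finset.sum_le_sum fun d _ => mul_le_mul_of_nonneg_left (key d)
          (Finset.prod_nonneg fun i _ => hp0 _)
    _ = c := by rw [← Finset.sum_mul, sum_pw p hp, one_mul]

end Crest.Agent.R305.B17
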