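import Mathlib
import Crest.Prelude.Def_SampleRule

set_option autoImplicit false
open MeasureTheory ProbabilityTheory
open Crest.OnlineMatroid

namespace Crest.Agent.R305

universe u

/-- The finite, pointwise core of row 305. -/
def Core32 (k : ℕ) (M : Matroid (Fin k)) (c : ℝ) : Prop :=
  ∃ (L : Type) (_ : Fintype L) (p : L → ℝ) (lis : L → Finset (Fin k))
    (F : L → (Fin k → ℝ) → Finset (Fin k) → Prop),
    (∀ l, 0 ≤ p l) ∧ ∑ l, p l = 1 ∧
    (∀ l x, F l x ∅) ∧
    (∀ l x A, F l x A → A ⊆ lis l ∧ M.Indep (A : Set (Fin k))) ∧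
    (∀ l x A B, F l x B → A ⊆ B → F l x A) ∧
    (∀ l x y A, (∀ e, e ∉ lis l ∨ e ∈ A → x e = y e) → F l x A → F l y A) ∧
    (∀ l A, MeasurableSet {x | F l x A}) ∧
    (∀ x : Fin k → ℝ, (∀ e, 0 ≤ x e) → ∀ sel : L → Finset (Fin k),
      (∀ l, F l x (sel l) ∧ ∀ e, e ∉ sel l → ¬ F l x (insert e (sel l))) →
      ∀ I : Finset (Fin k), M.Indep (I : Set (Fin k)) →
        c * ∑ e ∈ I, x e ≤ ∑ l, p l * ∑ e ∈ sel l, x e)

/-- A set whose membership is decided by finitely many measurable predicates is measurable. -/
theorem measurable_of_pattern32 {X ι : Type*} [MeasurableSpace X] [Finite ι]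
    (P : ι → X → Prop) (hP : ∀ i, MeasurableSet {x | P i x}) (S : Set X)
    (hS : ∀ x y, (∀ i, P i x ↔ P i y) → x ∈ S → y ∈ S) : MeasurableSet S := by
  classical
  have : S = ⋃ b : ι → Prop, ⋃ (_ : ∃ x ∈ S, ∀ i, P i x ↔ b i), ⋂ i, {y | P i y ↔ b i} := by
    ext y
    simp only [Set.mem_iUnion, Set.mem_iInter, Set.mem_setOf_eq]
    constructor
    · intro hy
      exact ⟨fun i => P i y, ⟨y, hy, fun i => Iff.rfl⟩, fun i => Iff.rfl⟩
    · rintro ⟨b, ⟨x, hx, hb⟩, hy⟩
      exact hS x y (fun i => (hb i).trans (hy i).symm) hx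
  rw [this]
  refine MeasurableSet.iUnion fun b => MeasurableSet.iUnion fun _ => MeasurableSet.iInter fun i => ?_
  by_cases hb : b i
  · simpa [hb] using hP i
  · have : {y | P i y ↔ b i} = {y | P i y}ᶜ := by ext y; simp [hb]
    rw [this]; exact (hP i).compl

namespace Red32

variable {k : ℕ}

open Classical in
noncomputable def greedy (G : Finset (Fin k) → Prop) (A : Finset (Fin k)) :
    List (Fin k) → Finset (Fin k)
  | [] => A
  | e :: rest => greedy G (if G (insert e A) then insert e A else A) rest

theorem greedy_append (G : Finset (Fin k) → Prop) (A : Finset (Fin k)) (l₁ l₂ : List (Fin k)) :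
    greedy G A (l₁ ++ l₂) = greedy G (greedy G A l₁) l₂ := by
  induction l₁ generalizing A with
  | nil => rfl
  | cons e r ih => simp only [List.cons_append, greedy]; exact ih _

theorem subset_greedy (G : Finset (Fin k) → Prop) (A : Finset (Fin k)) (l : List (Fin k)) :
    A ⊆ greedy G A l := by
  induction l generalizing A with
  | nil => exact subset_rfl
  | cons e r ih =>
    simp only [greedy]
    refine subset_trans ?_ (ih _)
    split_ifs
    · exact Finset.subset_insert _ _
    · exact subset_rfl

theorem greedy_mem (G : Finset (Fin k) → Prop) (A : Finset (Fin k)) (hA : G A)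
    (l : List (Fin k)) : G (greedy G A l) := by
  induction l generalizing A with
  | nil => exact hA
  | cons e r ih =>
    simp only [greedy]
    apply ih
    split_ifs with h
    · exact h
    · exact hA

theorem greedy_max (G : Finset (Fin k) → Prop) (hd : ∀ A B, G B → A ⊆ B → G A)
    (A : Finset (Fin k)) (l : List (Fin k)) (e : Fin k) (he : e ∈ l)
    (hn : e ∉ greedy G A l) : ¬ G (insert e (greedy G A l)) := by
  induction l generalizing A with
  | nil => simp at he
  | cons a r ih =>
    simp only [greedy] at hn ⊢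
    rcases List.mem_cons.1 he with rfl | h
    · by_cases hG : G (insert e A)
      · simp only [hG, if_true] at hn
        exact absurd (subset_greedy G _ r (Finset.mem_insert_self _ _)) hn
      · simp only [hG, if_false] at hn ⊢
        intro h
        exact hG (hd _ _ h (Finset.insert_subset_insert _ (subset_greedy G A r)))
    · exact ih _ h hn

theorem greedy_sub (G : Finset (Fin k) → Prop) (A : Finset (Fin k)) (l : List (Fin k)) :
    ∀ e ∈ greedy G A l, e ∈ A ∨ e ∈ l := by
  induction l generalizing A with
  | nil => intro e he; exact Or.inl he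
  | cons a r ih =>
    intro e he
    simp only [greedy] at he
    rcases ih _ e he with h | h
    · split_ifs at h
      · rcases Finset.mem_insert.1 h with rfl | h
        · exact Or.inr List.mem_cons_self
        · exact Or.inl h
      · exact Or.inl h
    · exact Or.inr (List.mem_cons_of_mem _ h)

theorem greedy_congr (G G' : Finset (Fin k) → Prop) (W : Set (Fin k))
    (h : ∀ B : Finset (Fin k), (∀ e ∈ B, e ∈ W) → (G B ↔ G' B))
    (A : Finset (Fin k)) (hA : ∀ e ∈ A, e ∈ W) (l : List (Fin k)) (hl : ∀ e ∈ l, e ∈ W) :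
    greedy G A l = greedy G' A l := by
  induction l generalizing A with
  | nil => rfl
  | cons a r ih =>
    have hins : ∀ e ∈ insert a A, e ∈ W := by
      intro e he
      rcases Finset.mem_insert.1 he with rfl | he
      · exact hl _ List.mem_cons_self
      · exact hA e he
    have hr : ∀ e ∈ r, e ∈ W := fun e he => hl e (List.mem_cons_of_mem _ he)
    simp only [greedy]
    by_cases hG : G (insert a A)
    · have hG' := (h _ hins).1 hG
      simp only [hG, hG', if_true]
      exact ih _ hins hr
    · have hG' : ¬ G' (insert a A) := fun h' => hG ((h _ hins).2 h')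
      simp only [hG, hG', if_false]
      exact ih _ hA hr

/-- the weights known after the arrivals `hist` -/
noncomputable def known (T : Finset (Fin k)) (s : Fin k → ℝ) (hist : List (Fin k × ℝ)) :
    Fin k → ℝ := fun e => if e ∈ T then (hist.lookup e).getD 0 else s e

noncomputable def mix (T : Finset (Fin k)) (s v : Fin k → ℝ) : Fin k → ℝ :=
  fun e => if e ∈ T then v e else s e

theorem lookup_map (v : Fin k → ℝ) (l : List (Fin k)) (e : Fin k) (he : e ∈ l) :
    (l.map fun a => (a, v a)).lookup e = some (v e) := by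
  induction l with
  | nil => simp at he
  | cons a r ih =>
    by_cases h : e = a
    · subst h; simp [List.lookup]
    · have hr : e ∈ r := by
        rcases List.mem_cons.1 he with h' | h'
        · exact absurd h' h
        · exact h'
      have hb : (e == a) = false := by simpa using h
      simp only [List.map_cons, List.lookup, hb]
      exact ih hr

open Classical in
noncomputable def rule {L : Type} (lis : L → Finset (Fin k))
    (F : L → (Fin k → ℝ) → Finset (Fin k) → Prop) : SampleRule L k where
  decide l s hist e ve :=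
    decide (F l (known (lis l) s (hist ++ [(e, ve)]))
      (insert e (greedy (F l (known (lis l) s (hist ++ [(e, ve)]))) ∅ (hist.map Prod.fst))))

theorem aux_eq {L : Type} (lis : L → Finset (Fin k))
    (F : L → (Fin k → ℝ) → Finset (Fin k) → Prop)
    (hloc : ∀ l x y A, (∀ e, e ∉ lis l ∨ e ∈ A → x e = y e) → F l x A → F l y A)
    (l : L) (s v : Fin k → ℝ) (rest pre : List (Fin k)) :
    greedy (F l (mix (lis l) s v)) ∅ pre ∪
        sAcceptedAux (rule lis F) l s v rest (pre.map fun a => (a, v a)) =
      greedy (F l (mix (lis l) s v)) ∅ (pre ++ rest) := by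
  classical
  induction rest generalizing pre with
  | nil => simp [sAcceptedAux]
  | cons e r ih =>
    have hmap : (pre.map fun a => (a, v a)) ++ [(e, v e)] = (pre ++ [e]).map fun a => (a, v a) := by
      simp
    have hag : ∀ B : Finset (Fin k), (∀ a ∈ B, a ∈ {a | a ∈ pre ++ [e]}) →
        (F l (known (lis l) s ((pre ++ [e]).map fun a => (a, v a))) B ↔
          F l (mix (lis l) s v) B) := by
      intro B hB
      have key : ∀ a, a ∉ lis l ∨ a ∈ B →
          known (lis l) s ((pre ++ [e]).map fun a => (a, v a)) a = mix (lis l) s v a := by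
        intro a ha
        unfold known mix
        by_cases hT : a ∈ lis l
        · have haB : a ∈ B := ha.resolve_left (fun h => h hT)
          simp only [hT, if_true]
          rw [lookup_map v _ a (hB a haB)]; rfl
        · simp [hT]
      exact ⟨hloc l _ _ B key, hloc l _ _ B (fun a ha => (key a ha).symm)⟩
    have hg : greedy (F l (known (lis l) s ((pre ++ [e]).map fun a => (a, v a)))) ∅ pre =
        greedy (F l (mix (lis l) s v)) ∅ pre :=
      greedy_congr _ _ {a | a ∈ pre ++ [e]} hag ∅ (by simp) pre
        (fun a ha => List.mem_append_left _ ha)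
    have hfst : (pre.map fun a => (a, v a)).map Prod.fst = pre := by
      simp [List.map_map, Function.comp_def]
    have hdec : ((rule lis F).decide l s (pre.map fun a => (a, v a)) e (v e) = true) ↔
        F l (mix (lis l) s v) (insert e (greedy (F l (mix (lis l) s v)) ∅ pre)) := by
      simp only [rule, decide_eq_true_eq]
      rw [hmap, hfst, hg]
      apply hag
      intro a ha
      rcases Finset.mem_insert.1 ha with rfl | ha
      · simp
      · rcases greedy_sub _ _ _ a ha with h | h
        · simp at h
        · exact List.mem_append_left _ h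
    have hstep : greedy (F l (mix (lis l) s v)) ∅ (pre ++ [e]) =
        greedy (F l (mix (lis l) s v)) ∅ pre ∪
          (if (rule lis F).decide l s (pre.map fun a => (a, v a)) e (v e) = true then {e} else ∅) := by
      rw [greedy_append]
      simp only [greedy]
      by_cases h : F l (mix (lis l) s v) (insert e (greedy (F l (mix (lis l) s v)) ∅ pre))
      · rw [if_pos h, if_pos (hdec.2 h)]
        ext a; simp [or_comm]
      · rw [if_neg h, if_neg (fun h' => h (hdec.1 h'))]
        simp
    have := ih (pre ++ [e])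
    rw [List.append_assoc] at this
    simp only [sAcceptedAux]
    rw [hmap, ← Finset.union_assoc, ← hstep]
    simpa using this

theorem acc_eq {L : Type} (lis : L → Finset (Fin k))
    (F : L → (Fin k → ℝ) → Finset (Fin k) → Prop)
    (hloc : ∀ l x y A, (∀ e, e ∉ lis l ∨ e ∈ A → x e = y e) → F l x A → F l y A)
    (l : L) (s v : Fin k → ℝ) (order : List (Fin k)) :
    sAccepted (rule lis F) l s v order = greedy (F l (mix (lis l) s v)) ∅ order := by
  have := aux_eq lis F hloc l s v order []
  simpa [greedy, sAccepted] using this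

theorem map_mix {Ω : Type u} [MeasurableSpace Ω] (P : Measure Ω) [IsProbabilityMeasure P]
    (S V : Ω → Fin k → ℝ) (hS : Measurable S) (hV : Measurable V)
    (hind : iIndepFun
      (fun (i : Fin k × Bool) (ω : Ω) => if i.2 = true then S ω i.1 else V ω i.1) P)
    (hlaw : ∀ e, P.map (fun ω => S ω e) = P.map (fun ω => V ω e)) (T : Finset (Fin k)) :
    P.map (fun ω => mix T (S ω) (V ω)) = Measure.pi (fun e => P.map (fun ω => V ω e)) := by
  classical
  have hinj : Function.Injective (fun e : Fin k => (e, decide (e ∉ T))) := by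
    intro a b h; exact (Prod.ext_iff.1 h).1
  have h1 := hind.precomp hinj
  have h2 : iIndepFun (fun (e : Fin k) (ω : Ω) => mix T (S ω) (V ω) e) P := by
    convert h1 using 2 with e ω
    by_cases he : e ∈ T <;> simp [mix, he]
  have hm : ∀ e, Measurable (fun ω => mix T (S ω) (V ω) e) := by
    intro e
    unfold mix
    by_cases he : e ∈ T
    · simp only [he, if_true]; exact (measurable_pi_apply e).comp hV
    · simp only [he, if_false]; exact (measurable_pi_apply e).comp hS
  have h3 := (iIndepFun_iff_map_fun_eq_pi_map (fun e => (hm e).aemeasurable)).1 h2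
  rw [h3]
  congr 1
  funext e
  unfold mix
  by_cases he : e ∈ T
  · simp only [he, if_true]
  · simp only [he, if_false]; exact hlaw e

end Red32

open Red32 in
theorem result_of_core32 (k : ℕ) (M : Matroid (Fin k)) (hc : Core32 k M ((2 : ℝ)⁻¹ ^ 310)) :
    ∃ (ΩR : Type) (_ : MeasurableSpace ΩR) (μR : MeasureTheory.Measure ΩR) (R : SampleRule ΩR k),
      MeasureTheory.IsProbabilityMeasure μR ∧
      (∀ (r : ΩR) (s v : Fin k → ℝ) (order : List (Fin k)),
        M.Indep (sAccepted R r s v order : Set (Fin k))) ∧
      ∀ (Ω : Type u) [MeasurableSpace Ω] (P : MeasureTheory.Measure Ω)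
        [MeasureTheory.IsProbabilityMeasure P] (S V : Ω → Fin k → ℝ),
        Measurable S → Measurable V → (∀ ω e, 0 ≤ S ω e ∧ 0 ≤ V ω e) →
        ProbabilityTheory.iIndepFun
          (fun (i : Fin k × Bool) (ω : Ω) => if i.2 = true then S ω i.1 else V ω i.1) P →
        (∀ e, P.map (fun ω => S ω e) = P.map (fun ω => V ω e)) →
        ∫⁻ ω, optWeight M (V ω) ∂P ≠ ⊤ →
        (2 : ENNReal)⁻¹ ^ 310 * ∫⁻ ω, optWeight M (V ω) ∂P ≤
          ∫⁻ p, ⨅ σ : Equiv.Perm (Fin k),
            ENNReal.ofReal (∑ e ∈ sAccepted R p.1 (S p.2) (V p.2) (List.ofFn σ), V p.2 e)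
            ∂(μR.prod P) := by
  classical
  obtain ⟨L, _, p, lis, F, hp0, hp1, hemp, hsub, hdown, hloc, hmeas, hcore⟩ := hc
  letI : MeasurableSpace L := ⊤
  haveI : DiscreteMeasurableSpace L := ⟨fun _ => trivial⟩
  let μR : Measure L := ∑ l, ENNReal.ofReal (p l) • Measure.dirac l
  have hprob : IsProbabilityMeasure μR := by
    constructor
    simp only [μR, Measure.coe_finset_sum, Finset.sum_apply, Measure.smul_apply,
      measure_univ, smul_eq_mul, mul_one]
    rw [← ENNReal.ofReal_sum_of_nonneg (fun l _ => hp0 l), hp1, ENNReal.ofReal_one]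
  refine ⟨L, ⊤, μR, rule lis F, hprob, ?_, ?_⟩
  · intro r s v order
    rw [acc_eq lis F hloc]
    exact (hsub _ _ _ (greedy_mem _ _ (hemp _ _) _)).2
  intro Ω _ P _ S V hS hV hnn hind hlaw _
  let Mx : L → (Fin k → ℝ) → Finset (Fin k) → Prop := fun l x A =>
    F l x A ∧ ∀ e, e ∉ A → ¬ F l x (insert e A)
  let g : L → (Fin k → ℝ) → ENNReal := fun l x =>
    ⨅ A : Finset (Fin k), if Mx l x A then ENNReal.ofReal (∑ e ∈ A, x e) else ⊤
  have hMx : ∀ l A, MeasurableSet {x | Mx l x A} := by
    intro l A
    have : {x | Mx l x A} = {x | F l x A} ∩ ⋂ e, ⋂ (_ : e ∉ A), {x | F l x (insert e A)}ᶜ := by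
      ext x; simp [Mx]
    rw [this]
    exact (hmeas l A).inter
      (MeasurableSet.iInter fun e => MeasurableSet.iInter fun _ => (hmeas l _).compl)
  have hg : ∀ l, Measurable (g l) := by
    intro l
    refine Measurable.iInf fun A => Measurable.ite (hMx l A) ?_ measurable_const
    exact ENNReal.measurable_ofReal.comp (Finset.measurable_sum _ fun e _ => measurable_pi_apply e)
  have hmixm : ∀ T : Finset (Fin k), Measurable (fun ω => mix T (S ω) (V ω)) := by
    intro T
    refine measurable_pi_lambda _ fun e => ?_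
    unfold mix
    by_cases he : e ∈ T
    · simp only [he, if_true]; exact (measurable_pi_apply e).comp hV
    · simp only [he, if_false]; exact (measurable_pi_apply e).comp hS
  have hVlaw : P.map V = Measure.pi (fun e => P.map (fun ω => V ω e)) := by
    have := map_mix P S V hS hV hind hlaw Finset.univ
    convert this using 2
    funext ω e; simp [mix]
  have hswap : ∀ l, ∫⁻ ω, g l (mix (lis l) (S ω) (V ω)) ∂P = ∫⁻ ω, g l (V ω) ∂P := by
    intro l
    rw [← lintegral_map (hg l) (hmixm _), ← lintegral_map (hg l) hV, hVlaw,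
      map_mix P S V hS hV hind hlaw]
  have hgreedyMx : ∀ l x (order : List (Fin k)), (∀ e, e ∈ order) →
      Mx l x (greedy (F l x) ∅ order) := fun l x order ho =>
    ⟨greedy_mem _ _ (hemp _ _) _, fun e he =>
      greedy_max _ (fun A B => hdown l x A B) _ _ e (ho e) he⟩
  have hpt : ∀ x : Fin k → ℝ, (∀ e, 0 ≤ x e) →
      (2 : ENNReal)⁻¹ ^ 310 * optWeight M x ≤ ∑ l, ENNReal.ofReal (p l) * g l x := by
    intro x hx
    have hex : ∀ l, ∃ A, Mx l x A ∧ ENNReal.ofReal (∑ e ∈ A, x e) ≤ g l x := by
      intro l
      have hne : (Finset.univ.filter (fun A => Mx l x A)).Nonempty :=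
        ⟨_, Finset.mem_filter.2 ⟨Finset.mem_univ _,
          hgreedyMx l x (List.finRange k) (fun e => List.mem_finRange e)⟩⟩
      obtain ⟨A, hA, hmin⟩ := Finset.exists_min_image _ (fun A => ∑ e ∈ A, x e) hne
      refine ⟨A, (Finset.mem_filter.1 hA).2, le_iInf fun B => ?_⟩
      split_ifs with hB
      · exact ENNReal.ofReal_le_ofReal (hmin B (Finset.mem_filter.2 ⟨Finset.mem_univ _, hB⟩))
      · exact le_top
    choose sel hsel hle using hex
    have h2 : (2 : ENNReal)⁻¹ ^ 310 = ENNReal.ofReal ((2 : ℝ)⁻¹ ^ 310) := by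
      rw [ENNReal.ofReal_pow (by norm_num), ENNReal.ofReal_inv_of_pos (by norm_num)]
      simp
    unfold optWeight
    simp only [ENNReal.mul_iSup]
    refine iSup_le fun I => iSup_le fun hI => ?_
    rw [h2, ← ENNReal.ofReal_mul (by positivity)]
    refine le_trans (ENNReal.ofReal_le_ofReal (hcore x hx sel hsel I hI)) ?_
    rw [ENNReal.ofReal_sum_of_nonneg
      (fun l _ => mul_nonneg (hp0 l) (Finset.sum_nonneg fun e _ => hx e))]
    refine Finset.sum_le_sum fun l _ => ?_
    rw [ENNReal.ofReal_mul (hp0 l)]
    gcongr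
    exact hle l
  have hG : Measurable (fun q : L × Ω => g q.1 (mix (lis q.1) (S q.2) (V q.2))) := by
    have : Measurable (fun q : Ω × L => g q.2 (mix (lis q.2) (S q.1) (V q.1))) :=
      measurable_from_prod_countable_left (fun l => (hg l).comp (hmixm (lis l)))
    exact this.comp measurable_swap
  have hopt : Measurable (fun x : Fin k → ℝ => optWeight M x) := by
    unfold optWeight
    refine Measurable.iSup fun I => Measurable.iSup fun _ => ?_
    exact ENNReal.measurable_ofReal.comp (Finset.measurable_sum _ fun e _ => measurable_pi_apply e)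
  calc (2 : ENNReal)⁻¹ ^ 310 * ∫⁻ ω, optWeight M (V ω) ∂P
      = ∫⁻ ω, (2 : ENNReal)⁻¹ ^ 310 * optWeight M (V ω) ∂P :=
        (lintegral_const_mul _ (hopt.comp hV)).symm
    _ ≤ ∫⁻ ω, ∑ l, ENNReal.ofReal (p l) * g l (V ω) ∂P :=
        lintegral_mono fun ω => hpt _ (fun e => (hnn ω e).2)
    _ = ∑ l, ENNReal.ofReal (p l) * ∫⁻ ω, g l (mix (lis l) (S ω) (V ω)) ∂P := by
        have hm : ∀ l ∈ (Finset.univ : Finset L),
            Measurable (fun ω => ENNReal.ofReal (p l) * g l (V ω)) :=
          fun l _ => ((hg l).comp hV).const_mul _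
        rw [lintegral_finset_sum _ hm]
        refine Finset.sum_congr rfl fun l _ => ?_
        rw [hswap l]
        exact lintegral_const_mul _ ((hg l).comp hV)
    _ = ∫⁻ q, g q.1 (mix (lis q.1) (S q.2) (V q.2)) ∂(μR.prod P) := by
        rw [lintegral_prod _ hG.aemeasurable]
        simp only [μR]
        rw [lintegral_finset_sum_measure]
        refine Finset.sum_congr rfl fun l _ => ?_
        rw [lintegral_smul_measure, lintegral_dirac]
        rfl
    _ ≤ _ := by
        refine lintegral_mono fun q => le_iInf fun σ => ?_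
        rw [acc_eq lis F hloc]
        have hM := hgreedyMx q.1 (mix (lis q.1) (S q.2) (V q.2)) (List.ofFn σ)
          (fun e => by
            rw [List.mem_ofFn]
            exact ⟨σ.symm e, by simp⟩)
        refine le_trans (iInf_le _ (greedy (F q.1 (mix (lis q.1) (S q.2) (V q.2))) ∅
          (List.ofFn σ))) ?_
        rw [if_pos hM]
        refine le_of_eq (congrArg _ (Finset.sum_congr rfl fun e he => ?_))
        have := (hsub _ _ _ hM.1).1 he
        simp [mix, this]

end Crest.Agent.R305
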