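import Mathlib

set_option autoImplicit false

namespace Crest.Agent.R305.M63

open MeasureTheory

/-- Round a real number down to a power of `B` (nonpositive numbers go to `0`). -/
noncomputable def rnd (B : ℝ) (t : ℝ) : ℝ := if 0 < t then B ^ (⌊Real.logb B t⌋) else 0

/-- The code of the rounding: `none` for nonpositive numbers, the exponent otherwise. -/
noncomputable def code (B : ℝ) (t : ℝ) : Option ℤ := if 0 < t then some (⌊Real.logb B t⌋) else none

/-- decoding -/
noncomputable def dec (B : ℝ) : Option ℤ → ℝ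
  | none => 0
  | some n => B ^ n

theorem rnd_eq (B t : ℝ) : rnd B t = dec B (code B t) := by
  unfold rnd code
  split_ifs <;> rfl

theorem rnd_form (B t : ℝ) : rnd B t = 0 ∨ ∃ n : ℤ, rnd B t = B ^ n := by
  unfold rnd
  split_ifs
  · exact Or.inr ⟨_, rfl⟩
  · exact Or.inl rfl

theorem rnd_le {B : ℝ} (hB : 1 < B) {t : ℝ} (ht : 0 ≤ t) : rnd B t ≤ t := by
  unfold rnd
  split_ifs with h
  · have h1 : (B : ℝ) ^ ((⌊Real.logb B t⌋ : ℤ) : ℝ) ≤ B ^ (Real.logb B t) :=
      Real.rpow_le_rpow_of_exponent_le hB.le (Int.floor_le _)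
    rw [Real.rpow_logb (by linarith) hB.ne' h, Real.rpow_intCast] at h1
    exact h1
  · exact ht

theorem le_rnd {B : ℝ} (hB : 1 < B) (t : ℝ) : t ≤ B * rnd B t := by
  unfold rnd
  split_ifs with h
  · have h1 : B ^ (Real.logb B t) ≤ (B : ℝ) ^ (((⌊Real.logb B t⌋ + 1 : ℤ)) : ℝ) := by
      apply Real.rpow_le_rpow_of_exponent_le hB.le
      push_cast
      exact (Int.lt_floor_add_one _).le
    rw [Real.rpow_logb (by linarith) hB.ne' h, Real.rpow_intCast,
      zpow_add_one₀ (by linarith)] at h1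
    linarith
  · push Not at h
    simpa using h

theorem measurableSet_code (B : ℝ) (o : Option ℤ) : MeasurableSet {t : ℝ | code B t = o} := by
  have hm : Measurable (fun t : ℝ => ⌊Real.logb B t⌋) := by
    apply Measurable.floor
    unfold Real.logb
    exact Real.measurable_log.div_const _
  cases o with
  | none =>
    have : {t : ℝ | code B t = none} = Set.Iic 0 := by
      ext t
      simp only [code, Set.mem_setOf_eq, Set.mem_Iic]
      split_ifs with h
      · simp [h]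
      · simpa using h
    rw [this]; exact measurableSet_Iic
  | some n =>
    have : {t : ℝ | code B t = some n} = Set.Ioi 0 ∩ (fun t : ℝ => ⌊Real.logb B t⌋) ⁻¹' {n} := by
      ext t
      simp only [code, Set.mem_setOf_eq, Set.mem_inter_iff, Set.mem_Ioi, Set.mem_preimage,
        Set.mem_singleton_iff]
      split_ifs with h
      · simp [h]
      · simp [h]
    rw [this]
    exact measurableSet_Ioi.inter (hm (measurableSet_singleton _))

theorem measurableSet_rnd {k : ℕ} (B : ℝ) (Q : (Fin k → ℝ) → Prop) :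
    MeasurableSet {x : Fin k → ℝ | Q (fun e => rnd B (x e))} := by
  have : {x : Fin k → ℝ | Q (fun e => rnd B (x e))} =
      ⋃ o ∈ {o : Fin k → Option ℤ | Q (fun e => dec B (o e))},
        ⋂ e : Fin k, (fun x : Fin k → ℝ => x e) ⁻¹' {t : ℝ | code B t = o e} := by
    ext x
    simp only [Set.mem_setOf_eq, Set.mem_iUnion, Set.mem_iInter, Set.mem_preimage]
    constructor
    · intro h
      refine ⟨fun e => code B (x e), ?_, fun e => rfl⟩
      simpa only [rnd_eq] using h
    · rintro ⟨o, ho, h⟩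
      simpa only [rnd_eq, h] using ho
  rw [this]
  exact MeasurableSet.biUnion (Set.to_countable _) fun o _ =>
    MeasurableSet.iInter fun e => measurable_pi_apply e (measurableSet_code B (o e))

/-- The finite combinatorial core, weights in `{0} ∪ B ^ ℤ`, no measurability. -/
def Core63 (k : ℕ) (M : Matroid (Fin k)) (B c : ℝ) : Prop :=
  ∃ (L : Type) (_ : Fintype L) (p : L → ℝ) (lis : L → Finset (Fin k))
    (F : L → (Fin k → ℝ) → Finset (Fin k) → Prop),
    (∀ l, 0 ≤ p l) ∧ ∑ l, p l = 1 ∧ (∀ l x, F l x ∅) ∧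
    (∀ l x A, F l x A → A ⊆ lis l ∧ M.Indep (A : Set (Fin k))) ∧
    (∀ l x A A', A' ⊆ A → F l x A → F l x A') ∧
    (∀ l x y A, (∀ e, e ∉ lis l ∨ e ∈ A → x e = y e) → F l x A → F l y A) ∧
    ∀ x : Fin k → ℝ, (∀ e, x e = 0 ∨ ∃ n : ℤ, x e = B ^ n) →
      ∀ sel : L → Finset (Fin k),
        (∀ l, F l x (sel l) ∧ ∀ e, e ∉ sel l → ¬ F l x (insert e (sel l))) →
        ∀ I : Finset (Fin k), M.Indep (I : Set (Fin k)) →
          c * ∑ e ∈ I, x e ≤ ∑ l, p l * ∑ e ∈ sel l, x e

/-- The same core for arbitrary nonnegative weights, with the measurability clause. -/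
def CoreMeas (k : ℕ) (M : Matroid (Fin k)) (c : ℝ) : Prop :=
  ∃ (L : Type) (_ : Fintype L) (p : L → ℝ) (lis : L → Finset (Fin k))
    (F : L → (Fin k → ℝ) → Finset (Fin k) → Prop),
    (∀ l, 0 ≤ p l) ∧ ∑ l, p l = 1 ∧ (∀ l x, F l x ∅) ∧
    (∀ l x A, F l x A → A ⊆ lis l ∧ M.Indep (A : Set (Fin k))) ∧
    (∀ l x A A', A' ⊆ A → F l x A → F l x A') ∧
    (∀ l x y A, (∀ e, e ∉ lis l ∨ e ∈ A → x e = y e) → F l x A → F l y A) ∧
    (∀ l A, MeasurableSet {x : Fin k → ℝ | F l x A}) ∧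
    ∀ x : Fin k → ℝ, (∀ e, 0 ≤ x e) →
      ∀ sel : L → Finset (Fin k),
        (∀ l, F l x (sel l) ∧ ∀ e, e ∉ sel l → ¬ F l x (insert e (sel l))) →
        ∀ I : Finset (Fin k), M.Indep (I : Set (Fin k)) →
          c * ∑ e ∈ I, x e ≤ ∑ l, p l * ∑ e ∈ sel l, x e

theorem coreMeas_of_core63 {k : ℕ} {M : Matroid (Fin k)} {B c c' : ℝ} (hB : 1 < B)
    (hc' : 0 ≤ c') (hc : c' * B ≤ c) (h : Core63 k M B c) : CoreMeas k M c' := by
  obtain ⟨L, hL, p, lis, F, hp, hs, h0, hI, hd, hloc, hmain⟩ := h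
  refine ⟨L, hL, p, lis, fun l x A => F l (fun e => rnd B (x e)) A, hp, hs, fun l x => h0 _ _,
    fun l x A h => hI _ _ _ h, fun l x A A' h1 h2 => hd _ _ _ _ h1 h2, ?_, ?_, ?_⟩
  · intro l x y A h1 h2
    exact hloc l _ _ A (fun e he => by simp only [h1 e he]) h2
  · intro l A
    exact measurableSet_rnd B (fun y => F l y A)
  · intro x hx sel hsel I hIi
    have h1 := hmain (fun e => rnd B (x e)) (fun e => rnd_form B (x e)) sel hsel I hIi
    have h2 : ∑ e ∈ I, x e ≤ B * ∑ e ∈ I, rnd B (x e) := by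
      rw [Finset.mul_sum]
      exact Finset.sum_le_sum fun e _ => le_rnd hB _
    have h3 : 0 ≤ ∑ e ∈ I, rnd B (x e) := by
      apply Finset.sum_nonneg
      intro e _
      rcases rnd_form B (x e) with h | ⟨n, h⟩
      · rw [h]
      · rw [h]; positivity
    have h4 : ∑ l, p l * ∑ e ∈ sel l, rnd B (x e) ≤ ∑ l, p l * ∑ e ∈ sel l, x e :=
      Finset.sum_le_sum fun l _ => mul_le_mul_of_nonneg_left
        (Finset.sum_le_sum fun e _ => rnd_le hB (hx e)) (hp l)
    calc c' * ∑ e ∈ I, x e ≤ c' * (B * ∑ e ∈ I, rnd B (x e)) :=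
          mul_le_mul_of_nonneg_left h2 hc'
      _ = (c' * B) * ∑ e ∈ I, rnd B (x e) := by ring
      _ ≤ c * ∑ e ∈ I, rnd B (x e) := mul_le_mul_of_nonneg_right hc h3
      _ ≤ _ := h1.trans h4

end Crest.Agent.R305.M63
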