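import Crest.Agent.R305.RGDefs55
import Crest.Agent.R305.Round63
import Crest.Agent.R305.Reduce32

/-! Row 305: from the finite windowed core (`SHELL`, `INDEP`, `CORE`) to the statement. -/

set_option autoImplicit false

open Classical Filter

namespace Crest.Agent.R305

universe u

variable {k : ℕ}

/-- class of a weight inside the window `1 .. 2N+1` (heavier weight, smaller class) -/
noncomputable def cls42 (B : ℝ) (N : ℕ) (t : ℝ) : ℕ :=
  if 0 < t then ((N : ℤ) + 1 - ⌊Real.logb B t⌋).toNat else 0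

theorem wt_cls42 (B : ℕ) (hB : 2 ≤ B) (t : ℝ) (ht : t = 0 ∨ ∃ n : ℤ, t = (B : ℝ) ^ n) :
    ∀ᶠ N : ℕ in atTop, wt B (2 * N + 1) (cls42 B N t) * (B : ℝ) ^ (N + 1) = t := by
  have hB1 : (1 : ℝ) < B := by exact_mod_cast (by omega : 1 < B)
  have hB0 : (0 : ℝ) < B := by linarith
  rcases ht with h | ⟨n, h⟩
  · refine Eventually.of_forall fun N => ?_
    simp [cls42, wt, h]
  · filter_upwards [eventually_ge_atTop n.natAbs] with N hN
    have hpos : 0 < t := by rw [h]; exact zpow_pos hB0 n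
    have hlog : ⌊Real.logb (B : ℝ) t⌋ = n := by
      rw [h, ← Real.rpow_intCast, Real.logb_rpow hB0 hB1.ne']
      simp
    have hc : cls42 B N t = ((N : ℤ) + 1 - n).toNat := by
      simp only [cls42, hpos, if_true, hlog]
    have h1 : 1 ≤ cls42 B N t ∧ cls42 B N t ≤ 2 * N + 1 := by
      rw [hc]; omega
    have h2 : ((cls42 B N t : ℕ) : ℤ) = (N : ℤ) + 1 - n := by
      rw [hc]; omega
    simp only [wt, h1, and_self, if_true]
    rw [inv_pow, ← zpow_natCast, ← zpow_natCast, h2, ← zpow_neg, ← zpow_add₀ hB0.ne', h]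
    congr 1
    push_cast
    ring

theorem core63_of_window (M : Matroid (Fin k)) (B : ℕ) (hB : 2 ≤ B) (c0 : ℝ)
    (Λ : Type) [Fintype Λ] (p : Λ → ℝ) (T : Λ → Finset (Fin k))
    (J : ℕ → Λ → (Fin k → ℕ) → Finset (Fin k) → Prop)
    (nonneg : ∀ l, 0 ≤ p l) (total : ∑ l, p l = 1) (hemp : ∀ L l c, J L l c ∅)
    (hloc : ∀ L l (c c' : Fin k → ℕ) (A : Finset (Fin k)),
      (∀ e, e ∉ T l ∨ e ∈ A → c e = c' e) → J L l c A → J L l c' A)
    (hdown : ∀ L l c (A A' : Finset (Fin k)), A' ⊆ A → J L l c A → J L l c A')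
    (hsub : ∀ L l c (A : Finset (Fin k)), J L l c A → A ⊆ T l)
    (hind : ∀ L l c (A : Finset (Fin k)), J L l c A → M.Indep (A : Set (Fin k)))
    (hcore : ∀ (L : ℕ) (c : Fin k → ℕ) (sel : Λ → Finset (Fin k)) (I : Finset (Fin k)),
      M.Indep (I : Set (Fin k)) →
      (∀ l, sel l ⊆ T l ∧ J L l c (sel l) ∧ ∀ e ∈ T l, e ∉ sel l → ¬ J L l c (insert e (sel l))) →
      c0 * ∑ e ∈ I, wt B L (c e) ≤ ∑ l, p l * ∑ e ∈ sel l, wt B L (c e)) :
    M63.Core63 k M (B : ℝ) c0 := by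
  have hB0 : (0 : ℝ) < B := by exact_mod_cast (by omega : 0 < B)
  refine ⟨Λ, inferInstance, p, T, fun l x A =>
    ∀ᶠ N : ℕ in (hyperfilter ℕ : Filter ℕ), J (2 * N + 1) l (fun e => cls42 B N (x e)) A,
    nonneg, total, fun l x => Eventually.of_forall fun N => hemp _ _ _, ?_, ?_, ?_, ?_⟩
  · intro l x A h
    obtain ⟨N, hN⟩ := h.exists
    exact ⟨hsub _ _ _ _ hN, hind _ _ _ _ hN⟩
  · intro l x A A' hA h
    exact h.mono fun N hN => hdown _ _ _ _ _ hA hN
  · intro l x y A hxy h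
    exact h.mono fun N hN => hloc _ _ _ _ _ (fun e he => by rw [hxy e he]) hN
  · intro x hx sel hsel I hI
    have hle : (hyperfilter ℕ : Filter ℕ) ≤ atTop := by
      rw [← Nat.cofinite_eq_atTop]; exact hyperfilter_le_cofinite
    have e1 : ∀ᶠ N : ℕ in (hyperfilter ℕ : Filter ℕ), ∀ l,
        J (2 * N + 1) l (fun e => cls42 B N (x e)) (sel l) :=
      eventually_all.2 fun l => (hsel l).1
    have e2 : ∀ᶠ N : ℕ in (hyperfilter ℕ : Filter ℕ), ∀ l, ∀ e, e ∉ sel l →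
        ¬ J (2 * N + 1) l (fun e => cls42 B N (x e)) (insert e (sel l)) := by
      refine eventually_all.2 fun l => eventually_all.2 fun e => ?_
      by_cases he : e ∈ sel l
      · exact Eventually.of_forall fun N h => absurd he h
      · have := Ultrafilter.eventually_not.2 ((hsel l).2 e he)
        exact this.mono fun N hN _ => hN
    have e3 : ∀ᶠ N : ℕ in (hyperfilter ℕ : Filter ℕ), ∀ e,
        wt B (2 * N + 1) (cls42 B N (x e)) * (B : ℝ) ^ (N + 1) = x e :=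
      eventually_all.2 fun e => (wt_cls42 B hB (x e) (hx e)).filter_mono hle
    obtain ⟨N, h1, h2, h3⟩ := (e1.and (e2.and e3)).exists
    have h := hcore (2 * N + 1) (fun e => cls42 B N (x e)) sel I hI
      (fun l => ⟨hsub _ _ _ _ (h1 l), h1 l, fun e _ he => h2 l e he⟩)
    have hp : (0 : ℝ) ≤ (B : ℝ) ^ (N + 1) := by positivity
    have h' := mul_le_mul_of_nonneg_right h hp
    have a1 : c0 * (∑ e ∈ I, wt B (2 * N + 1) (cls42 B N (x e))) * (B : ℝ) ^ (N + 1)
        = c0 * ∑ e ∈ I, x e := by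
      rw [mul_assoc, Finset.sum_mul]
      exact congrArg _ (Finset.sum_congr rfl fun e _ => h3 e)
    have a2 : (∑ l, p l * ∑ e ∈ sel l, wt B (2 * N + 1) (cls42 B N (x e))) * (B : ℝ) ^ (N + 1)
        = ∑ l, p l * ∑ e ∈ sel l, x e := by
      rw [Finset.sum_mul]
      refine Finset.sum_congr rfl fun l _ => ?_
      rw [mul_assoc, Finset.sum_mul]
      exact congrArg _ (Finset.sum_congr rfl fun e _ => h3 e)
    rw [a1, a2] at h'
    exact h'

theorem core32_of_coreMeas {M : Matroid (Fin k)} {c : ℝ} (h : M63.CoreMeas k M c) :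
    Core32 k M c := by
  obtain ⟨L, hL, p, lis, F, hp, hs, h0, hI, hd, hloc, hm, hmain⟩ := h
  exact ⟨L, hL, p, lis, F, hp, hs, h0, hI, fun l x A B h1 h2 => hd l x B A h2 h1, hloc, hm, hmain⟩

/-- B20 from B4, B5, B15, B17 -/
theorem outer42 (M : Matroid (Fin k)) (hS : SHELL M) (hI : INDEP M) (hG : GREEDY M)
    (hC : CORE M) : OUTER.{u} M := by
  obtain ⟨s1, s2, s3, s4, s5, s6⟩ := hS
  have h63 : M63.Core63 k M ((BB : ℕ) : ℝ) (tt / 32) :=
    core63_of_window M BB (by norm_num [BB]) (tt / 32) (Seed k) pS TS (JS M) s1 s2 s3 s4 s5 s6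
      (fun L l c A h => hI L _ _ _ _ A ((hG L c).2.2.1 l.1) h) hC
  have hm : M63.CoreMeas k M ((2 : ℝ)⁻¹ ^ 310) :=
    M63.coreMeas_of_core63 (by norm_num [BB]) (by positivity) (by
      simp only [BB, tt]
      push_cast
      have h1 : ((2 : ℝ)⁻¹) ^ 310 = (2 : ℝ)⁻¹ ^ 60 * ((2 : ℝ)⁻¹ ^ 75 * (2 : ℝ)⁻¹ ^ 175) := by
        rw [← pow_add, ← pow_add]
      have h2 : ((2 : ℝ)⁻¹) ^ 175 ≤ 1 := pow_le_one₀ (by norm_num) (by norm_num)
      have h3 : (0 : ℝ) ≤ ((2 : ℝ)⁻¹) ^ 175 := by positivity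
      rw [h1]
      generalize ((2 : ℝ)⁻¹) ^ 175 = z at h2 h3
      norm_num
      nlinarith) h63
  exact result_of_core32 k M (core32_of_coreMeas hm)

end Crest.Agent.R305
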