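import Crest.Agent.R305.RGDefs55

/-! Row 305: compression certificate for the chain of maximal maximisers. -/

set_option autoImplicit false

open Classical

namespace Crest.Agent.R305.A46

variable {k : ℕ} {M : Matroid (Fin k)}

theorem dimret (hR : RANK M) {A N : Set (Fin k)} (B : Set (Fin k)) (h : A ⊆ N) :
    rk M (N ∪ B) + rk M A ≤ rk M (A ∪ B) + rk M N := by
  have h1 := hR.2.1 (A ∪ B) N
  have e1 : A ∪ B ∪ N = N ∪ B := by
    ext x; simp only [Set.mem_union]; constructor
    · rintro ((h' | h') | h')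
      · exact Or.inl (h h')
      · exact Or.inr h'
      · exact Or.inl h'
    · rintro (h' | h')
      · exact Or.inr h'
      · exact Or.inl (Or.inr h')
  have h2 : rk M A ≤ rk M ((A ∪ B) ∩ N) := hR.1 _ _ (fun x hx => ⟨Or.inl hx, h hx⟩)
  rw [e1] at h1
  omega

theorem notMem_cl_of_rk (hR : RANK M) {X : Set (Fin k)} {e : Fin k}
    (h : rk M X < rk M (insert e X)) : e ∉ M.closure X := by
  intro he
  have := hR.2.2.2.2.1 X e he
  omega

/-- adding a set independent modulo `N` keeps non-membership below `N` -/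
theorem notMem_cl_union (hR : RANK M) {X N : Set (Fin k)} {e : Fin k} {B : Finset (Fin k)}
    (hX : X ⊆ N) (he : e ∈ N) (heE : e ∈ M.E) (hn : e ∉ M.closure X)
    (hB : rk M (N ∪ ↑B) = rk M N + B.card) : e ∉ M.closure (X ∪ ↑B) := by
  apply notMem_cl_of_rk hR
  have h1 := hR.2.2.2.1 X e heE hn
  have h2 := dimret hR (A := insert e X) (N := N) (↑B) (Set.insert_subset he hX)
  have h3 := hR.2.2.2.2.2.1 X B
  rw [← Set.insert_union]
  omega

theorem indep_erase (hR : RANK M) {X : Set (Fin k)} {B : Finset (Fin k)}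
    (hB : rk M (X ∪ ↑B) = rk M X + B.card) {z : Fin k} (hz : z ∈ B) :
    z ∉ M.closure (X ∪ ↑(B.erase z)) := by
  apply notMem_cl_of_rk hR
  have h3 := hR.2.2.2.2.2.1 X (B.erase z)
  have e1 : insert z (X ∪ ↑(B.erase z)) = X ∪ ↑B := by
    ext x; simp only [Set.mem_insert_iff, Set.mem_union, Finset.mem_coe, Finset.mem_erase]
    constructor
    · rintro (rfl | h | h)
      · exact Or.inr hz
      · exact Or.inl h
      · exact Or.inr h.2
    · rintro (h | h)
      · exact Or.inr (Or.inl h)
      · by_cases hx : x = z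
        · exact Or.inl hx
        · exact Or.inr (Or.inr ⟨hx, h⟩)
  rw [e1]
  have := Finset.card_erase_add_one hz
  omega

theorem exists_basis (hR : RANK M) (X : Set (Fin k)) (Y : Finset (Fin k))
    (hY : (Y : Set (Fin k)) ⊆ M.E) :
    ∃ B : Finset (Fin k), B ⊆ Y ∧ rk M (X ∪ ↑B) = rk M X + B.card ∧
      (Y : Set (Fin k)) ⊆ M.closure (X ∪ ↑B) := by
  induction Y using Finset.induction_on with
  | empty => exact ⟨∅, by simp, by simp, by simp⟩
  | insert e Y he ih =>
    have hY' : (Y : Set (Fin k)) ⊆ M.E := fun x hx => hY (by simp [Finset.mem_coe.1 hx])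
    have heE : e ∈ M.E := hY (by simp)
    obtain ⟨B, hB1, hB2, hB3⟩ := ih hY'
    by_cases h : e ∈ M.closure (X ∪ ↑B)
    · refine ⟨B, hB1.trans (Finset.subset_insert _ _), hB2, ?_⟩
      intro x hx
      rcases Finset.mem_insert.1 (Finset.mem_coe.1 hx) with rfl | hx
      · exact h
      · exact hB3 hx
    · have heB : e ∉ B := fun h' => he (hB1 h')
      refine ⟨insert e B, Finset.insert_subset_insert _ hB1, ?_, ?_⟩
      · rw [Finset.coe_insert, Set.union_insert, hR.2.2.2.1 _ e heE h, hB2,
          Finset.card_insert_of_notMem heB]; omega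
      · intro x hx
        rcases Finset.mem_insert.1 (Finset.mem_coe.1 hx) with rfl | hx
        · exact M.mem_closure_of_mem' (by simp) heE
        · refine M.closure_subset_closure ?_ (hB3 hx)
          intro y hy
          rcases hy with hy | hy
          · exact Or.inl hy
          · exact Or.inr (by simp [Finset.mem_coe.1 hy])

/-- an element spanned by `X ∪ B` but not by `X ∪ (B \ A)` uses some element of `A` -/
theorem exists_circ (hR : RANK M) {X : Set (Fin k)} {B : Finset (Fin k)}
    (hB : rk M (X ∪ ↑B) = rk M X + B.card) {y : Fin k} (A : Finset (Fin k)) (hA : A ⊆ B)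
    (hy : y ∈ M.closure (X ∪ ↑B)) (hn : y ∉ M.closure (X ∪ ↑(B \ A))) :
    ∃ z ∈ A, y ∉ M.closure (X ∪ ↑(B.erase z)) := by
  by_contra hcon
  push Not at hcon
  have hyE : y ∈ M.E := M.closure_subset_ground _ hy
  -- rank of sub-collections
  have hsub : ∀ C : Finset (Fin k), C ⊆ B → rk M (X ∪ ↑C) = rk M X + C.card := by
    intro C hC
    have h1 := hR.2.2.2.2.2.1 X C
    have h2 := hR.2.2.2.2.2.1 (X ∪ ↑C) (B \ C)
    have e1 : X ∪ ↑C ∪ ↑(B \ C) = X ∪ ↑B := by
      rw [Set.union_assoc, ← Finset.coe_union, Finset.union_sdiff_of_subset hC]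
    rw [e1] at h2
    have h3 := Finset.card_sdiff_add_card_eq_card hC
    omega
  have key : ∀ C : Finset (Fin k), C ⊆ A → y ∈ M.closure (X ∪ ↑(B \ C)) := by
    intro C
    induction C using Finset.induction_on with
    | empty => intro _; simpa using hy
    | insert z C hz ih =>
      intro hC
      have hzA : z ∈ A := hC (by simp)
      have h1 := ih ((Finset.subset_insert _ _).trans hC)
      have h2 := hcon z hzA
      by_contra h3
      have r1 := hR.2.2.2.2.1 _ y h1
      have r2 := hR.2.2.2.2.1 _ y h2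
      have r3 := hR.2.2.2.1 _ y hyE h3
      have s := hR.2.1 (insert y (X ∪ ↑(B \ C))) (insert y (X ∪ ↑(B.erase z)))
      have m1 : rk M (X ∪ ↑B) ≤
          rk M (insert y (X ∪ ↑(B \ C)) ∪ insert y (X ∪ ↑(B.erase z))) := by
        apply hR.1
        intro x hx
        rcases hx with hx | hx
        · exact Or.inl (Or.inr (Or.inl hx))
        · by_cases hxz : x = z
          · subst hxz
            exact Or.inl (Or.inr (Or.inr (by
              simp only [Finset.mem_coe, Finset.mem_sdiff]; exact ⟨hx, hz⟩)))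
          · exact Or.inr (Or.inr (Or.inr (by
              simp only [Finset.mem_coe, Finset.mem_erase]; exact ⟨hxz, hx⟩)))
      have m2 : rk M (insert y (X ∪ ↑(B \ insert z C))) ≤
          rk M (insert y (X ∪ ↑(B \ C)) ∩ insert y (X ∪ ↑(B.erase z))) := by
        apply hR.1
        intro x hx
        rcases hx with hx | hx | hx
        · exact ⟨Or.inl hx, Or.inl hx⟩
        · exact ⟨Or.inr (Or.inl hx), Or.inr (Or.inl hx)⟩
        · simp only [Finset.mem_coe, Finset.mem_sdiff, Finset.mem_insert, not_or] at hx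
          exact ⟨Or.inr (Or.inr (by
              simp only [Finset.mem_coe, Finset.mem_sdiff]; exact ⟨hx.1, hx.2.2⟩)),
            Or.inr (Or.inr (by
              simp only [Finset.mem_coe, Finset.mem_erase]; exact ⟨hx.2.1, hx.1⟩))⟩
      have c1 := hsub (B \ C) Finset.sdiff_subset
      have c2 := hsub (B.erase z) (Finset.erase_subset _ _)
      have c3 := hsub (B \ insert z C) Finset.sdiff_subset
      have c4 := Finset.card_erase_add_one (hA hzA)
      have c5 : (B \ insert z C).card + 1 = (B \ C).card := by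
        have : B \ insert z C = (B \ C).erase z := by
          ext x; simp only [Finset.mem_sdiff, Finset.mem_insert, not_or, Finset.mem_erase]; tauto
        rw [this]
        exact Finset.card_erase_add_one (Finset.mem_sdiff.2 ⟨hA hzA, hz⟩)
      omega
  exact hn (key A (Finset.Subset.refl _))

/-- number of `D`-elements in a set -/
noncomputable def cnt (D : Finset (Fin k)) (Q : Set (Fin k)) : ℕ := (D.filter (fun e => e ∈ Q)).card

theorem fval_eq (D : Finset (Fin k)) (Q : Set (Fin k)) :
    fval M D Q = (cnt D Q : ℤ) - (kap : ℤ) * (rk M Q : ℤ) := rfl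

theorem cnt_mono (D : Finset (Fin k)) {Q Q' : Set (Fin k)} (h : Q ⊆ Q') : cnt D Q ≤ cnt D Q' := by
  apply Finset.card_le_card
  intro x hx
  simp only [Finset.mem_filter] at hx ⊢
  exact ⟨hx.1, h hx.2⟩

/-- peeling one layer -/
theorem peel (hR : RANK M) {D : Finset (Fin k)} {P X N : Set (Fin k)} {B : Finset (Fin k)}
    (hPX : P ⊆ X) (hXE : X ⊆ M.E) (hBE : (B : Set (Fin k)) ⊆ M.E)
    (hB : rk M (X ∪ ↑B) = rk M X + B.card) (hN : N = M.closure (X ∪ ↑B))
    (hup : ∀ Q, X ⊆ Q → Q ⊆ M.E → fval M D Q ≤ fval M D N)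
    (hdown : ∀ Q, P ⊆ Q → Q ⊆ M.E → Q ≠ P → fval M D Q < fval M D P)
    (A : Finset (Fin k)) (hA : A ⊆ B) :
    ∃ (f : Fin k → Fin k) (o : Fin k → ℕ), ∀ z ∈ A, f z ∈ D ∧ f z ∈ N ∧
      f z ∉ M.closure (X ∪ ↑(B.erase z)) ∧
      f z ∉ M.closure (P ∪ ↑(A.filter (fun z' => o z ≤ o z'))) := by
  induction A using Finset.strongInduction with
  | H A ih =>
    rcases A.eq_empty_or_nonempty with rfl | hne
    · exact ⟨id, fun _ => 0, by simp⟩
    have hPE : P ⊆ M.E := hPX.trans hXE
    have hAE : (A : Set (Fin k)) ⊆ M.E := fun x hx => hBE (hA hx)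
    set Q1 := M.closure (X ∪ ↑(B \ A)) with hQ1
    set Q2 := M.closure (P ∪ ↑A) with hQ2
    have hXQ1 : X ⊆ Q1 := (Set.subset_union_left).trans (M.subset_closure _ (by
      apply Set.union_subset hXE
      intro x hx; exact hBE (Finset.mem_sdiff.1 hx).1))
    have hPA : P ∪ ↑A ⊆ Q2 := M.subset_closure _ (Set.union_subset hPE hAE)
    have u1 := hup Q1 hXQ1 (M.closure_subset_ground _)
    have hne2 : Q2 ≠ P := by
      obtain ⟨z, hz⟩ := hne
      intro h
      have h1 : z ∈ P := h ▸ hPA (Or.inr hz)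
      exact indep_erase hR hB (hA hz) (M.mem_closure_of_mem' (Or.inl (hPX h1)) (hPE h1))
    have d1 := hdown Q2 (Set.subset_union_left.trans hPA) (M.closure_subset_ground _) hne2
    have r1 : rk M Q1 ≤ rk M X + (B \ A).card := by
      rw [hQ1, hR.2.2.1]; exact hR.2.2.2.2.2.1 _ _
    have r2 : rk M Q2 ≤ rk M P + A.card := by
      rw [hQ2, hR.2.2.1]; exact hR.2.2.2.2.2.1 _ _
    have r3 : rk M N = rk M X + B.card := by rw [hN, hR.2.2.1, hB]
    have c1 := Finset.card_sdiff_add_card_eq_card hA
    have hex : ∃ y, y ∈ D ∧ y ∈ N ∧ y ∉ Q1 ∧ y ∉ Q2 := by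
      by_contra hcon
      push Not at hcon
      have hc : cnt D N + cnt D P ≤ cnt D Q1 + cnt D Q2 := by
        unfold cnt
        rw [← Finset.card_union_add_card_inter (D.filter (fun e => e ∈ Q1))]
        apply Nat.add_le_add
        · apply Finset.card_le_card
          intro x hx
          simp only [Finset.mem_filter, Finset.mem_union] at hx ⊢
          by_cases h : x ∈ Q1
          · exact Or.inl ⟨hx.1, h⟩
          · exact Or.inr ⟨hx.1, hcon x hx.1 hx.2 h⟩
        · apply Finset.card_le_card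
          intro x hx
          simp only [Finset.mem_filter, Finset.mem_inter] at hx ⊢
          exact ⟨⟨hx.1, hXQ1 (hPX hx.2)⟩, hx.1, hPA (Or.inl hx.2)⟩
      rw [fval_eq, fval_eq] at u1 d1
      have k0 : (0 : ℤ) ≤ (kap : ℤ) := by positivity
      have e1 : (rk M Q1 : ℤ) + A.card ≤ rk M N := by omega
      have e2 : (rk M Q2 : ℤ) ≤ rk M P + A.card := by omega
      have e3 : (cnt D N : ℤ) + cnt D P ≤ cnt D Q1 + cnt D Q2 := by exact_mod_cast hc
      nlinarith [mul_le_mul_of_nonneg_left e1 k0, mul_le_mul_of_nonneg_left e2 k0]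
    obtain ⟨y, hyD, hyN, hy1, hy2⟩ := hex
    obtain ⟨z, hzA, hz⟩ := exists_circ hR hB A hA (hN ▸ hyN) hy1
    obtain ⟨f, o, hf⟩ := ih (A.erase z) (Finset.erase_ssubset hzA)
      ((Finset.erase_subset _ _).trans hA)
    refine ⟨fun x => if x = z then y else f x, fun x => if x = z then 0 else o x + 1, ?_⟩
    intro x hx
    by_cases hxz : x = z
    · subst hxz
      simp only [if_true]
      refine ⟨hyD, hyN, hz, fun h => hy2 (M.closure_subset_closure ?_ h)⟩
      apply Set.union_subset_union_right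
      intro w hw
      exact (Finset.mem_filter.1 hw).1
    · simp only [hxz, if_false]
      obtain ⟨g1, g2, g3, g4⟩ := hf x (Finset.mem_erase.2 ⟨hxz, hx⟩)
      refine ⟨g1, g2, g3, fun h => g4 (M.closure_subset_closure ?_ h)⟩
      apply Set.union_subset_union_right
      intro w hw
      simp only [Finset.mem_coe, Finset.mem_filter, Finset.mem_erase] at hw ⊢
      by_cases hwz : w = z
      · simp [hwz] at hw
      · simp only [hwz, if_false] at hw
        exact ⟨⟨hwz, hw.1⟩, by omega⟩

/-- the certificate -/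
structure Cert (M : Matroid (Fin k)) (S N : ℕ → Set (Fin k)) (D : Finset (Fin k)) (K : ℕ)
    (Z : Finset (Fin k)) (b o : Fin k → ℕ) (f : Fin k → Fin k) : Prop where
  hb : ∀ z ∈ Z, b z ≤ K
  hN : ∀ t, t ≤ K → N t = M.closure (S t ∪ ↑(Z.filter (fun z => b z ≤ t)))
  h2 : ∀ z ∈ Z, f z ∉ M.closure (S (b z) ∪ ↑(Z.erase z))
  h3 : ∀ z ∈ Z, f z ∈ N (b z)
  h4 : ∀ z ∈ Z, ∀ t, t + 1 = b z →
    f z ∉ M.closure (N t ∪ ↑(Z.filter (fun z' => b z' = b z ∧ o z ≤ o z')))
  hZ : Z ⊆ D
  hf : ∀ z ∈ Z, f z ∈ D
  hc : kap * Z.card ≤ cnt D (N K)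

/-- one layer: basis and rank facts -/
theorem layer (hR : RANK M) {D : Finset (Fin k)} (hD : (D : Set (Fin k)) ⊆ M.E)
    {X N : Set (Fin k)} (hXN : X ⊆ N) (hNE : N ⊆ M.E) (hcl : M.closure N = N)
    (hup : ∀ Q, X ⊆ Q → Q ⊆ M.E → fval M D Q ≤ fval M D N) :
    ∃ B : Finset (Fin k), B ⊆ D ∧ (B : Set (Fin k)) ⊆ N ∧ rk M (X ∪ ↑B) = rk M X + B.card ∧
      N = M.closure (X ∪ ↑B) ∧ kap * B.card + cnt D X ≤ cnt D N := by
  have hXE : X ⊆ M.E := hXN.trans hNE
  obtain ⟨B, hB1, hB2, hB3⟩ := exists_basis hR X (D.filter (fun e => e ∈ N))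
    (fun x hx => hD (Finset.mem_filter.1 hx).1)
  have hBD : B ⊆ D := fun x hx => (Finset.mem_filter.1 (hB1 hx)).1
  have hBN : (B : Set (Fin k)) ⊆ N := fun x hx => (Finset.mem_filter.1 (hB1 hx)).2
  have hQN : M.closure (X ∪ ↑B) ⊆ N := by
    rw [← hcl]; exact M.closure_subset_closure (Set.union_subset hXN hBN)
  have hXQ : X ∪ ↑B ⊆ M.closure (X ∪ ↑B) :=
    M.subset_closure _ (Set.union_subset hXE (hBN.trans hNE))
  have u1 := hup _ (Set.subset_union_left.trans hXQ) (M.closure_subset_ground _)
  have c1 : cnt D N ≤ cnt D (M.closure (X ∪ ↑B)) := by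
    apply Finset.card_le_card
    intro x hx
    exact Finset.mem_filter.2 ⟨(Finset.mem_filter.1 hx).1, hB3 hx⟩
  have k0 : (0 : ℤ) < (kap : ℤ) := by unfold kap; positivity
  have r1 : rk M N ≤ rk M (M.closure (X ∪ ↑B)) := by
    rw [fval_eq, fval_eq] at u1
    have c2 : (cnt D N : ℤ) ≤ cnt D (M.closure (X ∪ ↑B)) := by exact_mod_cast c1
    have : (kap : ℤ) * rk M N ≤ kap * rk M (M.closure (X ∪ ↑B)) := by linarith
    exact_mod_cast le_of_mul_le_mul_left this k0
  have hNQ : N ⊆ M.closure (X ∪ ↑B) := by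
    have := hR.2.2.2.2.2.2.2.2 _ _ hQN hNE r1
    rwa [M.closure_closure] at this
  have hEq : N = M.closure (X ∪ ↑B) := Set.Subset.antisymm hNQ hQN
  refine ⟨B, hBD, hBN, hB2, hEq, ?_⟩
  have u2 := hup X (Set.Subset.refl _) hXE
  rw [fval_eq, fval_eq] at u2
  have r3 : rk M N = rk M X + B.card := by rw [hEq, hR.2.2.1, hB2]
  rw [r3] at u2
  push_cast at u2
  have : (kap : ℤ) * B.card + cnt D X ≤ cnt D N := by linarith
  exact_mod_cast this

theorem exists_cert (hR : RANK M) (hE : EXPF M) {D : Finset (Fin k)}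
    (hD : (D : Set (Fin k)) ⊆ M.E) {S : ℕ → Set (Fin k)} (hS : ∀ t, S t ⊆ M.E)
    (hm : ∀ t t', t ≤ t' → S t ⊆ S t') (K : ℕ) :
    ∃ Z b o f, Cert M S (fun t => Exp M D (S t)) D K Z b o f := by
  have hSN : ∀ t, S t ⊆ Exp M D (S t) := fun t => (hE D _ (hS t)).1.1
  have hNE : ∀ t, Exp M D (S t) ⊆ M.E := fun t => (hE D _ (hS t)).1.2.1
  have hcl : ∀ t, M.closure (Exp M D (S t)) = Exp M D (S t) := fun t => (hE D _ (hS t)).2.1
  have hmax : ∀ t Q, S t ⊆ Q → Q ⊆ M.E → fval M D Q ≤ fval M D (Exp M D (S t)) :=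
    fun t => (hE D _ (hS t)).1.2.2
  have hNm : ∀ t t', t ≤ t' → Exp M D (S t) ⊆ Exp M D (S t') :=
    fun t t' h => (hE D _ (hS t)).2.2.2.1 _ (hm t t' h) (hS t')
  induction K with
  | zero =>
    obtain ⟨B, hBD, hBN, hB, hEq, hc⟩ := layer hR hD (hSN 0) (hNE 0) (hcl 0) (hmax 0)
    refine ⟨B, fun _ => 0, fun _ => 0, id, ⟨fun _ _ => le_rfl, ?_, ?_, ?_, ?_, hBD, hBD, ?_⟩⟩
    · intro t ht
      obtain rfl : t = 0 := by omega
      simpa using hEq
    · intro z hz; exact indep_erase hR hB hz
    · intro z hz; exact hBN hz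
    · intro z _ t ht; omega
    · omega
  | succ K ih =>
    obtain ⟨Z, b, o, f, C⟩ := ih
    set P := Exp M D (S K) with hP
    set N := Exp M D (S (K + 1)) with hNdef
    have hXN : S (K + 1) ∪ P ⊆ N := Set.union_subset (hSN _) (hNm K (K + 1) (by omega))
    have hup : ∀ Q, S (K + 1) ∪ P ⊆ Q → Q ⊆ M.E → fval M D Q ≤ fval M D N :=
      fun Q h1 h2 => hmax (K + 1) Q (Set.subset_union_left.trans h1) h2
    obtain ⟨B, hBD, hBN, hB, hEq, hc⟩ := layer hR hD hXN (hNE _) (hcl _) hup
    have hXE : S (K + 1) ∪ P ⊆ M.E := hXN.trans (hNE _)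
    obtain ⟨g, o', hg⟩ := peel hR (D := D) (P := P) Set.subset_union_right hXE
      (hBN.trans (hNE _)) hB hEq hup (hE D _ (hS K)).2.2.2.2 B (Finset.Subset.refl _)
    have hZE : (Z : Set (Fin k)) ⊆ M.E := fun x hx => hD (C.hZ hx)
    have hPZ : P = M.closure (S K ∪ ↑Z) := by
      have := C.hN K le_rfl
      rw [Finset.filter_true_of_mem (fun z hz => C.hb z hz)] at this
      exact this
    have hZP : (Z : Set (Fin k)) ⊆ P := by
      rw [hPZ]
      exact Set.subset_union_right.trans (M.subset_closure _ (Set.union_subset (hS K) hZE))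
    have hdisj : ∀ z ∈ B, z ∉ Z := by
      intro z hz hzZ
      exact indep_erase hR hB hz (M.mem_closure_of_mem' (Or.inl (Or.inr (hZP hzZ))) (hZE hzZ))
    have hBP : rk M (P ∪ ↑B) = rk M P + B.card := by
      have h1 := dimret hR (A := P) (N := S (K + 1) ∪ P) (↑B) Set.subset_union_right
      have h2 := hR.2.2.2.2.2.1 P B
      omega
    refine ⟨Z ∪ B, fun z => if z ∈ Z then b z else K + 1, fun z => if z ∈ Z then o z else o' z,
      fun z => if z ∈ Z then f z else g z, ⟨?_, ?_, ?_, ?_, ?_, ?_, ?_, ?_⟩⟩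
    · intro z _
      by_cases h : z ∈ Z
      · simp only [h, if_true]; have := C.hb z h; omega
      · simp [h]
    · intro t ht
      rcases Nat.lt_or_ge t (K + 1) with h | h
      · have := C.hN t (by omega)
        rw [this]
        congr 3
        ext z
        simp only [Finset.mem_filter, Finset.mem_union]
        by_cases hz : z ∈ Z
        · simp [hz]
        · simp only [hz, false_and, false_or, if_false, false_iff, not_and]
          intro _; omega
      · obtain rfl : t = K + 1 := by omega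
        have e1 : (Z ∪ B).filter (fun z => (if z ∈ Z then b z else K + 1) ≤ K + 1) = Z ∪ B := by
          apply Finset.filter_true_of_mem
          intro z _
          by_cases h : z ∈ Z
          · simp only [h, if_true]; have := C.hb z h; omega
          · simp [h]
        rw [e1]
        show N = _
        rw [hEq]
        apply Set.Subset.antisymm
        · apply M.closure_subset_closure_of_subset_closure
          have hsub : S (K + 1) ∪ ↑(Z ∪ B) ⊆ M.closure (S (K + 1) ∪ ↑(Z ∪ B)) := by
            refine M.subset_closure _ ?_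
            rw [Finset.coe_union]
            exact Set.union_subset (hS _) (Set.union_subset hZE (hBN.trans (hNE _)))
          intro x hx
          rcases hx with (hx | hx) | hx
          · exact hsub (Or.inl hx)
          · rw [hPZ] at hx
            refine M.closure_subset_closure ?_ hx
            apply Set.union_subset_union (hm K (K + 1) (by omega))
            intro y hy; simp [Finset.mem_coe.1 hy]
          · exact hsub (Or.inr (by simp [Finset.mem_coe.1 hx]))
        · apply M.closure_subset_closure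
          intro x hx
          rcases hx with hx | hx
          · exact Or.inl (Or.inl hx)
          · rcases Finset.mem_union.1 (Finset.mem_coe.1 hx) with hx | hx
            · exact Or.inl (Or.inr (hZP hx))
            · exact Or.inr hx
    · intro z hz
      by_cases h : z ∈ Z
      · simp only [h, if_true]
        have hbz := C.hb z h
        have h1 := notMem_cl_union hR (X := S (b z) ∪ ↑(Z.erase z)) (N := P) (B := B)
          (Set.union_subset ((hm _ _ hbz).trans (hSN K))
            (fun x hx => hZP (Finset.mem_of_mem_erase hx)))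
          (hNm _ _ hbz (C.h3 z h)) (hD (C.hf z h)) (C.h2 z h) hBP
        refine fun h' => h1 (M.closure_subset_closure ?_ h')
        intro x hx
        rcases hx with hx | hx
        · exact Or.inl (Or.inl hx)
        · simp only [Finset.mem_coe, Finset.mem_erase, Finset.mem_union] at hx
          rcases hx.2 with h2 | h2
          · exact Or.inl (Or.inr (by simp [hx.1, h2]))
          · exact Or.inr h2
      · simp only [h, if_false]
        have hzB : z ∈ B := by simpa [h] using hz
        refine fun h' => (hg z hzB).2.2.1 (M.closure_subset_closure ?_ h')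
        intro x hx
        rcases hx with hx | hx
        · exact Or.inl (Or.inl hx)
        · simp only [Finset.mem_coe, Finset.mem_erase, Finset.mem_union] at hx
          rcases hx.2 with h2 | h2
          · exact Or.inl (Or.inr (hZP h2))
          · exact Or.inr (by simp [hx.1, h2])
    · intro z hz
      by_cases h : z ∈ Z
      · simp only [h, if_true]; exact C.h3 z h
      · simp only [h, if_false]
        have hzB : z ∈ B := by simpa [h] using hz
        exact (hg z hzB).2.1
    · intro z hz t ht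
      by_cases h : z ∈ Z
      · simp only [h, if_true] at ht ⊢
        refine fun h' => C.h4 z h t ht (M.closure_subset_closure ?_ h')
        apply Set.union_subset_union_right
        intro x hx
        simp only [Finset.mem_coe, Finset.mem_filter, Finset.mem_union] at hx ⊢
        by_cases hxZ : x ∈ Z
        · simpa [hxZ] using hx
        · exfalso
          have := C.hb z h
          simp only [hxZ, if_false] at hx
          omega
      · simp only [h, if_false] at ht ⊢
        have hzB : z ∈ B := by simpa [h] using hz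
        obtain rfl : t = K := by omega
        refine fun h' => (hg z hzB).2.2.2 (M.closure_subset_closure ?_ h')
        apply Set.union_subset_union_right
        intro x hx
        simp only [Finset.mem_coe, Finset.mem_filter, Finset.mem_union] at hx ⊢
        by_cases hxZ : x ∈ Z
        · exfalso
          have := C.hb x hxZ
          simp only [hxZ, if_true] at hx
          omega
        · simpa [hxZ] using hx
    · exact Finset.union_subset C.hZ hBD
    · intro z hz
      by_cases h : z ∈ Z
      · simp only [h, if_true]; exact C.hf z h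
      · simp only [h, if_false]
        have hzB : z ∈ B := by simpa [h] using hz
        exact (hg z hzB).1
    · have h1 := C.hc
      have h2 : cnt D P ≤ cnt D (S (K + 1) ∪ P) := cnt_mono D Set.subset_union_right
      have h3 := Finset.card_union_le Z B
      have h4 : kap * (Z ∪ B).card ≤ kap * Z.card + kap * B.card := by
        rw [← Nat.mul_add]; exact Nat.mul_le_mul_left _ h3
      show kap * (Z ∪ B).card ≤ cnt D N
      have h5 : kap * Z.card ≤ cnt D P := h1
      omega

theorem card_filter_of_mult {Z : Finset (Fin k)} {f f' : Fin k → Fin k}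
    (h : ∀ x, (Z.filter (fun z => f z = x)).card = (Z.filter (fun z => f' z = x)).card)
    (Q : Set (Fin k)) :
    (Z.filter (fun z => f z ∈ Q)).card = (Z.filter (fun z => f' z ∈ Q)).card := by
  have key : ∀ g : Fin k → Fin k, (Z.filter (fun z => g z ∈ Q)).card =
      ∑ x ∈ Finset.univ.filter (fun x => x ∈ Q), (Z.filter (fun z => g z = x)).card := by
    intro g
    rw [Finset.card_eq_sum_card_fiberwise (f := g) (t := Finset.univ.filter (fun x => x ∈ Q))]
    · apply Finset.sum_congr rfl
      intro x hx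
      congr 1
      ext z
      simp only [Finset.mem_filter, Finset.mem_univ, true_and] at hx ⊢
      constructor
      · rintro ⟨⟨h1, _⟩, h3⟩; exact ⟨h1, h3⟩
      · rintro ⟨h1, h3⟩; exact ⟨⟨h1, h3 ▸ hx⟩, h3⟩
    · intro z hz
      simp only [Finset.coe_filter, Set.mem_setOf_eq, Finset.mem_univ, true_and] at hz ⊢
      exact hz.2
  rw [key f, key f']
  exact Finset.sum_congr rfl (fun x _ => h x)

theorem cert_step {S N N' : ℕ → Set (Fin k)} (hm : ∀ t t', t ≤ t' → S t ⊆ S t')
    {D D' : Finset (Fin k)} {K : ℕ} {Z : Finset (Fin k)} {b o b' o' : Fin k → ℕ}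
    {f f' : Fin k → Fin k} (C : Cert M S N D K Z b o f) (C' : Cert M S N' D' K Z b' o' f')
    (h : ∀ x, (Z.filter (fun z => f z = x)).card = (Z.filter (fun z => f' z = x)).card)
    (t : ℕ) (ih : ∀ z ∈ Z, b z < t → b' z ≤ t) : ∀ z ∈ Z, b' z ≤ t → b z ≤ t := by
  set Z2 := Z.filter (fun z => b' z ≤ t) with hZ2
  set Q := M.closure (S t ∪ ↑Z2) with hQ
  have s1 : Z.filter (fun z => f z ∈ Q) ⊆ Z2 := by
    intro z hz
    obtain ⟨hzZ, hzQ⟩ := Finset.mem_filter.1 hz
    by_contra hn
    rcases Nat.lt_or_ge (b z) t with h1 | h1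
    · exact hn (Finset.mem_filter.2 ⟨hzZ, ih z hzZ h1⟩)
    · refine C.h2 z hzZ (M.closure_subset_closure ?_ hzQ)
      apply Set.union_subset_union (hm _ _ h1)
      intro x hx
      have hx' : x ∈ Z2 := hx
      refine Finset.mem_erase.2 ⟨fun e => hn (e ▸ hx'), (Finset.mem_filter.1 hx').1⟩
  have s2 : Z2 ⊆ Z.filter (fun z => f' z ∈ Q) := by
    intro z hz
    obtain ⟨hzZ, hzb⟩ := Finset.mem_filter.1 hz
    refine Finset.mem_filter.2 ⟨hzZ, ?_⟩
    have h1 := C'.h3 z hzZ
    rw [C'.hN _ (C'.hb z hzZ)] at h1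
    refine M.closure_subset_closure ?_ h1
    apply Set.union_subset_union (hm _ _ hzb)
    intro x hx
    obtain ⟨h2, h3⟩ := Finset.mem_filter.1 (Finset.mem_coe.1 hx)
    exact Finset.mem_coe.2 (Finset.mem_filter.2 ⟨h2, h3.trans hzb⟩)
  have e1 : Z.filter (fun z => f z ∈ Q) = Z2 := by
    apply Finset.eq_of_subset_of_card_le s1
    rw [card_filter_of_mult h Q]
    exact Finset.card_le_card s2
  by_contra hcon
  push Not at hcon
  obtain ⟨z0, hz0, hz0b, hz0t⟩ := hcon
  have hne : Z2.Nonempty := ⟨z0, Finset.mem_filter.2 ⟨hz0, hz0b⟩⟩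
  obtain ⟨z1, hz1, hmax⟩ := Finset.exists_max_image Z2 b hne
  have hne2 : (Z2.filter (fun z => b z = b z1)).Nonempty :=
    ⟨z1, Finset.mem_filter.2 ⟨hz1, rfl⟩⟩
  obtain ⟨z, hz, hmin⟩ := Finset.exists_min_image _ o hne2
  obtain ⟨hzZ2, hzb⟩ := Finset.mem_filter.1 hz
  have hzZ : z ∈ Z := (Finset.mem_filter.1 hzZ2).1
  have hl : t < b z := by
    have := hmax z0 (Finset.mem_filter.2 ⟨hz0, hz0b⟩); omega
  have hfz : f z ∈ Q := by
    have : z ∈ Z.filter (fun z => f z ∈ Q) := e1 ▸ hzZ2
    exact (Finset.mem_filter.1 this).2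
  obtain ⟨l, hl'⟩ : ∃ l, l + 1 = b z := ⟨b z - 1, by omega⟩
  refine C.h4 z hzZ l hl' ?_
  have hbK := C.hb z hzZ
  rw [C.hN l (by omega), M.closure_union_closure_left_eq]
  refine M.closure_subset_closure ?_ hfz
  intro x hx
  rcases hx with hx | hx
  · exact Or.inl (Or.inl (hm t l (by omega) hx))
  · have hx' : x ∈ Z2 := hx
    have hxZ : x ∈ Z := (Finset.mem_filter.1 hx').1
    have h1 := hmax x hx'
    rcases Nat.lt_or_ge (b x) (b z) with h2 | h2
    · exact Or.inl (Or.inr (Finset.mem_coe.2 (Finset.mem_filter.2 ⟨hxZ, by omega⟩)))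
    · refine Or.inr (Finset.mem_coe.2 (Finset.mem_filter.2 ⟨hxZ, by omega, ?_⟩))
      exact hmin x (Finset.mem_filter.2 ⟨hx', by omega⟩)

theorem cert_unique {S N N' : ℕ → Set (Fin k)} (hm : ∀ t t', t ≤ t' → S t ⊆ S t')
    {D D' : Finset (Fin k)} {K : ℕ} {Z : Finset (Fin k)} {b o b' o' : Fin k → ℕ}
    {f f' : Fin k → Fin k} (C : Cert M S N D K Z b o f) (C' : Cert M S N' D' K Z b' o' f')
    (h : ∀ x, (Z.filter (fun z => f z = x)).card = (Z.filter (fun z => f' z = x)).card) :
    ∀ t, t ≤ K → N t = N' t := by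
  have key : ∀ t, ∀ z ∈ Z, (b z ≤ t ↔ b' z ≤ t) := by
    intro t
    induction t using Nat.strong_induction_on with
    | _ t ih =>
      intro z hz
      constructor
      · refine cert_step hm C' C (fun x => (h x).symm) t ?_ z hz
        intro w hw hlt
        have := (ih (b' w) hlt w hw).2 le_rfl
        omega
      · refine cert_step hm C C' h t ?_ z hz
        intro w hw hlt
        have := (ih (b w) hlt w hw).1 le_rfl
        omega
  intro t ht
  rw [C.hN t ht, C'.hN t ht, Finset.filter_congr (fun z hz => key t z hz)]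

/-- compression: a small integer code determines the chain -/
theorem compress (hR : RANK M) (hE : EXPF M) (U : Finset (Fin k))
    (hU : (U : Set (Fin k)) ⊆ M.E) {S : ℕ → Set (Fin k)} (hS : ∀ t, S t ⊆ M.E)
    (hm : ∀ t t', t ≤ t' → S t ⊆ S t') (K : ℕ) :
    ∃ y : Finset (Fin k) → Fin k → ℕ, (∀ D e, e ∉ U → y D e = 0) ∧
      (∀ D, kap * ∑ e, y D e ≤ 3 * U.card) ∧
      ∀ D D', y D = y D' → ∀ t, t ≤ K → Exp M (D ∩ U) (S t) = Exp M (D' ∩ U) (S t) := by
  have hD : ∀ D : Finset (Fin k), ((D ∩ U : Finset (Fin k)) : Set (Fin k)) ⊆ M.E :=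
    fun D x hx => hU (Finset.mem_inter.1 hx).2
  choose Z b o f C using fun D => exists_cert hR hE (hD D) hS hm K
  refine ⟨fun D e => (if e ∈ Z D then 1 else 0) + 2 * ((Z D).filter (fun z => f D z = e)).card,
    ?_, ?_, ?_⟩
  · intro D e he
    have h1 : e ∉ Z D := fun h => he (Finset.mem_inter.1 ((C D).hZ h)).2
    have h2 : (Z D).filter (fun z => f D z = e) = ∅ := by
      apply Finset.filter_eq_empty_iff.2
      intro z hz h
      exact he (h ▸ (Finset.mem_inter.1 ((C D).hf z hz)).2)
    simp [h1, h2]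
  · intro D
    have h1 : ∑ e, ((Z D).filter (fun z => f D z = e)).card = (Z D).card :=
      (Finset.card_eq_sum_card_fiberwise (f := f D) (t := Finset.univ)
        (fun _ _ => Finset.mem_coe.2 (Finset.mem_univ _))).symm
    have h2 : ∑ e, (if e ∈ Z D then 1 else 0) = (Z D).card := by simp
    rw [Finset.sum_add_distrib, ← Finset.mul_sum, h1, h2]
    have h3 := (C D).hc
    have h4 : cnt (D ∩ U) (Exp M (D ∩ U) (S K)) ≤ U.card :=
      Finset.card_le_card (fun x hx => (Finset.mem_inter.1 (Finset.mem_filter.1 hx).1).2)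
    have h5 : kap * (Z D).card ≤ U.card := h3.trans h4
    nlinarith
  · intro D D' hy
    have hy' : ∀ e, (if e ∈ Z D then 1 else 0) + 2 * ((Z D).filter (fun z => f D z = e)).card =
        (if e ∈ Z D' then 1 else 0) + 2 * ((Z D').filter (fun z => f D' z = e)).card :=
      fun e => congrFun hy e
    have hZ : Z D = Z D' := by
      ext e
      have := hy' e
      by_cases h1 : e ∈ Z D <;> by_cases h2 : e ∈ Z D' <;> simp only [h1, h2, if_true, if_false]
        at this ⊢ <;> omega
    have C' := C D'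
    rw [← hZ] at C'
    refine cert_unique hm (C D) C' ?_
    intro x
    have := hy' x
    rw [← hZ] at this
    omega

end Crest.Agent.R305.A46
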