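import Crest.Agent.R305.RGDefs55

set_option autoImplicit false

open Classical

namespace Crest.Agent.R305.C53

variable {k : ℕ}

/-- previous member of a chain -/
def prev (N : ℕ → Set (Fin k)) : ℕ → Set (Fin k)
  | 0 => ∅
  | t + 1 => N t

/-- one removal step -/
theorem rem_one (M : Matroid (Fin k)) {X Y : Set (Fin k)} {a y : Fin k}
    (hy : y ∈ M.closure (insert a X)) (hX : X ⊆ M.closure Y) (hyY : y ∈ M.closure Y)
    (ha : a ∉ M.closure Y) : y ∈ M.closure X := by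
  by_contra h
  have h1 := (Matroid.closure_exchange (M := M) ⟨hy, h⟩).1
  apply ha
  refine Matroid.closure_subset_closure_of_subset_closure (M := M) ?_ h1
  exact Set.insert_subset hyY hX

structure Cert (M : Matroid (Fin k)) (S N : ℕ → Set (Fin k)) (Z : ℕ → Finset (Fin k))
    (y : ℕ → Fin k → Fin k) : Prop where
  hS : ∀ t, S t ⊆ M.E
  hZ : ∀ t, (Z t : Set (Fin k)) ⊆ M.E
  hN : ∀ t, N t = M.closure (S t ∪ prev N t ∪ ↑(Z t))
  hind : ∀ t, ∀ z ∈ Z t, z ∉ M.closure (S t ∪ prev N t ∪ ↑((Z t).erase z))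
  hy1 : ∀ t, ∀ z ∈ Z t, y t z ∈ N t
  hy2 : ∀ t, ∀ z ∈ Z t, y t z ∉ M.closure (S t ∪ prev N t ∪ ↑((Z t).erase z))
  hy3 : ∀ t, ∀ W : Finset (Fin k), W ⊆ Z (t + 1) → W.Nonempty →
    ∃ z ∈ W, y (t + 1) z ∉ M.closure (N t ∪ ↑W)

namespace Cert

variable {M : Matroid (Fin k)} {S N : ℕ → Set (Fin k)} {Z : ℕ → Finset (Fin k)}
  {y : ℕ → Fin k → Fin k}

theorem NE (h : Cert M S N Z y) (t : ℕ) : N t ⊆ M.E := by
  rw [h.hN t]; exact M.closure_subset_ground _

theorem PE (h : Cert M S N Z y) (t : ℕ) : prev N t ⊆ M.E := by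
  cases t with
  | zero => exact Set.empty_subset _
  | succ t => exact h.NE t

theorem base_sub (h : Cert M S N Z y) (t : ℕ) : S t ∪ prev N t ∪ ↑(Z t) ⊆ N t := by
  conv_rhs => rw [h.hN t]
  exact M.subset_closure _ (Set.union_subset (Set.union_subset (h.hS t) (h.PE t)) (h.hZ t))

theorem clN (h : Cert M S N Z y) (t : ℕ) : M.closure (N t) = N t := by
  conv_lhs => rw [h.hN t]
  rw [M.closure_closure, ← h.hN t]

theorem mono (h : Cert M S N Z y) {t t' : ℕ} (ht : t ≤ t') : N t ⊆ N t' := by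
  induction t', ht using Nat.le_induction with
  | base => exact subset_rfl
  | succ n _ ih =>
    exact ih.trans fun x hx => h.base_sub (n + 1) (Or.inl (Or.inr hx))

theorem N_sub_prev (h : Cert M S N Z y) {t l : ℕ} (ht : t < l) : N t ⊆ prev N l := by
  cases l with
  | zero => omega
  | succ l => exact h.mono (by omega)

theorem prev_sub_prev (h : Cert M S N Z y) {t l : ℕ} (ht : t ≤ l) : prev N t ⊆ prev N l := by
  cases t with
  | zero => exact Set.empty_subset _
  | succ t => exact h.N_sub_prev (by omega)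

theorem Z_sub (h : Cert M S N Z y) (t : ℕ) {z : Fin k} (hz : z ∈ Z t) : z ∈ N t :=
  h.base_sub t (Or.inr hz)

theorem sub_cl (h : Cert M S N Z y) (t : ℕ) (W : Finset (Fin k)) (hW : W ⊆ Z t) :
    S t ∪ prev N t ∪ ↑W ⊆ M.closure (S t ∪ prev N t ∪ ↑W) :=
  M.subset_closure _ (Set.union_subset (Set.union_subset (h.hS t) (h.PE t))
    (fun _ hx => h.hZ t (hW hx)))

theorem Z_not_prev (h : Cert M S N Z y) (t : ℕ) {z : Fin k} (hz : z ∈ Z t) : z ∉ prev N t :=
  fun hp => h.hind t z hz (h.sub_cl t _ (Finset.erase_subset _ _) (Or.inl (Or.inr hp)))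

theorem y_not_prev (h : Cert M S N Z y) (t : ℕ) {z : Fin k} (hz : z ∈ Z t) : y t z ∉ prev N t :=
  fun hp => h.hy2 t z hz (h.sub_cl t _ (Finset.erase_subset _ _) (Or.inl (Or.inr hp)))

theorem uniq (h : Cert M S N Z y) {t l : ℕ} {z : Fin k} (h1 : z ∈ Z t) (h2 : z ∈ Z l) :
    t = l := by
  rcases lt_trichotomy t l with hlt | heq | hgt
  · exact absurd (h.N_sub_prev hlt (h.Z_sub t h1)) (h.Z_not_prev l h2)
  · exact heq
  · exact absurd (h.N_sub_prev hgt (h.Z_sub l h2)) (h.Z_not_prev t h1)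

/-- later generators can be dropped -/
theorem drop_later (h : Cert M S N Z y) (l : ℕ) (X : Set (Fin k)) (hX : X ⊆ N l) (v : Fin k)
    (hv : v ∈ N l) (W : Finset (Fin k)) :
    (∀ w ∈ W, ∃ j, l < j ∧ w ∈ Z j) → v ∈ M.closure (X ∪ ↑W) → v ∈ M.closure X := by
  induction W using Finset.strongInduction with
  | H W ih =>
    intro hW hvW
    rcases W.eq_empty_or_nonempty with rfl | hne
    · simpa using hvW
    · choose! j hj using hW
      obtain ⟨w, hw, hmax⟩ := W.exists_max_image j hne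
      refine ih (W.erase w) (Finset.erase_ssubset hw) (fun x hx => ⟨j x, hj x (Finset.mem_of_mem_erase hx)⟩) ?_
      have hlt := (hj w hw).1
      have hcl := h.sub_cl (j w) ((Z (j w)).erase w) (Finset.erase_subset _ _)
      refine rem_one M (a := w) (Y := S (j w) ∪ prev N (j w) ∪ ↑((Z (j w)).erase w)) ?_ ?_ ?_
        (h.hind _ w (hj w hw).2)
      · refine M.closure_subset_closure ?_ hvW
        intro x hx
        rcases hx with hx | hx
        · exact Or.inr (Or.inl hx)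
        · by_cases hxw : x = w
          · exact Or.inl hxw
          · exact Or.inr (Or.inr (Finset.mem_erase.2 ⟨hxw, hx⟩))
      · intro x hx
        apply hcl
        rcases hx with hx | hx
        · exact Or.inl (Or.inr (h.N_sub_prev hlt (hX hx)))
        · have hx' := Finset.mem_erase.1 (Finset.mem_coe.1 hx)
          rcases lt_or_eq_of_le (hmax x hx'.2) with h1 | h1
          · exact Or.inl (Or.inr (h.N_sub_prev h1 (h.Z_sub _ (hj x hx'.2).2)))
          · refine Or.inr (Finset.mem_coe.2 (Finset.mem_erase.2 ⟨hx'.1, ?_⟩))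
            rw [← h1]; exact (hj x hx'.2).2
      · exact hcl (Or.inl (Or.inr (h.N_sub_prev hlt hv)))

/-- a spanned witness has its generator in `W` -/
theorem mem_of_span (h : Cert M S N Z y) (hSm : ∀ t t', t ≤ t' → S t ⊆ S t') {t l : ℕ}
    (htl : t ≤ l) (W : Finset (Fin k)) (hW : ∀ w ∈ W, ∃ j, w ∈ Z j) {z : Fin k} (hz : z ∈ Z l)
    (hs : y l z ∈ M.closure (S t ∪ prev N t ∪ ↑W)) : z ∈ W := by
  by_contra hzW
  apply h.hy2 l z hz
  refine h.drop_later l (S l ∪ prev N l ∪ ↑((Z l).erase z)) ?_ _ (h.hy1 l z hz)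
    (W.filter (fun w => ∃ j, l < j ∧ w ∈ Z j)) (fun w hw => (Finset.mem_filter.1 hw).2) ?_
  · refine subset_trans ?_ (h.base_sub l)
    exact Set.union_subset_union_right _ (Finset.coe_subset.2 (Finset.erase_subset _ _))
  · refine M.closure_subset_closure ?_ hs
    intro x hx
    rcases hx with (hx | hx) | hx
    · exact Or.inl (Or.inl (Or.inl (hSm _ _ htl hx)))
    · exact Or.inl (Or.inl (Or.inr (h.prev_sub_prev htl hx)))
    · obtain ⟨j, hj⟩ := hW x hx
      rcases lt_trichotomy j l with h1 | h1 | h1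
      · exact Or.inl (Or.inl (Or.inr (h.N_sub_prev h1 (h.Z_sub _ hj))))
      · subst h1
        refine Or.inl (Or.inr (Finset.mem_coe.2 (Finset.mem_erase.2 ⟨?_, hj⟩)))
        rintro rfl; exact hzW hx
      · exact Or.inr (Finset.mem_coe.2 (Finset.mem_filter.2 ⟨hx, j, h1, hj⟩))

/-- a fully witnessed set lies in the current batch -/
theorem sub_batch (h : Cert M S N Z y) {t : ℕ} (W : Finset (Fin k))
    (hW : ∀ w ∈ W, ∃ j, t ≤ j ∧ w ∈ Z j ∧ y j w ∈ M.closure (S t ∪ prev N t ∪ ↑W)) :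
    W ⊆ Z t := by
  rcases W.eq_empty_or_nonempty with rfl | hne
  · exact Finset.empty_subset _
  choose! j hj using hW
  obtain ⟨w, hw, hmax⟩ := W.exists_max_image j hne
  rcases lt_or_eq_of_le (hj w hw).1 with hlt | heq
  · exfalso
    obtain ⟨l, hl⟩ : ∃ l, j w = l + 1 := ⟨j w - 1, by omega⟩
    obtain ⟨z, hz, hzn⟩ := h.hy3 l (W.filter (fun x => j x = l + 1))
      (fun x hx => by
        have := Finset.mem_filter.1 hx
        rw [← this.2]; exact (hj x this.1).2.1)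
      ⟨w, Finset.mem_filter.2 ⟨hw, hl⟩⟩
    have hz' := Finset.mem_filter.1 hz
    apply hzn
    have h3 := (hj z hz'.1).2.2
    rw [hz'.2] at h3
    refine M.closure_subset_closure ?_ h3
    intro x hx
    have htl : t ≤ l := by omega
    rcases hx with hx | hx
    · exact Or.inl (h.mono htl (h.base_sub t (Or.inl hx)))
    · by_cases hxl : j x = l + 1
      · exact Or.inr (Finset.mem_coe.2 (Finset.mem_filter.2 ⟨hx, hxl⟩))
      · have := hmax x hx
        exact Or.inl (h.mono (by omega) (h.Z_sub _ (hj x hx).2.1))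
  · intro x hx
    have h1 := hmax x hx
    have h2 := (hj x hx).1
    have : j x = t := by omega
    rw [← this]; exact (hj x hx).2.1

end Cert

/-- multiplicity of witnesses -/
noncomputable def mult (n : ℕ) (Z : ℕ → Finset (Fin k)) (y : ℕ → Fin k → Fin k) (i : Fin k) : ℕ :=
  ∑ t ∈ Finset.range (n + 1), ((Z t).filter (fun z => y t z = i)).card

theorem sum_mult (n : ℕ) (Z : ℕ → Finset (Fin k)) (y : ℕ → Fin k → Fin k) (A : Set (Fin k)) :
    ∑ i ∈ Finset.univ.filter (fun i => i ∈ A), mult n Z y i =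
      ∑ t ∈ Finset.range (n + 1), ((Z t).filter (fun z => y t z ∈ A)).card := by
  unfold mult
  rw [Finset.sum_comm]
  refine Finset.sum_congr rfl fun t _ => ?_
  rw [Finset.card_eq_sum_card_fiberwise (f := y t) (s := (Z t).filter (fun z => y t z ∈ A))
    (t := Finset.univ.filter (fun i => i ∈ A))]
  · refine Finset.sum_congr rfl fun i hi => ?_
    congr 1
    ext z
    simp only [Finset.mem_filter]
    constructor
    · rintro ⟨h1, h2⟩; exact ⟨⟨h1, h2 ▸ (Finset.mem_filter.1 hi).2⟩, h2⟩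
    · rintro ⟨⟨h1, _⟩, h2⟩; exact ⟨h1, h2⟩
  · intro z hz
    simpa using (Finset.mem_filter.1 (Finset.mem_coe.1 hz)).2

theorem step_sub {M : Matroid (Fin k)} {S N N' : ℕ → Set (Fin k)} {Z Z' : ℕ → Finset (Fin k)}
    {y y' : ℕ → Fin k → Fin k} (h : Cert M S N Z y) (h' : Cert M S N' Z' y')
    (hSm : ∀ t t', t ≤ t' → S t ⊆ S t') (n : ℕ)
    (hb : ∀ i, (∃ t ≤ n, i ∈ Z t) → ∃ t ≤ n, i ∈ Z' t) (hm : mult n Z y = mult n Z' y')
    (t : ℕ) (ht : t ≤ n) (hp : prev N t = prev N' t) : Z t ⊆ Z' t := by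
  set W := Z t with hWdef
  obtain ⟨A, hA⟩ : ∃ A : Set (Fin k), ∀ x, x ∈ A ↔
      x ∈ M.closure (S t ∪ prev N t ∪ ↑W) ∧ x ∉ prev N t :=
    ⟨M.closure (S t ∪ prev N t ∪ ↑W) \ prev N t, fun _ => Iff.rfl⟩
  have hWZ' : ∀ w ∈ W, ∃ j, t ≤ j ∧ j ≤ n ∧ w ∈ Z' j := by
    intro w hw
    obtain ⟨j, hjn, hj⟩ := hb w ⟨t, ht, hw⟩
    refine ⟨j, ?_, hjn, hj⟩
    by_contra hlt
    exact h.Z_not_prev t hw (hp ▸ h'.N_sub_prev (by omega) (h'.Z_sub j hj))
  have h1 : W.card ≤ ∑ l ∈ Finset.range (n + 1), ((Z l).filter (fun z => y l z ∈ A)).card := by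
    refine le_trans ?_ (Finset.single_le_sum (f := fun l => ((Z l).filter (fun z => y l z ∈ A)).card)
      (fun _ _ => Nat.zero_le _) (Finset.mem_range.2 (Nat.lt_succ_of_le ht)))
    refine Finset.card_le_card fun z hz => Finset.mem_filter.2 ⟨hz, (hA _).2 ⟨?_, h.y_not_prev t hz⟩⟩
    have := h.hy1 t z hz
    rwa [h.hN t] at this
  rw [← sum_mult, hm, sum_mult] at h1
  have hdisj : ∀ l ∈ Finset.range (n + 1), ∀ l' ∈ Finset.range (n + 1), l ≠ l' →
      Disjoint ((Z' l).filter (fun z => y' l z ∈ A)) ((Z' l').filter (fun z => y' l' z ∈ A)) := by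
    intro l _ l' _ hne
    refine Finset.disjoint_left.2 fun z hz hz' => hne ?_
    exact h'.uniq (Finset.mem_filter.1 hz).1 (Finset.mem_filter.1 hz').1
  rw [← Finset.card_biUnion hdisj] at h1
  have hsub : (Finset.range (n + 1)).biUnion (fun l => (Z' l).filter (fun z => y' l z ∈ A)) ⊆ W := by
    intro z hz
    obtain ⟨l, _, hl⟩ := Finset.mem_biUnion.1 hz
    obtain ⟨hzl, hyA⟩ := Finset.mem_filter.1 hl
    rw [hA] at hyA
    have htl : t ≤ l := by
      by_contra hlt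
      exact hyA.2 (hp ▸ h'.N_sub_prev (by omega) (h'.hy1 l z hzl))
    refine h'.mem_of_span hSm htl W (fun w hw => ?_) hzl (hp ▸ hyA.1)
    obtain ⟨j, _, _, hj⟩ := hWZ' w hw
    exact ⟨j, hj⟩
  have heq := Finset.eq_of_subset_of_card_le hsub h1
  refine h'.sub_batch W fun w hw => ?_
  obtain ⟨j, htj, _, hj⟩ := hWZ' w hw
  have hw' := hw
  rw [← heq] at hw'
  obtain ⟨l, _, hl⟩ := Finset.mem_biUnion.1 hw'
  obtain ⟨hzl, hyA⟩ := Finset.mem_filter.1 hl
  rw [hA] at hyA
  have := h'.uniq hzl hj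
  subst this
  exact ⟨l, htj, hj, hp ▸ hyA.1⟩

theorem cert_unique {M : Matroid (Fin k)} {S N N' : ℕ → Set (Fin k)} {Z Z' : ℕ → Finset (Fin k)}
    {y y' : ℕ → Fin k → Fin k} (h : Cert M S N Z y) (h' : Cert M S N' Z' y')
    (hSm : ∀ t t', t ≤ t' → S t ⊆ S t') (n : ℕ)
    (hb : ∀ i, (∃ t ≤ n, i ∈ Z t) ↔ ∃ t ≤ n, i ∈ Z' t) (hm : mult n Z y = mult n Z' y') :
    ∀ t, t ≤ n → N t = N' t := by
  have key : ∀ t, t ≤ n → prev N t = prev N' t → N t = N' t := by
    intro t ht hp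
    have hz : Z t = Z' t := Finset.Subset.antisymm
      (step_sub h h' hSm n (fun i => (hb i).1) hm t ht hp)
      (step_sub h' h hSm n (fun i => (hb i).2) hm.symm t ht hp.symm)
    rw [h.hN t, h'.hN t, hp, hz]
  intro t
  induction t with
  | zero => intro ht; exact key 0 ht rfl
  | succ t ih => intro ht; exact key (t + 1) ht (ih (by omega))

end Crest.Agent.R305.C53
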