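import Crest.Agent.R305.RGDefs55

/-! Row 305: blocks B3 (CHAIN) and B3' (NCHAIN). -/

set_option autoImplicit false

open Classical

namespace Crest.Agent.R305

variable {k : ℕ}

namespace Ch2

theorem sub_N {M : Matroid (Fin k)} (h2 : EXPF M) (Dm : Finset (Fin k)) (m : ℕ)
    (S : ℕ → Set (Fin k)) (hE : ∀ t, S t ⊆ M.E) (t : ℕ) : S t ⊆ Nstep M Dm m S t := by
  unfold Nstep
  split_ifs
  · exact (h2 Dm (S t) (hE t)).1.1
  · exact subset_rfl

theorem N_closed {M : Matroid (Fin k)} (h2 : EXPF M) (Dm : Finset (Fin k)) (m : ℕ)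
    (S : ℕ → Set (Fin k)) (hc : ∀ t, M.closure (S t) = S t) (t : ℕ) :
    M.closure (Nstep M Dm m S t) = Nstep M Dm m S t := by
  have hE : ∀ t, S t ⊆ M.E := fun t => by rw [← hc t]; exact M.closure_subset_ground _
  unfold Nstep
  split_ifs
  · exact (h2 Dm (S t) (hE t)).2.1
  · exact hc t

theorem N_mono {M : Matroid (Fin k)} (h2 : EXPF M) (Dm : Finset (Fin k)) (m : ℕ)
    (S : ℕ → Set (Fin k)) (hE : ∀ t, S t ⊆ M.E) (hm : ∀ t t', t ≤ t' → S t ⊆ S t')
    (t t' : ℕ) (h : t ≤ t') : Nstep M Dm m S t ⊆ Nstep M Dm m S t' := by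
  by_cases h1 : 3 * m ≤ t
  · have h1' : 3 * m ≤ t' := le_trans h1 h
    unfold Nstep
    rw [if_pos h1, if_pos h1']
    exact (h2 Dm (S t) (hE t)).2.2.2.1 _ (hm t t' h) (hE t')
  · have : Nstep M Dm m S t = S t := by unfold Nstep; rw [if_neg h1]
    rw [this]
    exact (hm t t' h).trans (sub_N h2 Dm m S hE t')

theorem N_sub_S {M : Matroid (Fin k)} (h2 : EXPF M) (Dm Cm : Finset (Fin k)) (m : ℕ)
    (S : ℕ → Set (Fin k)) (hc : ∀ t, M.closure (S t) = S t) (t : ℕ) :
    Nstep M Dm m S t ⊆ Sstep M Dm Cm m S t := by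
  unfold Sstep
  split_ifs with h
  · rw [← N_closed h2 Dm m S hc t]
    refine M.closure_subset_closure ?_
    rw [N_closed h2 Dm m S hc t]
    exact Set.subset_union_left
  · unfold Nstep
    rw [if_neg h]

theorem S_closed {M : Matroid (Fin k)} (Dm Cm : Finset (Fin k)) (m : ℕ)
    (S : ℕ → Set (Fin k)) (hc : ∀ t, M.closure (S t) = S t) (t : ℕ) :
    M.closure (Sstep M Dm Cm m S t) = Sstep M Dm Cm m S t := by
  unfold Sstep
  split_ifs with h
  · exact M.closure_closure _
  · exact hc t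

theorem S_sub_N {M : Matroid (Fin k)} (h2 : EXPF M) (Dm Cm : Finset (Fin k)) (m : ℕ)
    (S : ℕ → Set (Fin k)) (hc : ∀ t, M.closure (S t) = S t) (hm : ∀ t t', t ≤ t' → S t ⊆ S t')
    (t : ℕ) : Sstep M Dm Cm m S t ⊆ Nstep M Dm m S (t + 1) := by
  have hE : ∀ t, S t ⊆ M.E := fun t => by rw [← hc t]; exact M.closure_subset_ground _
  unfold Sstep
  split_ifs with h
  · rw [← N_closed h2 Dm m S hc (t + 1)]
    refine M.closure_subset_closure ?_
    rw [N_closed h2 Dm m S hc (t + 1)]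
    exact Set.union_subset (N_mono h2 Dm m S hE hm t (t + 1) (Nat.le_succ t))
      Set.inter_subset_right
  · exact (hm t (t + 1) (Nat.le_succ t)).trans (sub_N h2 Dm m S hE (t + 1))

theorem S_mono {M : Matroid (Fin k)} (h2 : EXPF M) (Dm Cm : Finset (Fin k)) (m : ℕ)
    (S : ℕ → Set (Fin k)) (hc : ∀ t, M.closure (S t) = S t) (hm : ∀ t t', t ≤ t' → S t ⊆ S t')
    (t t' : ℕ) (h : t ≤ t') : Sstep M Dm Cm m S t ⊆ Sstep M Dm Cm m S t' := by
  have hE : ∀ t, S t ⊆ M.E := fun t => by rw [← hc t]; exact M.closure_subset_ground _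
  rcases Nat.eq_or_lt_of_le h with h | h
  · rw [h]
  · exact ((S_sub_N h2 Dm Cm m S hc hm t).trans (N_mono h2 Dm m S hE hm (t + 1) t' h)).trans
      (N_sub_S h2 Dm Cm m S hc t')

theorem S_sub_cl {M : Matroid (Fin k)} (h2 : EXPF M) (Dm Cm : Finset (Fin k)) (m : ℕ)
    (S : ℕ → Set (Fin k)) (hc : ∀ t, M.closure (S t) = S t) (Z : Set (Fin k))
    (hD : (Dm : Set (Fin k)) ⊆ Z) (hC : (Cm : Set (Fin k)) ⊆ Z) (t : ℕ) :
    Sstep M Dm Cm m S t ⊆ M.closure (S t ∪ Z) := by
  have hE : ∀ t, S t ⊆ M.E := fun t => by rw [← hc t]; exact M.closure_subset_ground _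
  unfold Sstep
  split_ifs with h
  · rw [← M.closure_closure (S t ∪ Z)]
    refine M.closure_subset_closure (Set.union_subset ?_ ?_)
    · unfold Nstep
      rw [if_pos h]
      exact (h2 Dm (S t) (hE t)).2.2.1.trans
        (M.closure_subset_closure (Set.union_subset_union_right _ hD))
    · intro e he
      have heE : e ∈ M.E := by
        have := he.2
        rw [← N_closed h2 Dm m S hc (t + 1)] at this
        exact M.closure_subset_ground _ this
      exact M.inter_ground_subset_closure _ ⟨Or.inr (hC he.1), heE⟩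
  · intro e he
    exact M.inter_ground_subset_closure _ ⟨Or.inl he, hE t he⟩

theorem St_closed (M : Matroid (Fin k)) (L : ℕ) (U : ℕ → Finset (Fin k)) (D C : Finset (Fin k))
    (i : ℕ) : ∀ t, M.closure (St M L U D C i t) = St M L U D C i t := by
  induction i with
  | zero =>
    intro t
    show M.closure (S0 M L t) = S0 M L t
    unfold S0
    split_ifs
    · exact M.closure_closure _
    · exact M.closure_ground
  | succ i ih => exact fun t => S_closed _ _ _ _ ih t

theorem St_mono {M : Matroid (Fin k)} (h2 : EXPF M) (L : ℕ) (U : ℕ → Finset (Fin k))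
    (D C : Finset (Fin k)) (i : ℕ) : ∀ t t', t ≤ t' → St M L U D C i t ⊆ St M L U D C i t' := by
  induction i with
  | zero =>
    intro t t' h
    show S0 M L t ⊆ S0 M L t'
    unfold S0
    split_ifs with h1 h2 h2
    · exact subset_rfl
    · exact M.closure_subset_ground _
    · omega
    · exact subset_rfl
  | succ i ih => exact fun t t' h => S_mono h2 _ _ _ _ (St_closed M L U D C i) ih t t' h

theorem St_E (M : Matroid (Fin k)) (L : ℕ) (U : ℕ → Finset (Fin k)) (D C : Finset (Fin k))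
    (i t : ℕ) : St M L U D C i t ⊆ M.E := by
  rw [← St_closed M L U D C i t]; exact M.closure_subset_ground _

theorem St_succ {M : Matroid (Fin k)} (h2 : EXPF M) (L : ℕ) (U : ℕ → Finset (Fin k))
    (D C : Finset (Fin k)) (i t : ℕ) : St M L U D C i t ⊆ St M L U D C (i + 1) t :=
  (sub_N h2 _ _ _ (St_E M L U D C i) t).trans (N_sub_S h2 _ _ _ _ (St_closed M L U D C i) t)

theorem St_le {M : Matroid (Fin k)} (h2 : EXPF M) (L : ℕ) (U : ℕ → Finset (Fin k))
    (D C : Finset (Fin k)) (i i' t : ℕ) (h : i ≤ i') : St M L U D C i t ⊆ St M L U D C i' t := by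
  induction i', h using Nat.le_induction with
  | base => exact subset_rfl
  | succ n _ ih => exact ih.trans (St_succ h2 L U D C n t)

theorem St_bot (M : Matroid (Fin k)) (L : ℕ) (U : ℕ → Finset (Fin k)) (D C : Finset (Fin k))
    (i : ℕ) : ∀ t, i ≤ L → t < 3 * (L - i) + 3 → St M L U D C i t = M.closure ∅ := by
  induction i with
  | zero =>
    intro t _ h
    show S0 M L t = _
    unfold S0
    rw [if_pos (by omega)]
  | succ i ih =>
    intro t hi h
    show Sstep M _ _ (L - i) _ t = _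
    unfold Sstep
    rw [if_neg (by omega)]
    exact ih t (by omega) (by omega)

theorem St_later {M : Matroid (Fin k)} (h2 : EXPF M) (L : ℕ) (U : ℕ → Finset (Fin k))
    (D C : Finset (Fin k)) (j t : ℕ) (hj : j ≤ L) (i : ℕ) (h : L - j + 1 ≤ i) :
    i ≤ L → St M L U D C i t ⊆
      M.closure (St M L U D C (L - j + 1) t ∪ ↑((Finset.Ico 1 j).biUnion U)) := by
  induction i, h using Nat.le_induction with
  | base =>
    intro _ e he
    exact M.inter_ground_subset_closure _ ⟨Or.inl he, St_E M L U D C _ t he⟩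
  | succ n hn ih =>
    intro hL
    have hZ : (U (L - n) : Set (Fin k)) ⊆ ↑((Finset.Ico 1 j).biUnion U) := by
      intro e he
      simp only [Finset.coe_biUnion, Finset.coe_Ico, Set.mem_iUnion]
      exact ⟨L - n, ⟨by omega, by omega⟩, he⟩
    have h1 := S_sub_cl h2 (D ∩ U (L - n)) (C ∩ U (L - n)) (L - n) (St M L U D C n)
      (St_closed M L U D C n) ↑((Finset.Ico 1 j).biUnion U)
      (fun e he => hZ (Finset.mem_inter.1 he).2) (fun e he => hZ (Finset.mem_inter.1 he).2) t
    refine h1.trans ?_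
    have h3 := ih (by omega)
    calc M.closure (St M L U D C n t ∪ ↑((Finset.Ico 1 j).biUnion U))
        ⊆ M.closure (M.closure (St M L U D C (L - j + 1) t ∪ ↑((Finset.Ico 1 j).biUnion U)) ∪
            ↑((Finset.Ico 1 j).biUnion U)) :=
          M.closure_subset_closure (Set.union_subset_union_left _ h3)
      _ = _ := by
          rw [M.closure_union_closure_left_eq, Set.union_assoc, Set.union_self]

end Ch2

theorem chain2 (M : Matroid (Fin k)) (_h1 : RANK M) (h2 : EXPF M) : CHAIN M := by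
  intro L U D C
  refine ⟨Ch2.St_closed M L U D C, Ch2.St_mono h2 L U D C, Ch2.St_le h2 L U D C, ?_, ?_, ?_⟩
  · intro i t ht
    refine Set.Subset.antisymm (Ch2.St_E M L U D C i t) ?_
    refine Set.Subset.trans ?_ (Ch2.St_le h2 L U D C 0 i t (Nat.zero_le _))
    show M.E ⊆ S0 M L t
    unfold S0
    rw [if_neg (by omega)]
  · intro j t hj ht
    exact Ch2.St_bot M L U D C (L - j) t (by omega) (by omega)
  · intro j t hj1 hj
    exact Ch2.St_later h2 L U D C j t hj L (by omega) le_rfl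

theorem nchain2 (M : Matroid (Fin k)) (_h1 : RANK M) (h2 : EXPF M) (h3 : CHAIN M) : NCHAIN M := by
  intro L U D T0 m hm1 hm
  obtain ⟨hc, hmono, _, htop, hbot, _⟩ := h3 L U D (Cg D T0)
  have hE := Ch2.St_E M L U D (Cg D T0) (L - m)
  have hS : St M L U D (Cg D T0) (L - m + 1) =
      Sstep M (D ∩ U m) (Cg D T0 ∩ U m) m (St M L U D (Cg D T0) (L - m)) := by
    show Sstep M (D ∩ U (L - (L - m))) (Cg D T0 ∩ U (L - (L - m))) (L - (L - m)) _ = _
    rw [show L - (L - m) = m by omega]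
  refine ⟨fun t => Ch2.N_closed h2 _ _ _ (hc (L - m)) t,
    fun t t' h => Ch2.N_mono h2 _ _ _ hE (hmono (L - m)) t t' h,
    fun t => Ch2.sub_N h2 _ _ _ hE t, fun t => ?_, fun t => ?_, fun t ht => ?_, ?_⟩
  · rw [hS]; exact Ch2.N_sub_S h2 _ _ _ _ (hc (L - m)) t
  · rw [hS]; exact Ch2.S_sub_N h2 _ _ _ _ (hc (L - m)) (hmono (L - m)) t
  · refine Set.Subset.antisymm ?_ ?_
    · have := Ch2.N_closed h2 (D ∩ U m) m _ (hc (L - m)) t
      unfold Nm
      rw [← this]
      exact M.closure_subset_ground _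
    · rw [← htop (L - m) t ht]
      exact Ch2.sub_N h2 _ _ _ hE t
  · unfold Nm Nstep
    rw [if_pos (by omega), hbot m (3 * m + 1) hm (by omega)]

end Crest.Agent.R305
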