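import Mathlib

/-! Row 305, block PATH (helper74): generic facts on a rank function and a chain. -/

set_option autoImplicit false

namespace Crest.Agent.R305.P74

variable {α : Type*} [DecidableEq α]

/-- diminishing returns: `r (Y ∪ Z) - r Y ≤ r (X ∪ Z) - r X` for `X ⊆ Y`. -/
theorem dim_ret (r : Finset α → ℕ) (hmono : ∀ A B, A ⊆ B → r A ≤ r B)
    (hsub : ∀ A B, r (A ∪ B) + r (A ∩ B) ≤ r A + r B) {X Y : Finset α} (Z : Finset α)
    (h : X ⊆ Y) : r (Y ∪ Z) + r X ≤ r (X ∪ Z) + r Y := by
  have h1 := hsub (X ∪ Z) Y
  have h2 : X ∪ Z ∪ Y = Y ∪ Z := by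
    ext x; simp only [Finset.mem_union]; constructor
    · rintro ((hx | hx) | hx)
      · exact Or.inl (h hx)
      · exact Or.inr hx
      · exact Or.inl hx
    · rintro (hx | hx)
      · exact Or.inr hx
      · exact Or.inl (Or.inr hx)
  have h3 : r X ≤ r ((X ∪ Z) ∩ Y) := hmono _ _ (by
    intro x hx; simp only [Finset.mem_inter, Finset.mem_union]; exact ⟨Or.inl hx, h hx⟩)
  rw [h2] at h1; omega

theorem rank_union_le (r : Finset α → ℕ) (hins : ∀ e S, r (insert e S) ≤ r S + 1)
    (X Z : Finset α) : r (X ∪ Z) ≤ r X + Z.card := by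
  induction Z using Finset.induction_on with
  | empty => simp
  | insert a s ha ih =>
    rw [Finset.union_insert, Finset.card_insert_of_notMem ha]
    have := hins a (X ∪ s); omega

/-- a subset of a set independent modulo `F` is independent modulo `F`. -/
theorem indep_mod_subset (r : Finset α → ℕ) (hins : ∀ e S, r (insert e S) ≤ r S + 1)
    {F A A' : Finset α} (h : A' ⊆ A) (hA : r (F ∪ A) = r F + A.card) :
    r (F ∪ A') = r F + A'.card := by
  have h1 := rank_union_le r hins F A'
  have h2 := rank_union_le r hins (F ∪ A') (A \ A')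
  have h3 : F ∪ A' ∪ (A \ A') = F ∪ A := by
    rw [Finset.union_assoc, Finset.union_sdiff_of_subset h]
  have h4 := Finset.card_sdiff_add_card_eq_card h
  rw [h3] at h2; omega

/-- Chain independence: if every birth class `A^b` lies in `F b`, is independent modulo `G b`,
and every earlier `F b'` (with `b' < b`, both births occurring) lies inside `G b`, then `A` is
independent. -/
theorem chain_indep (r : Finset α → ℕ) (h0 : r ∅ = 0) (hmono : ∀ A B, A ⊆ B → r A ≤ r B)
    (hsub : ∀ A B, r (A ∪ B) + r (A ∩ B) ≤ r A + r B) (hins : ∀ e S, r (insert e S) ≤ r S + 1)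
    (A : Finset α) (β : α → ℕ) (G : ℕ → Finset α)
    (hG : ∀ e ∈ A, ∀ f ∈ A, β f < β e → f ∈ G (β e))
    (hA : ∀ b, r (G b ∪ A.filter (fun e => β e = b)) = r (G b) + (A.filter (fun e => β e = b)).card) :
    r A = A.card := by
  have key : ∀ n, r (A.filter (fun e => β e < n)) = (A.filter (fun e => β e < n)).card := by
    intro n
    induction n with
    | zero => simp [h0]
    | succ n ih =>
      have hsplit : A.filter (fun e => β e < n + 1) =
          A.filter (fun e => β e < n) ∪ A.filter (fun e => β e = n) := by
        ext x; simp only [Finset.mem_filter, Finset.mem_union]; constructor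
        · rintro ⟨hx, h⟩
          rcases Nat.lt_succ_iff_lt_or_eq.mp h with h | h
          · exact Or.inl ⟨hx, h⟩
          · exact Or.inr ⟨hx, h⟩
        · rintro (⟨hx, h⟩ | ⟨hx, h⟩)
          · exact ⟨hx, by omega⟩
          · exact ⟨hx, by omega⟩
      have hdisj : Disjoint (A.filter (fun e => β e < n)) (A.filter (fun e => β e = n)) := by
        rw [Finset.disjoint_filter]; intro x _ h1 h2; omega
      rcases (A.filter (fun e => β e = n)).eq_empty_or_nonempty with he | ⟨e, he⟩
      · rw [hsplit, he, Finset.union_empty, ih]
      · have he' := Finset.mem_filter.mp he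
        have hsubG : A.filter (fun e => β e < n) ⊆ G n := by
          intro f hf
          have hf' := Finset.mem_filter.mp hf
          have := hG e he'.1 f hf'.1 (by rw [he'.2]; exact hf'.2)
          rwa [he'.2] at this
        have h1 := dim_ret r hmono hsub (A.filter (fun e => β e = n)) hsubG
        have h2 := hA n
        have h3 := rank_union_le r hins (A.filter (fun e => β e < n)) (A.filter (fun e => β e = n))
        rw [hsplit, Finset.card_union_of_disjoint hdisj]
        omega
  have hall : A.filter (fun e => β e < A.sup β + 1) = A := by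
    apply Finset.filter_true_of_mem
    intro x hx
    have := Finset.le_sup (f := β) hx
    omega
  have := key (A.sup β + 1)
  rwa [hall] at this

end Crest.Agent.R305.P74
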