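import Crest.Agent.R305.RGDefs55

/-! Row 305, blocks B3 (CHAIN) and B3' (NCHAIN). -/

set_option autoImplicit false

open Classical

namespace Crest.Agent.R305

variable {k : ℕ}

namespace C92

/-- a closed monotone chain -/
def Good (M : Matroid (Fin k)) (S : ℕ → Set (Fin k)) : Prop :=
  (∀ t, M.closure (S t) = S t) ∧ (∀ t t', t ≤ t' → S t ⊆ S t')

theorem Good.sub {M : Matroid (Fin k)} {S : ℕ → Set (Fin k)} (h : Good M S) (t : ℕ) :
    S t ⊆ M.E := by
  rw [← h.1 t]; exact M.closure_subset_ground _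

theorem le_exp {M : Matroid (Fin k)} (h2 : EXPF M) (D : Finset (Fin k)) {S : Set (Fin k)}
    (hS : S ⊆ M.E) : S ⊆ Exp M D S := (h2 D S hS).1.1

theorem exp_sub {M : Matroid (Fin k)} (h2 : EXPF M) (D : Finset (Fin k)) {S : Set (Fin k)}
    (hS : S ⊆ M.E) : Exp M D S ⊆ M.E := (h2 D S hS).1.2.1

theorem le_N {M : Matroid (Fin k)} (h2 : EXPF M) (Dm : Finset (Fin k)) (m : ℕ)
    {S : ℕ → Set (Fin k)} (h : Good M S) (t : ℕ) : S t ⊆ Nstep M Dm m S t := by
  unfold Nstep
  split_ifs
  · exact le_exp h2 _ (h.sub t)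
  · exact subset_rfl

theorem good_N {M : Matroid (Fin k)} (h2 : EXPF M) (Dm : Finset (Fin k)) (m : ℕ)
    {S : ℕ → Set (Fin k)} (h : Good M S) : Good M (Nstep M Dm m S) := by
  refine ⟨fun t => ?_, fun t t' htt => ?_⟩
  · unfold Nstep
    split_ifs
    · exact (h2 Dm (S t) (h.sub t)).2.1
    · exact h.1 t
  · by_cases h1 : 3 * m ≤ t
    · have h1' : 3 * m ≤ t' := le_trans h1 htt
      unfold Nstep
      rw [if_pos h1, if_pos h1']
      exact (h2 Dm (S t) (h.sub t)).2.2.2.1 (S t') (h.2 t t' htt) (h.sub t')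
    · have e : Nstep M Dm m S t = S t := by unfold Nstep; rw [if_neg h1]
      rw [e]
      exact (h.2 t t' htt).trans (le_N h2 Dm m h t')

theorem N_le_S {M : Matroid (Fin k)} (h2 : EXPF M) (Dm Cm : Finset (Fin k)) (m : ℕ)
    {S : ℕ → Set (Fin k)} (h : Good M S) (t : ℕ) :
    Nstep M Dm m S t ⊆ Sstep M Dm Cm m S t := by
  have hN := good_N h2 Dm m h
  by_cases h1 : 3 * m ≤ t
  · unfold Sstep
    rw [if_pos h1]
    exact Set.subset_union_left.trans (M.subset_closure _ (Set.union_subset (hN.sub t)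
      (Set.inter_subset_right.trans (hN.sub (t + 1)))))
  · unfold Sstep Nstep
    rw [if_neg h1, if_neg h1]

theorem S_le_N {M : Matroid (Fin k)} (h2 : EXPF M) (Dm Cm : Finset (Fin k)) (m : ℕ)
    {S : ℕ → Set (Fin k)} (h : Good M S) (t : ℕ) :
    Sstep M Dm Cm m S t ⊆ Nstep M Dm m S (t + 1) := by
  have hN := good_N h2 Dm m h
  by_cases h1 : 3 * m ≤ t
  · unfold Sstep
    rw [if_pos h1]
    exact (M.closure_subset_closure
      (Set.union_subset (hN.2 t (t + 1) (Nat.le_succ t)) Set.inter_subset_right)).trans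
      (hN.1 (t + 1)).subset
  · unfold Sstep
    rw [if_neg h1]
    exact (h.2 t (t + 1) (Nat.le_succ t)).trans (le_N h2 Dm m h (t + 1))

theorem good_S {M : Matroid (Fin k)} (h2 : EXPF M) (Dm Cm : Finset (Fin k)) (m : ℕ)
    {S : ℕ → Set (Fin k)} (h : Good M S) : Good M (Sstep M Dm Cm m S) := by
  have hN := good_N h2 Dm m h
  refine ⟨fun t => ?_, fun t t' htt => ?_⟩
  · unfold Sstep
    split_ifs
    · exact M.closure_closure _
    · exact h.1 t
  · rcases Nat.eq_or_lt_of_le htt with rfl | hlt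
    · exact subset_rfl
    · exact (S_le_N h2 Dm Cm m h t).trans
        ((hN.2 (t + 1) t' hlt).trans (N_le_S h2 Dm Cm m h t'))

theorem good_S0 (M : Matroid (Fin k)) (L : ℕ) : Good M (S0 M L) := by
  refine ⟨fun t => ?_, fun t t' htt => ?_⟩
  · unfold S0
    split_ifs
    · exact M.closure_closure _
    · exact M.closure_ground
  · unfold S0
    split_ifs with a b
    · exact subset_rfl
    · exact M.closure_subset_ground _
    · omega
    · exact subset_rfl

theorem good_St {M : Matroid (Fin k)} (h2 : EXPF M) (L : ℕ) (U : ℕ → Finset (Fin k))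
    (D C : Finset (Fin k)) (i : ℕ) : Good M (St M L U D C i) := by
  induction i with
  | zero => exact good_S0 M L
  | succ i ih => exact good_S h2 _ _ _ ih

theorem St_succ {M : Matroid (Fin k)} (h2 : EXPF M) (L : ℕ) (U : ℕ → Finset (Fin k))
    (D C : Finset (Fin k)) (i t : ℕ) : St M L U D C i t ⊆ St M L U D C (i + 1) t :=
  (le_N h2 _ _ (good_St h2 L U D C i) t).trans (N_le_S h2 _ _ _ (good_St h2 L U D C i) t)

theorem St_mono {M : Matroid (Fin k)} (h2 : EXPF M) (L : ℕ) (U : ℕ → Finset (Fin k))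
    (D C : Finset (Fin k)) (i i' t : ℕ) (h : i ≤ i') : St M L U D C i t ⊆ St M L U D C i' t := by
  induction h with
  | refl => exact subset_rfl
  | step _ ih => exact ih.trans (St_succ h2 L U D C _ t)

theorem St_low (M : Matroid (Fin k)) (L : ℕ) (U : ℕ → Finset (Fin k))
    (D C : Finset (Fin k)) (i t : ℕ) (hi : i ≤ L) (ht : t < 3 * (L - i) + 3) :
    St M L U D C i t = M.closure ∅ := by
  induction i with
  | zero =>
    show S0 M L t = _
    unfold S0
    rw [if_pos (by omega)]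
  | succ i ih =>
    show Sstep M _ _ (L - i) (St M L U D C i) t = _
    unfold Sstep
    rw [if_neg (by omega)]
    exact ih (by omega) (by omega)

theorem S_le_cl {M : Matroid (Fin k)} (h2 : EXPF M) (Dm Cm Um : Finset (Fin k)) (m : ℕ)
    (hD : Dm ⊆ Um) (hC : Cm ⊆ Um)
    {S : ℕ → Set (Fin k)} (h : Good M S) (t : ℕ) :
    Sstep M Dm Cm m S t ⊆ M.closure (S t ∪ ↑Um) := by
  have hN := good_N h2 Dm m h
  by_cases h1 : 3 * m ≤ t
  · unfold Sstep
    rw [if_pos h1, ← M.closure_closure (S t ∪ ↑Um)]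
    refine M.closure_subset_closure (Set.union_subset ?_ ?_)
    · unfold Nstep
      rw [if_pos h1]
      refine ((h2 Dm (S t) (h.sub t)).2.2.1).trans (M.closure_subset_closure ?_)
      exact Set.union_subset_union_right _ (Finset.coe_subset.mpr hD)
    · intro x hx
      exact M.mem_closure_of_mem' (Or.inr (hC hx.1)) (hN.sub (t + 1) hx.2)
  · unfold Sstep
    rw [if_neg h1]
    intro x hx
    exact M.mem_closure_of_mem' (Or.inl hx) (h.sub t hx)

theorem St_le_cl {M : Matroid (Fin k)} (h2 : EXPF M) (L : ℕ) (U : ℕ → Finset (Fin k))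
    (D C : Finset (Fin k)) (j t : ℕ) (_hj : 1 ≤ j) (hjL : j ≤ L) (i : ℕ) (hi : L - j + 1 ≤ i)
    (hiL : i ≤ L) : St M L U D C i t ⊆
      M.closure (St M L U D C (L - j + 1) t ∪ ↑((Finset.Ico 1 j).biUnion U)) := by
  induction hi with
  | refl =>
    intro x hx
    exact M.mem_closure_of_mem' (Or.inl hx) ((good_St h2 L U D C _).sub t hx)
  | @step i hi ih =>
    have ih' := ih (by omega)
    have hi' : L - j + 1 ≤ i := hi
    have h3 := S_le_cl h2 (D ∩ U (L - i)) (C ∩ U (L - i)) (U (L - i)) (L - i)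
      Finset.inter_subset_right Finset.inter_subset_right (good_St h2 L U D C i) t
    refine h3.trans ?_
    rw [← M.closure_closure (St M L U D C (L - j + 1) t ∪ _), ← M.closure_inter_ground]
    refine M.closure_subset_closure ?_
    rintro x ⟨hx | hx, hxE⟩
    · exact ih' hx
    · refine M.mem_closure_of_mem' (Or.inr ?_) hxE
      simp only [Finset.coe_biUnion, Finset.coe_Ico, Set.mem_iUnion]
      exact ⟨L - i, ⟨by omega, by omega⟩, hx⟩

end C92

open C92 in
theorem chain92 (M : Matroid (Fin k)) (_h1 : RANK M) (h2 : EXPF M) : CHAIN M := by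
  intro L U D C
  refine ⟨fun i t => (good_St h2 L U D C i).1 t, fun i t t' h => (good_St h2 L U D C i).2 t t' h,
    fun i i' t h => St_mono h2 L U D C i i' t h, fun i t ht => ?_, fun j t hj ht => ?_,
    fun j t hj hjL => St_le_cl h2 L U D C j t hj hjL L (by omega) le_rfl⟩
  · refine Set.Subset.antisymm ((good_St h2 L U D C i).sub t) ?_
    have h0 : St M L U D C 0 t = M.E := by
      show S0 M L t = _
      unfold S0
      rw [if_neg (by omega)]
    rw [← h0]
    exact St_mono h2 L U D C 0 i t (Nat.zero_le _)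
  · exact St_low M L U D C (L - j) t (by omega) (by omega)

open C92 in
theorem nchain92 (M : Matroid (Fin k)) (_h1 : RANK M) (h2 : EXPF M) (h3 : CHAIN M) :
    NCHAIN M := by
  intro L U D T0 m hm hmL
  have hg := good_St h2 L U D (Cg D T0) (L - m)
  have hN := good_N h2 (D ∩ U m) m hg
  have hS : St M L U D (Cg D T0) (L - m + 1) =
      Sstep M (D ∩ U m) (Cg D T0 ∩ U m) m (St M L U D (Cg D T0) (L - m)) := by
    have e : L - (L - m) = m := by omega
    show Sstep M (D ∩ U (L - (L - m))) (Cg D T0 ∩ U (L - (L - m))) (L - (L - m)) _ = _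
    rw [e]
  refine ⟨hN.1, hN.2, fun t => le_N h2 _ _ hg t, fun t => ?_, fun t => ?_, fun t ht => ?_, ?_⟩
  · rw [hS]; exact N_le_S h2 _ _ _ hg t
  · rw [hS]; exact S_le_N h2 _ _ _ hg t
  · refine Set.Subset.antisymm (hN.sub t) ?_
    rw [← (h3 L U D (Cg D T0)).2.2.2.1 (L - m) t ht]
    exact le_N h2 _ _ hg t
  · unfold Nm Nstep
    rw [if_pos (by omega), (h3 L U D (Cg D T0)).2.2.2.2.1 m (3 * m + 1) hmL (by omega)]

end Crest.Agent.R305
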