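import Crest.Agent.R305.Comp73
import Crest.Agent.R305.Alpha23b

/-! `COMPRESS73` from the abstract compression theorem `A23.compress`. -/

set_option autoImplicit false

open Classical

namespace Crest.Agent.R305

variable {k : ℕ}

theorem isRk48 (M : Matroid (Fin k)) (h1 : RANK M) :
    A23.IsRk (fun X : Finset (Fin k) => rk M (X : Set (Fin k))) := by
  obtain ⟨hm, hs, -, -, -, hu, -, -, -⟩ := h1
  refine ⟨fun A B h => hm _ _ (by exact_mod_cast h), fun A B => ?_, fun a A => ?_⟩
  · have := hs (A : Set (Fin k)) (B : Set (Fin k))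
    simpa [Finset.coe_union, Finset.coe_inter] using this
  · have := hu (A : Set (Fin k)) {a}
    have e : ((insert a A : Finset (Fin k)) : Set (Fin k)) =
        (A : Set (Fin k)) ∪ (({a} : Finset (Fin k)) : Set (Fin k)) := by
      ext x; simp [or_comm]
    show rk M _ ≤ rk M _ + 1
    rw [e]; simpa using this

theorem fval48 (M : Matroid (Fin k)) (D Q : Finset (Fin k)) :
    fval M D (Q : Set (Fin k)) = ((D ∩ Q).card : ℤ) - (kap : ℤ) * (rk M (Q : Set (Fin k)) : ℤ) := by
  unfold fval
  congr 3
  ext x; simp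

theorem mm48 (M : Matroid (Fin k)) (h2 : EXPF M) (D : Finset (Fin k)) (S : Set (Fin k))
    (hS : S ⊆ M.E) :
    A23.MM (fun X : Finset (Fin k) => rk M (X : Set (Fin k))) (fun Q => (D ∩ Q).card) kap
      M.E.toFinset S.toFinset (Exp M D S).toFinset := by
  obtain ⟨⟨a1, a2, a3⟩, -, -, -, -⟩ := h2 D S hS
  have eN : (((Exp M D S).toFinset : Finset (Fin k)) : Set (Fin k)) = Exp M D S := by simp
  refine ⟨Set.toFinset_subset_toFinset.2 a1, Set.toFinset_subset_toFinset.2 a2,
    fun Q hQ1 hQ2 => ?_, fun Q hQ1 hQ2 hle => ?_⟩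
  · have q1 : S ⊆ (Q : Set (Fin k)) := Set.toFinset_subset.1 hQ1
    have q2 : (Q : Set (Fin k)) ⊆ M.E := Set.subset_toFinset.1 hQ2
    have := a3 _ q1 q2
    rw [← eN, fval48, fval48] at this
    beta_reduce
    zify
    linarith
  · have q1 : S ⊆ (Q : Set (Fin k)) := Set.toFinset_subset.1 hQ1
    have q2 : (Q : Set (Fin k)) ⊆ M.E := Set.subset_toFinset.1 hQ2
    have hle' : fval M D (Exp M D S) ≤ fval M D (Q : Set (Fin k)) := by
      rw [← eN, fval48, fval48]
      beta_reduce at hle
      zify at hle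
      linarith
    have hmax : IsMax M D S (Q : Set (Fin k)) :=
      ⟨q1, q2, fun Q' h1 h2 => (a3 Q' h1 h2).trans hle'⟩
    exact Set.subset_toFinset.2 (Set.subset_sUnion_of_mem (t := (Q : Set (Fin k))) hmax)

theorem compress48 (M : Matroid (Fin k)) (h1 : RANK M) (h2 : EXPF M) : COMPRESS73 M := by
  intro U S n hU hS hmono
  have hκ : 0 < kap := by unfold kap; positivity
  have key : ∀ D : Finset (Fin k), ∃ (B : Finset (Fin k)) (β : Fin k → Fin k), B ⊆ D ∩ U ∧
      (∀ a ∈ B, β a ∈ D ∩ U) ∧ kap * B.card ≤ (D ∩ U).card ∧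
      ∀ t ≤ n, A23.MM (fun X : Finset (Fin k) => rk M (X : Set (Fin k)))
        (A23.wt (k + 1) B β) (k + 1) M.E.toFinset (S t).toFinset
        (Exp M (D ∩ U) (S t)).toFinset := by
    intro D
    refine A23.compress (S := fun t => (S t).toFinset)
      (N := fun t => (Exp M (D ∩ U) (S t)).toFinset) (isRk48 M h1) hκ ?_ ?_ ?_ ?_ n
    · have := Finset.card_le_univ (D ∩ U)
      simp at this; omega
    · intro t
      exact Set.toFinset_subset_toFinset.2 (hmono t (t + 1) (by omega))
    · intro t
      exact Set.toFinset_subset_toFinset.2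
        ((h2 (D ∩ U) (S t) (hS t)).2.2.2.1 _ (hmono t (t + 1) (by omega)) (hS (t + 1)))
    · intro t
      exact mm48 M h2 (D ∩ U) (S t) (hS t)
  choose B β k1 k2 k3 k4 using key
  have hcU : ∀ D : Finset (Fin k), (D ∩ U).card ≤ U.card :=
    fun D => Finset.card_le_card Finset.inter_subset_right
  refine ⟨fun D i => if i ∈ B D then 1 else 0,
    fun D i => ((B D).filter (fun a => β D a = i)).card, ?_, ?_, ?_, ?_, ?_⟩
  · intro D i hi
    exact if_neg (fun h => hi (Finset.mem_inter.1 (k1 D h)).2)
  · intro D i hi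
    refine Finset.card_eq_zero.2 (Finset.filter_eq_empty_iff.2 (fun a ha h => hi ?_))
    exact h ▸ (Finset.mem_inter.1 (k2 D a ha)).2
  · intro D
    have : ∑ i : Fin k, (if i ∈ B D then 1 else 0) = (B D).card := by simp
    rw [this]; exact (k3 D).trans (hcU D)
  · intro D
    have : ∑ i : Fin k, ((B D).filter (fun a => β D a = i)).card = (B D).card :=
      (Finset.card_eq_sum_card_fiberwise (f := β D) (s := B D) (t := Finset.univ)
        (fun a _ => Finset.mem_univ _)).symm
    rw [this]; exact (k3 D).trans (hcU D)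
  · intro D D' hb hm t ht
    have hcode : A23.code (B D) (β D) = A23.code (B D') (β D') := by
      funext e
      have e1 := congrFun hb e
      have e2 := congrFun hm e
      unfold A23.code
      beta_reduce at e1 e2
      convert congrArg₂ (fun x y : ℕ => x + 2 * y) e1 e2
    have hw : A23.wt (k + 1) (B D) (β D) = A23.wt (k + 1) (B D') (β D') := by
      rw [← A23.wty_code, ← A23.wty_code, hcode]
    have a1 := k4 D t ht
    have a2 := k4 D' t ht
    rw [hw] at a1
    exact Set.toFinset_inj.1 (a1.unique a2)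

end Crest.Agent.R305
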