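import Crest.Agent.R305.Comp73
import Crest.Agent.R305.Alpha23b

/-! Row 305: `COMPRESS73` from the abstract compression theorem `A23.compress`. -/

set_option autoImplicit false

namespace Crest.Agent.R305

variable {k : ℕ}

namespace B12

open Classical in
/-- a set of `Fin k` as a finset -/
noncomputable def fs (X : Set (Fin k)) : Finset (Fin k) := Finset.univ.filter (fun e => e ∈ X)

theorem mem_fs {X : Set (Fin k)} {e : Fin k} : e ∈ fs X ↔ e ∈ X := by
  simp [fs]

theorem coe_fs (X : Set (Fin k)) : ((fs X : Finset (Fin k)) : Set (Fin k)) = X := by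
  ext e; simp [mem_fs]

theorem fs_mono {X Y : Set (Fin k)} (h : X ⊆ Y) : fs X ⊆ fs Y :=
  fun _ he => mem_fs.2 (h (mem_fs.1 he))

theorem isRk {M : Matroid (Fin k)} (h1 : RANK M) :
    A23.IsRk (fun A : Finset (Fin k) => rk M (A : Set (Fin k))) where
  mono := fun A B h => h1.1 _ _ (Finset.coe_subset.2 h)
  submod := fun A B => by
    have := h1.2.1 (A : Set (Fin k)) (B : Set (Fin k))
    simpa only [Finset.coe_union, Finset.coe_inter] using this
  ins := fun a A => by
    have := h1.2.2.2.2.2.1 (A : Set (Fin k)) {a}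
    simpa [Finset.coe_insert, Set.union_singleton] using this

theorem fval_coe (M : Matroid (Fin k)) (D Q : Finset (Fin k)) :
    fval M D (Q : Set (Fin k)) = ((D ∩ Q).card : ℤ) - (kap : ℤ) * (rk M (Q : Set (Fin k)) : ℤ) := by
  unfold fval
  congr 3
  ext e; simp

theorem mm {M : Matroid (Fin k)} (h2 : EXPF M) (D : Finset (Fin k)) (S : Set (Fin k))
    (hS : S ⊆ M.E) :
    A23.MM (fun A : Finset (Fin k) => rk M (A : Set (Fin k))) (fun Q => (D ∩ Q).card) kap
      (fs M.E) (fs S) (fs (Exp M D S)) := by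
  obtain ⟨hmax, -, -, -, -⟩ := h2 D S hS
  have hN := fval_coe M D (fs (Exp M D S))
  rw [coe_fs] at hN
  refine ⟨fs_mono hmax.1, fs_mono hmax.2.1, ?_, ?_⟩
  · intro Q hSQ hQE
    have hSQ' : S ⊆ (Q : Set (Fin k)) := fun e he => hSQ (mem_fs.2 he)
    have hQE' : (Q : Set (Fin k)) ⊆ M.E := fun e he => mem_fs.1 (hQE he)
    have h := hmax.2.2 _ hSQ' hQE'
    rw [fval_coe, hN] at h
    simp only [coe_fs]
    zify
    linarith
  · intro Q hSQ hQE hle
    have hSQ' : S ⊆ (Q : Set (Fin k)) := fun e he => hSQ (mem_fs.2 he)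
    have hQE' : (Q : Set (Fin k)) ⊆ M.E := fun e he => mem_fs.1 (hQE he)
    simp only [coe_fs] at hle
    zify at hle
    have hQ : IsMax M D S (Q : Set (Fin k)) := by
      refine ⟨hSQ', hQE', fun Q' h1 h2 => ?_⟩
      have h := hmax.2.2 Q' h1 h2
      rw [hN] at h
      rw [fval_coe]
      linarith
    intro e he
    exact mem_fs.2 ⟨_, hQ, he⟩

end B12

theorem compress12 (M : Matroid (Fin k)) (h1 : RANK M) (h2 : EXPF M) : COMPRESS73 M := by
  intro U S n hU hS hmono
  have hκ : 0 < kap := by unfold kap; positivity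
  have key : ∀ D : Finset (Fin k), ∃ (B : Finset (Fin k)) (β : Fin k → Fin k),
      B ⊆ D ∩ U ∧ (∀ a ∈ B, β a ∈ D ∩ U) ∧ kap * B.card ≤ (D ∩ U).card ∧
      ∀ t ≤ n, A23.MM (fun A : Finset (Fin k) => rk M (A : Set (Fin k)))
        (A23.wt (U.card + 1) B β) (U.card + 1) (B12.fs M.E) (B12.fs (S t))
        (B12.fs (Exp M (D ∩ U) (S t))) := by
    intro D
    refine A23.compress (S := fun t => B12.fs (S t))
      (N := fun t => B12.fs (Exp M (D ∩ U) (S t))) (B12.isRk h1) hκ
      (Nat.lt_succ_of_le (Finset.card_le_card Finset.inter_subset_right))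
      (fun t => B12.fs_mono (hmono t (t + 1) (Nat.le_succ t)))
      (fun t => B12.fs_mono ((h2 (D ∩ U) (S t) (hS t)).2.2.2.1 _ (hmono t (t + 1) (Nat.le_succ t))
        (hS (t + 1))))
      (fun t => B12.mm h2 (D ∩ U) (S t) (hS t)) n
  choose B β hB hβ hc hmm using key
  have hcU : ∀ D, kap * (B D).card ≤ U.card := fun D =>
    (hc D).trans (Finset.card_le_card Finset.inter_subset_right)
  refine ⟨fun D i => if i ∈ B D then 1 else 0,
    fun D i => ((B D).filter (fun a => β D a = i)).card, ?_, ?_, ?_, ?_, ?_⟩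
  · intro D i hi
    have : i ∉ B D := fun h => hi (Finset.mem_inter.1 (hB D h)).2
    simp [this]
  · intro D i hi
    rw [Finset.card_eq_zero, Finset.filter_eq_empty_iff]
    intro a ha h
    exact hi (h ▸ (Finset.mem_inter.1 (hβ D a ha)).2)
  · intro D
    have : ∑ i, (if i ∈ B D then 1 else 0) = (B D).card := by simp
    rw [this]; exact hcU D
  · intro D
    have : ∑ i, ((B D).filter (fun a => β D a = i)).card = (B D).card :=
      (Finset.card_eq_sum_card_fiberwise (f := β D) (s := B D) (t := Finset.univ)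
        (fun a _ => Finset.mem_univ _)).symm
    rw [this]; exact hcU D
  · intro D D' hb hm t ht
    have hcode : A23.code (B D) (β D) = A23.code (B D') (β D') := by
      funext e
      have e1 := congrFun hb e
      have e2 := congrFun hm e
      simp only at e1 e2
      unfold A23.code
      rw [e1, e2]
    have hw : A23.wt (U.card + 1) (B D) (β D) = A23.wt (U.card + 1) (B D') (β D') := by
      rw [← A23.wty_code, ← A23.wty_code, hcode]
    have h := hmm D t ht
    rw [hw] at h
    have := A23.MM.unique h (hmm D' t ht)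
    rw [← B12.coe_fs (Exp M (D ∩ U) (S t)), this, B12.coe_fs]

end Crest.Agent.R305
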