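import Crest.Agent.R305.RGDefs55

/-! Row 305: the chain of maximal maximisers is determined by a small set and a small multiset. -/

set_option autoImplicit false

open Classical

namespace Crest.Agent.R305.C04

variable {k : ℕ} {M : Matroid (Fin k)}

/-- `Z` is independent over `R` -/
def IO (M : Matroid (Fin k)) (R : Set (Fin k)) (Z : Finset (Fin k)) : Prop :=
  rk M R + Z.card ≤ rk M (R ∪ ↑Z)

theorem dim (h1 : RANK M) {X Y : Set (Fin k)} (hXY : X ⊆ Y) (W : Set (Fin k)) :
    rk M (Y ∪ W) + rk M X ≤ rk M (X ∪ W) + rk M Y := by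
  have h := h1.2.1 (X ∪ W) Y
  have e : X ∪ W ∪ Y = Y ∪ W := by
    ext x; simp only [Set.mem_union]; constructor
    · rintro ((hx | hx) | hx)
      · exact Or.inl (hXY hx)
      · exact Or.inr hx
      · exact Or.inl hx
    · rintro (hx | hx)
      · exact Or.inr hx
      · exact Or.inl (Or.inr hx)
  rw [e] at h
  have h' : rk M X ≤ rk M ((X ∪ W) ∩ Y) := h1.1 _ _ (fun x hx => ⟨Or.inl hx, hXY hx⟩)
  omega

theorem IO.anti (h1 : RANK M) {X Y : Set (Fin k)} (hXY : X ⊆ Y) {Z : Finset (Fin k)}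
    (h : IO M Y Z) : IO M X Z := by
  have := dim h1 hXY (↑Z)
  unfold IO at *
  omega

theorem IO.sub (h1 : RANK M) {R : Set (Fin k)} {W Z : Finset (Fin k)} (hW : W ⊆ Z)
    (h : IO M R Z) : IO M R W := by
  have h6 := h1.2.2.2.2.2.1 (R ∪ ↑W) (Z \ W)
  have e : R ∪ ↑W ∪ ↑(Z \ W) = R ∪ ↑Z := by
    rw [Set.union_assoc, ← Finset.coe_union, Finset.union_sdiff_of_subset hW]
  rw [e, Finset.card_sdiff_of_subset hW] at h6
  have := Finset.card_le_card hW
  unfold IO at *
  omega

theorem IO.notMem_cl (h1 : RANK M) {R : Set (Fin k)} {Z : Finset (Fin k)} (h : IO M R Z)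
    {z : Fin k} (hz : z ∈ Z) : z ∉ M.closure (R ∪ ↑(Z.erase z)) := by
  intro hc
  have h5 := h1.2.2.2.2.1 _ _ hc
  have e : insert z (R ∪ ↑(Z.erase z)) = R ∪ ↑Z := by
    ext x
    simp only [Set.mem_insert_iff, Set.mem_union, Finset.coe_erase, Set.mem_sdiff,
      Finset.mem_coe, Set.mem_singleton_iff]
    constructor
    · rintro (rfl | hx | hx)
      · exact Or.inr hz
      · exact Or.inl hx
      · exact Or.inr hx.1
    · rintro (hx | hx)
      · exact Or.inr (Or.inl hx)
      · by_cases hxz : x = z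
        · exact Or.inl hxz
        · exact Or.inr (Or.inr ⟨hx, hxz⟩)
  rw [e] at h5
  have h6 := h1.2.2.2.2.2.1 R (Z.erase z)
  rw [Finset.card_erase_of_mem hz] at h6
  have := Finset.card_pos.2 ⟨z, hz⟩
  unfold IO at h
  omega

theorem IO.notMem (h1 : RANK M) {R : Set (Fin k)} {Z : Finset (Fin k)} (h : IO M R Z)
    {z : Fin k} (hz : z ∈ Z) : z ∉ R := by
  intro hR
  have h' := IO.sub h1 (Finset.singleton_subset_iff.2 hz) h
  unfold IO at h'
  have e : R ∪ ↑({z} : Finset (Fin k)) = R := by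
    apply Set.union_eq_self_of_subset_right
    simpa using hR
  rw [e] at h'
  simp at h'

/-- some element of `A` is needed to span `b` -/
theorem exists_needed (h1 : RANK M) {R : Set (Fin k)} {Z : Finset (Fin k)} (h : IO M R Z)
    {b : Fin k} (hb : b ∈ M.closure (R ∪ ↑Z)) :
    ∀ A : Finset (Fin k), A ⊆ Z → b ∉ M.closure (R ∪ ↑(Z \ A)) →
      ∃ a ∈ A, b ∉ M.closure (R ∪ ↑(Z.erase a)) := by
  intro A
  induction A using Finset.induction_on with
  | empty => intro _ hn; simp at hn; exact absurd hb hn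
  | insert a A ha ih =>
    intro hA hn
    by_cases hc : b ∈ M.closure (R ∪ ↑(Z \ A))
    · refine ⟨a, Finset.mem_insert_self _ _, fun hba => ?_⟩
      have haZ : a ∈ Z := hA (Finset.mem_insert_self _ _)
      have e : R ∪ ↑(Z \ A) = insert a (R ∪ ↑(Z \ insert a A)) := by
        ext x
        simp only [Set.mem_union, Finset.coe_sdiff, Set.mem_sdiff, Finset.mem_coe,
          Set.mem_insert_iff, Finset.coe_insert, not_or]
        constructor
        · rintro (hx | hx)
          · exact Or.inr (Or.inl hx)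
          · by_cases hxa : x = a
            · exact Or.inl hxa
            · exact Or.inr (Or.inr ⟨hx.1, hxa, hx.2⟩)
        · rintro (rfl | hx | hx)
          · exact Or.inr ⟨haZ, ha⟩
          · exact Or.inl hx
          · exact Or.inr ⟨hx.1, hx.2.2⟩
      rw [e] at hc
      have hex : a ∈ M.closure (insert b (R ∪ ↑(Z \ insert a A))) :=
        (M.closure_exchange ⟨hc, hn⟩).1
      have hsub : insert b (R ∪ ↑(Z \ insert a A)) ⊆
          insert b (R ∪ ↑(Z.erase a)) := by
        apply Set.insert_subset_insert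
        apply Set.union_subset_union_right
        intro x hx
        simp only [Finset.coe_sdiff, Set.mem_sdiff, Finset.mem_coe, Finset.coe_insert,
          Set.mem_insert_iff, not_or] at hx
        simp only [Finset.coe_erase, Set.mem_sdiff, Finset.mem_coe, Set.mem_singleton_iff]
        exact ⟨hx.1, hx.2.1⟩
      have h2 := M.closure_subset_closure hsub hex
      rw [M.closure_insert_eq_of_mem_closure hba] at h2
      exact h.notMem_cl h1 haZ h2
    · obtain ⟨a', ha', hb'⟩ := ih ((Finset.subset_insert _ _).trans hA) hc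
      exact ⟨a', Finset.mem_insert_of_mem ha', hb'⟩

/-- number of `D`-points in a set -/
noncomputable def dn (D : Finset (Fin k)) (Q : Set (Fin k)) : ℕ := (D.filter (fun e => e ∈ Q)).card

theorem dn_mono (D : Finset (Fin k)) {X Y : Set (Fin k)} (h : ∀ d ∈ D, d ∈ X → d ∈ Y) :
    dn D X ≤ dn D Y := by
  apply Finset.card_le_card
  intro d hd
  rw [Finset.mem_filter] at hd ⊢
  exact ⟨hd.1, h d hd.1 hd.2⟩

theorem fval_eq (D : Finset (Fin k)) (Q : Set (Fin k)) :
    fval M D Q = (dn D Q : ℤ) - (kap : ℤ) * (rk M Q : ℤ) := rfl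

theorem kap_pos : 0 < kap := by unfold kap; positivity

/-- a basis of the maximiser over `R` inside `D` -/
theorem exists_basis (h1 : RANK M) {D : Finset (Fin k)} {S R N : Set (Fin k)}
    (hmax : IsMax M D S N) (hcl : M.closure N = N) (hSR : S ⊆ R) (hRN : R ⊆ N) :
    ∃ Z : Finset (Fin k), Z ⊆ D ∧ (↑Z : Set (Fin k)) ⊆ N ∧ IO M R Z ∧ M.closure (R ∪ ↑Z) = N ∧
      kap * Z.card + dn D R ≤ dn D N := by
  have hNE : N ⊆ M.E := hmax.2.1
  let F : Finset (Finset (Fin k)) :=
    Finset.univ.filter (fun Z => Z ⊆ D ∧ (↑Z : Set (Fin k)) ⊆ N ∧ IO M R Z)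
  have hF : F.Nonempty := ⟨∅, Finset.mem_filter.2 ⟨Finset.mem_univ _, Finset.empty_subset _,
    by simp, by simp [IO]⟩⟩
  obtain ⟨Z, hZ, hZmax⟩ := Finset.exists_max_image F Finset.card hF
  simp only [F, Finset.mem_filter, Finset.mem_univ, true_and] at hZ hZmax
  obtain ⟨hZD, hZN, hIO⟩ := hZ
  have hRZ : R ∪ ↑Z ⊆ N := Set.union_subset hRN hZN
  have hRZE : R ∪ ↑Z ⊆ M.E := hRZ.trans hNE
  have hQN : M.closure (R ∪ ↑Z) ⊆ N := by
    rw [← hcl]; exact M.closure_subset_closure hRZ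
  have hspan : ∀ d ∈ D, d ∈ N → d ∈ M.closure (R ∪ ↑Z) := by
    intro d hd hdN
    by_contra hn
    have hdZ : d ∉ Z := fun hh => hn (M.subset_closure _ hRZE (Or.inr hh))
    have h4 := h1.2.2.2.1 _ d (hNE hdN) hn
    have hI : IO M R (insert d Z) := by
      unfold IO at *
      rw [Finset.card_insert_of_notMem hdZ, Finset.coe_insert, Set.union_insert, h4]
      omega
    have := hZmax (insert d Z) ⟨Finset.insert_subset hd hZD,
      by rw [Finset.coe_insert]; exact Set.insert_subset hdN hZN, hI⟩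
    rw [Finset.card_insert_of_notMem hdZ] at this
    omega
  have hk : (0 : ℤ) < kap := by exact_mod_cast kap_pos
  refine ⟨Z, hZD, hZN, hIO, ?_, ?_⟩
  · apply Set.Subset.antisymm hQN
    have hf := hmax.2.2 (M.closure (R ∪ ↑Z))
      (hSR.trans (Set.subset_union_left.trans (M.subset_closure _ hRZE))) (M.closure_subset_ground _)
    rw [fval_eq, fval_eq] at hf
    have hd := dn_mono D hspan
    have hr : rk M N ≤ rk M (M.closure (R ∪ ↑Z)) := by
      by_contra hlt
      push Not at hlt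
      have : (rk M (M.closure (R ∪ ↑Z)) : ℤ) + 1 ≤ rk M N := by exact_mod_cast hlt
      have hd' : (dn D N : ℤ) ≤ dn D (M.closure (R ∪ ↑Z)) := by exact_mod_cast hd
      nlinarith
    have := h1.2.2.2.2.2.2.2.2 _ _ hQN hNE hr
    rwa [M.closure_closure] at this
  · have hf := hmax.2.2 R hSR (hRN.trans hNE)
    rw [fval_eq, fval_eq] at hf
    have hr : rk M (R ∪ ↑Z) ≤ rk M N := h1.1 _ _ hRZ
    unfold IO at hIO
    have h3 : (rk M R : ℤ) + Z.card ≤ rk M N := by exact_mod_cast hIO.trans hr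
    have : (kap : ℤ) * Z.card + dn D R ≤ dn D N := by nlinarith
    exact_mod_cast this

/-- the peeling step -/
theorem peel_step (h1 : RANK M) {D : Finset (Fin k)} {S P R N : Set (Fin k)}
    (hmax : IsMax M D S N) (hSR : S ⊆ R) (hPR : P ⊆ R) (hRN : R ⊆ N)
    (hdown : ∀ Q, P ⊆ Q → Q ⊆ M.E → Q ≠ P → fval M D Q < fval M D P)
    {Z : Finset (Fin k)} (hZN : (↑Z : Set (Fin k)) ⊆ N) (hIO : IO M R Z)
    (hsp : M.closure (R ∪ ↑Z) = N) {A : Finset (Fin k)} (hA : A ⊆ Z) (hne : A.Nonempty) :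
    ∃ a ∈ A, ∃ b ∈ D, b ∈ N ∧ b ∉ M.closure (R ∪ ↑(Z.erase a)) ∧ b ∉ M.closure (P ∪ ↑A) := by
  have hNE : N ⊆ M.E := hmax.2.1
  have hk : (0 : ℤ) < kap := by exact_mod_cast kap_pos
  have hAN : (↑A : Set (Fin k)) ⊆ N := (Finset.coe_subset.2 hA).trans hZN
  have hQE : P ∪ ↑A ⊆ M.E := (Set.union_subset (hPR.trans hRN) hAN).trans hNE
  have hQ'E : R ∪ ↑(Z \ A) ⊆ M.E :=
    (Set.union_subset hRN ((Finset.coe_subset.2 Finset.sdiff_subset).trans hZN)).trans hNE
  set Q := M.closure (P ∪ ↑A) with hQ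
  set Q' := M.closure (R ∪ ↑(Z \ A)) with hQ'
  have hPQ : P ⊆ Q := Set.subset_union_left.trans (M.subset_closure _ hQE)
  have hRQ' : R ⊆ Q' := Set.subset_union_left.trans (M.subset_closure _ hQ'E)
  have hne' : Q ≠ P := by
    obtain ⟨a, ha⟩ := hne
    intro he
    have : a ∈ Q := M.subset_closure _ hQE (Or.inr ha)
    rw [he] at this
    exact hIO.notMem h1 (hA ha) (hPR this)
  have hd := hdown Q hPQ (M.closure_subset_ground _) hne'
  have hu := hmax.2.2 Q' (hSR.trans hRQ') (M.closure_subset_ground _)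
  rw [fval_eq, fval_eq] at hd hu
  have r1 : rk M Q ≤ rk M P + A.card := by
    rw [hQ, h1.2.2.1]; exact h1.2.2.2.2.2.1 _ _
  have r2 : rk M Q' + A.card ≤ rk M N := by
    rw [hQ', h1.2.2.1, ← hsp, h1.2.2.1]
    have := h1.2.2.2.2.2.1 R (Z \ A)
    rw [Finset.card_sdiff_of_subset hA] at this
    have := Finset.card_le_card hA
    unfold IO at hIO
    omega
  have hex : ∃ b ∈ D, b ∈ N ∧ b ∉ Q' ∧ b ∉ Q := by
    by_contra hno
    push Not at hno
    have hc : dn D N + dn D P ≤ dn D Q' + dn D Q := by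
      unfold dn
      rw [← Finset.card_union_add_card_inter (D.filter (fun e => e ∈ Q')) (D.filter (fun e => e ∈ Q))]
      apply Nat.add_le_add
      · apply Finset.card_le_card
        intro d hd
        rw [Finset.mem_filter] at hd
        rw [Finset.mem_union, Finset.mem_filter, Finset.mem_filter]
        by_cases hq : d ∈ Q'
        · exact Or.inl ⟨hd.1, hq⟩
        · exact Or.inr ⟨hd.1, hno d hd.1 hd.2 hq⟩
      · apply Finset.card_le_card
        intro d hd
        rw [Finset.mem_filter] at hd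
        rw [Finset.mem_inter, Finset.mem_filter, Finset.mem_filter]
        exact ⟨⟨hd.1, hRQ' (hPR hd.2)⟩, hd.1, hPQ hd.2⟩
    have hc' : (dn D N : ℤ) + dn D P ≤ dn D Q' + dn D Q := by exact_mod_cast hc
    have r1' : (rk M Q : ℤ) ≤ rk M P + A.card := by exact_mod_cast r1
    have r2' : (rk M Q' : ℤ) + A.card ≤ rk M N := by exact_mod_cast r2
    nlinarith
  obtain ⟨b, hbD, hbN, hbQ', hbQ⟩ := hex
  obtain ⟨a, ha, hba⟩ := exists_needed h1 hIO (by rw [hsp]; exact hbN) A hA hbQ'
  exact ⟨a, ha, b, hbD, hbN, hba, hbQ⟩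

theorem peel (h1 : RANK M) {D : Finset (Fin k)} {S P R N : Set (Fin k)}
    (hmax : IsMax M D S N) (hSR : S ⊆ R) (hPR : P ⊆ R) (hRN : R ⊆ N)
    (hdown : ∀ Q, P ⊆ Q → Q ⊆ M.E → Q ≠ P → fval M D Q < fval M D P)
    {Z : Finset (Fin k)} (hZN : (↑Z : Set (Fin k)) ⊆ N) (hIO : IO M R Z)
    (hsp : M.closure (R ∪ ↑Z) = N) :
    ∀ A : Finset (Fin k), A ⊆ Z → ∃ y : Fin k → Fin k,
      (∀ z ∈ A, y z ∈ D ∧ y z ∈ N ∧ y z ∉ M.closure (R ∪ ↑(Z.erase z))) ∧
      (∀ A' : Finset (Fin k), A' ⊆ A → A'.Nonempty → ∃ z ∈ A', y z ∉ M.closure (P ∪ ↑A')) := by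
  intro A
  induction A using Finset.strongInduction with
  | H A ih =>
    intro hA
    rcases A.eq_empty_or_nonempty with rfl | hne
    · refine ⟨id, by simp, fun A' hA' hne => ?_⟩
      rw [Finset.subset_empty] at hA'
      rw [hA'] at hne
      simp at hne
    · obtain ⟨a, ha, b, hbD, hbN, hb1, hb2⟩ :=
        peel_step h1 hmax hSR hPR hRN hdown hZN hIO hsp hA hne
      obtain ⟨y, hy1, hy2⟩ := ih (A.erase a) (Finset.erase_ssubset ha)
        ((Finset.erase_subset _ _).trans hA)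
      refine ⟨Function.update y a b, fun z hz => ?_, fun A' hA' hne' => ?_⟩
      · by_cases hza : z = a
        · subst hza
          rw [Function.update_self]
          exact ⟨hbD, hbN, hb1⟩
        · rw [Function.update_of_ne hza]
          exact hy1 z (Finset.mem_erase.2 ⟨hza, hz⟩)
      · by_cases haA : a ∈ A'
        · refine ⟨a, haA, ?_⟩
          rw [Function.update_self]
          intro hh
          exact hb2 (M.closure_subset_closure
            (Set.union_subset_union_right _ (Finset.coe_subset.2 hA')) hh)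
        · obtain ⟨z, hz, hz2⟩ := hy2 A' (fun x hx => Finset.mem_erase.2
            ⟨fun hxa => haA (hxa ▸ hx), hA' hx⟩) hne'
          refine ⟨z, hz, ?_⟩
          have hza : z ≠ a := fun hza => haA (by rw [← hza]; exact hz)
          rw [Function.update_of_ne hza]
          exact hz2

/-- previous member of the chain -/
def Pv (N : ℕ → Set (Fin k)) : ℕ → Set (Fin k)
  | 0 => ∅
  | t + 1 => N t

structure Code (M : Matroid (Fin k)) (S N : ℕ → Set (Fin k)) (Z : ℕ → Finset (Fin k))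
    (y : ℕ → Fin k → Fin k) : Prop where
  ground : ∀ t, N t ⊆ M.E
  base : ∀ t, S t ∪ Pv N t ⊆ N t
  zsub : ∀ t, (↑(Z t) : Set (Fin k)) ⊆ N t
  span : ∀ t, M.closure (S t ∪ Pv N t ∪ ↑(Z t)) = N t
  io : ∀ t, IO M (S t ∪ Pv N t) (Z t)
  ymem : ∀ t, ∀ z ∈ Z t, y t z ∈ N t ∧ y t z ∉ M.closure (S t ∪ Pv N t ∪ ↑((Z t).erase z))
  first : ∀ t, ∀ A : Finset (Fin k), A ⊆ Z (t + 1) → A.Nonempty →
    ∃ z ∈ A, y (t + 1) z ∉ M.closure (N t ∪ ↑A)

variable {S N N' : ℕ → Set (Fin k)} {Z Z' : ℕ → Finset (Fin k)} {y y' : ℕ → Fin k → Fin k}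

theorem Code.mono (c : Code M S N Z y) {t t' : ℕ} (h : t ≤ t') : N t ⊆ N t' := by
  induction h with
  | refl => exact Set.Subset.rfl
  | @step m _ ih => exact ih.trans (fun x hx => c.base (m + 1) (Or.inr hx))

theorem Code.sub_pv (c : Code M S N Z y) {t t' : ℕ} (h : t < t') : N t ⊆ Pv N t' := by
  obtain ⟨s, rfl⟩ : ∃ s, t' = s + 1 := ⟨t' - 1, by omega⟩
  exact c.mono (by omega)

theorem Code.pv_mono (c : Code M S N Z y) {t t' : ℕ} (h : t ≤ t') : Pv N t ⊆ Pv N t' := by
  rcases Nat.eq_or_lt_of_le h with rfl | h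
  · exact Set.Subset.rfl
  · exact (Set.subset_union_right.trans (c.base t)).trans (c.sub_pv h)

theorem Code.hi (h1 : RANK M) (c : Code M S N Z y) (l : ℕ) :
    ∀ n, IO M (N l) ((Finset.Ioc l n).biUnion Z) := by
  intro n
  induction n with
  | zero => simp [IO]
  | succ n ih =>
    by_cases hl : l ≤ n
    · have e : Finset.Ioc l (n + 1) = insert (n + 1) (Finset.Ioc l n) := by
        ext x; simp only [Finset.mem_Ioc, Finset.mem_insert]; omega
      rw [e, Finset.biUnion_insert]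
      have hsub : N l ∪ ↑((Finset.Ioc l n).biUnion Z) ⊆ S (n + 1) ∪ Pv N (n + 1) := by
        apply Set.Subset.trans _ Set.subset_union_right
        apply Set.union_subset (c.mono hl)
        intro x hx
        simp only [Finset.coe_biUnion, Finset.coe_Ioc, Set.mem_iUnion, Finset.mem_coe] at hx
        obtain ⟨j, hj, hx⟩ := hx
        exact c.mono hj.2 (c.zsub j hx)
      have h2 := (c.io (n + 1)).anti h1 hsub
      have h3 := Finset.card_union_le (Z (n + 1)) ((Finset.Ioc l n).biUnion Z)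
      unfold IO at *
      rw [Finset.coe_union, Set.union_comm (↑(Z (n + 1)) : Set (Fin k)), ← Set.union_assoc]
      omega
    · have e : Finset.Ioc l (n + 1) = ∅ := by
        ext x; simp only [Finset.mem_Ioc, Finset.notMem_empty, iff_false]; omega
      rw [e]; simp [IO]

theorem Code.propA (h1 : RANK M) (hS : ∀ t t', t ≤ t' → S t ⊆ S t') (c : Code M S N Z y)
    {n t l : ℕ} (htl : t ≤ l) {W : Finset (Fin k)} (hW : W ⊆ (Finset.range (n + 1)).biUnion Z)
    {z : Fin k} (hz : z ∈ Z l) (hy : y l z ∈ M.closure (S t ∪ Pv N t ∪ ↑W)) : z ∈ W := by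
  by_contra hzW
  set X0 : Set (Fin k) := S l ∪ Pv N l ∪ ↑((Z l).erase z) with hX0
  set Hi := (Finset.Ioc l n).biUnion Z with hHi
  have hsub : S t ∪ Pv N t ∪ ↑W ⊆ X0 ∪ ↑Hi := by
    rintro x ((hx | hx) | hx)
    · exact Or.inl (Or.inl (Or.inl (hS _ _ htl hx)))
    · exact Or.inl (Or.inl (Or.inr (c.pv_mono htl hx)))
    · have hx' := hW hx
      simp only [Finset.mem_biUnion, Finset.mem_range] at hx'
      obtain ⟨j, hj, hxj⟩ := hx'
      rcases lt_trichotomy j l with h | h | h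
      · exact Or.inl (Or.inl (Or.inr (c.sub_pv h (c.zsub j hxj))))
      · subst h
        refine Or.inl (Or.inr ?_)
        rw [Finset.mem_coe, Finset.mem_erase]
        exact ⟨fun hh => hzW (hh ▸ hx), hxj⟩
      · refine Or.inr ?_
        rw [Finset.mem_coe, hHi, Finset.mem_biUnion]
        exact ⟨j, Finset.mem_Ioc.2 ⟨h, by omega⟩, hxj⟩
  have hy2 := M.closure_subset_closure hsub hy
  obtain ⟨hyN, hyn⟩ := c.ymem l z hz
  have hXN : insert (y l z) X0 ⊆ N l := by
    apply Set.insert_subset hyN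
    exact Set.union_subset (c.base l)
      ((Finset.coe_subset.2 (Finset.erase_subset _ _)).trans (c.zsub l))
  have h2 := (c.hi h1 l n).anti h1 hXN
  have h4 := h1.2.2.2.1 X0 _ (c.ground l hyN) hyn
  have h5 := h1.2.2.2.2.1 _ _ hy2
  have h6 := h1.2.2.2.2.2.1 X0 Hi
  unfold IO at h2
  rw [← hHi, Set.insert_union, h5, h4] at h2
  omega

/-- number of hints inside a set -/
noncomputable def cnt (n : ℕ) (Z : ℕ → Finset (Fin k)) (y : ℕ → Fin k → Fin k)
    (X : Set (Fin k)) : ℕ :=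
  ∑ t ∈ Finset.range (n + 1), ((Z t).filter (fun z => y t z ∈ X)).card

theorem Code.disj (h1 : RANK M) (c : Code M S N Z y) {l l' : ℕ} (h : l ≠ l') :
    Disjoint (Z l) (Z l') := by
  rw [Finset.disjoint_left]
  intro x hx hx'
  rcases lt_or_gt_of_ne h with h | h
  · exact (c.io l').notMem h1 hx' (Or.inr (c.sub_pv h (c.zsub l hx)))
  · exact (c.io l).notMem h1 hx (Or.inr (c.sub_pv h (c.zsub l' hx')))

theorem Code.step (h1 : RANK M) (hS : ∀ t t', t ≤ t' → S t ⊆ S t') (c : Code M S N Z y)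
    (c' : Code M S N' Z' y') {n t : ℕ} (ht : t ≤ n) (hP : Pv N t = Pv N' t)
    (hZ : (Finset.range (n + 1)).biUnion Z = (Finset.range (n + 1)).biUnion Z')
    (hc : ∀ X, cnt n Z y X = cnt n Z' y' X) : Z' t ⊆ Z t := by
  set W := Z' t with hWdef
  obtain ⟨X, hX⟩ : ∃ X : Set (Fin k), ∀ x, x ∈ X ↔
      (x ∈ M.closure (S t ∪ Pv N t ∪ ↑W) ∧ x ∉ Pv N t) :=
    ⟨M.closure (S t ∪ Pv N t ∪ ↑W) \ Pv N t, fun _ => Iff.rfl⟩
  have hW : W ⊆ (Finset.range (n + 1)).biUnion Z := by
    rw [hZ]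
    exact Finset.subset_biUnion_of_mem Z' (Finset.mem_range.2 (by omega))
  have e1 : W.card ≤ cnt n Z' y' X := by
    have : ((Z' t).filter (fun z => y' t z ∈ X)) = W := by
      apply Finset.filter_true_of_mem
      intro z hz
      obtain ⟨a1, a2⟩ := c'.ymem t z hz
      refine (hX _).2 ⟨by rw [hP, c'.span t]; exact a1, fun hh => a2 ?_⟩
      rw [hP] at hh
      apply M.subset_closure _ _ (Or.inl (Or.inr hh))
      exact (Set.union_subset (c'.base t)
        ((Finset.coe_subset.2 (Finset.erase_subset _ _)).trans (c'.zsub t))).trans (c'.ground t)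
    rw [← this]
    exact Finset.single_le_sum (f := fun t => ((Z' t).filter (fun z => y' t z ∈ X)).card)
      (fun _ _ => Nat.zero_le _) (Finset.mem_range.2 (Nat.lt_succ_of_le ht))
  have e2 : ∀ l, ((Z l).filter (fun z => y l z ∈ X)) ⊆ Z l ∩ W := by
    intro l z hz
    rw [Finset.mem_filter] at hz
    refine Finset.mem_inter.2 ⟨hz.1, ?_⟩
    by_cases hl : t ≤ l
    · exact c.propA h1 hS hl hW hz.1 ((hX _).1 hz.2).1
    · exact absurd (c.sub_pv (by omega) (c.ymem l z hz.1).1) ((hX _).1 hz.2).2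
  have e3 : ∑ l ∈ Finset.range (n + 1), (Z l ∩ W).card ≤ W.card := by
    rw [← Finset.card_biUnion]
    · apply Finset.card_le_card
      intro x hx
      rw [Finset.mem_biUnion] at hx
      obtain ⟨j, _, hx⟩ := hx
      exact (Finset.mem_inter.1 hx).2
    · intro l _ l' _ hne
      exact (c.disj h1 hne).mono Finset.inter_subset_left Finset.inter_subset_left
  have e4 : ∀ l ∈ Finset.range (n + 1), ((Z l).filter (fun z => y l z ∈ X)).card = (Z l ∩ W).card := by
    have hle : ∀ l ∈ Finset.range (n + 1),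
        ((Z l).filter (fun z => y l z ∈ X)).card ≤ (Z l ∩ W).card :=
      fun l _ => Finset.card_le_card (e2 l)
    have hs : ∑ l ∈ Finset.range (n + 1), ((Z l).filter (fun z => y l z ∈ X)).card =
        ∑ l ∈ Finset.range (n + 1), (Z l ∩ W).card := by
      apply le_antisymm (Finset.sum_le_sum hle)
      have := hc X
      unfold cnt at this e1
      omega
    exact (Finset.sum_eq_sum_iff_of_le hle).1 hs
  have e5 : ∀ l, l ≤ n → ∀ z ∈ Z l, z ∈ W → y l z ∈ X := by
    intro l hl z hz hzW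
    have := Finset.eq_of_subset_of_card_le (e2 l) (e4 l (Finset.mem_range.2 (by omega))).ge
    have hz' : z ∈ (Z l).filter (fun z => y l z ∈ X) := by
      rw [this]; exact Finset.mem_inter.2 ⟨hz, hzW⟩
    exact (Finset.mem_filter.1 hz').2
  intro z0 hz0
  by_contra hn
  let G := (Finset.range (n + 1)).filter (fun l => (Z l ∩ W).Nonempty)
  have hmemG : ∀ w ∈ W, ∃ j ∈ G, w ∈ Z j := by
    intro w hw
    have hx' := hW hw
    rw [Finset.mem_biUnion] at hx'
    obtain ⟨j, hj, hxj⟩ := hx'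
    exact ⟨j, Finset.mem_filter.2 ⟨hj, w, Finset.mem_inter.2 ⟨hxj, hw⟩⟩, hxj⟩
  obtain ⟨j0, hj0, hzj0⟩ := hmemG z0 hz0
  obtain ⟨l, hlG, hlmax⟩ := Finset.exists_max_image G id ⟨j0, hj0⟩
  have hj0t : t < j0 := by
    rcases lt_trichotomy j0 t with h | h | h
    · exfalso
      apply (c'.io t).notMem h1 hz0
      rw [← hP]
      exact Or.inr (c.sub_pv h (c.zsub j0 hzj0))
    · exact absurd (h ▸ hzj0) hn
    · exact h
  have hl0 : j0 ≤ l := hlmax j0 hj0
  obtain ⟨hln, hlne⟩ := Finset.mem_filter.1 hlG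
  rw [Finset.mem_range] at hln
  obtain ⟨s, rfl⟩ : ∃ s, l = s + 1 := ⟨l - 1, by omega⟩
  obtain ⟨z, hz, hzn⟩ := c.first s _ Finset.inter_subset_left hlne
  apply hzn
  have hyX := e5 (s + 1) (by omega) z (Finset.mem_inter.1 hz).1 (Finset.mem_inter.1 hz).2
  refine M.closure_subset_closure ?_ ((hX _).1 hyX).1
  rintro x (hx | hx)
  · exact Or.inl (c.mono (by omega) (c.base t hx))
  · obtain ⟨j, hj, hxj⟩ := hmemG x hx
    have hjl : j ≤ s + 1 := hlmax j hj
    rcases Nat.eq_or_lt_of_le hjl with h | h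
    · subst h
      exact Or.inr (Finset.mem_coe.2 (Finset.mem_inter.2 ⟨hxj, hx⟩))
    · exact Or.inl (c.mono (by omega) (c.zsub j hxj))

theorem Code.unique (h1 : RANK M) (hS : ∀ t t', t ≤ t' → S t ⊆ S t') (c : Code M S N Z y)
    (c' : Code M S N' Z' y') {n : ℕ}
    (hZ : (Finset.range (n + 1)).biUnion Z = (Finset.range (n + 1)).biUnion Z')
    (hc : ∀ X, cnt n Z y X = cnt n Z' y' X) : ∀ t, t ≤ n → N t = N' t := by
  have key : ∀ t, t ≤ n → Pv N t = Pv N' t → N t = N' t := by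
    intro t ht hP
    have a1 := c.step h1 hS c' ht hP hZ hc
    have a2 := c'.step h1 hS c ht hP.symm hZ.symm (fun X => (hc X).symm)
    rw [← c.span t, ← c'.span t, hP, Finset.Subset.antisymm a1 a2]
  intro t
  induction t with
  | zero => intro ht; exact key 0 ht rfl
  | succ t ih => intro ht; exact key (t + 1) ht (ih (by omega))

theorem exists_code (h1 : RANK M) (h2 : EXPF M) (S : ℕ → Set (Fin k)) (hE : ∀ t, S t ⊆ M.E)
    (hS : ∀ t t', t ≤ t' → S t ⊆ S t') (D : Finset (Fin k)) :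
    ∃ (Z : ℕ → Finset (Fin k)) (y : ℕ → Fin k → Fin k),
      Code M S (fun t => Exp M D (S t)) Z y ∧ (∀ t, Z t ⊆ D) ∧ (∀ t, ∀ z ∈ Z t, y t z ∈ D) ∧
      ∀ n, kap * ∑ t ∈ Finset.range (n + 1), (Z t).card ≤ D.card := by
  set N : ℕ → Set (Fin k) := fun t => Exp M D (S t) with hN
  have hmax : ∀ t, IsMax M D (S t) (N t) := fun t => (h2 D (S t) (hE t)).1
  have hbase : ∀ t, S t ∪ Pv N t ⊆ N t := by
    intro t
    apply Set.union_subset (hmax t).1
    cases t with
    | zero => exact Set.empty_subset _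
    | succ t => exact (h2 D (S t) (hE t)).2.2.2.1 _ (hS _ _ (by omega)) (hE _)
  have layer : ∀ t, ∃ (Z : Finset (Fin k)) (y : Fin k → Fin k), Z ⊆ D ∧
      (↑Z : Set (Fin k)) ⊆ N t ∧ IO M (S t ∪ Pv N t) Z ∧
      M.closure (S t ∪ Pv N t ∪ ↑Z) = N t ∧ kap * Z.card + dn D (Pv N t) ≤ dn D (N t) ∧
      (∀ z ∈ Z, y z ∈ D ∧ y z ∈ N t ∧ y z ∉ M.closure (S t ∪ Pv N t ∪ ↑(Z.erase z))) ∧
      (t ≠ 0 → ∀ A : Finset (Fin k), A ⊆ Z → A.Nonempty →
        ∃ z ∈ A, y z ∉ M.closure (Pv N t ∪ ↑A)) := by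
    intro t
    obtain ⟨Z, hZD, hZN, hIO, hsp, hk⟩ := exists_basis h1 (hmax t) (h2 D (S t) (hE t)).2.1
      (Set.subset_union_left (t := Pv N t)) (hbase t)
    have hk' : kap * Z.card + dn D (Pv N t) ≤ dn D (N t) := by
      have := dn_mono D (X := Pv N t) (Y := S t ∪ Pv N t) (fun d _ hd => Or.inr hd)
      omega
    cases t with
    | zero =>
      exact ⟨Z, id, hZD, hZN, hIO, hsp, hk', fun z hz => ⟨hZD hz, hZN hz, hIO.notMem_cl h1 hz⟩,
        fun h => absurd rfl h⟩
    | succ t =>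
      obtain ⟨y, hy1, hy2⟩ := peel h1 (hmax (t + 1)) (Set.subset_union_left (t := Pv N (t + 1)))
        Set.subset_union_right (hbase (t + 1)) (h2 D (S t) (hE t)).2.2.2.2 hZN hIO hsp Z
        Finset.Subset.rfl
      exact ⟨Z, y, hZD, hZN, hIO, hsp, hk', hy1, fun _ => hy2⟩
  choose Z y hZD hZN hIO hsp hk hy hf using layer
  refine ⟨Z, y, ⟨fun t => (hmax t).2.1, hbase, hZN, hsp, hIO, fun t z hz => (hy t z hz).2,
    fun t => hf (t + 1) (by omega)⟩, hZD, fun t z hz => (hy t z hz).1, fun n => ?_⟩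
  have tel : ∀ n, kap * ∑ t ∈ Finset.range (n + 1), (Z t).card ≤ dn D (N n) := by
    intro n
    induction n with
    | zero => have := hk 0; simp only [zero_add, Finset.range_one, Finset.sum_singleton]; omega
    | succ n ih =>
      rw [Finset.sum_range_succ, mul_add]
      have := hk (n + 1)
      have e : Pv N (n + 1) = N n := rfl
      rw [e] at this
      omega
  exact (tel n).trans (Finset.card_filter_le _ _)

theorem cnt_eq (n : ℕ) (Z : ℕ → Finset (Fin k)) (y : ℕ → Fin k → Fin k) (X : Set (Fin k)) :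
    cnt n Z y X = ∑ e ∈ Finset.univ.filter (fun e => e ∈ X), cnt n Z y {e} := by
  unfold cnt
  rw [Finset.sum_comm]
  apply Finset.sum_congr rfl
  intro t _
  rw [Finset.card_eq_sum_card_fiberwise (f := y t) (t := Finset.univ.filter (fun e => e ∈ X))]
  · apply Finset.sum_congr rfl
    intro e he
    rw [Finset.mem_filter] at he
    congr 1
    ext z
    simp only [Finset.mem_filter, Set.mem_singleton_iff]
    constructor
    · rintro ⟨⟨a, _⟩, b⟩; exact ⟨a, b⟩
    · rintro ⟨a, b⟩; exact ⟨⟨a, b ▸ he.2⟩, b⟩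
  · intro z hz
    simp only [Finset.coe_filter, Set.mem_ofPred_eq, Finset.mem_univ, true_and] at hz ⊢
    exact hz.2

theorem cnt_le (n : ℕ) (Z : ℕ → Finset (Fin k)) (y : ℕ → Fin k → Fin k) (X : Set (Fin k)) :
    cnt n Z y X ≤ ∑ t ∈ Finset.range (n + 1), (Z t).card := by
  unfold cnt
  exact Finset.sum_le_sum (fun t _ => Finset.card_filter_le _ _)

theorem compress04 (h1 : RANK M) (h2 : EXPF M) :
    ∀ (U : Finset (Fin k)) (S : ℕ → Set (Fin k)) (n : ℕ), (U : Set (Fin k)) ⊆ M.E →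
      (∀ t, S t ⊆ M.E) → (∀ t t', t ≤ t' → S t ⊆ S t') →
      ∃ b m : Finset (Fin k) → Fin k → ℕ,
        (∀ D e, e ∉ U → b D e = 0) ∧ (∀ D e, e ∉ U → m D e = 0) ∧
        (∀ D, kap * ∑ e ∈ U, b D e ≤ U.card) ∧ (∀ D, kap * ∑ e ∈ U, m D e ≤ U.card) ∧
        (∀ D D2, b D = b D2 → m D = m D2 → ∀ t, t ≤ n →
          Exp M (D ∩ U) (S t) = Exp M (D2 ∩ U) (S t)) := by
  intro U S n _ hE hS
  choose Z y hc hZD hyD hk using fun D : Finset (Fin k) => exists_code h1 h2 S hE hS (D ∩ U)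
  refine ⟨fun D e => if e ∈ (Finset.range (n + 1)).biUnion (Z D) then 1 else 0,
    fun D e => cnt n (Z D) (y D) {e}, ?_, ?_, ?_, ?_, ?_⟩
  · intro D e he
    apply if_neg
    intro hh
    rw [Finset.mem_biUnion] at hh
    obtain ⟨t, _, ht⟩ := hh
    exact he (Finset.mem_inter.1 (hZD D t ht)).2
  · intro D e he
    unfold cnt
    apply Finset.sum_eq_zero
    intro t _
    rw [Finset.card_eq_zero, Finset.eq_empty_iff_forall_notMem]
    intro z hz
    simp only [Finset.mem_filter, Set.mem_singleton_iff] at hz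
    exact he (hz.2 ▸ (Finset.mem_inter.1 (hyD D t z hz.1)).2)
  · intro D
    refine le_trans (Nat.mul_le_mul_left _ ?_)
      ((hk D n).trans (Finset.card_le_card Finset.inter_subset_right))
    rw [← Finset.card_filter]
    refine le_trans (Finset.card_le_card ?_) Finset.card_biUnion_le
    intro x hx
    exact (Finset.mem_filter.1 hx).2
  · intro D
    refine le_trans (Nat.mul_le_mul_left _ ?_)
      ((hk D n).trans (Finset.card_le_card Finset.inter_subset_right))
    have e := cnt_eq n (Z D) (y D) (↑U)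
    have e2 : ∑ e ∈ U, cnt n (Z D) (y D) {e} = cnt n (Z D) (y D) (↑U) := by
      rw [e]
      apply Finset.sum_congr _ (fun _ _ => rfl)
      ext x; simp
    refine le_trans (le_of_eq e2) ?_
    exact cnt_le n (Z D) (y D) _
  · intro D D2 hb hm
    apply (hc D).unique h1 hS (hc D2)
    · ext e
      have := congrFun hb e
      simp only at this
      by_cases a1 : e ∈ (Finset.range (n + 1)).biUnion (Z D) <;>
        by_cases a2 : e ∈ (Finset.range (n + 1)).biUnion (Z D2)
      · exact ⟨fun _ => a2, fun _ => a1⟩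
      · rw [if_pos a1, if_neg a2] at this; exact absurd this (by omega)
      · rw [if_neg a1, if_pos a2] at this; exact absurd this (by omega)
      · exact ⟨fun h => absurd h a1, fun h => absurd h a2⟩
    · intro X
      rw [cnt_eq n (Z D), cnt_eq n (Z D2)]
      apply Finset.sum_congr rfl
      intro e _
      exact congrFun hm e

end Crest.Agent.R305.C04
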