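import Crest.Agent.R305.Comp73

set_option autoImplicit false

open Classical

namespace Crest.Agent.R305.C18

variable {k : ℕ} {M : Matroid (Fin k)}

/-- `B` is independent over `F` -/
def Ind (M : Matroid (Fin k)) (F : Set (Fin k)) (B : Finset (Fin k)) : Prop :=
  rk M (F ∪ ↑B) = rk M F + B.card

theorem ind_sub (h1 : RANK M) {F : Set (Fin k)} {A B : Finset (Fin k)} (h : Ind M F B)
    (hA : A ⊆ B) : Ind M F A := by
  unfold Ind at *
  have a1 := h1.2.2.2.2.2.1 (F ∪ ↑A) (B \ A)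
  have a2 := h1.2.2.2.2.2.1 F A
  have e : F ∪ ↑A ∪ ↑(B \ A) = F ∪ ↑B := by
    ext x
    simp only [Set.mem_union, Finset.mem_coe, Finset.mem_sdiff]
    constructor
    · rintro ((h | h) | h)
      · exact Or.inl h
      · exact Or.inr (hA h)
      · exact Or.inr h.1
    · rintro (h | h)
      · exact Or.inl (Or.inl h)
      · by_cases hx : x ∈ A
        · exact Or.inl (Or.inr hx)
        · exact Or.inr ⟨h, hx⟩
  rw [e] at a1
  have a3 := Finset.card_sdiff_add_card_eq_card hA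
  omega

theorem ind_down (h1 : RANK M) {F X : Set (Fin k)} {B : Finset (Fin k)} (h : Ind M F B)
    (hX : X ⊆ F) : Ind M X B := by
  unfold Ind at *
  have a1 := h1.2.1 (X ∪ ↑B) F
  have a2 := h1.2.2.2.2.2.1 X B
  have a3 := h1.1 X ((X ∪ ↑B) ∩ F) (fun x hx => ⟨Or.inl hx, hX hx⟩)
  have a4 := h1.1 (F ∪ ↑B) (X ∪ ↑B ∪ F) (by
    rintro x (hx | hx)
    · exact Or.inr hx
    · exact Or.inl (Or.inr hx))
  omega

theorem skew (h1 : RANK M) {F X : Set (Fin k)} {B : Finset (Fin k)} {w : Fin k} (h : Ind M F B)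
    (hX : X ⊆ F) (hw : w ∈ F) (hc : w ∈ M.closure (X ∪ ↑B)) : w ∈ M.closure X := by
  by_contra hn
  have a1 := h1.2.2.2.1 X w (M.mem_ground_of_mem_closure hc) hn
  have a2 : Ind M (insert w X) B := ind_down h1 h (Set.insert_subset hw hX)
  unfold Ind at a2
  rw [Set.insert_union] at a2
  have a3 := h1.2.2.2.2.1 (X ∪ ↑B) w hc
  have a4 := h1.2.2.2.2.2.1 X B
  omega

theorem ind_notMem (h1 : RANK M) {F : Set (Fin k)} {B : Finset (Fin k)} {z : Fin k}
    (h : Ind M F B) (hz : z ∈ B) : z ∉ F := by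
  intro hF
  have a := ind_sub h1 h (Finset.singleton_subset_iff.2 hz)
  unfold Ind at a
  have e : F ∪ ↑({z} : Finset (Fin k)) = F := by
    rw [Finset.coe_singleton]; exact Set.union_eq_self_of_subset_right (by simpa using hF)
  rw [e, Finset.card_singleton] at a
  omega

theorem ind_closure (h1 : RANK M) {F : Set (Fin k)} {B : Finset (Fin k)} (h : Ind M F B) :
    Ind M (M.closure F) B := by
  unfold Ind at *
  rw [← h1.2.2.1 (M.closure F ∪ ↑B), M.closure_union_closure_left_eq, h1.2.2.1, h1.2.2.1]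
  exact h

theorem ind_split (h1 : RANK M) {F : Set (Fin k)} {B X C : Finset (Fin k)} (h : Ind M F B)
    (hX : X ⊆ B) (hC : C ⊆ B) (hd : Disjoint X C) : Ind M (F ∪ ↑X) C := by
  have a1 := ind_sub h1 h hX
  have a2 := ind_sub h1 h (Finset.union_subset hX hC)
  unfold Ind at *
  rw [Finset.coe_union, ← Set.union_assoc, Finset.card_union_of_disjoint hd] at a2
  omega

theorem inter_cl (h1 : RANK M) {F : Set (Fin k)} {B X Y : Finset (Fin k)} {w : Fin k}
    (hE : F ∪ ↑B ⊆ M.E) (h : Ind M F B) (hX : X ⊆ B) (hY : Y ⊆ B)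
    (hx : w ∈ M.closure (F ∪ ↑X)) (hy : w ∈ M.closure (F ∪ ↑Y)) :
    w ∈ M.closure (F ∪ ↑(X ∩ Y)) := by
  have a1 : Ind M (M.closure (F ∪ ↑X)) (Y \ X) :=
    ind_closure h1 (ind_split h1 h hX (Finset.sdiff_subset.trans hY) Finset.disjoint_sdiff)
  refine skew h1 a1 ?_ hx ?_
  · refine M.subset_closure_of_subset ?_ ?_
    · exact Set.union_subset_union_right _ (Finset.coe_subset.2 Finset.inter_subset_left)
    · exact (Set.union_subset_union_right _ (Finset.coe_subset.2 hX)).trans hE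
  · refine M.closure_subset_closure ?_ hy
    rintro x (hx | hx)
    · exact Or.inl (Or.inl hx)
    · by_cases hxX : x ∈ X
      · exact Or.inl (Or.inr (by simpa using ⟨hxX, hx⟩))
      · exact Or.inr (by simpa using ⟨hx, hxX⟩)

theorem inter_all (h1 : RANK M) {F : Set (Fin k)} {B : Finset (Fin k)} {w : Fin k}
    (hE : F ∪ ↑B ⊆ M.E) (h : Ind M F B) (hw : w ∈ M.closure (F ∪ ↑B)) :
    ∀ R : Finset (Fin k), (∀ z ∈ R, w ∈ M.closure (F ∪ ↑(B.erase z))) →
      w ∈ M.closure (F ∪ ↑(B \ R)) := by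
  intro R
  induction R using Finset.induction_on with
  | empty => intro _; simpa using hw
  | insert z R hz ih =>
    intro hR
    have a1 := hR z (Finset.mem_insert_self _ _)
    have a2 := ih (fun x hx => hR x (Finset.mem_insert_of_mem hx))
    have a3 := inter_cl h1 hE h (Finset.erase_subset z B) Finset.sdiff_subset a1 a2
    have e : B.erase z ∩ (B \ R) = B \ insert z R := by
      ext x; simp only [Finset.mem_inter, Finset.mem_erase, Finset.mem_sdiff, Finset.mem_insert]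
      tauto
    rwa [e] at a3

/-- peeling -/
theorem peel (h1 : RANK M) {P F N : Set (Fin k)} {B D : Finset (Fin k)}
    (hE : F ∪ ↑B ⊆ M.E) (h : Ind M F B) (hN : N ⊆ M.closure (F ∪ ↑B))
    (hex : ∀ R : Finset (Fin k), R ⊆ B → R.Nonempty →
      ∃ y ∈ D, y ∈ N ∧ y ∉ M.closure (F ∪ ↑(B \ R)) ∧ y ∉ M.closure (P ∪ ↑R)) :
    ∀ R : Finset (Fin k), R ⊆ B → ∃ y : Fin k → Fin k,
      (∀ z ∈ R, y z ∈ D ∧ y z ∈ N ∧ y z ∉ M.closure (F ∪ ↑(B.erase z))) ∧
      ∀ A : Finset (Fin k), A ⊆ R → A.Nonempty → ∃ z ∈ A, y z ∉ M.closure (P ∪ ↑A) := by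
  intro R
  induction R using Finset.strongInduction with
  | H R ih =>
    intro hR
    rcases R.eq_empty_or_nonempty with rfl | hne
    · exact ⟨id, by simp, fun A hA hA' => absurd (Finset.subset_empty.1 hA) hA'.ne_empty⟩
    obtain ⟨y0, hD, hyN, hy1, hy2⟩ := hex R hR hne
    have : ∃ z0 ∈ R, y0 ∉ M.closure (F ∪ ↑(B.erase z0)) := by
      by_contra hc
      push Not at hc
      exact hy1 (inter_all h1 hE h (hN hyN) R hc)
    obtain ⟨z0, hz0, hz1⟩ := this
    obtain ⟨y, hy, hyA⟩ := ih (R.erase z0) (Finset.erase_ssubset hz0)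
      ((Finset.erase_subset _ _).trans hR)
    refine ⟨fun z => if z = z0 then y0 else y z, fun z hz => ?_, fun A hA hA' => ?_⟩
    · by_cases hzz : z = z0
      · subst hzz; simp only [if_true]; exact ⟨hD, hyN, hz1⟩
      · simp only [hzz, if_false]; exact hy z (Finset.mem_erase.2 ⟨hzz, hz⟩)
    · by_cases hzA : z0 ∈ A
      · refine ⟨z0, hzA, ?_⟩
        simp only [if_true]
        exact fun hc => hy2 (M.closure_subset_closure
          (Set.union_subset_union_right _ (Finset.coe_subset.2 hA)) hc)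
      · obtain ⟨z, hz, hz'⟩ := hyA A (fun x hx => Finset.mem_erase.2
          ⟨fun e => hzA (e ▸ hx), hA hx⟩) hA'
        refine ⟨z, hz, ?_⟩
        have hzz : z ≠ z0 := fun e => hzA (e ▸ hz)
        simp only [hzz, if_false]; exact hz'

/-- number of `D`-elements in a set -/
noncomputable def cnt (D : Finset (Fin k)) (Q : Set (Fin k)) : ℕ := (D.filter (fun e => e ∈ Q)).card

theorem cnt_mono (D : Finset (Fin k)) {Q Q' : Set (Fin k)} (h : Q ⊆ Q') : cnt D Q ≤ cnt D Q' :=
  Finset.card_le_card (fun x hx => by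
    simp only [Finset.mem_filter] at hx ⊢; exact ⟨hx.1, h hx.2⟩)

theorem fval_eq (D : Finset (Fin k)) (Q : Set (Fin k)) :
    fval M D Q = (cnt D Q : ℤ) - (kap : ℤ) * (rk M Q : ℤ) := rfl

/-- a basis of the maximiser over `F` inside `D` -/
theorem basis (h1 : RANK M) {S F N : Set (Fin k)} {D : Finset (Fin k)}
    (hm : IsMax M D S N) (hcl : M.closure N = N) (hSF : S ⊆ F) (hFN : F ⊆ N) :
    ∃ B : Finset (Fin k), B ⊆ D ∧ (B : Set (Fin k)) ⊆ N ∧ Ind M F B ∧
      N = M.closure (F ∪ ↑B) := by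
  have hne : ((D.filter (fun e => e ∈ N)).powerset.filter (fun B => Ind M F B)).Nonempty :=
    ⟨∅, Finset.mem_filter.2 ⟨Finset.empty_mem_powerset _, by simp [Ind]⟩⟩
  obtain ⟨B, hB, hmax⟩ := Finset.exists_max_image _ Finset.card hne
  simp only [Finset.mem_filter, Finset.mem_powerset] at hB hmax
  have hBD : B ⊆ D := hB.1.trans (Finset.filter_subset _ _)
  have hBN : (B : Set (Fin k)) ⊆ N := fun x hx => (Finset.mem_filter.1 (hB.1 hx)).2
  have hFB : F ∪ ↑B ⊆ N := Set.union_subset hFN hBN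
  have hQN : M.closure (F ∪ ↑B) ⊆ N := hcl ▸ M.closure_subset_closure hFB
  have hall : ∀ d ∈ D, d ∈ N → d ∈ M.closure (F ∪ ↑B) := by
    intro d hd hdN
    by_contra hn
    have hdB : d ∉ B := fun hb => hn (M.subset_closure _ (hFB.trans hm.2.1) (Or.inr hb))
    have a1 := h1.2.2.2.1 (F ∪ ↑B) d (hm.2.1 hdN) hn
    have a2 := hmax (insert d B) ⟨Finset.insert_subset (Finset.mem_filter.2 ⟨hd, hdN⟩) hB.1, by
      have := hB.2
      unfold Ind at *
      rw [Finset.coe_insert, Set.union_insert, a1, Finset.card_insert_of_notMem hdB]; omega⟩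
    rw [Finset.card_insert_of_notMem hdB] at a2
    omega
  refine ⟨B, hBD, hBN, hB.2, Set.Subset.antisymm ?_ hQN⟩
  have b1 := hm.2.2 (M.closure (F ∪ ↑B))
    (hSF.trans (M.subset_closure_of_subset Set.subset_union_left (hFB.trans hm.2.1)))
    (M.closure_subset_ground _)
  rw [fval_eq, fval_eq] at b1
  have b2 : cnt D N ≤ cnt D (M.closure (F ∪ ↑B)) := Finset.card_le_card (fun x hx => by
    simp only [Finset.mem_filter] at hx ⊢; exact ⟨hx.1, hall x hx.1 hx.2⟩)
  have b3 : rk M N ≤ rk M (M.closure (F ∪ ↑B)) := by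
    have hk : (0 : ℤ) < kap := by norm_num [kap]
    have : (kap : ℤ) * (rk M N : ℤ) ≤ (kap : ℤ) * (rk M (M.closure (F ∪ ↑B)) : ℤ) := by
      have : (cnt D N : ℤ) ≤ cnt D (M.closure (F ∪ ↑B)) := by exact_mod_cast b2
      linarith
    exact_mod_cast le_of_mul_le_mul_left this hk
  have := h1.2.2.2.2.2.2.2.2 _ _ hQN hm.2.1 b3
  rwa [M.closure_closure] at this

/-- UP -/
theorem up (h1 : RANK M) {S F N : Set (Fin k)} {D B : Finset (Fin k)}
    (hm : IsMax M D S N) (hSF : S ⊆ F) (hE : F ∪ ↑B ⊆ M.E) (hI : Ind M F B)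
    (hN : N = M.closure (F ∪ ↑B)) (R : Finset (Fin k)) (hR : R ⊆ B) :
    cnt D (M.closure (F ∪ ↑(B \ R))) + kap * R.card ≤ cnt D N := by
  have b1 := hm.2.2 (M.closure (F ∪ ↑(B \ R)))
    (hSF.trans (M.subset_closure_of_subset Set.subset_union_left
      ((Set.union_subset_union_right _ (Finset.coe_subset.2 Finset.sdiff_subset)).trans hE)))
    (M.closure_subset_ground _)
  rw [fval_eq, fval_eq, h1.2.2.1] at b1
  have b2 : rk M N = rk M F + B.card := by rw [hN, h1.2.2.1]; exact hI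
  have b3 : rk M (F ∪ ↑(B \ R)) = rk M F + (B \ R).card := ind_sub h1 hI Finset.sdiff_subset
  have b4 := Finset.card_sdiff_add_card_eq_card hR
  rw [b2, b3, ← b4] at b1
  generalize cnt D (M.closure (F ∪ ↑(B \ R))) = c at b1 ⊢
  push_cast at b1
  have : (c : ℤ) + kap * R.card ≤ cnt D N := by linarith
  exact_mod_cast this

/-- previous chain member -/
def Pv (N : ℕ → Set (Fin k)) : ℕ → Set (Fin k)
  | 0 => ∅
  | t + 1 => N t

/-- the base of layer `t` -/
def Fb (M : Matroid (Fin k)) (S N : ℕ → Set (Fin k)) (t : ℕ) : Set (Fin k) :=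
  M.closure (S t ∪ Pv N t)

/-- data of one layer -/
def Layer (M : Matroid (Fin k)) (S N : ℕ → Set (Fin k)) (D : Finset (Fin k)) (t : ℕ)
    (B : Finset (Fin k)) (y : Fin k → Fin k) : Prop :=
  B ⊆ D ∧ (B : Set (Fin k)) ⊆ N t ∧ Ind M (Fb M S N t) B ∧ N t = M.closure (Fb M S N t ∪ ↑B) ∧
  cnt D (Pv N t) + kap * B.card ≤ cnt D (N t) ∧
  (∀ z ∈ B, y z ∈ D ∧ y z ∈ N t ∧ y z ∉ M.closure (Fb M S N t ∪ ↑(B.erase z))) ∧
  (1 ≤ t → ∀ A : Finset (Fin k), A ⊆ B → A.Nonempty → ∃ z ∈ A, y z ∉ M.closure (Pv N t ∪ ↑A))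

theorem layer (h1 : RANK M) (h2 : EXPF M) (S : ℕ → Set (Fin k)) (D : Finset (Fin k))
    (hS : ∀ t, S t ⊆ M.E) (hmono : ∀ t t', t ≤ t' → S t ⊆ S t') (t : ℕ) :
    ∃ (B : Finset (Fin k)) (y : Fin k → Fin k), Layer M S (fun t => Exp M D (S t)) D t B y := by
  set N : ℕ → Set (Fin k) := fun t => Exp M D (S t) with hNdef
  have hm : IsMax M D (S t) (N t) := (h2 D (S t) (hS t)).1
  have hcl : M.closure (N t) = N t := (h2 D (S t) (hS t)).2.1
  have hPN : Pv N t ⊆ N t := by
    cases t with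
    | zero => exact Set.empty_subset _
    | succ t => exact (h2 D (S t) (hS t)).2.2.2.1 _ (hmono _ _ (Nat.le_succ t)) (hS _)
  have hSP : S t ∪ Pv N t ⊆ N t := Set.union_subset hm.1 hPN
  have hSPF : S t ∪ Pv N t ⊆ Fb M S N t := M.subset_closure _ (hSP.trans hm.2.1)
  have hFN : Fb M S N t ⊆ N t := hcl ▸ M.closure_subset_closure hSP
  have hSF : S t ⊆ Fb M S N t := Set.subset_union_left.trans hSPF
  have hPF : Pv N t ⊆ Fb M S N t := Set.subset_union_right.trans hSPF
  obtain ⟨B, hBD, hBN, hI, hN⟩ := basis h1 hm hcl hSF hFN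
  have hE : Fb M S N t ∪ ↑B ⊆ M.E := (Set.union_subset hFN hBN).trans hm.2.1
  have hsub : ∀ R : Finset (Fin k), Fb M S N t ⊆ M.closure (Fb M S N t ∪ ↑(B \ R)) := fun R =>
    M.subset_closure_of_subset Set.subset_union_left
      ((Set.union_subset_union_right _ (Finset.coe_subset.2 Finset.sdiff_subset)).trans hE)
  have hcount : cnt D (Pv N t) + kap * B.card ≤ cnt D (N t) := by
    have a1 := up h1 hm hSF hE hI hN B (Finset.Subset.refl _)
    have a2 := cnt_mono D (hPF.trans (hsub B))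
    omega
  cases t with
  | zero =>
    refine ⟨B, id, hBD, hBN, hI, hN, hcount, fun z hz => ⟨hBD hz, hBN hz, ?_⟩,
      fun h => absurd h (by omega)⟩
    have a1 : Ind M (M.closure (Fb M S N 0 ∪ ↑(B.erase z))) {z} :=
      ind_closure h1 (ind_split h1 hI (Finset.erase_subset _ _)
        (Finset.singleton_subset_iff.2 hz) (by simp))
    exact ind_notMem h1 a1 (Finset.mem_singleton_self z)
  | succ t =>
    have hex : ∀ R : Finset (Fin k), R ⊆ B → R.Nonempty →
        ∃ y ∈ D, y ∈ N (t + 1) ∧ y ∉ M.closure (Fb M S N (t + 1) ∪ ↑(B \ R)) ∧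
          y ∉ M.closure (Pv N (t + 1) ∪ ↑R) := by
      intro R hR hne
      by_contra hc
      push Not at hc
      have a1 := up h1 hm hSF hE hI hN R hR
      have hPE : N t ∪ ↑R ⊆ M.E :=
        (Set.union_subset_union hPF (Finset.coe_subset.2 hR)).trans hE
      have hPQ : N t ⊆ M.closure (N t ∪ ↑R) :=
        M.subset_closure_of_subset Set.subset_union_left hPE
      have a2 := (h2 D (S t) (hS t)).2.2.2.2 (M.closure (N t ∪ ↑R)) hPQ
        (M.closure_subset_ground _) (by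
          obtain ⟨z, hz⟩ := hne
          intro he
          have b1 : z ∈ M.closure (N t ∪ ↑R) := M.subset_closure _ hPE (Or.inr hz)
          rw [he] at b1
          exact ind_notMem h1 hI (hR hz) (hPF b1))
      rw [fval_eq, fval_eq, h1.2.2.1] at a2
      have a3 := h1.2.2.2.2.2.1 (N t) R
      have a4 : cnt D (N (t + 1)) + cnt D (N t) ≤
          cnt D (M.closure (Fb M S N (t + 1) ∪ ↑(B \ R))) + cnt D (M.closure (N t ∪ ↑R)) := by
        unfold cnt
        refine le_trans ?_ (Finset.card_union_add_card_inter _ _).le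
        refine Nat.add_le_add (Finset.card_le_card ?_) (Finset.card_le_card ?_)
        · intro x hx
          simp only [Finset.mem_filter, Finset.mem_union] at hx ⊢
          by_cases hx1 : x ∈ M.closure (Fb M S N (t + 1) ∪ ↑(B \ R))
          · exact Or.inl ⟨hx.1, hx1⟩
          · exact Or.inr ⟨hx.1, hc x hx.1 hx.2 hx1⟩
        · intro x hx
          simp only [Finset.mem_filter, Finset.mem_inter] at hx ⊢
          exact ⟨⟨hx.1, hsub R (hPF hx.2)⟩, hx.1, hPQ hx.2⟩
      change (cnt D (M.closure (N t ∪ ↑R)) : ℤ) - kap * rk M (N t ∪ ↑R) <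
        cnt D (N t) - kap * rk M (N t) at a2
      generalize cnt D (M.closure (N t ∪ ↑R)) = c1 at *
      generalize cnt D (M.closure (Fb M S N (t + 1) ∪ ↑(B \ R))) = c2 at *
      have a5 : (kap : ℤ) * rk M (N t ∪ ↑R) ≤ kap * (rk M (N t) + R.card) :=
        mul_le_mul_of_nonneg_left (by exact_mod_cast a3) (by positivity)
      have a6 : (c2 : ℤ) + kap * R.card ≤ cnt D (N (t + 1)) := by exact_mod_cast a1
      have a7 : (cnt D (N (t + 1)) : ℤ) + cnt D (N t) ≤ c2 + c1 := by exact_mod_cast a4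
      linarith
    obtain ⟨y, hy1, hy2⟩ := peel h1 hE hI hN.subset hex B (Finset.Subset.refl _)
    exact ⟨B, y, hBD, hBN, hI, hN, hcount, hy1, fun _ => hy2⟩

/-- global code of a chain up to time `n` -/
def Code (M : Matroid (Fin k)) (S N : ℕ → Set (Fin k)) (n : ℕ) (Z : Finset (Fin k))
    (y : Fin k → Fin k) : Prop :=
  ∀ t, t ≤ n →
    Fb M S N t ⊆ N t ∧ Pv N t ⊆ N t ∧ M.closure (N t) = N t ∧
    N t = M.closure (Fb M S N t ∪ ↑(Z.filter (fun z => z ∈ N t))) ∧
    (∀ z ∈ Z, z ∈ N t → y z ∈ N t) ∧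
    (∀ Z' : Finset (Fin k), Z' ⊆ Z → ∀ z ∈ Z, z ∉ Pv N t →
      y z ∈ M.closure (Fb M S N t ∪ ↑Z') → z ∈ Z') ∧
    (∀ Z' : Finset (Fin k), Z' ⊆ Z → (∀ z ∈ Z', y z ∈ M.closure (Fb M S N t ∪ ↑Z')) →
      (Z' : Set (Fin k)) ⊆ N t)

theorem card_filter_eq {Z : Finset (Fin k)} {y y' : Fin k → Fin k}
    (h : ∀ i, (Z.filter (fun z => y z = i)).card = (Z.filter (fun z => y' z = i)).card)
    (X : Set (Fin k)) :
    (Z.filter (fun z => y z ∈ X)).card = (Z.filter (fun z => y' z ∈ X)).card := by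
  have key : ∀ f : Fin k → Fin k, (Z.filter (fun z => f z ∈ X)).card =
      ∑ i ∈ Finset.univ.filter (fun i => i ∈ X), (Z.filter (fun z => f z = i)).card := by
    intro f
    rw [Finset.card_eq_sum_card_fiberwise (f := f) (t := Finset.univ.filter (fun i => i ∈ X))]
    · refine Finset.sum_congr rfl (fun i hi => ?_)
      congr 1
      ext z
      simp only [Finset.mem_filter, Finset.mem_univ, true_and] at hi ⊢
      constructor
      · rintro ⟨⟨a, _⟩, c⟩; exact ⟨a, c⟩
      · rintro ⟨a, c⟩; exact ⟨⟨a, c ▸ hi⟩, c⟩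
    · intro z hz
      simp only [Finset.coe_filter, Finset.mem_univ, true_and, Set.mem_ofPred_eq] at hz ⊢
      exact hz.2
  rw [key y, key y']
  exact Finset.sum_congr rfl (fun i _ => h i)

theorem half {S N N' : ℕ → Set (Fin k)} {n : ℕ} {Z : Finset (Fin k)} {y y' : Fin k → Fin k}
    (h : Code M S N n Z y) (h' : Code M S N' n Z y')
    (hy : ∀ i, (Z.filter (fun z => y z = i)).card = (Z.filter (fun z => y' z = i)).card)
    (t : ℕ) (ht : t ≤ n) (hP : Pv N t = Pv N' t) : N' t ⊆ N t := by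
  obtain ⟨a1, -, a3, -, -, a6, a7⟩ := h t ht
  obtain ⟨-, b2, -, b4, b5, -, -⟩ := h' t ht
  have hF : Fb M S N' t = Fb M S N t := by unfold Fb; rw [hP]
  rw [hF] at b4
  set Z' := Z.filter (fun z => z ∈ N' t) with hZ'
  have hsub : Z' ⊆ Z := Finset.filter_subset _ _
  have c1 : Z' ⊆ Z.filter (fun z => y' z ∈ M.closure (Fb M S N t ∪ ↑Z')) := by
    intro z hz
    have hz' := Finset.mem_filter.1 hz
    exact Finset.mem_filter.2 ⟨hz'.1, b4 ▸ b5 z hz'.1 hz'.2⟩
  have c2 : Z.filter (fun z => y z ∈ M.closure (Fb M S N t ∪ ↑Z')) ⊆ Z' := by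
    intro z hz
    have hz' := Finset.mem_filter.1 hz
    by_cases hzP : z ∈ Pv N t
    · exact Finset.mem_filter.2 ⟨hz'.1, b2 (hP ▸ hzP)⟩
    · exact a6 Z' hsub z hz'.1 hzP hz'.2
  have c3 := card_filter_eq hy (M.closure (Fb M S N t ∪ ↑Z'))
  have c4 : Z.filter (fun z => y z ∈ M.closure (Fb M S N t ∪ ↑Z')) = Z' :=
    Finset.eq_of_subset_of_card_le c2 (c3 ▸ Finset.card_le_card c1)
  have c5 := a7 Z' hsub (fun z hz => by
    rw [← c4] at hz; exact (Finset.mem_filter.1 hz).2)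
  rw [b4, ← a3]
  exact M.closure_subset_closure (Set.union_subset a1 c5)

theorem uniq {S N N' : ℕ → Set (Fin k)} {n : ℕ} {Z : Finset (Fin k)} {y y' : Fin k → Fin k}
    (h : Code M S N n Z y) (h' : Code M S N' n Z y')
    (hy : ∀ i, (Z.filter (fun z => y z = i)).card = (Z.filter (fun z => y' z = i)).card) :
    ∀ t, t ≤ n → N t = N' t := by
  have step : ∀ t, t ≤ n → Pv N t = Pv N' t → N t = N' t := fun t ht hP =>
    Set.Subset.antisymm (half h' h (fun i => (hy i).symm) t ht hP.symm) (half h h' hy t ht hP)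
  intro t
  induction t with
  | zero => intro ht; exact step 0 ht rfl
  | succ t ih => intro ht; exact step (t + 1) ht (ih (by omega))

theorem code_of_layers (h1 : RANK M) {S N : ℕ → Set (Fin k)} {D : Finset (Fin k)}
    (hSm : ∀ t t', t ≤ t' → S t ⊆ S t') (hNm : ∀ t t', t ≤ t' → N t ⊆ N t')
    (hNE : ∀ t, N t ⊆ M.E) (hSN : ∀ t, S t ⊆ N t)
    (B : ℕ → Finset (Fin k)) (yy : ℕ → Fin k → Fin k) (hL : ∀ t, Layer M S N D t (B t) (yy t))
    (n : ℕ) : ∃ (Z : Finset (Fin k)) (y : Fin k → Fin k), Z ⊆ D ∧ (∀ z ∈ Z, y z ∈ D) ∧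
      kap * Z.card ≤ D.card ∧ Code M S N n Z y := by
  have hcl : ∀ t, M.closure (N t) = N t := fun t => by
    rw [(hL t).2.2.2.1, M.closure_closure]
  have hPN : ∀ t, Pv N t ⊆ N t := fun t => by
    cases t with
    | zero => exact Set.empty_subset _
    | succ t => exact hNm _ _ (Nat.le_succ t)
  have hSP : ∀ t, S t ∪ Pv N t ⊆ N t := fun t => Set.union_subset (hSN t) (hPN t)
  have hSPF : ∀ t, S t ∪ Pv N t ⊆ Fb M S N t := fun t =>
    M.subset_closure _ ((hSP t).trans (hNE t))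
  have hFN : ∀ t, Fb M S N t ⊆ N t := fun t => hcl t ▸ M.closure_subset_closure (hSP t)
  have hNP : ∀ s t, s < t → N s ⊆ Pv N t := fun s t h => by
    cases t with
    | zero => omega
    | succ t => exact hNm _ _ (by omega)
  have hNF : ∀ s t, s < t → N s ⊆ Fb M S N t := fun s t h =>
    (hNP s t h).trans (Set.subset_union_right.trans (hSPF t))
  have hFF : ∀ s t, s ≤ t → Fb M S N s ⊆ Fb M S N t := fun s t h => by
    rcases h.eq_or_lt with rfl | h
    · exact subset_rfl
    · exact (hFN s).trans (hNF s t h)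
  have hBF : ∀ t z, z ∈ B t → z ∉ Fb M S N t := fun t z hz => ind_notMem h1 (hL t).2.2.1 hz
  have hBN : ∀ t z, z ∈ B t → z ∈ N t := fun t z hz => (hL t).2.1 hz
  have hle : ∀ s t z, z ∈ B s → z ∈ N t → s ≤ t := fun s t z hz hN => by
    by_contra hc
    exact hBF s z hz (hNF t s (by omega) hN)
  have huniq : ∀ s t z, z ∈ B s → z ∈ B t → s = t := fun s t z hs ht =>
    le_antisymm (hle s t z hs (hBN t z ht)) (hle t s z ht (hBN s z hs))
  let y : Fin k → Fin k := fun z => if h : ∃ t, z ∈ B t then yy h.choose z else z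
  have hy : ∀ t z, z ∈ B t → y z = yy t z := fun t z hz => by
    have h : ∃ t, z ∈ B t := ⟨t, hz⟩
    simp only [y, dif_pos h]
    rw [huniq _ _ z h.choose_spec hz]
  let W : ℕ → Finset (Fin k) := fun j => (Finset.range j).biUnion B
  have hW : ∀ j z, z ∈ W j ↔ ∃ s, s < j ∧ z ∈ B s := fun j z => by
    simp [W, Finset.mem_biUnion]
  have hWs : ∀ j, W (j + 1) = W j ∪ B j := fun j => by
    ext z; simp only [hW, Finset.mem_union]
    constructor
    · rintro ⟨s, hs, hz⟩
      rcases (Nat.lt_succ_iff.1 hs).eq_or_lt with rfl | h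
      · exact Or.inr hz
      · exact Or.inl ⟨s, h, hz⟩
    · rintro (⟨s, hs, hz⟩ | hz)
      · exact ⟨s, by omega, hz⟩
      · exact ⟨j, by omega, hz⟩
  have hcard : ∀ j, kap * (W j).card ≤ cnt D (Pv N j) := by
    intro j
    induction j with
    | zero => simp [W]
    | succ j ih =>
      have a1 := (hL j).2.2.2.2.1
      have a2 : (W (j + 1)).card ≤ (W j).card + (B j).card := hWs j ▸ Finset.card_union_le _ _
      have a3 := Nat.mul_le_mul_left kap a2
      rw [Nat.mul_add] at a3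
      change kap * (W (j + 1)).card ≤ cnt D (N j)
      omega
  -- the key skew statement
  have hskew : ∀ s z, z ∈ B s → ∀ j, yy s z ∉ M.closure (Fb M S N s ∪ ↑((W (s + 1 + j)).erase z)) := by
    intro s z hz j
    induction j with
    | zero =>
      intro hc
      refine ((hL s).2.2.2.2.2.1 z hz).2.2 (M.closure_subset_closure ?_ hc)
      rintro x (hx | hx)
      · exact Or.inl hx
      · have hx' := Finset.mem_erase.1 (Finset.mem_coe.1 hx)
        obtain ⟨u, hu, hxu⟩ := (hW _ _).1 hx'.2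
        rcases (show u ≤ s by omega).eq_or_lt with rfl | h
        · exact Or.inr (Finset.mem_coe.2 (Finset.mem_erase.2 ⟨hx'.1, hxu⟩))
        · exact Or.inl (hNF u s h (hBN u x hxu))
    | succ j ih =>
      intro hc
      refine ih (skew h1 (hL (s + 1 + j)).2.2.1 ?_ ?_ (M.closure_subset_closure ?_ hc))
      · rintro x (hx | hx)
        · exact hFF s _ (by omega) hx
        · have hx' := Finset.mem_erase.1 (Finset.mem_coe.1 hx)
          obtain ⟨u, hu, hxu⟩ := (hW _ _).1 hx'.2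
          exact hNF u _ hu (hBN u x hxu)
      · exact hNF s _ (by omega) ((hL s).2.2.2.2.2.1 z hz).2.1
      · rintro x (hx | hx)
        · exact Or.inl (Or.inl hx)
        · have hx' := Finset.mem_erase.1 (Finset.mem_coe.1 hx)
          have hx2 := hx'.2
          rw [show s + 1 + (j + 1) = (s + 1 + j) + 1 from rfl, hWs, Finset.mem_union] at hx2
          rcases hx2 with h | h
          · exact Or.inl (Or.inr (Finset.mem_coe.2 (Finset.mem_erase.2 ⟨hx'.1, h⟩)))
          · exact Or.inr h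
  refine ⟨W (n + 1), y, fun z hz => ?_, fun z hz => ?_, ?_, fun t ht =>
    ⟨hFN t, hPN t, hcl t, ?_, ?_, ?_, ?_⟩⟩
  · obtain ⟨s, -, hs⟩ := (hW _ _).1 hz
    exact (hL s).1 hs
  · obtain ⟨s, -, hs⟩ := (hW _ _).1 hz
    rw [hy s z hs]; exact ((hL s).2.2.2.2.2.1 z hs).1
  · exact (hcard (n + 1)).trans (Finset.card_filter_le _ _)
  · refine Set.Subset.antisymm ?_ ?_
    · refine (hL t).2.2.2.1.subset.trans (M.closure_subset_closure
        (Set.union_subset_union_right _ ?_))
      intro x hx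
      exact Finset.mem_coe.2 (Finset.mem_filter.2 ⟨(hW _ _).2 ⟨t, by omega, hx⟩, hBN t x hx⟩)
    · refine subset_trans (M.closure_subset_closure (Set.union_subset (hFN t) ?_)) (hcl t).subset
      intro x hx
      exact (Finset.mem_filter.1 (Finset.mem_coe.1 hx)).2
  · intro z hz hN
    obtain ⟨s, -, hs⟩ := (hW _ _).1 hz
    rw [hy s z hs]
    exact hNm _ _ (hle s t z hs hN) ((hL s).2.2.2.2.2.1 z hs).2.1
  · intro Z' hZ' z hz hP hc
    obtain ⟨s, hsn, hs⟩ := (hW _ _).1 hz
    have hts : t ≤ s := by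
      by_contra h
      exact hP (hNP s t (by omega) (hBN s z hs))
    by_contra hzZ
    rw [hy s z hs] at hc
    refine hskew s z hs (n - s) (M.closure_subset_closure ?_ hc)
    refine Set.union_subset_union (hFF t s hts) ?_
    intro x hx
    refine Finset.mem_coe.2 (Finset.mem_erase.2 ⟨fun e => hzZ (e ▸ hx), ?_⟩)
    rw [show s + 1 + (n - s) = n + 1 by omega]
    exact hZ' hx
  · intro Z' hZ' hall
    have hex : ∃ l, (Z' : Set (Fin k)) ⊆ N l := ⟨n, fun x hx => by
      obtain ⟨s, hsn, hs⟩ := (hW _ _).1 (hZ' hx)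
      exact hNm s n (by omega) (hBN s x hs)⟩
    have hl := Nat.find_spec hex
    by_contra hc
    have hlt : t < Nat.find hex := by
      by_contra h
      exact hc (hl.trans (hNm _ _ (by omega)))
    obtain ⟨l, hl'⟩ : ∃ l, Nat.find hex = l + 1 := ⟨Nat.find hex - 1, by omega⟩
    have hnot : ¬ (Z' : Set (Fin k)) ⊆ N l := Nat.find_min hex (by omega)
    rw [hl'] at hl hlt
    have hA : Z'.filter (fun z => z ∉ N l) ⊆ B (l + 1) := by
      intro x hx
      have hx' := Finset.mem_filter.1 hx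
      obtain ⟨s, -, hs⟩ := (hW _ _).1 (hZ' hx'.1)
      have b1 := hle s (l + 1) x hs (hl hx'.1)
      have b2 : ¬ s ≤ l := fun h => hx'.2 (hNm _ _ h (hBN s x hs))
      rwa [show l + 1 = s by omega]
    have hne : (Z'.filter (fun z => z ∉ N l)).Nonempty := by
      obtain ⟨x, hx, hx'⟩ := Set.not_subset.1 hnot
      exact ⟨x, Finset.mem_filter.2 ⟨hx, hx'⟩⟩
    obtain ⟨z, hz, hz'⟩ := (hL (l + 1)).2.2.2.2.2.2 (by omega) _ hA hne
    have hz1 := hall z (Finset.mem_filter.1 hz).1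
    rw [hy _ z (hA hz)] at hz1
    refine hz' (M.closure_subset_closure ?_ hz1)
    rintro x (hx | hx)
    · exact Or.inl (hNm t l (by omega) (hFN t hx))
    · by_cases hxN : x ∈ N l
      · exact Or.inl hxN
      · exact Or.inr (Finset.mem_coe.2 (Finset.mem_filter.2 ⟨hx, hxN⟩))

end Crest.Agent.R305.C18

namespace Crest.Agent.R305

variable {k : ℕ}

theorem compress18 (M : Matroid (Fin k)) (h1 : RANK M) (h2 : EXPF M) : COMPRESS73 M := by
  intro U S n hU hS hmono
  have key : ∀ D : Finset (Fin k), ∃ (Z : Finset (Fin k)) (y : Fin k → Fin k), Z ⊆ D ∩ U ∧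
      (∀ z ∈ Z, y z ∈ D ∩ U) ∧ kap * Z.card ≤ (D ∩ U).card ∧
      C18.Code M S (fun t => Exp M (D ∩ U) (S t)) n Z y := by
    intro D
    choose B yy hL using C18.layer h1 h2 S (D ∩ U) hS hmono
    exact C18.code_of_layers h1 hmono
      (fun t t' h => (h2 _ (S t) (hS t)).2.2.2.1 _ (hmono _ _ h) (hS _))
      (fun t => (h2 _ (S t) (hS t)).1.2.1) (fun t => (h2 _ (S t) (hS t)).1.1) B yy hL n
  choose Z y hZ hy hc hcode using key
  have hcU : ∀ D, kap * (Z D).card ≤ U.card := fun D =>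
    (hc D).trans (Finset.card_le_card Finset.inter_subset_right)
  refine ⟨fun D i => if i ∈ Z D then 1 else 0,
    fun D i => ((Z D).filter (fun z => y D z = i)).card, fun D i hi => ?_, fun D i hi => ?_,
    fun D => ?_, fun D => ?_, fun D D' hb hm t ht => ?_⟩
  · exact if_neg (fun h => hi (Finset.mem_inter.1 (hZ D h)).2)
  · refine Finset.card_eq_zero.2 (Finset.filter_eq_empty_iff.2 (fun z hz he => hi ?_))
    exact he ▸ (Finset.mem_inter.1 (hy D z hz)).2
  · have : ∑ i, (if i ∈ Z D then 1 else 0) = (Z D).card := by simp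
    rw [this]; exact hcU D
  · have : ∑ i, ((Z D).filter (fun z => y D z = i)).card = (Z D).card :=
      (Finset.card_eq_sum_card_fiberwise (f := y D) (s := Z D) (t := Finset.univ)
        (fun _ _ => Finset.mem_coe.2 (Finset.mem_univ _))).symm
    rw [this]; exact hcU D
  · have hZZ : Z D = Z D' := by
      ext i
      have := congrFun hb i
      by_cases a : i ∈ Z D <;> by_cases b : i ∈ Z D' <;> simp [a, b] at this ⊢
    have h' := hcode D'
    rw [← hZZ] at h'
    refine C18.uniq (hcode D) h' (fun i => ?_) t ht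
    have := congrFun hm i
    simp only at this
    rw [this, hZZ]

end Crest.Agent.R305
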