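import Crest.Agent.R305.Comp73
import Crest.Agent.R305.Alpha23b

/-! Row 305: `COMPRESS73` from the abstract compression theorem `A23.compress`. -/

set_option autoImplicit false

open Classical

namespace Crest.Agent.R305

variable {k : ℕ}

/-- a set of `Fin k` as a finset -/
noncomputable def tf21 (X : Set (Fin k)) : Finset (Fin k) := Finset.univ.filter (fun e => e ∈ X)

theorem mem_tf21 {X : Set (Fin k)} {e : Fin k} : e ∈ tf21 X ↔ e ∈ X := by simp [tf21]

theorem coe_tf21 (X : Set (Fin k)) : (tf21 X : Set (Fin k)) = X := by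
  ext e; simp [tf21]

theorem isRk21 (M : Matroid (Fin k)) (h1 : RANK M) :
    A23.IsRk (fun A : Finset (Fin k) => rk M (A : Set (Fin k))) where
  mono := fun A B h => h1.1 _ _ (Finset.coe_subset.2 h)
  submod := fun A B => by
    simp only [Finset.coe_union, Finset.coe_inter]
    exact h1.2.1 _ _
  ins := fun a A => by
    have := h1.2.2.2.2.2.1 (A : Set (Fin k)) {a}
    simp only [Finset.coe_singleton, Set.union_singleton, Finset.card_singleton] at this
    simpa only [Finset.coe_insert] using this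

theorem fval_coe21 (M : Matroid (Fin k)) (D Q : Finset (Fin k)) :
    fval M D (Q : Set (Fin k)) = ((D ∩ Q).card : ℤ) - (kap : ℤ) * (rk M (Q : Set (Fin k)) : ℤ) := by
  unfold fval
  congr 3
  ext e; simp

theorem mm21 (M : Matroid (Fin k)) (h2 : EXPF M) (D : Finset (Fin k)) (S : Set (Fin k))
    (hS : S ⊆ M.E) :
    A23.MM (fun A : Finset (Fin k) => rk M (A : Set (Fin k))) (fun Q => (D ∩ Q).card) kap
      (tf21 M.E) (tf21 S) (tf21 (Exp M D S)) := by
  obtain ⟨hmax, -⟩ := h2 D S hS
  have key : ∀ Q : Finset (Fin k), tf21 S ⊆ Q → Q ⊆ tf21 M.E →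
      S ⊆ (Q : Set (Fin k)) ∧ (Q : Set (Fin k)) ⊆ M.E := fun Q a b =>
    ⟨fun e he => a (mem_tf21.2 he), fun e he => mem_tf21.1 (b he)⟩
  have hN := fval_coe21 M D (tf21 (Exp M D S))
  rw [coe_tf21] at hN
  refine ⟨fun e he => mem_tf21.2 (hmax.1 (mem_tf21.1 he)),
    fun e he => mem_tf21.2 (hmax.2.1 (mem_tf21.1 he)), ?_, ?_⟩
  · intro Q a b
    have h := hmax.2.2 Q (key Q a b).1 (key Q a b).2
    rw [fval_coe21, hN] at h
    simp only [coe_tf21]
    zify
    linarith
  · intro Q a b hle
    simp only [coe_tf21] at hle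
    have hQ : IsMax M D S (Q : Set (Fin k)) := by
      refine ⟨(key Q a b).1, (key Q a b).2, fun Q' c d => ?_⟩
      have h := hmax.2.2 Q' c d
      rw [fval_coe21]
      rw [hN] at h
      zify at hle
      linarith
    intro e he
    exact mem_tf21.2 (Set.mem_sUnion.2 ⟨_, hQ, he⟩)

theorem compress21 (M : Matroid (Fin k)) (h1 : RANK M) (h2 : EXPF M) : COMPRESS73 M := by
  intro U S n _ hS hmono
  have hk : 0 < kap := by unfold kap; positivity
  have hex : ∀ D : Finset (Fin k), ∃ (B : Finset (Fin k)) (β : Fin k → Fin k),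
      B ⊆ D ∩ U ∧ (∀ a ∈ B, β a ∈ D ∩ U) ∧ kap * B.card ≤ (D ∩ U).card ∧
      ∀ t ≤ n, A23.MM (fun A : Finset (Fin k) => rk M (A : Set (Fin k))) (A23.wt (k + 1) B β)
        (k + 1) (tf21 M.E) (tf21 (S t)) (tf21 (Exp M (D ∩ U) (S t))) := by
    intro D
    refine A23.compress (S := fun t => tf21 (S t)) (N := fun t => tf21 (Exp M (D ∩ U) (S t)))
      (isRk21 M h1) hk ?_ ?_ ?_ (fun t => mm21 M h2 (D ∩ U) (S t) (hS t)) n
    · have := Finset.card_le_univ (D ∩ U)
      rw [Fintype.card_fin] at this
      omega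
    · intro t e he
      exact mem_tf21.2 (hmono t (t + 1) (Nat.le_succ t) (mem_tf21.1 he))
    · intro t e he
      exact mem_tf21.2 ((h2 (D ∩ U) (S t) (hS t)).2.2.2.1 (S (t + 1))
        (hmono t (t + 1) (Nat.le_succ t)) (hS _) (mem_tf21.1 he))
  choose B β hB hβ hc hMM using hex
  have hcU : ∀ D, kap * (B D).card ≤ U.card := fun D =>
    (hc D).trans (Finset.card_le_card Finset.inter_subset_right)
  refine ⟨fun D e => if e ∈ B D then 1 else 0,
    fun D e => ((B D).filter (fun a => β D a = e)).card, ?_, ?_, ?_, ?_, ?_⟩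
  · intro D i hi
    exact if_neg fun h => hi (Finset.mem_inter.1 (hB D h)).2
  · intro D i hi
    rw [Finset.card_eq_zero, Finset.filter_eq_empty_iff]
    intro a ha h
    exact hi (h ▸ (Finset.mem_inter.1 (hβ D a ha)).2)
  · intro D
    have : (∑ i, if i ∈ B D then 1 else 0) = (B D).card := by simp
    rw [this]; exact hcU D
  · intro D
    rw [← Finset.card_eq_sum_card_fiberwise (f := β D) (s := B D) (t := Finset.univ)
      (fun a _ => Finset.mem_univ _)]
    exact hcU D
  · intro D D' hb hm t ht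
    have hcode : A23.code (B D) (β D) = A23.code (B D') (β D') := by
      funext e
      unfold A23.code
      have e1 := congrFun hb e
      have e2 := congrFun hm e
      simp only at e1 e2
      rw [e2]
      congr 1
    have hw : A23.wt (k + 1) (B D) (β D) = A23.wt (k + 1) (B D') (β D') := by
      rw [← A23.wty_code, ← A23.wty_code, hcode]
    have a := hMM D t ht
    have a' := hMM D' t ht
    rw [hw] at a
    have := a.unique a'
    rw [← coe_tf21 (Exp M (D ∩ U) (S t)), this, coe_tf21]

end Crest.Agent.R305
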