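import Crest.Agent.R305.Comp73
import Crest.Agent.R305.Alpha23b

/-! Row 305: bridge from the abstract compression theorem to `COMPRESS73`. -/

set_option autoImplicit false

open Classical

namespace Crest.Agent.R305

variable {k : ℕ}

namespace K26c

noncomputable def fs (X : Set (Fin k)) : Finset (Fin k) := Finset.univ.filter (fun e => e ∈ X)

@[simp] theorem mem_fs {X : Set (Fin k)} {e : Fin k} : e ∈ fs X ↔ e ∈ X := by simp [fs]

@[simp] theorem coe_fs (X : Set (Fin k)) : ((fs X : Finset (Fin k)) : Set (Fin k)) = X := by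
  ext e; simp

theorem fs_sub {X : Set (Fin k)} {Q : Finset (Fin k)} : fs X ⊆ Q ↔ X ⊆ (Q : Set (Fin k)) := by
  rw [← Finset.coe_subset, coe_fs]

theorem sub_fs {X : Set (Fin k)} {Q : Finset (Fin k)} : Q ⊆ fs X ↔ (Q : Set (Fin k)) ⊆ X := by
  rw [← Finset.coe_subset, coe_fs]

theorem fs_mono {X Y : Set (Fin k)} (h : X ⊆ Y) : fs X ⊆ fs Y := by
  rw [fs_sub, coe_fs]; exact h

theorem isRk {M : Matroid (Fin k)} (h1 : RANK M) :
    A23.IsRk (fun X : Finset (Fin k) => rk M (X : Set (Fin k))) where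
  mono := fun A B h => h1.1 _ _ (Finset.coe_subset.2 h)
  submod := fun A B => by
    simpa only [Finset.coe_union, Finset.coe_inter] using h1.2.1 (A : Set (Fin k)) B
  ins := fun a A => by
    have := h1.2.2.2.2.2.1 (A : Set (Fin k)) {a}
    simpa using this

theorem fval_eq (M : Matroid (Fin k)) (D Q : Finset (Fin k)) :
    fval M D (Q : Set (Fin k)) = ((D ∩ Q).card : ℤ) - (kap : ℤ) * (rk M (Q : Set (Fin k)) : ℤ) := by
  unfold fval
  congr 3
  ext e; simp

theorem mm {M : Matroid (Fin k)} (h2 : EXPF M) (D : Finset (Fin k)) {S : Set (Fin k)}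
    (hS : S ⊆ M.E) :
    A23.MM (fun X : Finset (Fin k) => rk M (X : Set (Fin k))) (fun Q => (D ∩ Q).card) kap
      (fs M.E) (fs S) (fs (Exp M D S)) := by
  obtain ⟨hmax, -, -, -, -⟩ := h2 D S hS
  have hN := fval_eq M D (fs (Exp M D S))
  rw [coe_fs] at hN
  refine ⟨fs_mono hmax.1, fs_mono hmax.2.1, ?_, ?_⟩
  · intro Q hSQ hQE
    have h3 := hmax.2.2 Q (fs_sub.1 hSQ) (sub_fs.1 hQE)
    rw [fval_eq, hN] at h3
    simp only [coe_fs]
    zify
    linarith
  · intro Q hSQ hQE hle
    rw [sub_fs]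
    refine Set.subset_sUnion_of_mem (S := {Q | IsMax M D S Q}) ?_
    refine ⟨fs_sub.1 hSQ, sub_fs.1 hQE, fun Q' h3 h4 => (hmax.2.2 Q' h3 h4).trans ?_⟩
    rw [fval_eq, hN]
    simp only [coe_fs] at hle
    zify at hle
    linarith

theorem wt_eq {Mm : ℕ} {B B' : Finset (Fin k)} {β β' : Fin k → Fin k} (hB : B = B')
    (h : (fun i => (B.filter (fun a => β a = i)).card) =
      fun i => (B'.filter (fun a => β' a = i)).card) : A23.wt Mm B β = A23.wt Mm B' β' := by
  rw [← A23.wty_code, ← A23.wty_code]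
  congr 1
  funext e
  unfold A23.code
  rw [congrFun h e, hB]

end K26c

open K26c in
theorem compress26 {M : Matroid (Fin k)} (h1 : RANK M) (h2 : EXPF M) : COMPRESS73 M := by
  intro U S n hU hSE hS
  have key : ∀ D : Finset (Fin k), ∃ (B : Finset (Fin k)) (β : Fin k → Fin k), B ⊆ D ∩ U ∧
      (∀ a ∈ B, β a ∈ D ∩ U) ∧ kap * B.card ≤ (D ∩ U).card ∧
      ∀ t ≤ n, A23.MM (fun X : Finset (Fin k) => rk M (X : Set (Fin k))) (A23.wt (k + 1) B β)
        (k + 1) (fs M.E) (fs (S t)) (fs (Exp M (D ∩ U) (S t))) := by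
    intro D
    refine A23.compress (S := fun t => fs (S t)) (N := fun t => fs (Exp M (D ∩ U) (S t)))
      (isRk h1) (by norm_num [kap]) ?_ (fun t => fs_mono (hS _ _ (Nat.le_succ t)))
      (fun t => fs_mono ((h2 _ _ (hSE t)).2.2.2.1 _ (hS _ _ (Nat.le_succ t)) (hSE _)))
      (fun t => mm h2 _ (hSE t)) n
    have := Finset.card_le_univ (D ∩ U)
    rw [Fintype.card_fin] at this
    omega
  choose B β hB hβ hc hM using key
  refine ⟨fun D i => if i ∈ B D then 1 else 0,
    fun D i => ((B D).filter (fun a => β D a = i)).card, ?_, ?_, ?_, ?_, ?_⟩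
  · intro D i hi
    exact if_neg (fun hh => hi (Finset.mem_inter.1 (hB D hh)).2)
  · intro D i hi
    rw [Finset.card_eq_zero, Finset.filter_eq_empty_iff]
    intro a ha hh
    exact hi (hh ▸ (Finset.mem_inter.1 (hβ D a ha)).2)
  · intro D
    have : ∑ i, (if i ∈ B D then 1 else 0) = (B D).card := by simp
    rw [this]
    exact (hc D).trans (Finset.card_le_card Finset.inter_subset_right)
  · intro D
    rw [← Finset.card_eq_sum_card_fiberwise (f := β D) (s := B D) (t := Finset.univ)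
      (fun a _ => Finset.mem_univ _)]
    exact (hc D).trans (Finset.card_le_card Finset.inter_subset_right)
  · intro D D' hb hm t ht
    have hBB : B D = B D' := by
      ext i
      have := congrFun hb i
      by_cases h3 : i ∈ B D <;> by_cases h4 : i ∈ B D' <;> simp_all
    have h3 := hM D t ht
    rw [wt_eq hBB hm] at h3
    have h4 := h3.unique (hM D' t ht)
    rw [← coe_fs (Exp M (D ∩ U) (S t)), h4, coe_fs]

end Crest.Agent.R305
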