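import Crest.Agent.R305.Comp73
import Crest.Agent.R305.Alpha23b

set_option autoImplicit false

open Classical

namespace Crest.Agent.R305

variable {k : ℕ}

/-- a set of `Fin k` as a finset -/
noncomputable def tf34 (X : Set (Fin k)) : Finset (Fin k) := Finset.univ.filter (fun e => e ∈ X)

theorem coe_tf34 (X : Set (Fin k)) : ((tf34 X : Finset (Fin k)) : Set (Fin k)) = X := by
  ext e; simp [tf34]

theorem mem_tf34 (X : Set (Fin k)) (e : Fin k) : e ∈ tf34 X ↔ e ∈ X := by
  simp [tf34]

theorem isRk34 (M : Matroid (Fin k)) (h1 : RANK M) :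
    A23.IsRk (fun X : Finset (Fin k) => rk M (X : Set (Fin k))) where
  mono := fun A B h => h1.1 _ _ (Finset.coe_subset.2 h)
  submod := fun A B => by
    have := h1.2.1 (A : Set (Fin k)) (B : Set (Fin k))
    simpa only [Finset.coe_union, Finset.coe_inter] using this
  ins := fun a A => by
    have := h1.2.2.2.2.2.1 (A : Set (Fin k)) {a}
    simp only [Finset.coe_singleton, Set.union_singleton, Finset.card_singleton] at this
    simpa only [Finset.coe_insert] using this

theorem fval34 (M : Matroid (Fin k)) (D Q : Finset (Fin k)) :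
    fval M D (Q : Set (Fin k)) = ((D ∩ Q).card : ℤ) - (kap : ℤ) * (rk M (Q : Set (Fin k)) : ℤ) := by
  unfold fval
  congr 3
  ext e; simp

theorem mm34 (M : Matroid (Fin k)) (h2 : EXPF M) (D : Finset (Fin k)) (S : Set (Fin k))
    (hS : S ⊆ M.E) :
    A23.MM (fun X : Finset (Fin k) => rk M (X : Set (Fin k))) (fun Q => (D ∩ Q).card) kap
      (tf34 M.E) (tf34 S) (tf34 (Exp M D S)) := by
  obtain ⟨hm, -, -, -, -⟩ := h2 D S hS
  have key : ∀ Q : Finset (Fin k), tf34 S ⊆ Q → Q ⊆ tf34 M.E →
      S ⊆ (Q : Set (Fin k)) ∧ (Q : Set (Fin k)) ⊆ M.E := by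
    intro Q a b
    exact ⟨fun e he => a ((mem_tf34 _ _).2 he), fun e he => (mem_tf34 _ _).1 (b he)⟩
  have e0 : fval M D (Exp M D S) = ((D ∩ tf34 (Exp M D S)).card : ℤ) -
      (kap : ℤ) * (rk M ((tf34 (Exp M D S) : Finset (Fin k)) : Set (Fin k)) : ℤ) := by
    rw [← fval34, coe_tf34]
  refine ⟨fun e he => (mem_tf34 _ _).2 (hm.1 ((mem_tf34 _ _).1 he)),
    fun e he => (mem_tf34 _ _).2 (hm.2.1 ((mem_tf34 _ _).1 he)), fun Q a b => ?_, fun Q a b c => ?_⟩
  · have h3 := hm.2.2 Q (key Q a b).1 (key Q a b).2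
    rw [fval34, e0] at h3
    zify
    linarith
  · have h4 : fval M D (Exp M D S) ≤ fval M D (Q : Set (Fin k)) := by
      rw [fval34, e0]
      zify at c
      linarith
    have h5 : IsMax M D S (Q : Set (Fin k)) :=
      ⟨(key Q a b).1, (key Q a b).2, fun Q' a' b' => (hm.2.2 Q' a' b').trans h4⟩
    intro e he
    exact (mem_tf34 _ _).2 ⟨_, h5, he⟩

theorem compress34 (M : Matroid (Fin k)) (h1 : RANK M) (h2 : EXPF M) : COMPRESS73 M := by
  intro U S n hU hS hmono
  have hκ : 0 < kap := by unfold kap; positivity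
  have H : ∀ D : Finset (Fin k), ∃ (B : Finset (Fin k)) (β : Fin k → Fin k), B ⊆ D ∩ U ∧
      (∀ a ∈ B, β a ∈ D ∩ U) ∧ kap * B.card ≤ (D ∩ U).card ∧
      ∀ t ≤ n, A23.MM (fun X : Finset (Fin k) => rk M (X : Set (Fin k))) (A23.wt (k + 1) B β) (k + 1)
        (tf34 M.E) (tf34 (S t)) (tf34 (Exp M (D ∩ U) (S t))) := by
    intro D
    refine A23.compress (isRk34 M h1) hκ ?_ ?_ ?_ (fun t => mm34 M h2 (D ∩ U) (S t) (hS t)) n
    · have := Finset.card_le_univ (D ∩ U)
      rw [Fintype.card_fin] at this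
      omega
    · intro t e he
      exact (mem_tf34 _ _).2 (hmono t (t + 1) (Nat.le_succ t) ((mem_tf34 _ _).1 he))
    · intro t e he
      exact (mem_tf34 _ _).2 ((h2 (D ∩ U) (S t) (hS t)).2.2.2.1 _ (hmono t (t + 1) (Nat.le_succ t))
        (hS (t + 1)) ((mem_tf34 _ _).1 he))
  choose B β hB hβ hc hM using H
  have hcU : ∀ D, kap * (B D).card ≤ U.card := fun D =>
    (hc D).trans (Finset.card_le_card Finset.inter_subset_right)
  refine ⟨fun D i => if i ∈ B D then 1 else 0,
    fun D i => ((B D).filter (fun a => β D a = i)).card, ?_, ?_, ?_, ?_, ?_⟩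
  · intro D i hi
    have : i ∉ B D := fun h => hi (Finset.mem_inter.1 (hB D h)).2
    simp [this]
  · intro D i hi
    rw [Finset.card_eq_zero, Finset.filter_eq_empty_iff]
    intro a ha h
    exact hi (h ▸ (Finset.mem_inter.1 (hβ D a ha)).2)
  · intro D
    have : (∑ i, (if i ∈ B D then 1 else 0 : ℕ)) = (B D).card := by simp
    rw [this]; exact hcU D
  · intro D
    have : (∑ i, ((B D).filter (fun a => β D a = i)).card) = (B D).card :=
      (Finset.card_eq_sum_card_fiberwise (f := β D) (s := B D) (t := Finset.univ)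
        (fun _ _ => Finset.mem_univ _)).symm
    rw [this]; exact hcU D
  · intro D D' hb hm t ht
    have hcode : A23.code (B D) (β D) = A23.code (B D') (β D') := by
      funext e
      have a1 := congrFun hb e
      have a2 := congrFun hm e
      unfold A23.code
      simp only at a1 a2
      rw [a1, a2]
    have hw : A23.wt (k + 1) (B D) (β D) = A23.wt (k + 1) (B D') (β D') := by
      rw [← A23.wty_code, ← A23.wty_code, hcode]
    have a := hM D t ht
    rw [hw] at a
    have b := a.unique (hM D' t ht)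
    rw [← coe_tf34 (Exp M (D ∩ U) (S t)), b, coe_tf34]

end Crest.Agent.R305
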