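import Crest.Agent.R305.RGDefs55

set_option autoImplicit false

open Classical

namespace Crest.Agent.R305.C47

variable {k : ℕ} {M : Matroid (Fin k)}

theorem mem_cl_of_rk (h1 : RANK M) {X : Set (Fin k)} {b : Fin k} (hb : b ∈ M.E)
    (h : rk M (insert b X) ≤ rk M X) : b ∈ M.closure X := by
  by_contra hn
  have := h1.2.2.2.1 X b hb hn
  omega

/-- independence over `R` passes to smaller base sets and subsets -/
theorem indep_anti (h1 : RANK M) {R X : Set (Fin k)} {B A : Finset (Fin k)}
    (hB : rk M (R ∪ ↑B) = rk M R + B.card) (hX : X ⊆ R) (hA : A ⊆ B) :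
    rk M (X ∪ ↑A) = rk M X + A.card := by
  apply le_antisymm (h1.2.2.2.2.2.1 X A)
  have a1 := h1.2.1 R (X ∪ ↑A)
  have a2 := h1.1 X (R ∩ (X ∪ ↑A)) (Set.subset_inter hX Set.subset_union_left)
  have a3 := h1.2.2.2.2.2.1 (R ∪ (X ∪ ↑A)) (B \ A)
  have a4 := h1.1 (R ∪ ↑B) ((R ∪ (X ∪ ↑A)) ∪ ↑(B \ A)) (by
    intro x hx
    rcases hx with hx | hx
    · exact Or.inl (Or.inl hx)
    · by_cases hxa : x ∈ A
      · exact Or.inl (Or.inr (Or.inr hxa))
      · exact Or.inr (by simpa using ⟨hx, hxa⟩))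
  have a5 := Finset.card_sdiff_add_card_eq_card hA
  omega

theorem not_mem_cl_erase (h1 : RANK M) {R : Set (Fin k)} {B : Finset (Fin k)}
    (hB : rk M (R ∪ ↑B) = rk M R + B.card) {a : Fin k} (ha : a ∈ B) :
    a ∉ M.closure (R ∪ ↑(B.erase a)) := by
  intro h
  have a1 := h1.2.2.2.2.1 _ a h
  have a2 := indep_anti h1 hB subset_rfl (Finset.erase_subset a B)
  have a3 : insert a (R ∪ ↑(B.erase a)) = R ∪ ↑B := by
    ext x
    by_cases hx : x = a
    · subst hx; simp [ha]
    · simp [hx]
  rw [a3, a2, hB, Finset.card_erase_of_mem ha] at a1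
  have := Finset.card_pos.2 ⟨a, ha⟩
  omega

theorem mem_cl_strip (h1 : RANK M) {R X : Set (Fin k)} {B : Finset (Fin k)}
    (hB : rk M (R ∪ ↑B) = rk M R + B.card) (hX : X ⊆ R) {b : Fin k} (hbR : b ∈ R)
    (hb : b ∈ M.closure (X ∪ ↑B)) : b ∈ M.closure X := by
  apply mem_cl_of_rk h1 (M.closure_subset_ground _ hb)
  have a1 := h1.2.2.2.2.1 _ b hb
  have a2 := indep_anti h1 hB (Set.insert_subset hbR hX) subset_rfl
  have a3 := indep_anti h1 hB hX subset_rfl
  rw [Set.insert_union] at a2
  omega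

theorem cl_inter (h1 : RANK M) {R : Set (Fin k)} {B X Y : Finset (Fin k)}
    (hB : rk M (R ∪ ↑B) = rk M R + B.card) (hX : X ⊆ B) (hY : Y ⊆ B) {b : Fin k}
    (hbX : b ∈ M.closure (R ∪ ↑X)) (hbY : b ∈ M.closure (R ∪ ↑Y)) :
    b ∈ M.closure (R ∪ ↑(X ∩ Y)) := by
  apply mem_cl_of_rk h1 (M.closure_subset_ground _ hbX)
  have a1 := h1.2.2.2.2.1 _ b hbX
  have a2 := h1.2.2.2.2.1 _ b hbY
  have a3 := h1.2.1 (insert b (R ∪ ↑X)) (insert b (R ∪ ↑Y))
  have a4 := h1.1 (insert b (R ∪ ↑(X ∩ Y))) (insert b (R ∪ ↑X) ∩ insert b (R ∪ ↑Y)) (by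
    intro x hx
    simp only [Set.mem_insert_iff, Set.mem_union, Finset.coe_inter, Set.mem_inter_iff,
      Finset.mem_coe] at hx ⊢
    tauto)
  have a5 := h1.1 (R ∪ ↑(X ∪ Y)) (insert b (R ∪ ↑X) ∪ insert b (R ∪ ↑Y)) (by
    intro x hx
    simp only [Set.mem_insert_iff, Set.mem_union, Finset.coe_union,
      Finset.mem_coe] at hx ⊢
    tauto)
  have b1 := indep_anti h1 hB subset_rfl hX
  have b2 := indep_anti h1 hB subset_rfl hY
  have b3 := indep_anti h1 hB subset_rfl (Finset.union_subset hX hY)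
  have b4 := indep_anti h1 hB subset_rfl (Finset.inter_subset_left.trans hX : X ∩ Y ⊆ B)
  have b5 := Finset.card_union_add_card_inter X Y
  omega

theorem cl_sdiff (h1 : RANK M) {R : Set (Fin k)} {B : Finset (Fin k)}
    (hB : rk M (R ∪ ↑B) = rk M R + B.card) {b : Fin k} (hb : b ∈ M.closure (R ∪ ↑B))
    (A : Finset (Fin k)) (hA : ∀ a ∈ A, b ∈ M.closure (R ∪ ↑(B.erase a))) :
    b ∈ M.closure (R ∪ ↑(B \ A)) := by
  induction A using Finset.induction_on with
  | empty => simpa using hb
  | insert a A _ ih =>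
    have a1 := ih (fun x hx => hA x (Finset.mem_insert_of_mem hx))
    have a2 := hA a (Finset.mem_insert_self a A)
    have a3 := cl_inter h1 hB Finset.sdiff_subset (Finset.erase_subset a B) a1 a2
    have a4 : B \ A ∩ B.erase a = B \ insert a A := by
      ext x
      simp only [Finset.mem_inter, Finset.mem_sdiff, Finset.mem_erase, Finset.mem_insert]
      tauto
    rwa [a4] at a3

/-- a basis of `N` over `R` inside `D` -/
theorem exists_basis (h1 : RANK M) {D : Finset (Fin k)} {R N : Set (Fin k)}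
    (hRN : R ⊆ N) (hNE : N ⊆ M.E)
    (hUP : ∀ Q, R ⊆ Q → Q ⊆ M.E → fval M D Q ≤ fval M D N) :
    ∃ B : Finset (Fin k), B ⊆ D ∧ (↑B : Set (Fin k)) ⊆ N ∧
      rk M (R ∪ ↑B) = rk M R + B.card ∧ N ⊆ M.closure (R ∪ ↑B) ∧ rk M N = rk M R + B.card := by
  set DN := D.filter (fun e => e ∈ N) with hDN
  obtain ⟨B, hB, hmax⟩ := Finset.exists_max_image
    (DN.powerset.filter (fun B : Finset (Fin k) => rk M (R ∪ ↑B) = rk M R + B.card))
    Finset.card ⟨∅, by simp⟩
  rw [Finset.mem_filter, Finset.mem_powerset] at hB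
  have hBN : (↑B : Set (Fin k)) ⊆ N := fun x hx => (Finset.mem_filter.1 (hB.1 hx)).2
  have hsp : ∀ e ∈ DN, e ∈ M.closure (R ∪ ↑B) := by
    intro e he
    have heN : e ∈ N := (Finset.mem_filter.1 he).2
    by_contra hn
    have heB : e ∉ B := fun h => hn (M.subset_closure _
      (Set.union_subset (hRN.trans hNE) (hBN.trans hNE)) (Or.inr h))
    have a1 := h1.2.2.2.1 _ e (hNE heN) hn
    have a2 := hmax (insert e B) (by
      rw [Finset.mem_filter, Finset.mem_powerset]
      refine ⟨Finset.insert_subset he hB.1, ?_⟩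
      rw [Finset.coe_insert, Set.union_insert, a1, hB.2, Finset.card_insert_of_notMem heB]
      omega)
    rw [Finset.card_insert_of_notMem heB] at a2
    omega
  have hRB : R ∪ ↑B ⊆ N := Set.union_subset hRN hBN
  have hup := hUP (M.closure (R ∪ ↑B)) (Set.subset_union_left.trans
    (M.subset_closure _ (hRB.trans hNE))) (M.closure_subset_ground _)
  unfold fval at hup
  rw [h1.2.2.1] at hup
  have hc : DN.card ≤ (D.filter (fun e => e ∈ M.closure (R ∪ ↑B))).card := by
    apply Finset.card_le_card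
    intro e he
    exact Finset.mem_filter.2 ⟨(Finset.mem_filter.1 he).1, hsp e he⟩
  have hc' : (DN.card : ℤ) ≤ (D.filter (fun e => e ∈ M.closure (R ∪ ↑B))).card := by
    exact_mod_cast hc
  have hk : (0 : ℤ) < kap := by unfold kap; positivity
  have hle : rk M N ≤ rk M (R ∪ ↑B) := by
    have : (kap : ℤ) * (rk M N : ℤ) ≤ kap * (rk M (R ∪ ↑B) : ℤ) := by
      rw [← hDN] at hup; linarith
    exact_mod_cast le_of_mul_le_mul_left this hk
  refine ⟨B, fun x hx => (Finset.mem_filter.1 (hB.1 hx)).1, hBN, hB.2,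
    h1.2.2.2.2.2.2.2.2 _ _ hRB hNE hle, ?_⟩
  have := h1.1 _ _ hRB
  omega

theorem peel_one (h1 : RANK M) {D : Finset (Fin k)} {P R N : Set (Fin k)} {B : Finset (Fin k)}
    (hPR : P ⊆ R) (hRN : R ⊆ N) (hNE : N ⊆ M.E) (hBN : (↑B : Set (Fin k)) ⊆ N)
    (hB : rk M (R ∪ ↑B) = rk M R + B.card) (hN : N ⊆ M.closure (R ∪ ↑B))
    (hrN : rk M N = rk M R + B.card)
    (hUP : ∀ Q, R ⊆ Q → Q ⊆ M.E → fval M D Q ≤ fval M D N)
    (hDOWN : ∀ Q, P ⊆ Q → Q ⊆ M.E → Q ≠ P → fval M D Q < fval M D P)
    (A : Finset (Fin k)) (hA : A ⊆ B) (hne : A.Nonempty) :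
    ∃ a ∈ A, ∃ b ∈ D, b ∈ N ∧ b ∉ M.closure (P ∪ ↑A) ∧ b ∉ M.closure (R ∪ ↑(B.erase a)) := by
  by_contra hcon
  push Not at hcon
  have hRE : R ⊆ M.E := hRN.trans hNE
  have hPE : P ⊆ M.E := hPR.trans hRE
  have hAE : (↑A : Set (Fin k)) ⊆ M.E := fun x hx => hNE (hBN (hA hx))
  have hBAE : (↑(B \ A) : Set (Fin k)) ⊆ M.E := fun x hx => hNE (hBN (Finset.sdiff_subset hx))
  have hRQ : R ⊆ M.closure (R ∪ ↑(B \ A)) :=
    Set.subset_union_left.trans (M.subset_closure _ (Set.union_subset hRE hBAE))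
  have hPQ : P ∪ ↑A ⊆ M.closure (P ∪ ↑A) := M.subset_closure _ (Set.union_subset hPE hAE)
  have hup := hUP _ hRQ (M.closure_subset_ground _)
  have hdn := hDOWN (M.closure (P ∪ ↑A)) (Set.subset_union_left.trans hPQ)
    (M.closure_subset_ground _) (by
      intro h
      obtain ⟨a, ha⟩ := hne
      have haP : a ∈ P := h ▸ hPQ (Or.inr ha)
      apply not_mem_cl_erase h1 hB (hA ha)
      exact M.subset_closure _ (Set.union_subset hRE
        (fun x hx => hNE (hBN (Finset.erase_subset a B hx)))) (Or.inl (hPR haP)))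
  unfold fval at hup hdn
  rw [h1.2.2.1] at hup hdn
  rw [indep_anti h1 hB subset_rfl Finset.sdiff_subset, hrN] at hup
  rw [indep_anti h1 hB hPR hA] at hdn
  have c0 := Finset.card_sdiff_add_card_eq_card hA
  have c1 := Finset.card_union_add_card_inter
    (D.filter (fun e => e ∈ M.closure (R ∪ ↑(B \ A)))) (D.filter (fun e => e ∈ M.closure (P ∪ ↑A)))
  have c2 : (D.filter (fun e => e ∈ N)).card ≤
      ((D.filter (fun e => e ∈ M.closure (R ∪ ↑(B \ A)))) ∪
        (D.filter (fun e => e ∈ M.closure (P ∪ ↑A)))).card := by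
    apply Finset.card_le_card
    intro b hb
    rw [Finset.mem_filter] at hb
    rw [Finset.mem_union, Finset.mem_filter, Finset.mem_filter]
    by_cases hq : b ∈ M.closure (P ∪ ↑A)
    · exact Or.inr ⟨hb.1, hq⟩
    · exact Or.inl ⟨hb.1, cl_sdiff h1 hB (hN hb.2) A (fun a ha => hcon a ha b hb.1 hb.2 hq)⟩
  have c3 : (D.filter (fun e => e ∈ P)).card ≤
      ((D.filter (fun e => e ∈ M.closure (R ∪ ↑(B \ A)))) ∩
        (D.filter (fun e => e ∈ M.closure (P ∪ ↑A)))).card := by
    apply Finset.card_le_card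
    intro b hb
    rw [Finset.mem_filter] at hb
    rw [Finset.mem_inter, Finset.mem_filter, Finset.mem_filter]
    exact ⟨⟨hb.1, hRQ (hPR hb.2)⟩, ⟨hb.1, hPQ (Or.inl hb.2)⟩⟩
  have c4 : ((D.filter (fun e => e ∈ N)).card : ℤ) + (D.filter (fun e => e ∈ P)).card ≤
      ((D.filter (fun e => e ∈ M.closure (R ∪ ↑(B \ A)))).card : ℤ) +
        (D.filter (fun e => e ∈ M.closure (P ∪ ↑A))).card := by
    exact_mod_cast (by omega)
  have c5 : (B.card : ℤ) = (B \ A).card + A.card := by exact_mod_cast c0.symm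
  push_cast at hup hdn
  rw [c5] at hup
  nlinarith

theorem peel {D : Finset (Fin k)} {P R N : Set (Fin k)} {B : Finset (Fin k)}
    (hone : ∀ A : Finset (Fin k), A ⊆ B → A.Nonempty →
      ∃ a ∈ A, ∃ b ∈ D, b ∈ N ∧ b ∉ M.closure (P ∪ ↑A) ∧ b ∉ M.closure (R ∪ ↑(B.erase a)))
    (A : Finset (Fin k)) (hA : A ⊆ B) :
    ∃ β : Fin k → Fin k, (∀ a ∈ A, β a ∈ D ∧ β a ∈ N ∧ β a ∉ M.closure (R ∪ ↑(B.erase a))) ∧
      ∀ A' : Finset (Fin k), A' ⊆ A → A'.Nonempty → ∃ a ∈ A', β a ∉ M.closure (P ∪ ↑A') := by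
  induction A using Finset.strongInduction with
  | H A ih =>
    rcases A.eq_empty_or_nonempty with rfl | hne
    · refine ⟨id, by simp, fun A' h1 h2 => ?_⟩
      obtain ⟨x, hx⟩ := h2
      simpa using h1 hx
    · obtain ⟨a, ha, b, hbD, hbN, hb1, hb2⟩ := hone A hA hne
      obtain ⟨β, h1, h2⟩ := ih (A.erase a) (Finset.erase_ssubset ha)
        ((Finset.erase_subset a A).trans hA)
      refine ⟨Function.update β a b, fun x hx => ?_, fun A' hA' hne' => ?_⟩
      · by_cases hxa : x = a
        · subst hxa; simp only [Function.update_self]; exact ⟨hbD, hbN, hb2⟩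
        · rw [Function.update_of_ne hxa]; exact h1 x (Finset.mem_erase.2 ⟨hxa, hx⟩)
      · by_cases haA : a ∈ A'
        · refine ⟨a, haA, ?_⟩
          simp only [Function.update_self]
          exact fun h => hb1 (M.closure_subset_closure
            (Set.union_subset_union_right _ (by exact_mod_cast hA')) h)
        · obtain ⟨x, hx, hx2⟩ := h2 A' (fun x hx => Finset.mem_erase.2
            ⟨fun h => haA (h ▸ hx), hA' hx⟩) hne'
          refine ⟨x, hx, ?_⟩
          have hxa : x ≠ a := fun h => haA (h ▸ hx)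
          rwa [Function.update_of_ne hxa]

theorem card_up {D : Finset (Fin k)} {P R N : Set (Fin k)} {c : ℕ} (hPR : P ⊆ R)
    (hup : fval M D R ≤ fval M D N) (hr : rk M N = rk M R + c) :
    (D.filter (fun e => e ∈ P)).card + kap * c ≤ (D.filter (fun e => e ∈ N)).card := by
  unfold fval at hup
  rw [hr] at hup
  push_cast at hup
  have a1 : (D.filter (fun e => e ∈ P)).card ≤ (D.filter (fun e => e ∈ R)).card := by
    apply Finset.card_le_card
    intro e he
    rw [Finset.mem_filter] at he ⊢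
    exact ⟨he.1, hPR he.2⟩
  have a5 : ((D.filter (fun e => e ∈ R)).card : ℤ) + (kap : ℤ) * c ≤
      (D.filter (fun e => e ∈ N)).card := by nlinarith
  have a6 : (D.filter (fun e => e ∈ R)).card + kap * c ≤
      (D.filter (fun e => e ∈ N)).card := by exact_mod_cast a5
  omega

/-- certificate for the chain up to time `n` -/
structure Cert (M : Matroid (Fin k)) (D : Finset (Fin k)) (S : ℕ → Set (Fin k)) (n : ℕ)
    (B : Finset (Fin k)) (β : Fin k → Fin k) (s : Fin k → ℕ) : Prop where
  sub : B ⊆ D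
  subN : (↑B : Set (Fin k)) ⊆ Exp M D (S n)
  card : kap * B.card ≤ (D.filter (fun e => e ∈ Exp M D (S n))).card
  le : ∀ a ∈ B, s a ≤ n
  bD : ∀ a ∈ B, β a ∈ D
  bN : ∀ a ∈ B, β a ∈ Exp M D (S (s a))
  c1 : ∀ t ≤ n, Exp M D (S t) = M.closure (S t ∪ ↑(B.filter (fun a => s a ≤ t)))
  c2 : ∀ a ∈ B, β a ∉ M.closure (S (s a) ∪ ↑(B.erase a))
  c3 : ∀ Z ⊆ B, ∀ t, (∃ a ∈ Z, t < s a) → ∃ a ∈ Z, β a ∉ M.closure (S t ∪ ↑Z)

theorem exists_cert (h1 : RANK M) (h2 : EXPF M) (D : Finset (Fin k)) (S : ℕ → Set (Fin k))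
    (hSE : ∀ t, S t ⊆ M.E) (hS : ∀ t t', t ≤ t' → S t ⊆ S t') (n : ℕ) :
    ∃ B β s, Cert M D S n B β s := by
  have hmono : ∀ t t', t ≤ t' → Exp M D (S t) ⊆ Exp M D (S t') := fun t t' h =>
    (h2 D (S t) (hSE t)).2.2.2.1 _ (hS t t' h) (hSE t')
  induction n with
  | zero =>
    obtain ⟨hmax, hcl, -, -, -⟩ := h2 D (S 0) (hSE 0)
    obtain ⟨B, hBD, hBN, hB, hN, hrN⟩ := exists_basis h1 hmax.1 hmax.2.1 hmax.2.2
    refine ⟨B, id, fun _ => 0, hBD, hBN, ?_, fun _ _ => le_rfl, fun a ha => hBD ha,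
      fun a ha => hBN ha, ?_, fun a ha => not_mem_cl_erase h1 hB ha, ?_⟩
    · have hup := hmax.2.2 _ subset_rfl (hSE 0)
      unfold fval at hup
      rw [hrN] at hup
      push_cast at hup
      have : (0 : ℤ) ≤ (D.filter (fun e => e ∈ S 0)).card := by positivity
      have : (kap : ℤ) * B.card ≤ (D.filter (fun e => e ∈ Exp M D (S 0))).card := by nlinarith
      exact_mod_cast this
    · intro t ht
      obtain rfl : t = 0 := by omega
      simp only [le_refl, Finset.filter_true]
      apply Set.Subset.antisymm hN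
      rw [← hcl]
      exact M.closure_subset_closure (Set.union_subset hmax.1 hBN)
    · rintro Z _ t ⟨a, _, h⟩
      omega
  | succ n ih =>
    obtain ⟨B, β, s, hc⟩ := ih
    obtain ⟨hmaxP, hclP, -, -, hDOWN⟩ := h2 D (S n) (hSE n)
    obtain ⟨hmax, hcl, -, -, -⟩ := h2 D (S (n + 1)) (hSE (n + 1))
    set P := Exp M D (S n) with hP
    set N := Exp M D (S (n + 1)) with hNdef
    have hPN : P ⊆ N := hmono n (n + 1) (Nat.le_succ n)
    have hRN : P ∪ S (n + 1) ⊆ N := Set.union_subset hPN hmax.1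
    have hUP : ∀ Q, P ∪ S (n + 1) ⊆ Q → Q ⊆ M.E → fval M D Q ≤ fval M D N :=
      fun Q hQ hQE => hmax.2.2 Q (Set.subset_union_right.trans hQ) hQE
    obtain ⟨B1, hBD, hBN, hB, hN, hrN⟩ := exists_basis h1 hRN hmax.2.1 hUP
    obtain ⟨β1, hβ1, hβ2⟩ := peel (peel_one h1 Set.subset_union_left hRN hmax.2.1 hBN hB hN hrN
      hUP hDOWN) B1 subset_rfl
    have hdis : ∀ a ∈ B1, a ∉ B := by
      intro a ha haB
      apply not_mem_cl_erase h1 hB ha
      exact M.subset_closure _ (Set.union_subset (hRN.trans hmax.2.1)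
        (fun x hx => hmax.2.1 (hBN (Finset.erase_subset a B1 hx)))) (Or.inl (Or.inl (hc.subN haB)))
    have hdis' : ∀ a ∈ B, a ∉ B1 := fun a ha hb => hdis a hb ha
    refine ⟨B ∪ B1, fun a => if a ∈ B1 then β1 a else β a, fun a => if a ∈ B1 then n + 1 else s a,
      Finset.union_subset hc.sub hBD, ?_, ?_, ?_, ?_, ?_, ?_, ?_, ?_⟩
    · rw [Finset.coe_union]
      exact Set.union_subset (hc.subN.trans hPN) hBN
    · have a6 := card_up (P := P) Set.subset_union_left
        (hUP _ subset_rfl (hRN.trans hmax.2.1)) hrN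
      have a2 : kap * B.card ≤ (D.filter (fun e => e ∈ P)).card := hc.card
      have a3 := Finset.card_union_le B B1
      have a4 : kap * (B ∪ B1).card ≤ kap * B.card + kap * B1.card := by
        rw [← Nat.mul_add]; exact Nat.mul_le_mul_left _ a3
      show kap * (B ∪ B1).card ≤ (D.filter (fun e => e ∈ N)).card
      omega
    · intro a ha
      by_cases h : a ∈ B1
      · simp [h]
      · have := hc.le a ((Finset.mem_union.1 ha).resolve_right h)
        simp only [h, if_false]; omega
    · intro a ha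
      by_cases h : a ∈ B1
      · simp only [h, if_true]; exact (hβ1 a h).1
      · simp only [h, if_false]; exact hc.bD a ((Finset.mem_union.1 ha).resolve_right h)
    · intro a ha
      by_cases h : a ∈ B1
      · simp only [h, if_true]; exact (hβ1 a h).2.1
      · simp only [h, if_false]; exact hc.bN a ((Finset.mem_union.1 ha).resolve_right h)
    · intro t ht
      rcases Nat.lt_or_ge t (n + 1) with hlt | hge
      · rw [hc.c1 t (by omega)]
        congr 3
        ext a
        simp only [Finset.mem_filter, Finset.mem_union]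
        by_cases h : a ∈ B1
        · simp only [h, if_true]
          constructor
          · intro h'; exact absurd h'.1 (hdis a h)
          · intro h'; omega
        · simp [h]
      · obtain rfl : t = n + 1 := by omega
        have hf : (B ∪ B1).filter (fun a => (if a ∈ B1 then n + 1 else s a) ≤ n + 1) = B ∪ B1 := by
          apply Finset.filter_true_of_mem
          intro a ha
          by_cases h : a ∈ B1
          · simp [h]
          · have := hc.le a ((Finset.mem_union.1 ha).resolve_right h)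
            simp only [h, if_false]; omega
        rw [hf]
        have hsubN : S (n + 1) ∪ ↑(B ∪ B1) ⊆ N := by
          rw [Finset.coe_union]
          exact Set.union_subset hmax.1 (Set.union_subset (hc.subN.trans hPN) hBN)
        apply Set.Subset.antisymm
        · refine hN.trans (M.closure_subset_closure_of_subset_closure ?_)
          have hcc := M.subset_closure _ (hsubN.trans hmax.2.1)
          refine Set.union_subset (Set.union_subset ?_ (Set.subset_union_left.trans hcc)) ?_
          · rw [hP, hc.c1 n le_rfl]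
            apply M.closure_subset_closure
            apply Set.union_subset_union (hS n (n + 1) (Nat.le_succ n))
            intro x hx
            exact Finset.mem_coe.2 (Finset.mem_union_left _ (Finset.mem_filter.1 hx).1)
          · intro x hx
            exact hcc (Or.inr (Finset.mem_coe.2 (Finset.mem_union_right _ hx)))
        · exact (M.closure_subset_closure hsubN).trans hcl.subset
    · intro a ha
      by_cases h : a ∈ B1
      · simp only [h, if_true]
        refine fun hb => (hβ1 a h).2.2 (M.closure_subset_closure ?_ hb)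
        intro x hx
        rcases hx with hx | hx
        · exact Or.inl (Or.inr hx)
        · rw [Finset.mem_coe, Finset.mem_erase, Finset.mem_union] at hx
          rcases hx.2 with h' | h'
          · exact Or.inl (Or.inl (hc.subN h'))
          · exact Or.inr (Finset.mem_coe.2 (Finset.mem_erase.2 ⟨hx.1, h'⟩))
      · simp only [h, if_false]
        have haB : a ∈ B := (Finset.mem_union.1 ha).resolve_right h
        intro hb
        apply hc.c2 a haB
        have hle := hc.le a haB
        apply mem_cl_strip h1 hB (X := S (s a) ∪ ↑(B.erase a))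
        · apply Set.subset_union_of_subset_left
          exact Set.union_subset ((hS _ _ hle).trans hmaxP.1)
            (fun x hx => hc.subN (Finset.erase_subset a B hx))
        · exact Or.inl (hmono _ _ hle (hc.bN a haB))
        · refine M.closure_subset_closure ?_ hb
          intro x hx
          rcases hx with hx | hx
          · exact Or.inl (Or.inl hx)
          · rw [Finset.mem_coe, Finset.mem_erase, Finset.mem_union] at hx
            rcases hx.2 with h' | h'
            · exact Or.inl (Or.inr (Finset.mem_coe.2 (Finset.mem_erase.2 ⟨hx.1, h'⟩)))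
            · exact Or.inr h'
    · rintro Z hZ t ⟨a, ha, hta⟩
      rcases (Z ∩ B1).eq_empty_or_nonempty with he | hne
      · have hZ1 : ∀ x ∈ Z, x ∉ B1 := fun x hx hb => by
          have : x ∈ Z ∩ B1 := Finset.mem_inter.2 ⟨hx, hb⟩
          rw [he] at this; simp at this
        have hZB : Z ⊆ B := fun x hx => (Finset.mem_union.1 (hZ hx)).resolve_right (hZ1 x hx)
        simp only [hZ1 a ha, if_false] at hta
        obtain ⟨x, hx, hx2⟩ := hc.c3 Z hZB t ⟨a, ha, hta⟩
        exact ⟨x, hx, by simp only [hZ1 x hx, if_false]; exact hx2⟩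
      · obtain ⟨x, hx, hx2⟩ := hβ2 (Z ∩ B1) Finset.inter_subset_right hne
        rw [Finset.mem_inter] at hx
        refine ⟨x, hx.1, ?_⟩
        simp only [hx.2, if_true]
        have htn : t ≤ n := by
          by_cases h : a ∈ B1
          · simp only [h, if_true] at hta; omega
          · have := hc.le a ((Finset.mem_union.1 (hZ ha)).resolve_right h)
            simp only [h, if_false] at hta; omega
        refine fun hb => hx2 (M.closure_subset_closure ?_ hb)
        intro y hy
        rcases hy with hy | hy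
        · exact Or.inl (hmaxP.1 (hS _ _ htn hy))
        · rcases Finset.mem_union.1 (hZ hy) with h' | h'
          · exact Or.inl (hc.subN h')
          · exact Or.inr (Finset.mem_coe.2 (Finset.mem_inter.2 ⟨hy, h'⟩))

theorem card_pre (B : Finset (Fin k)) (β : Fin k → Fin k) (X : Set (Fin k)) :
    (B.filter (fun a => β a ∈ X)).card =
      ∑ e ∈ Finset.univ.filter (fun e => e ∈ X), (B.filter (fun a => β a = e)).card := by
  rw [Finset.card_eq_sum_card_fiberwise (f := β) (t := Finset.univ.filter (fun e => e ∈ X))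
    (fun a ha => by simpa using (Finset.mem_filter.1 ha).2)]
  apply Finset.sum_congr rfl
  intro e he
  congr 1
  ext a
  simp only [Finset.mem_filter, Finset.mem_univ, true_and] at he ⊢
  constructor
  · rintro ⟨⟨h1, _⟩, h3⟩; exact ⟨h1, h3⟩
  · rintro ⟨h1, h3⟩; exact ⟨⟨h1, h3 ▸ he⟩, h3⟩

theorem step_sub {D D' : Finset (Fin k)} {S : ℕ → Set (Fin k)} {n : ℕ}
    (hS : ∀ t t', t ≤ t' → S t ⊆ S t')
    {B : Finset (Fin k)} {β β' : Fin k → Fin k} {s s' : Fin k → ℕ}
    (hc : Cert M D S n B β s) (hc' : Cert M D' S n B β' s')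
    (hm : ∀ e, (B.filter (fun a => β a = e)).card = (B.filter (fun a => β' a = e)).card)
    (t : ℕ) (ht : t ≤ n) (hold : ∀ a ∈ B, s a < t → s' a ≤ t) : ∀ a ∈ B, s' a ≤ t → s a ≤ t := by
  set Z := B.filter (fun a => s' a ≤ t) with hZ
  have hA : B.filter (fun a => β a ∈ M.closure (S t ∪ ↑Z)) ⊆ Z := by
    intro a ha
    rw [Finset.mem_filter] at ha
    by_contra hn
    have hts : t ≤ s a := by
      by_contra h
      exact hn (Finset.mem_filter.2 ⟨ha.1, hold a ha.1 (by omega)⟩)
    apply hc.c2 a ha.1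
    refine M.closure_subset_closure (Set.union_subset_union (hS _ _ hts) ?_) ha.2
    intro x hx
    exact Finset.mem_coe.2 (Finset.mem_erase.2 ⟨fun h => hn (h ▸ hx), (Finset.mem_filter.1 hx).1⟩)
  have hA' : Z ⊆ B.filter (fun a => β' a ∈ M.closure (S t ∪ ↑Z)) := by
    intro a ha
    have ha' := Finset.mem_filter.1 ha
    refine Finset.mem_filter.2 ⟨ha'.1, ?_⟩
    have h3 := hc'.bN a ha'.1
    rw [hc'.c1 _ (hc'.le a ha'.1)] at h3
    refine M.closure_subset_closure (Set.union_subset_union (hS _ _ ha'.2) ?_) h3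
    intro x hx
    have hx' := Finset.mem_filter.1 hx
    exact Finset.mem_coe.2 (Finset.mem_filter.2 ⟨hx'.1, hx'.2.trans ha'.2⟩)
  have hcard : (B.filter (fun a => β a ∈ M.closure (S t ∪ ↑Z))).card =
      (B.filter (fun a => β' a ∈ M.closure (S t ∪ ↑Z))).card := by
    rw [card_pre, card_pre]
    exact Finset.sum_congr rfl fun e _ => hm e
  have heq : B.filter (fun a => β a ∈ M.closure (S t ∪ ↑Z)) = Z :=
    Finset.eq_of_subset_of_card_le hA (hcard ▸ Finset.card_le_card hA')
  intro a ha hat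
  by_contra hn
  obtain ⟨x, hx, hx2⟩ := hc.c3 Z (Finset.filter_subset _ _) t
    ⟨a, Finset.mem_filter.2 ⟨ha, hat⟩, by omega⟩
  rw [← heq] at hx
  exact hx2 (Finset.mem_filter.1 hx).2

theorem decode {D D' : Finset (Fin k)} {S : ℕ → Set (Fin k)} {n : ℕ}
    (hS : ∀ t t', t ≤ t' → S t ⊆ S t')
    {B : Finset (Fin k)} {β β' : Fin k → Fin k} {s s' : Fin k → ℕ}
    (hc : Cert M D S n B β s) (hc' : Cert M D' S n B β' s')
    (hm : ∀ e, (B.filter (fun a => β a = e)).card = (B.filter (fun a => β' a = e)).card)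
    (t : ℕ) (ht : t ≤ n) : Exp M D (S t) = Exp M D' (S t) := by
  have key : ∀ t ≤ n, ∀ a ∈ B, (s a ≤ t ↔ s' a ≤ t) := by
    intro t
    induction t with
    | zero =>
      intro ht a ha
      exact ⟨step_sub hS hc' hc (fun e => (hm e).symm) 0 ht (fun _ _ h => by omega) a ha,
        step_sub hS hc hc' hm 0 ht (fun _ _ h => by omega) a ha⟩
    | succ t ih =>
      intro ht a ha
      refine ⟨step_sub hS hc' hc (fun e => (hm e).symm) _ ht (fun x hx h => ?_) a ha,
        step_sub hS hc hc' hm _ ht (fun x hx h => ?_) a ha⟩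
      · have := (ih (by omega) x hx).2 (by omega); omega
      · have := (ih (by omega) x hx).1 (by omega); omega
  rw [hc.c1 t ht, hc'.c1 t ht]
  congr 3
  exact Finset.filter_congr (key t ht)

/-- COMPRESSION: the chain is a function of two small multisets (helper51's `COMPRESS M`). -/
theorem compress47 (h1 : RANK M) (h2 : EXPF M) :
    ∀ (U : Finset (Fin k)) (S : ℕ → Set (Fin k)) (n : ℕ), (U : Set (Fin k)) ⊆ M.E →
      (∀ t, S t ⊆ M.E) → (∀ t t', t ≤ t' → S t ⊆ S t') →
      ∃ (b m : Finset (Fin k) → Fin k → ℕ),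
        (∀ D e, e ∉ U → b D e = 0) ∧ (∀ D e, e ∉ U → m D e = 0) ∧
        (∀ D, kap * ∑ e ∈ U, b D e ≤ U.card) ∧ (∀ D, kap * ∑ e ∈ U, m D e ≤ U.card) ∧
        (∀ D D2, b D = b D2 → m D = m D2 → ∀ t ≤ n,
          Exp M (D ∩ U) (S t) = Exp M (D2 ∩ U) (S t)) := by
  intro U S n _ hSE hS
  choose B β s hc using fun D : Finset (Fin k) => exists_cert h1 h2 (D ∩ U) S hSE hS n
  have hBU : ∀ D, B D ⊆ U := fun D => (hc D).sub.trans Finset.inter_subset_right
  have hcard : ∀ D, kap * (B D).card ≤ U.card := fun D => (hc D).card.trans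
    (Finset.card_le_card ((Finset.filter_subset _ _).trans Finset.inter_subset_right))
  have hβU : ∀ D, ∀ a ∈ B D, β D a ∈ U := fun D a ha => (Finset.mem_inter.1 ((hc D).bD a ha)).2
  refine ⟨fun D e => if e ∈ B D then 1 else 0,
    fun D e => ((B D).filter (fun a => β D a = e)).card, ?_, ?_, ?_, ?_, ?_⟩
  · intro D e he
    simp only [ite_eq_right_iff]
    exact fun h => absurd (hBU D h) he
  · intro D e he
    rw [Finset.card_eq_zero, Finset.filter_eq_empty_iff]
    intro a ha h
    exact he (h ▸ hβU D a ha)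
  · intro D
    rw [Finset.sum_ite_mem, Finset.inter_eq_right.2 (hBU D)]
    simpa using hcard D
  · intro D
    rw [← Finset.card_eq_sum_card_fiberwise (f := β D) (fun a ha => hβU D a ha)]
    exact hcard D
  · intro D D2 hb hm t ht
    have hBB : B D = B D2 := by
      ext e
      have := congrFun hb e
      by_cases h1 : e ∈ B D <;> by_cases h2 : e ∈ B D2 <;> simp_all
    have hc2 := hc D2
    rw [← hBB] at hc2
    refine decode hS (hc D) hc2 (fun e => ?_) t ht
    have := congrFun hm e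
    simp only at this
    rw [this, hBB]

end Crest.Agent.R305.C47
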