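import Crest.Agent.R305.Comp73
import Crest.Agent.R305.Alpha23b

set_option autoImplicit false

open Classical

namespace Crest.Agent.R305

variable {k : ℕ}

theorem fval_coe49 (M : Matroid (Fin k)) (D Q : Finset (Fin k)) :
    fval M D (Q : Set (Fin k)) = ((D ∩ Q).card : ℤ) - (kap : ℤ) * (rk M (Q : Set (Fin k)) : ℤ) := by
  unfold fval
  congr 3
  ext e; simp

theorem wt_eq49 (N : ℕ) (B B' : Finset (Fin k)) (β β' : Fin k → Fin k) (hB : B = B')
    (hm : ∀ e, (B.filter (fun a => β a = e)).card = (B'.filter (fun a => β' a = e)).card) :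
    A23.wt N B β = A23.wt N B' β' := by
  rw [← A23.wty_code, ← A23.wty_code]
  congr 1
  funext e
  unfold A23.code
  rw [hm e, hB]

theorem compress49 (M : Matroid (Fin k)) (h1 : RANK M) (h2 : EXPF M) : COMPRESS73 M := by
  intro U S n hU hS hmono
  obtain ⟨r1, r2, -, -, -, r6, -, -, -⟩ := h1
  have hr : A23.IsRk (fun X : Finset (Fin k) => rk M (X : Set (Fin k))) := by
    refine ⟨fun A B h => r1 _ _ (Finset.coe_subset.2 h), fun A B => ?_, fun a A => ?_⟩
    · simpa only [Finset.coe_union, Finset.coe_inter] using r2 A B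
    · have := r6 (A : Set (Fin k)) {a}
      simpa only [Finset.coe_insert, Finset.coe_singleton, Set.union_singleton,
        Finset.card_singleton] using this
  have hκ : 0 < kap := by unfold kap; positivity
  have key : ∀ D : Finset (Fin k), ∃ (B : Finset (Fin k)) (β : Fin k → Fin k),
      B ⊆ D ∩ U ∧ (∀ a ∈ B, β a ∈ D ∩ U) ∧ kap * B.card ≤ (D ∩ U).card ∧
      ∀ t ≤ n, A23.MM (fun X : Finset (Fin k) => rk M (X : Set (Fin k)))
        (A23.wt (U.card + 1) B β) (U.card + 1) M.E.toFinset (S t).toFinset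
        (Exp M (D ∩ U) (S t)).toFinset := by
    intro D
    refine A23.compress hr hκ (Nat.lt_succ_of_le (Finset.card_le_card Finset.inter_subset_right))
      (S := fun t => (S t).toFinset) (N := fun t => (Exp M (D ∩ U) (S t)).toFinset)
      (fun t => Set.toFinset_subset_toFinset.2 (hmono _ _ (Nat.le_succ t)))
      (fun t => Set.toFinset_subset_toFinset.2
        ((h2 _ _ (hS t)).2.2.2.1 _ (hmono _ _ (Nat.le_succ t)) (hS _))) (fun t => ?_) n
    obtain ⟨m1, m2, m3⟩ := (h2 (D ∩ U) (S t) (hS t)).1
    have hf : fval M (D ∩ U) (Exp M (D ∩ U) (S t)) =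
        (((D ∩ U) ∩ (Exp M (D ∩ U) (S t)).toFinset).card : ℤ) -
          (kap : ℤ) * (rk M ((Exp M (D ∩ U) (S t)).toFinset : Set (Fin k)) : ℤ) := by
      rw [← fval_coe49, Set.coe_toFinset]
    refine ⟨Set.toFinset_subset_toFinset.2 m1, Set.toFinset_subset_toFinset.2 m2,
      fun Q hQ hQE => ?_, fun Q hQ hQE hle => ?_⟩
    · have := m3 Q (Set.toFinset_subset.1 hQ) (Set.subset_toFinset.1 hQE)
      rw [hf, fval_coe49] at this
      zify; linarith
    · refine Set.subset_toFinset.2 (Set.subset_sUnion_of_mem ?_)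
      refine ⟨Set.toFinset_subset.1 hQ, Set.subset_toFinset.1 hQE, fun Q' a b => ?_⟩
      refine (m3 Q' a b).trans ?_
      rw [hf, fval_coe49]
      zify at hle; linarith
  choose B β hB hβ hc hM using key
  refine ⟨fun D e => if e ∈ B D then 1 else 0,
    fun D e => ((B D).filter (fun a => β D a = e)).card, ?_, ?_, ?_, ?_, ?_⟩
  · intro D i hi
    exact if_neg fun h => hi (Finset.mem_inter.1 (hB D h)).2
  · intro D i hi
    refine Finset.card_eq_zero.2 (Finset.filter_eq_empty_iff.2 fun a ha h => hi ?_)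
    exact h ▸ (Finset.mem_inter.1 (hβ D a ha)).2
  · intro D
    have : ∑ i, (if i ∈ B D then 1 else 0) = (B D).card := by simp
    rw [this]
    exact (hc D).trans (Finset.card_le_card Finset.inter_subset_right)
  · intro D
    have : ∑ i, ((B D).filter (fun a => β D a = i)).card = (B D).card :=
      (Finset.card_eq_sum_card_fiberwise (f := β D) (s := B D) (t := Finset.univ)
        (fun _ _ => Finset.mem_coe.2 (Finset.mem_univ _))).symm
    rw [this]
    exact (hc D).trans (Finset.card_le_card Finset.inter_subset_right)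
  · intro D D' hb hm t ht
    have hBB : B D = B D' := by
      ext e
      have := congrFun hb e
      by_cases a : e ∈ B D <;> by_cases b : e ∈ B D' <;> simp_all
    have hw := wt_eq49 (U.card + 1) _ _ (β D) (β D') hBB (fun e => congrFun hm e)
    have h3 := hM D t ht
    rw [hw] at h3
    exact Set.toFinset_inj.1 (h3.unique (hM D' t ht))

end Crest.Agent.R305
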