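import Crest.Agent.R305.Cert53
import Crest.Agent.R305.Comp73

set_option autoImplicit false

open Classical

namespace Crest.Agent.R305.C53

variable {k : ℕ}

theorem rk_indep (M : Matroid (Fin k)) (h1 : RANK M) (X : Set (Fin k)) (Z : Finset (Fin k))
    (hZ : (Z : Set (Fin k)) ⊆ M.E) (hind : ∀ z ∈ Z, z ∉ M.closure (X ∪ ↑(Z.erase z)))
    (W : Finset (Fin k)) : W ⊆ Z → rk M (X ∪ ↑W) = rk M X + W.card := by
  induction W using Finset.induction_on with
  | empty => intro _; simp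
  | insert a W ha ih =>
    intro hW
    have haZ : a ∈ Z := hW (Finset.mem_insert_self _ _)
    have hWZ : W ⊆ Z := fun x hx => hW (Finset.mem_insert_of_mem hx)
    have : X ∪ ↑(insert a W) = insert a (X ∪ ↑W) := by
      rw [Finset.coe_insert, Set.union_insert]
    rw [this, h1.2.2.2.1 _ a (hZ haZ) ?_, ih hWZ, Finset.card_insert_of_notMem ha]
    · ring
    · intro hc
      apply hind a haZ
      refine M.closure_subset_closure (Set.union_subset_union_right _ ?_) hc
      intro x hx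
      exact Finset.mem_coe.2 (Finset.mem_erase.2 ⟨by rintro rfl; exact ha hx, hWZ hx⟩)

theorem card_split (D : Finset (Fin k)) (Q Q' : Set (Fin k)) (h : Q' ⊆ Q) :
    (D.filter (fun e => e ∈ Q)).card =
      (D.filter (fun e => e ∈ Q')).card + (D.filter (fun e => e ∈ Q ∧ e ∉ Q')).card := by
  rw [← Finset.card_union_of_disjoint]
  · congr 1
    ext x
    simp only [Finset.mem_filter, Finset.mem_union]
    constructor
    · rintro ⟨h1, h2⟩
      by_cases hx : x ∈ Q'
      · exact Or.inl ⟨h1, hx⟩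
      · exact Or.inr ⟨h1, h2, hx⟩
    · rintro (⟨h1, h2⟩ | ⟨h1, h2, _⟩)
      · exact ⟨h1, h h2⟩
      · exact ⟨h1, h2⟩
  · refine Finset.disjoint_left.2 fun x hx hx' => ?_
    exact (Finset.mem_filter.1 hx').2.2 (Finset.mem_filter.1 hx).2

/-- removing elements one by one -/
theorem rem_many (M : Matroid (Fin k)) (X : Set (Fin k)) (hX : X ⊆ M.E) (Z : Finset (Fin k))
    (hZ : (Z : Set (Fin k)) ⊆ M.E) (hind : ∀ z ∈ Z, z ∉ M.closure (X ∪ ↑(Z.erase z)))
    (v : Fin k) (hv : v ∈ M.closure (X ∪ ↑Z)) (R : Finset (Fin k)) :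
    R ⊆ Z → (∀ z ∈ R, v ∈ M.closure (X ∪ ↑(Z.erase z))) → v ∈ M.closure (X ∪ ↑(Z \ R)) := by
  induction R using Finset.induction_on with
  | empty => intro _ _; simpa using hv
  | insert a R ha ih =>
    intro hR hall
    have haZ : a ∈ Z := hR (Finset.mem_insert_self _ _)
    have h0 := ih (fun x hx => hR (Finset.mem_insert_of_mem hx))
      (fun z hz => hall z (Finset.mem_insert_of_mem hz))
    refine rem_one M (a := a) (Y := X ∪ ↑(Z.erase a)) ?_ ?_ (hall a (Finset.mem_insert_self _ _))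
      (hind a haZ)
    · refine M.closure_subset_closure ?_ h0
      intro x hx
      rcases hx with hx | hx
      · exact Or.inr (Or.inl hx)
      · by_cases hxa : x = a
        · exact Or.inl hxa
        · have := Finset.mem_sdiff.1 (Finset.mem_coe.1 hx)
          refine Or.inr (Or.inr (Finset.mem_coe.2 (Finset.mem_sdiff.2 ⟨this.1, ?_⟩)))
          simp [hxa, this.2]
    · refine subset_trans ?_ (M.subset_closure _ (Set.union_subset hX
        (fun x hx => hZ (Finset.mem_of_mem_erase hx))))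
      refine Set.union_subset_union_right _ fun x hx => ?_
      have := Finset.mem_sdiff.1 (Finset.mem_coe.1 hx)
      refine Finset.mem_coe.2 (Finset.mem_erase.2 ⟨?_, this.1⟩)
      rintro rfl
      exact this.2 (Finset.mem_insert_self _ _)

/-- a basis of the layer inside `D` -/
theorem layer_basis (M : Matroid (Fin k)) (h1 : RANK M) (D : Finset (Fin k))
    (S P N : Set (Fin k)) (hmax : IsMax M D S N) (hcl : M.closure N = N) (hP : P ⊆ N) :
    ∃ Z : Finset (Fin k), Z ⊆ D ∧ (Z : Set (Fin k)) ⊆ N ∧ N = M.closure (S ∪ P ∪ ↑Z) ∧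
      (∀ z ∈ Z, z ∉ M.closure (S ∪ P ∪ ↑(Z.erase z))) ∧
      (∀ R : Finset (Fin k), R ⊆ Z → kap * R.card ≤
        (D.filter (fun e => e ∈ N ∧ e ∉ M.closure (S ∪ P ∪ ↑(Z \ R)))).card) := by
  have hSP : S ∪ P ⊆ N := Set.union_subset hmax.1 hP
  have hNE : N ⊆ M.E := hmax.2.1
  have hin : ∀ W : Finset (Fin k), (W : Set (Fin k)) ⊆ N → M.closure (S ∪ P ∪ ↑W) ⊆ N := by
    intro W hW
    rw [← hcl]
    exact M.closure_subset_closure (Set.union_subset hSP hW)
  have hS : ∀ W : Finset (Fin k), (W : Set (Fin k)) ⊆ N →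
      S ∪ P ∪ ↑W ⊆ M.closure (S ∪ P ∪ ↑W) := fun W hW =>
    M.subset_closure _ ((Set.union_subset hSP hW).trans hNE)
  have hex : ∃ Z : Finset (Fin k), Z ⊆ D ∧ (Z : Set (Fin k)) ⊆ N ∧
      N ⊆ M.closure (S ∪ P ∪ ↑Z) := by
    have hW : ((D.filter (fun e => e ∈ N) : Finset (Fin k)) : Set (Fin k)) ⊆ N :=
      fun x hx => (Finset.mem_filter.1 hx).2
    refine ⟨D.filter (fun e => e ∈ N), Finset.filter_subset _ _, hW, ?_⟩
    set Q := M.closure (S ∪ P ∪ ↑(D.filter (fun e => e ∈ N))) with hQ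
    have hf := hmax.2.2 Q (fun x hx => hS _ hW (Or.inl (Or.inl hx))) (M.closure_subset_ground _)
    have hc : (D.filter (fun e => e ∈ N)).card ≤ (D.filter (fun e => e ∈ Q)).card :=
      Finset.card_le_card fun x hx =>
        Finset.mem_filter.2 ⟨(Finset.mem_filter.1 hx).1, hS _ hW (Or.inr hx)⟩
    have hr : rk M N ≤ rk M Q := by
      unfold fval at hf
      have hk : (0 : ℤ) < kap := by unfold kap; positivity
      have : (kap : ℤ) * rk M N ≤ kap * rk M Q := by
        have : ((D.filter (fun e => e ∈ N)).card : ℤ) ≤ (D.filter (fun e => e ∈ Q)).card := by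
          exact_mod_cast hc
        linarith
      exact_mod_cast le_of_mul_le_mul_left this hk
    have := h1.2.2.2.2.2.2.2.2 Q N (hin _ hW) hNE hr
    rwa [hQ, M.closure_closure] at this
  obtain ⟨Z, ⟨hZD, hZN, hsp⟩, hmin⟩ := exists_minimalFor_of_wellFoundedLT
    (fun Z : Finset (Fin k) => Z ⊆ D ∧ (Z : Set (Fin k)) ⊆ N ∧ N ⊆ M.closure (S ∪ P ∪ ↑Z))
    Finset.card hex
  have hind : ∀ z ∈ Z, z ∉ M.closure (S ∪ P ∪ ↑(Z.erase z)) := by
    intro z hz hc
    have hZe : ((Z.erase z : Finset (Fin k)) : Set (Fin k)) ⊆ N :=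
      fun x hx => hZN (Finset.mem_of_mem_erase hx)
    have h2 : N ⊆ M.closure (S ∪ P ∪ ↑(Z.erase z)) := by
      refine hsp.trans (Matroid.closure_subset_closure_of_subset_closure ?_)
      intro x hx
      rcases hx with hx | hx
      · exact hS _ hZe (Or.inl hx)
      · by_cases hxz : x = z
        · exact hxz ▸ hc
        · exact hS _ hZe (Or.inr (Finset.mem_coe.2 (Finset.mem_erase.2 ⟨hxz, hx⟩)))
    have h3 := hmin ⟨(Finset.erase_subset _ _).trans hZD, hZe, h2⟩
      (Finset.card_le_card (Finset.erase_subset z Z))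
    have h4 := Finset.card_erase_lt_of_mem hz
    omega
  have hNeq : N = M.closure (S ∪ P ∪ ↑Z) := Set.Subset.antisymm hsp (hin _ hZN)
  refine ⟨Z, hZD, hZN, hNeq, hind, fun R hR => ?_⟩
  have hW : ((Z \ R : Finset (Fin k)) : Set (Fin k)) ⊆ N :=
    fun x hx => hZN (Finset.mem_sdiff.1 hx).1
  set Q := M.closure (S ∪ P ∪ ↑(Z \ R)) with hQ
  have hf := hmax.2.2 Q (fun x hx => hS _ hW (Or.inl (Or.inl hx))) (M.closure_subset_ground _)
  have hr1 : rk M N = rk M (S ∪ P) + Z.card := by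
    conv_lhs => rw [hNeq]
    rw [h1.2.2.1, rk_indep M h1 _ Z (hZN.trans hNE) hind Z subset_rfl]
  have hr2 : rk M Q = rk M (S ∪ P) + (Z \ R).card := by
    rw [hQ, h1.2.2.1, rk_indep M h1 _ Z (hZN.trans hNE) hind _ Finset.sdiff_subset]
  have hr3 : (Z \ R).card + R.card = Z.card := Finset.card_sdiff_add_card_eq_card hR
  have hc := card_split D N Q (hin _ hW)
  unfold fval at hf
  rw [hr1, hr2, hc, ← hr3] at hf
  push_cast at hf
  have : (kap : ℤ) * R.card ≤ (D.filter (fun e => e ∈ N ∧ e ∉ Q)).card := by linarith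
  exact_mod_cast this

/-- witnesses of a layer -/
theorem layer_wit (M : Matroid (Fin k)) (h1 : RANK M) (D : Finset (Fin k))
    (S P N : Set (Fin k)) (hS : S ⊆ M.E) (hP : P ⊆ M.E) (Z : Finset (Fin k))
    (hZ : (Z : Set (Fin k)) ⊆ M.E) (hN : N = M.closure (S ∪ P ∪ ↑Z))
    (hind : ∀ z ∈ Z, z ∉ M.closure (S ∪ P ∪ ↑(Z.erase z)))
    (hup : ∀ R : Finset (Fin k), R ⊆ Z → kap * R.card ≤
        (D.filter (fun e => e ∈ N ∧ e ∉ M.closure (S ∪ P ∪ ↑(Z \ R)))).card)
    (hdown : ∀ Q, P ⊆ Q → Q ⊆ M.E → Q ≠ P → fval M D Q < fval M D P) (R : Finset (Fin k)) :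
    R ⊆ Z → ∃ y : Fin k → Fin k,
      (∀ z ∈ R, y z ∈ D ∧ y z ∈ N ∧ y z ∉ M.closure (S ∪ P ∪ ↑(Z.erase z))) ∧
      ∀ W : Finset (Fin k), W ⊆ R → W.Nonempty → ∃ z ∈ W, y z ∉ M.closure (P ∪ ↑W) := by
  induction R using Finset.strongInduction with
  | H R ih =>
    intro hR
    rcases R.eq_empty_or_nonempty with rfl | hne
    · refine ⟨id, by simp, fun W hW hW' => ?_⟩
      rw [Finset.subset_empty.1 hW] at hW'
      exact absurd hW' (by simp)
    have hSP : S ∪ P ⊆ M.E := Set.union_subset hS hP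
    have hRE : (R : Set (Fin k)) ⊆ M.E := fun x hx => hZ (hR hx)
    set Q := M.closure (P ∪ ↑R) with hQ
    have hPQ : P ∪ ↑R ⊆ Q := M.subset_closure _ (Set.union_subset hP hRE)
    obtain ⟨v, hvD, hvN, hv1, hv2⟩ : ∃ v, v ∈ D ∧ v ∈ N ∧
        v ∉ M.closure (S ∪ P ∪ ↑(Z \ R)) ∧ v ∉ Q := by
      by_contra hcon
      push Not at hcon
      obtain ⟨z, hz⟩ := hne
      have hQP : Q ≠ P := by
        intro he
        apply hind z (hR hz)
        refine M.subset_closure _ (Set.union_subset hSP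
          (fun x hx => hZ (Finset.mem_of_mem_erase hx))) (Or.inl (Or.inr ?_))
        rw [← he]; exact hPQ (Or.inr hz)
      have hf := hdown Q (fun x hx => hPQ (Or.inl hx)) (M.closure_subset_ground _) hQP
      have hc := card_split D Q P (fun x hx => hPQ (Or.inl hx))
      have hr : rk M Q ≤ rk M P + R.card := by
        rw [hQ, h1.2.2.1]; exact h1.2.2.2.2.2.1 _ _
      have hle : (D.filter (fun e => e ∈ N ∧ e ∉ M.closure (S ∪ P ∪ ↑(Z \ R)))).card ≤
          (D.filter (fun e => e ∈ Q ∧ e ∉ P)).card := by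
        refine Finset.card_le_card fun x hx => ?_
        obtain ⟨a1, a2, a3⟩ := Finset.mem_filter.1 hx
        refine Finset.mem_filter.2 ⟨a1, hcon x a1 a2 a3, fun hxP => a3 ?_⟩
        exact M.subset_closure _ (Set.union_subset hSP
          (fun x hx => hZ (Finset.mem_sdiff.1 hx).1)) (Or.inl (Or.inr hxP))
      have h5 := (hup R hR).trans hle
      unfold fval at hf
      rw [hc] at hf
      push_cast at hf
      have h6 : (kap : ℤ) * R.card ≤ (D.filter (fun e => e ∈ Q ∧ e ∉ P)).card := by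
        exact_mod_cast h5
      have h7 : (kap : ℤ) * rk M Q ≤ kap * (rk M P + R.card) := by
        refine mul_le_mul_of_nonneg_left (by exact_mod_cast hr) (by positivity)
      linarith
    obtain ⟨z0, hz0, hz0'⟩ : ∃ z ∈ R, v ∉ M.closure (S ∪ P ∪ ↑(Z.erase z)) := by
      by_contra hcon
      push Not at hcon
      exact hv1 (rem_many M (S ∪ P) hSP Z hZ hind v (hN ▸ hvN) R hR hcon)
    obtain ⟨y, hy1, hy2⟩ := ih (R.erase z0) (Finset.erase_ssubset hz0)
      ((Finset.erase_subset _ _).trans hR)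
    refine ⟨Function.update y z0 v, fun z hz => ?_, fun W hW hW' => ?_⟩
    · by_cases hzz : z = z0
      · subst hzz
        rw [Function.update_self]
        exact ⟨hvD, hvN, hz0'⟩
      · rw [Function.update_of_ne hzz]
        exact hy1 z (Finset.mem_erase.2 ⟨hzz, hz⟩)
    · by_cases hzW : z0 ∈ W
      · refine ⟨z0, hzW, ?_⟩
        rw [Function.update_self]
        exact fun hc => hv2 (M.closure_subset_closure
          (Set.union_subset_union_right _ (Finset.coe_subset.2 hW)) hc)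
      · obtain ⟨z, hz, hz'⟩ := hy2 W
          (fun x hx => Finset.mem_erase.2 ⟨by rintro rfl; exact hzW hx, hW hx⟩) hW'
        refine ⟨z, hz, ?_⟩
        rw [Function.update_of_ne (by rintro rfl; exact hzW hz)]
        exact hz'

theorem exists_cert (M : Matroid (Fin k)) (h1 : RANK M) (h2 : EXPF M) (D : Finset (Fin k))
    (S : ℕ → Set (Fin k)) (hS : ∀ t, S t ⊆ M.E) (hSm : ∀ t t', t ≤ t' → S t ⊆ S t') :
    ∃ (Z : ℕ → Finset (Fin k)) (y : ℕ → Fin k → Fin k),
      Cert M S (fun t => Exp M D (S t)) Z y ∧ (∀ t, Z t ⊆ D) ∧ (∀ t, ∀ z ∈ Z t, y t z ∈ D) ∧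
      ∀ t, kap * (Z t).card ≤ (D.filter (fun e => e ∈ Exp M D (S t) ∧
        e ∉ prev (fun t => Exp M D (S t)) t)).card := by
  set N : ℕ → Set (Fin k) := fun t => Exp M D (S t) with hNdef
  have hPN : ∀ t, prev N t ⊆ N t := by
    intro t
    cases t with
    | zero => exact Set.empty_subset _
    | succ t => exact (h2 D (S t) (hS t)).2.2.2.1 _ (hSm _ _ (Nat.le_succ t)) (hS _)
  have hNE : ∀ t, N t ⊆ M.E := fun t => (h2 D (S t) (hS t)).1.2.1
  have hB := fun t => layer_basis M h1 D (S t) (prev N t) (N t) (h2 D (S t) (hS t)).1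
    (h2 D (S t) (hS t)).2.1 (hPN t)
  choose Z hZD hZN hNeq hind hup using hB
  have hY : ∀ t, ∃ y : Fin k → Fin k,
      (∀ z ∈ Z t, y z ∈ D ∧ y z ∈ N t ∧ y z ∉ M.closure (S t ∪ prev N t ∪ ↑((Z t).erase z))) ∧
      (t ≠ 0 → ∀ W : Finset (Fin k), W ⊆ Z t → W.Nonempty →
        ∃ z ∈ W, y z ∉ M.closure (prev N t ∪ ↑W)) := by
    intro t
    cases t with
    | zero => exact ⟨id, fun z hz => ⟨hZD 0 hz, hZN 0 hz, hind 0 z hz⟩, fun h => absurd rfl h⟩
    | succ t =>
      obtain ⟨y, hy1, hy2⟩ := layer_wit M h1 D (S (t + 1)) (prev N (t + 1)) (N (t + 1)) (hS _)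
        (hNE t) (Z (t + 1)) ((hZN _).trans (hNE _)) (hNeq _) (hind _) (hup _)
        (h2 D (S t) (hS t)).2.2.2.2 (Z (t + 1)) subset_rfl
      exact ⟨y, hy1, fun _ => hy2⟩
  choose y hy1 hy2 using hY
  refine ⟨Z, y, ⟨hS, fun t => (hZN t).trans (hNE t), hNeq, hind, fun t z hz => (hy1 t z hz).2.1,
    fun t z hz => (hy1 t z hz).2.2, fun t => hy2 (t + 1) (Nat.succ_ne_zero t)⟩, hZD,
    fun t z hz => (hy1 t z hz).1, fun t => ?_⟩
  refine (hup t (Z t) subset_rfl).trans (Finset.card_le_card fun x hx => ?_)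
  obtain ⟨a1, a2, a3⟩ := Finset.mem_filter.1 hx
  refine Finset.mem_filter.2 ⟨a1, a2, fun hxP => a3 ?_⟩
  refine M.subset_closure _ (Set.union_subset (Set.union_subset (hS t) ((hPN t).trans (hNE t)))
    (by simp)) (Or.inl (Or.inr hxP))

theorem total_le {M : Matroid (Fin k)} {S N : ℕ → Set (Fin k)} {Z : ℕ → Finset (Fin k)}
    {y : ℕ → Fin k → Fin k} (h : Cert M S N Z y) (D : Finset (Fin k)) (n : ℕ)
    (hc : ∀ t, kap * (Z t).card ≤ (D.filter (fun e => e ∈ N t ∧ e ∉ prev N t)).card) :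
    kap * ∑ t ∈ Finset.range (n + 1), (Z t).card ≤ D.card := by
  rw [Finset.mul_sum]
  refine (Finset.sum_le_sum fun t _ => hc t).trans ?_
  rw [← Finset.card_biUnion]
  · exact Finset.card_le_card (Finset.biUnion_subset.2 fun t _ => Finset.filter_subset _ _)
  · intro l _ l' _ hne
    refine Finset.disjoint_left.2 fun x hx hx' => ?_
    have a := (Finset.mem_filter.1 hx).2
    have b := (Finset.mem_filter.1 hx').2
    rcases lt_or_gt_of_ne hne with hlt | hlt
    · exact b.2 (h.N_sub_prev hlt a.1)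
    · exact a.2 (h.N_sub_prev hlt b.1)

end Crest.Agent.R305.C53

namespace Crest.Agent.R305

open C53 in
theorem compress53 {k : ℕ} (M : Matroid (Fin k)) (h1 : RANK M) (h2 : EXPF M) : COMPRESS73 M := by
  intro U S n _ hS hSm
  choose Z y hc hZD hyD hcard using fun D : Finset (Fin k) => exists_cert M h1 h2 (D ∩ U) S hS hSm
  have htot : ∀ D, kap * ∑ t ∈ Finset.range (n + 1), (Z D t).card ≤ U.card := fun D =>
    (total_le (hc D) (D ∩ U) n (hcard D)).trans (Finset.card_le_card Finset.inter_subset_right)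
  refine ⟨fun D i => if ∃ t ≤ n, i ∈ Z D t then 1 else 0, fun D => mult n (Z D) (y D),
    fun D i hi => ?_, fun D i hi => ?_, fun D => ?_, fun D => ?_, fun D D' hb hm => ?_⟩
  · refine if_neg ?_
    rintro ⟨t, _, ht⟩
    exact hi (Finset.mem_inter.1 (hZD D t ht)).2
  · unfold mult
    refine Finset.sum_eq_zero fun t _ => Finset.card_eq_zero.2 (Finset.filter_eq_empty_iff.2 ?_)
    rintro z hz rfl
    exact hi (Finset.mem_inter.1 (hyD D t z hz)).2
  · refine le_trans (Nat.mul_le_mul_left _ ?_) (htot D)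
    rw [← Finset.card_filter]
    refine le_trans (Finset.card_le_card ?_) Finset.card_biUnion_le
    intro i hi
    obtain ⟨t, ht, hi'⟩ := (Finset.mem_filter.1 hi).2
    exact Finset.mem_biUnion.2 ⟨t, Finset.mem_range.2 (Nat.lt_succ_of_le ht), hi'⟩
  · refine le_trans (Nat.mul_le_mul_left _ (le_of_eq ?_)) (htot D)
    have := sum_mult n (Z D) (y D) Set.univ
    simpa using this
  · refine cert_unique (hc D) (hc D') hSm n (fun i => ?_) hm
    have := congrFun hb i
    by_cases a : ∃ t ≤ n, i ∈ Z D t <;> by_cases b : ∃ t ≤ n, i ∈ Z D' t <;>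
      simp only [a, b, if_true, if_false] at this ⊢ <;> simp_all

end Crest.Agent.R305
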