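import Crest.Agent.R305.Comp73

/-! Row 305: compression of the chain of maximal maximisers (`COMPRESS73`). -/

set_option autoImplicit false

open Classical

namespace Crest.Agent.R305.C60

variable {k : ℕ} {M : Matroid (Fin k)}

theorem mem_cl_of_rk (h1 : RANK M) {X : Set (Fin k)} {y : Fin k} (hy : y ∈ M.E)
    (h : rk M (insert y X) ≤ rk M X) : y ∈ M.closure X := by
  by_contra hc
  have := h1.2.2.2.1 X y hy hc
  omega

/-- subsets of a set independent over `P` are independent over `P` -/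
theorem ind_sub (h1 : RANK M) {P : Set (Fin k)} {Z A : Finset (Fin k)}
    (hZ : rk M (P ∪ ↑Z) = rk M P + Z.card) (hA : A ⊆ Z) : rk M (P ∪ ↑A) = rk M P + A.card := by
  have a1 := h1.2.2.2.2.2.1 P A
  have a2 := h1.2.2.2.2.2.1 (P ∪ ↑A) (Z \ A)
  have e : P ∪ ↑A ∪ ↑(Z \ A) = P ∪ ↑Z := by
    rw [Set.union_assoc, ← Finset.coe_union, Finset.union_sdiff_of_subset hA]
  rw [e] at a2
  have := Finset.card_sdiff_add_card_eq_card hA
  omega

theorem not_mem_cl_erase (h1 : RANK M) {P : Set (Fin k)} {Z : Finset (Fin k)}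
    (hZ : rk M (P ∪ ↑Z) = rk M P + Z.card) {z : Fin k} (hz : z ∈ Z) :
    z ∉ M.closure (P ∪ ↑(Z.erase z)) := by
  intro h
  have a := h1.2.2.2.2.1 _ z h
  have e : insert z (P ∪ ↑(Z.erase z)) = P ∪ ↑Z := by
    rw [← Set.union_insert, ← Finset.coe_insert, Finset.insert_erase hz]
  rw [e, hZ, ind_sub h1 hZ (Finset.erase_subset z Z), Finset.card_erase_of_mem hz] at a
  have := Finset.card_pos.2 ⟨z, hz⟩
  omega

/-- peeling an independent top layer -/
theorem peel (h1 : RANK M) {P F : Set (Fin k)} {W : Finset (Fin k)} {y : Fin k}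
    (hW : rk M (P ∪ ↑W) = rk M P + W.card) (hF : F ⊆ P) (hy : y ∈ P)
    (h : y ∈ M.closure (F ∪ ↑W)) : y ∈ M.closure F := by
  apply mem_cl_of_rk h1 (M.closure_subset_ground _ h)
  have a1 := h1.2.2.2.2.1 _ y h
  have a2 := h1.2.2.2.2.2.1 F W
  have a3 := h1.2.1 (insert y (F ∪ ↑W)) P
  have a4 : rk M (P ∪ ↑W) ≤ rk M (insert y (F ∪ ↑W) ∪ P) := by
    apply h1.1
    rintro x (hx | hx)
    · exact Or.inr hx
    · exact Or.inl (Or.inr (Or.inr hx))
  have a5 : rk M (insert y F) ≤ rk M (insert y (F ∪ ↑W) ∩ P) := by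
    apply h1.1
    rintro x (hx | hx)
    · subst hx; exact ⟨Or.inl rfl, hy⟩
    · exact ⟨Or.inr (Or.inl hx), hF hx⟩
  omega

theorem cl_inter (h1 : RANK M) {P : Set (Fin k)} {Z A B : Finset (Fin k)} {y : Fin k}
    (hZ : rk M (P ∪ ↑Z) = rk M P + Z.card) (hA : A ⊆ Z) (hB : B ⊆ Z)
    (ha : y ∈ M.closure (P ∪ ↑A)) (hb : y ∈ M.closure (P ∪ ↑B)) :
    y ∈ M.closure (P ∪ ↑(A ∩ B)) := by
  apply mem_cl_of_rk h1 (M.closure_subset_ground _ ha)
  have a1 := h1.2.2.2.2.1 _ y ha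
  have a2 := h1.2.2.2.2.1 _ y hb
  have a3 := h1.2.1 (insert y (P ∪ ↑A)) (insert y (P ∪ ↑B))
  have a4 : rk M (P ∪ ↑(A ∪ B)) ≤ rk M (insert y (P ∪ ↑A) ∪ insert y (P ∪ ↑B)) := by
    apply h1.1
    rintro x (hx | hx)
    · exact Or.inl (Or.inr (Or.inl hx))
    · rcases Finset.mem_union.1 hx with h | h
      · exact Or.inl (Or.inr (Or.inr h))
      · exact Or.inr (Or.inr (Or.inr h))
  have a5 : rk M (insert y (P ∪ ↑(A ∩ B))) ≤
      rk M (insert y (P ∪ ↑A) ∩ insert y (P ∪ ↑B)) := by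
    apply h1.1
    rintro x (hx | hx | hx)
    · subst hx; exact ⟨Or.inl rfl, Or.inl rfl⟩
    · exact ⟨Or.inr (Or.inl hx), Or.inr (Or.inl hx)⟩
    · exact ⟨Or.inr (Or.inr (Finset.mem_inter.1 hx).1), Or.inr (Or.inr (Finset.mem_inter.1 hx).2)⟩
  rw [ind_sub h1 hZ hA] at a1
  rw [ind_sub h1 hZ hB] at a2
  rw [ind_sub h1 hZ (Finset.union_subset hA hB)] at a4
  rw [ind_sub h1 hZ (Finset.inter_subset_left.trans hA)]
  have := Finset.card_union_add_card_inter A B
  omega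

theorem exists_pivot (h1 : RANK M) {P : Set (Fin k)} {Z : Finset (Fin k)} {y : Fin k}
    (hZ : rk M (P ∪ ↑Z) = rk M P + Z.card) (hy : y ∈ M.closure (P ∪ ↑Z)) (R : Finset (Fin k))
    (hR : y ∉ M.closure (P ∪ ↑(Z \ R))) : ∃ z ∈ R, y ∉ M.closure (P ∪ ↑(Z.erase z)) := by
  induction R using Finset.induction_on with
  | empty => simp only [Finset.sdiff_empty] at hR; exact absurd hy hR
  | insert a R _ ih =>
    by_cases ha : y ∈ M.closure (P ∪ ↑(Z.erase a))
    · have : y ∉ M.closure (P ∪ ↑(Z \ R)) := by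
        intro hb
        apply hR
        have := cl_inter h1 hZ (Finset.erase_subset a Z) Finset.sdiff_subset ha hb
        have e : Z.erase a ∩ (Z \ R) = Z \ insert a R := by
          ext x; simp only [Finset.mem_inter, Finset.mem_erase, Finset.mem_sdiff,
            Finset.mem_insert]; tauto
        rwa [e] at this
      obtain ⟨z, hz, hz'⟩ := ih this
      exact ⟨z, Finset.mem_insert_of_mem hz, hz'⟩
    · exact ⟨a, Finset.mem_insert_self _ _, ha⟩

/-- counting `D` in a difference of sets -/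
theorem card_diff (D : Finset (Fin k)) {Q N : Set (Fin k)} (h : Q ⊆ N) :
    (D.filter (fun e => e ∈ N ∧ e ∉ Q)).card + (D.filter (fun e => e ∈ Q)).card =
      (D.filter (fun e => e ∈ N)).card := by
  rw [← Finset.card_union_of_disjoint]
  · congr 1
    ext x
    simp only [Finset.mem_union, Finset.mem_filter]
    constructor
    · rintro (⟨a, b, _⟩ | ⟨a, b⟩)
      · exact ⟨a, b⟩
      · exact ⟨a, h b⟩
    · rintro ⟨a, b⟩
      by_cases hq : x ∈ Q
      · exact Or.inr ⟨a, hq⟩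
      · exact Or.inl ⟨a, b, hq⟩
  · rw [Finset.disjoint_left]
    intro x hx hx'
    exact (Finset.mem_filter.1 hx).2.2 (Finset.mem_filter.1 hx').2

/-- UP inequality -/
theorem up (h2 : EXPF M) (D : Finset (Fin k)) {S Q : Set (Fin k)} (hS : S ⊆ M.E)
    (hSQ : S ⊆ Q) (hQ : Q ⊆ Exp M D S) :
    (kap : ℤ) * ((rk M (Exp M D S) : ℤ) - rk M Q) ≤
      ((D.filter (fun e => e ∈ Exp M D S ∧ e ∉ Q)).card : ℤ) := by
  have hm := (h2 D S hS).1
  have := hm.2.2 Q hSQ (hQ.trans hm.2.1)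
  unfold fval at this
  have c := card_diff D hQ
  have c' : ((D.filter (fun e => e ∈ Exp M D S ∧ e ∉ Q)).card : ℤ) +
      ((D.filter (fun e => e ∈ Q)).card : ℤ) = ((D.filter (fun e => e ∈ Exp M D S)).card : ℤ) := by
    exact_mod_cast c
  linarith

/-- strict DOWN inequality -/
theorem down (h2 : EXPF M) (D : Finset (Fin k)) {S Q : Set (Fin k)} (hS : S ⊆ M.E)
    (hQ : Exp M D S ⊆ Q) (hE : Q ⊆ M.E) (hne : Q ≠ Exp M D S) :
    ((D.filter (fun e => e ∈ Q ∧ e ∉ Exp M D S)).card : ℤ) <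
      (kap : ℤ) * ((rk M Q : ℤ) - rk M (Exp M D S)) := by
  have := (h2 D S hS).2.2.2.2 Q hQ hE hne
  unfold fval at this
  have c := card_diff D hQ
  have c' : ((D.filter (fun e => e ∈ Q ∧ e ∉ Exp M D S)).card : ℤ) +
      ((D.filter (fun e => e ∈ Exp M D S)).card : ℤ) = ((D.filter (fun e => e ∈ Q)).card : ℤ) := by
    exact_mod_cast c
  linarith

theorem kap_pos : 0 < kap := by unfold kap; positivity

/-- a basis of `N` over `P` inside `D` -/
theorem exists_basis (h1 : RANK M) (h2 : EXPF M) (D : Finset (Fin k)) {S P : Set (Fin k)}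
    (hS : S ⊆ M.E) (hSP : S ⊆ P) (hP : P ⊆ Exp M D S) :
    ∃ Z : Finset (Fin k), Z ⊆ D ∧ (↑Z : Set (Fin k)) ⊆ Exp M D S ∧
      rk M (P ∪ ↑Z) = rk M P + Z.card ∧ Exp M D S ⊆ M.closure (P ∪ ↑Z) := by
  have hm := (h2 D S hS).1
  have hcl := (h2 D S hS).2.1
  set N := Exp M D S with hN
  set DN := D.filter (fun e => e ∈ N) with hDN
  obtain ⟨Z, hZ, hmax⟩ := Finset.exists_max_image
    (DN.powerset.filter (fun Z : Finset (Fin k) => rk M (P ∪ ↑Z) = rk M P + Z.card)) Finset.card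
    ⟨∅, by simp⟩
  obtain ⟨hZ1, hZ2⟩ := Finset.mem_filter.1 hZ
  have hZ1 := Finset.mem_powerset.1 hZ1
  have hZN : (↑Z : Set (Fin k)) ⊆ N := fun x hx => (Finset.mem_filter.1 (hZ1 hx)).2
  have hsp : ∀ d ∈ DN, d ∈ M.closure (P ∪ ↑Z) := by
    intro d hd
    by_contra hc
    have hdE : d ∈ M.E := hm.2.1 (Finset.mem_filter.1 hd).2
    have hdZ : d ∉ Z := fun h => hc (M.subset_closure _
      (Set.union_subset (hP.trans hm.2.1) (hZN.trans hm.2.1)) (Or.inr h))
    have a := h1.2.2.2.1 _ d hdE hc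
    have := hmax (insert d Z) (Finset.mem_filter.2 ⟨Finset.mem_powerset.2
      (Finset.insert_subset hd hZ1), by
        rw [Finset.coe_insert, Set.union_insert, a, hZ2, Finset.card_insert_of_notMem hdZ]; ring⟩)
    rw [Finset.card_insert_of_notMem hdZ] at this
    omega
  refine ⟨Z, fun x hx => (Finset.mem_filter.1 (hZ1 hx)).1, hZN, hZ2, ?_⟩
  have hQN : M.closure (P ∪ ↑Z) ⊆ N := by
    rw [← hcl]; exact M.closure_subset_closure (Set.union_subset hP hZN)
  have hSQ : S ⊆ M.closure (P ∪ ↑Z) := (hSP.trans Set.subset_union_left).trans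
    (M.subset_closure _ (Set.union_subset (hP.trans hm.2.1) (hZN.trans hm.2.1)))
  have hu := up h2 D hS hSQ hQN
  have h0 : D.filter (fun e => e ∈ Exp M D S ∧ e ∉ M.closure (P ∪ ↑Z)) = ∅ := by
    rw [Finset.filter_eq_empty_iff]
    intro x hx hh
    exact hh.2 (hsp x (Finset.mem_filter.2 ⟨hx, hh.1⟩))
  rw [h0] at hu
  have kp : (0 : ℤ) < kap := by exact_mod_cast kap_pos
  have hr : (rk M (Exp M D S) : ℤ) ≤ rk M (M.closure (P ∪ ↑Z)) := by
    by_contra hh
    have : (0 : ℤ) < (rk M (Exp M D S) : ℤ) - rk M (M.closure (P ∪ ↑Z)) := by linarith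
    have := mul_pos kp this
    simp at hu
    linarith
  have := h1.2.2.2.2.2.2.2.2 _ N hQN hm.2.1 (by exact_mod_cast hr)
  rwa [M.closure_closure] at this

/-- UP for subsets of the basis -/
theorem up_basis (h1 : RANK M) (h2 : EXPF M) (D : Finset (Fin k)) {S P : Set (Fin k)}
    (hS : S ⊆ M.E) (hSP : S ⊆ P) (hP : P ⊆ Exp M D S) {Z R : Finset (Fin k)}
    (hZN : (↑Z : Set (Fin k)) ⊆ Exp M D S) (hZ : rk M (P ∪ ↑Z) = rk M P + Z.card) (hR : R ⊆ Z) :
    (kap : ℤ) * R.card ≤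
      ((D.filter (fun e => e ∈ Exp M D S ∧ e ∉ M.closure (P ∪ ↑(Z \ R)))).card : ℤ) := by
  have hm := (h2 D S hS).1
  have hcl := (h2 D S hS).2.1
  have hsub : P ∪ ↑(Z \ R) ⊆ Exp M D S := Set.union_subset hP
    (fun x hx => hZN (Finset.mem_sdiff.1 hx).1)
  have hQN : M.closure (P ∪ ↑(Z \ R)) ⊆ Exp M D S := by
    rw [← hcl]; exact M.closure_subset_closure hsub
  have hSQ : S ⊆ M.closure (P ∪ ↑(Z \ R)) := (hSP.trans Set.subset_union_left).trans
    (M.subset_closure _ (hsub.trans hm.2.1))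
  have hu := up h2 D hS hSQ hQN
  rw [h1.2.2.1, ind_sub h1 hZ Finset.sdiff_subset] at hu
  have a : rk M (P ∪ ↑Z) ≤ rk M (Exp M D S) := h1.1 _ _ (Set.union_subset hP hZN)
  have c := Finset.card_sdiff_add_card_eq_card hR
  have kp : (0 : ℤ) ≤ kap := by positivity
  have : (R.card : ℤ) ≤ (rk M (Exp M D S) : ℤ) - ((rk M P + (Z \ R).card : ℕ) : ℤ) := by
    push_cast; omega
  exact (mul_le_mul_of_nonneg_left this kp).trans hu

/-- witnesses in a later layer -/
theorem exists_wit (h1 : RANK M) (h2 : EXPF M) (D : Finset (Fin k)) {S0 S P : Set (Fin k)}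
    (hS0 : S0 ⊆ M.E) (hS : S ⊆ M.E) (hSP : S ⊆ P) (hP : P ⊆ Exp M D S) (h0P : Exp M D S0 ⊆ P)
    {Z : Finset (Fin k)}
    (hZN : (↑Z : Set (Fin k)) ⊆ Exp M D S) (hZ : rk M (P ∪ ↑Z) = rk M P + Z.card)
    (hsp : Exp M D S ⊆ M.closure (P ∪ ↑Z)) (n : ℕ) : ∀ R : Finset (Fin k), R.card = n → R ⊆ Z →
    ∃ y : Fin k → Fin k,
      (∀ z ∈ R, y z ∈ D ∧ y z ∈ Exp M D S ∧ y z ∉ M.closure (P ∪ ↑(Z.erase z))) ∧
      ∀ R' : Finset (Fin k), R' ⊆ R → R'.Nonempty →
        ∃ z ∈ R', y z ∉ M.closure (Exp M D S0 ∪ ↑R') := by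
  induction n with
  | zero =>
    intro R hR _
    rw [Finset.card_eq_zero] at hR
    subst hR
    refine ⟨id, by simp, ?_⟩
    intro R' h hne
    rw [Finset.subset_empty] at h
    subst h
    simp at hne
  | succ n ih =>
    intro R hR hRZ
    have hm := (h2 D S hS).1
    have hne : R.Nonempty := Finset.card_pos.1 (by omega)
    have hu := up_basis h1 h2 D hS hSP hP hZN hZ hRZ
    have hE0 : Exp M D S0 ∪ ↑R ⊆ M.E := Set.union_subset ((h0P.trans hP).trans hm.2.1)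
      (fun x hx => hm.2.1 (hZN (hRZ hx)))
    have hd := down h2 D hS0 (Q := M.closure (Exp M D S0 ∪ ↑R))
      (Set.subset_union_left.trans (M.subset_closure _ hE0)) (M.closure_subset_ground _) (by
        intro he
        obtain ⟨z, hz⟩ := hne
        have h3 : z ∈ Exp M D S0 := by
          rw [← he]; exact M.subset_closure _ hE0 (Or.inr hz)
        apply not_mem_cl_erase h1 hZ (hRZ hz)
        exact M.mem_closure_of_mem' (Or.inl (h0P h3)) (hE0 (Or.inr hz)))
    rw [h1.2.2.1] at hd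
    have a := h1.2.2.2.2.2.1 (Exp M D S0) R
    have kp : (0 : ℤ) ≤ kap := by positivity
    have a' : (rk M (Exp M D S0 ∪ ↑R) : ℤ) - rk M (Exp M D S0) ≤ R.card := by omega
    have hlt : (D.filter (fun e => e ∈ M.closure (Exp M D S0 ∪ ↑R) ∧ e ∉ Exp M D S0)).card <
        (D.filter (fun e => e ∈ Exp M D S ∧ e ∉ M.closure (P ∪ ↑(Z \ R)))).card := by
      have := (hd.trans_le (mul_le_mul_of_nonneg_left a' kp)).trans_le hu
      exact_mod_cast this
    obtain ⟨y0, hy0, hy0'⟩ := Finset.exists_mem_notMem_of_card_lt_card hlt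
    obtain ⟨b1, b2, b3⟩ := Finset.mem_filter.1 hy0
    have b4 : y0 ∉ M.closure (Exp M D S0 ∪ ↑R) := by
      intro hh
      apply hy0'
      refine Finset.mem_filter.2 ⟨b1, hh, fun h3 => b3 ?_⟩
      exact M.mem_closure_of_mem' (Or.inl (h0P h3)) (hm.2.1 b2)
    obtain ⟨z0, hz0, hz0'⟩ := exists_pivot h1 hZ (hsp b2) R b3
    obtain ⟨y, hy1, hy2⟩ := ih (R.erase z0) (by rw [Finset.card_erase_of_mem hz0]; omega)
      ((Finset.erase_subset _ _).trans hRZ)
    refine ⟨Function.update y z0 y0, ?_, ?_⟩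
    · intro z hz
      by_cases h : z = z0
      · subst h; rw [Function.update_self]; exact ⟨b1, b2, hz0'⟩
      · rw [Function.update_of_ne h]; exact hy1 z (Finset.mem_erase.2 ⟨h, hz⟩)
    · intro R' hR' hne'
      by_cases h : z0 ∈ R'
      · refine ⟨z0, h, ?_⟩
        rw [Function.update_self]
        intro hh
        exact b4 (M.closure_subset_closure (Set.union_subset_union_right _
          (Finset.coe_subset.2 hR')) hh)
      · obtain ⟨z, hz, hz'⟩ := hy2 R' (fun x hx => Finset.mem_erase.2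
          ⟨fun e => h (e ▸ hx), hR' hx⟩) hne'
        refine ⟨z, hz, ?_⟩
        rwa [Function.update_of_ne (fun e : z = z0 => h (e ▸ hz))]


/-- the previous set of the chain -/
def Prev (M : Matroid (Fin k)) (D : Finset (Fin k)) (S : ℕ → Set (Fin k)) : ℕ → Set (Fin k)
  | 0 => ∅
  | t + 1 => Exp M D (S t)

structure Layer (M : Matroid (Fin k)) (D : Finset (Fin k)) (S : ℕ → Set (Fin k)) (t : ℕ)
    (Z : Finset (Fin k)) (y : Fin k → Fin k) : Prop where
  sub : Z ⊆ D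
  inN : (↑Z : Set (Fin k)) ⊆ Exp M D (S t)
  ind : rk M ((S t ∪ Prev M D S t) ∪ ↑Z) = rk M (S t ∪ Prev M D S t) + Z.card
  span : Exp M D (S t) ⊆ M.closure ((S t ∪ Prev M D S t) ∪ ↑Z)
  size : kap * Z.card ≤ (D.filter (fun e => e ∈ Exp M D (S t) ∧ e ∉ Prev M D S t)).card
  wit : ∀ z ∈ Z, y z ∈ D ∧ y z ∈ Exp M D (S t) ∧
    y z ∉ M.closure ((S t ∪ Prev M D S t) ∪ ↑(Z.erase z))
  esc : t ≠ 0 → ∀ R' : Finset (Fin k), R' ⊆ Z → R'.Nonempty →
    ∃ z ∈ R', y z ∉ M.closure (Prev M D S t ∪ ↑R')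

section chain

variable (h2 : EXPF M) (D : Finset (Fin k)) {S : ℕ → Set (Fin k)} (hS : ∀ t, S t ⊆ M.E)
  (hm : ∀ t t', t ≤ t' → S t ⊆ S t')

include h2 hS in
theorem N_E (t : ℕ) : Exp M D (S t) ⊆ M.E := (h2 D _ (hS t)).1.2.1

include h2 hS in
theorem S_N (t : ℕ) : S t ⊆ Exp M D (S t) := (h2 D _ (hS t)).1.1

include h2 hS hm in
theorem N_mono {t t' : ℕ} (h : t ≤ t') : Exp M D (S t) ⊆ Exp M D (S t') :=
  (h2 D _ (hS t)).2.2.2.1 _ (hm t t' h) (hS t')

include h2 hS hm in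
theorem N_Prev {t t' : ℕ} (h : t < t') : Exp M D (S t) ⊆ Prev M D S t' := by
  obtain ⟨u, rfl⟩ : ∃ u, t' = u + 1 := ⟨t' - 1, by omega⟩
  exact N_mono h2 D hS hm (by omega)

include h2 hS hm in
theorem Prev_N (t : ℕ) : Prev M D S t ⊆ Exp M D (S t) := by
  cases t with
  | zero => exact Set.empty_subset _
  | succ u => exact N_mono h2 D hS hm (by omega)

include h2 hS hm in
theorem P_N (t : ℕ) : S t ∪ Prev M D S t ⊆ Exp M D (S t) :=
  Set.union_subset (S_N h2 D hS t) (Prev_N h2 D hS hm t)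

include h2 hS hm in
theorem exists_layer (h1 : RANK M) (t : ℕ) : ∃ Z y, Layer M D S t Z y := by
  obtain ⟨Z, a, b, c, d⟩ := exists_basis h1 h2 D (hS t) (P := S t ∪ Prev M D S t)
    Set.subset_union_left (P_N h2 D hS hm t)
  have hsz : kap * Z.card ≤
      (D.filter (fun e => e ∈ Exp M D (S t) ∧ e ∉ Prev M D S t)).card := by
    have hu := up_basis h1 h2 D (hS t) Set.subset_union_left (P_N h2 D hS hm t) b c
      (Finset.Subset.refl Z)
    have hu' : kap * Z.card ≤ (D.filter (fun e => e ∈ Exp M D (S t) ∧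
        e ∉ M.closure ((S t ∪ Prev M D S t) ∪ ↑(Z \ Z)))).card := by exact_mod_cast hu
    refine hu'.trans (Finset.card_le_card ?_)
    intro x hx
    obtain ⟨x1, x2, x3⟩ := Finset.mem_filter.1 hx
    exact Finset.mem_filter.2 ⟨x1, x2, fun h => x3
      (M.mem_closure_of_mem' (Or.inl (Or.inr h)) (N_E h2 D hS t x2))⟩
  cases t with
  | zero =>
    exact ⟨Z, id, a, b, c, d, hsz, fun z hz => ⟨a hz, b hz, not_mem_cl_erase h1 c hz⟩,
      fun h => absurd rfl h⟩
  | succ u =>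
    obtain ⟨y, y1, y2⟩ := exists_wit h1 h2 D (hS u) (hS (u + 1)) Set.subset_union_left
      (P_N h2 D hS hm (u + 1)) Set.subset_union_right b c d Z.card Z rfl (Finset.Subset.refl Z)
    exact ⟨Z, y, a, b, c, d, hsz, y1, fun _ => y2⟩

variable {D} {Z : ℕ → Finset (Fin k)} {y : ℕ → Fin k → Fin k}
  (hL : ∀ t, Layer M D S t (Z t) (y t))

include h2 hS hL in
theorem Z_notPrev (h1 : RANK M) {t : ℕ} {z : Fin k} (hz : z ∈ Z t) : z ∉ Prev M D S t := fun h =>
  not_mem_cl_erase h1 (hL t).ind hz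
    (M.mem_closure_of_mem' (Or.inl (Or.inr h)) (N_E h2 D hS t ((hL t).inN hz)))

include h2 hS hL in
theorem y_notPrev {t : ℕ} {z : Fin k} (hz : z ∈ Z t) : y t z ∉ Prev M D S t := fun h =>
  ((hL t).wit z hz).2.2
    (M.mem_closure_of_mem' (Or.inl (Or.inr h)) (N_E h2 D hS t ((hL t).wit z hz).2.1))

include h2 hS hm hL in
theorem Z_time (h1 : RANK M) {t t' : ℕ} {z : Fin k} (hz : z ∈ Z t) (hz' : z ∈ Z t') : t = t' := by
  rcases lt_trichotomy t t' with h | h | h
  · exact absurd (N_Prev h2 D hS hm h ((hL t).inN hz)) (Z_notPrev h2 hS hL h1 hz')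
  · exact h
  · exact absurd (N_Prev h2 D hS hm h ((hL t').inN hz')) (Z_notPrev h2 hS hL h1 hz)

include h2 hS hm hL in
/-- peeling all later layers -/
theorem peel_all (h1 : RANK M) {s : ℕ} {F : Set (Fin k)} {x : Fin k} (hF : F ⊆ Exp M D (S s))
    (hx : x ∈ Exp M D (S s)) (u : ℕ)
    (h : x ∈ M.closure (F ∪ {z | ∃ s', s < s' ∧ s' ≤ u ∧ z ∈ Z s'})) : x ∈ M.closure F := by
  induction u with
  | zero =>
    have : {z | ∃ s', s < s' ∧ s' ≤ 0 ∧ z ∈ Z s'} = ∅ := by
      ext z; simp only [Set.mem_setOf_eq, Set.mem_empty_iff_false, iff_false]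
      rintro ⟨s', a, b, _⟩; omega
    rwa [this, Set.union_empty] at h
  | succ u ih =>
    apply ih
    by_cases hsu : s < u + 1
    · apply peel h1 (hL (u + 1)).ind
      · rintro z (hz | ⟨s', a, b, c⟩)
        · exact Or.inr (N_Prev h2 D hS hm hsu (hF hz))
        · exact Or.inr (N_Prev h2 D hS hm (by omega) ((hL s').inN c))
      · exact Or.inr (N_Prev h2 D hS hm hsu hx)
      · refine M.closure_subset_closure ?_ h
        rintro z (hz | ⟨s', a, b, c⟩)
        · exact Or.inl (Or.inl hz)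
        · by_cases e : s' = u + 1
          · subst e; exact Or.inr c
          · exact Or.inl (Or.inr ⟨s', a, by omega, c⟩)
    · refine M.closure_subset_closure ?_ h
      rintro z (hz | ⟨s', a, b, c⟩)
      · exact Or.inl hz
      · omega

end chain

/-- the set of (time, basis element) pairs -/
def Om (n : ℕ) (Z : ℕ → Finset (Fin k)) : Finset (Σ _ : ℕ, Fin k) :=
  (Finset.range (n + 1)).sigma Z

noncomputable def bb (n : ℕ) (Z : ℕ → Finset (Fin k)) (i : Fin k) : ℕ :=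
  ((Om n Z).filter (fun p => p.2 = i)).card

noncomputable def mm (n : ℕ) (Z : ℕ → Finset (Fin k)) (y : ℕ → Fin k → Fin k) (i : Fin k) : ℕ :=
  ((Om n Z).filter (fun p => y p.1 p.2 = i)).card

theorem mem_Om {n : ℕ} {Z : ℕ → Finset (Fin k)} {p : Σ _ : ℕ, Fin k} :
    p ∈ Om n Z ↔ p.1 ≤ n ∧ p.2 ∈ Z p.1 := by
  simp [Om, Finset.mem_sigma, Nat.lt_succ_iff]

theorem bb_ne {n : ℕ} {Z : ℕ → Finset (Fin k)} {i : Fin k} :
    bb n Z i ≠ 0 ↔ ∃ s, s ≤ n ∧ i ∈ Z s := by
  unfold bb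
  rw [Finset.card_ne_zero]
  constructor
  · rintro ⟨p, hp⟩
    obtain ⟨a, b⟩ := Finset.mem_filter.1 hp
    exact ⟨p.1, (mem_Om.1 a).1, b ▸ (mem_Om.1 a).2⟩
  · rintro ⟨s, a, b⟩
    exact ⟨⟨s, i⟩, Finset.mem_filter.2 ⟨mem_Om.2 ⟨a, b⟩, rfl⟩⟩

theorem count_mm (n : ℕ) (Z : ℕ → Finset (Fin k)) (y : ℕ → Fin k → Fin k) (X : Finset (Fin k)) :
    ((Om n Z).filter (fun p => y p.1 p.2 ∈ X)).card = ∑ i ∈ X, mm n Z y i := by
  unfold mm
  rw [Finset.sum_card_fiberwise_eq_card_filter]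

theorem layer_sub (h1 : RANK M) (h2 : EXPF M) {D D' : Finset (Fin k)} {S : ℕ → Set (Fin k)}
    (hS : ∀ t, S t ⊆ M.E) (hm : ∀ t t', t ≤ t' → S t ⊆ S t') {n : ℕ}
    {Z Z' : ℕ → Finset (Fin k)} {y y' : ℕ → Fin k → Fin k}
    (hL : ∀ t, Layer M D S t (Z t) (y t)) (hL' : ∀ t, Layer M D' S t (Z' t) (y' t))
    (hb : bb n Z = bb n Z') (hmm : mm n Z y = mm n Z' y') {t : ℕ} (ht : t ≤ n)
    (hP : Prev M D S t = Prev M D' S t) : Z t ⊆ Z' t := by
  set A := Z t with hA
  -- every element of `A` sits in a layer `≥ t` of the second code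
  have hA' : ∀ a ∈ A, ∃ s, t ≤ s ∧ s ≤ n ∧ a ∈ Z' s := by
    intro a ha
    have : bb n Z' a ≠ 0 := by rw [← hb]; exact bb_ne.2 ⟨t, ht, ha⟩
    obtain ⟨s, hs, has⟩ := bb_ne.1 this
    refine ⟨s, ?_, hs, has⟩
    by_contra hlt
    apply Z_notPrev h2 hS hL h1 ha
    rw [hP]
    exact N_Prev h2 D' hS hm (by omega) ((hL' s).inN has)
  by_contra hnot
  obtain ⟨a0, ha0, ha0'⟩ := Finset.not_subset.1 hnot
  obtain ⟨l, hl, hlmax⟩ := Finset.exists_max_image
    ((Finset.range (n + 1)).filter (fun s => (A ∩ Z' s).Nonempty)) id (by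
      obtain ⟨s, _, b, c⟩ := hA' a0 ha0
      exact ⟨s, Finset.mem_filter.2 ⟨Finset.mem_range.2 (by omega),
        ⟨a0, Finset.mem_inter.2 ⟨ha0, c⟩⟩⟩⟩)
  obtain ⟨_, hlne⟩ := Finset.mem_filter.1 hl
  have hle : ∀ a ∈ A, ∀ s, s ≤ n → a ∈ Z' s → s ≤ l := fun a ha s b c =>
    hlmax s (Finset.mem_filter.2 ⟨Finset.mem_range.2 (by omega),
        ⟨a, Finset.mem_inter.2 ⟨ha, c⟩⟩⟩)
  have htl : t < l := by
    obtain ⟨s, a, b, c⟩ := hA' a0 ha0
    have := hle a0 ha0 s b c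
    have : s ≠ t := fun e => ha0' (e ▸ c)
    omega
  obtain ⟨z0, hz0, hz0'⟩ := (hL' l).esc (by omega) (A ∩ Z' l) Finset.inter_subset_right hlne
  set P := S t ∪ Prev M D S t with hPdef
  have hPN' : P ⊆ Exp M D' (S t) := by rw [hPdef, hP]; exact P_N h2 D' hS hm t
  have hz0'' : y' l z0 ∉ M.closure (P ∪ ↑A) := by
    intro h
    apply hz0'
    refine M.closure_subset_closure ?_ h
    rintro x (hx | hx)
    · exact Or.inl (N_Prev h2 D' hS hm htl (hPN' hx))
    · obtain ⟨s, a, b, c⟩ := hA' x hx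
      have := hle x hx s b c
      by_cases e : s = l
      · subst e; exact Or.inr (Finset.mem_coe.2 (Finset.mem_inter.2 ⟨hx, c⟩))
      · exact Or.inl (N_Prev h2 D' hS hm (by omega) ((hL' s).inN c))
  set X : Finset (Fin k) := Finset.univ.filter
    (fun i => i ∈ M.closure (P ∪ ↑A) ∧ i ∉ Prev M D S t) with hX
  have c1 : A.card ≤ ((Om n Z).filter (fun p => y p.1 p.2 ∈ X)).card := by
    apply Finset.card_le_card_of_injOn (fun z => (⟨t, z⟩ : Σ _ : ℕ, Fin k))
    · intro z hz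
      have hz : z ∈ A := hz
      refine Finset.mem_coe.2 (Finset.mem_filter.2 ⟨mem_Om.2 ⟨ht, hz⟩, Finset.mem_filter.2
        ⟨Finset.mem_univ _, (hL t).span ((hL t).wit z hz).2.1, y_notPrev h2 hS hL hz⟩⟩)
    · intro a _ b _ h
      simpa using h
  have c2 : ((Om n Z').filter (fun p => y' p.1 p.2 ∈ X)).card ≤ (A.erase z0).card := by
    apply Finset.card_le_card_of_injOn (fun p => p.2)
    · rintro ⟨s, z⟩ hp
      obtain ⟨a, b⟩ := Finset.mem_filter.1 (Finset.mem_coe.1 hp)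
      obtain ⟨a1, a2⟩ := mem_Om.1 a
      obtain ⟨_, b1, b2⟩ := Finset.mem_filter.1 b
      simp only at a1 a2 b1 b2
      have hw := (hL' s).wit z a2
      have hts : t ≤ s := by
        by_contra hlt
        apply b2
        rw [hP]
        exact N_Prev h2 D' hS hm (by omega) hw.2.1
      refine Finset.mem_coe.2 (Finset.mem_erase.2 ⟨?_, ?_⟩)
      · intro e
        simp only at e
        subst e
        have := Z_time h2 hS hm hL' h1 a2 (Finset.mem_inter.1 hz0).2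
        subst this
        exact hz0'' b1
      · by_contra hzA
        apply hw.2.2
        apply peel_all h2 hS hm hL' h1 (s := s) (Set.union_subset (P_N h2 D' hS hm s)
          (fun x hx => (hL' s).inN (Finset.mem_erase.1 hx).2)) hw.2.1 n
        refine M.closure_subset_closure ?_ b1
        rintro x (hx | hx)
        · rcases Nat.eq_or_lt_of_le hts with e | e
          · subst e; rw [hPdef, hP] at hx; exact Or.inl (Or.inl hx)
          · exact Or.inl (Or.inl (Or.inr (N_Prev h2 D' hS hm e (hPN' hx))))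
        · obtain ⟨s', a, b, c⟩ := hA' x hx
          rcases lt_trichotomy s' s with e | e | e
          · exact Or.inl (Or.inl (Or.inr (N_Prev h2 D' hS hm e ((hL' s').inN c))))
          · subst e
            exact Or.inl (Or.inr (Finset.mem_coe.2 (Finset.mem_erase.2
              ⟨fun e => hzA (e ▸ hx), c⟩)))
          · exact Or.inr ⟨s', e, b, c⟩
    · rintro ⟨s, z⟩ hp ⟨s', z'⟩ hp' h
      simp only at h
      subst h
      have a := (mem_Om.1 (Finset.mem_filter.1 (Finset.mem_coe.1 hp)).1).2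
      have a' := (mem_Om.1 (Finset.mem_filter.1 (Finset.mem_coe.1 hp')).1).2
      have := Z_time h2 hS hm hL' h1 a a'
      simp only at this
      subst this
      rfl
  rw [count_mm] at c1 c2
  rw [hmm] at c1
  rw [Finset.card_erase_of_mem (Finset.mem_inter.1 hz0).1] at c2
  have := Finset.card_pos.2 ⟨a0, ha0⟩
  omega

theorem N_eq (h2 : EXPF M) {D : Finset (Fin k)} {S : ℕ → Set (Fin k)}
    (hS : ∀ t, S t ⊆ M.E) (hm : ∀ t t', t ≤ t' → S t ⊆ S t') {t : ℕ} {Z : Finset (Fin k)}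
    {y : Fin k → Fin k} (hL : Layer M D S t Z y) :
    Exp M D (S t) = M.closure ((S t ∪ Prev M D S t) ∪ ↑Z) := by
  apply Set.Subset.antisymm hL.span
  rw [← (h2 D _ (hS t)).2.1]
  exact M.closure_subset_closure (Set.union_subset (P_N h2 D hS hm t) hL.inN)

theorem card_Om (h2 : EXPF M) {D : Finset (Fin k)} {S : ℕ → Set (Fin k)}
    (hS : ∀ t, S t ⊆ M.E) (hm : ∀ t t', t ≤ t' → S t ⊆ S t')
    {Z : ℕ → Finset (Fin k)} {y : ℕ → Fin k → Fin k}
    (hL : ∀ t, Layer M D S t (Z t) (y t)) (n : ℕ) : kap * (Om n Z).card ≤ D.card := by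
  have key : ∀ u, kap * ∑ s ∈ Finset.range u, (Z s).card ≤
      (D.filter (fun e => e ∈ Prev M D S u)).card := by
    intro u
    induction u with
    | zero => simp
    | succ u ih =>
      rw [Finset.sum_range_succ, mul_add]
      have a := (hL u).size
      have b := card_diff D (Prev_N h2 D hS hm u)
      show _ ≤ (D.filter (fun e => e ∈ Exp M D (S u))).card
      omega
  unfold Om
  rw [Finset.card_sigma]
  exact (key (n + 1)).trans (Finset.card_filter_le _ _)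

end Crest.Agent.R305.C60

namespace Crest.Agent.R305

open C60

theorem compress60 {k : ℕ} (M : Matroid (Fin k)) (h1 : RANK M) (h2 : EXPF M) : COMPRESS73 M := by
  intro U S n _ hS hm
  choose Z y hL using fun (D : Finset (Fin k)) (t : ℕ) => exists_layer h2 (D ∩ U) hS hm h1 t
  have hc : ∀ D, kap * (Om n (Z D)).card ≤ U.card := fun D =>
    (card_Om h2 hS hm (hL D) n).trans (Finset.card_le_card Finset.inter_subset_right)
  refine ⟨fun D => bb n (Z D), fun D => mm n (Z D) (y D), ?_, ?_, ?_, ?_, ?_⟩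
  · intro D i hi
    by_contra h
    obtain ⟨s, _, hs⟩ := bb_ne.1 h
    exact hi (Finset.mem_inter.1 ((hL D s).sub hs)).2
  · intro D i hi
    unfold mm
    rw [Finset.card_eq_zero, Finset.filter_eq_empty_iff]
    intro p hp e
    apply hi
    rw [← e]
    exact (Finset.mem_inter.1 ((hL D p.1).wit p.2 (mem_Om.1 hp).2).1).2
  · intro D
    refine le_trans (le_of_eq ?_) (hc D)
    congr 1
    unfold bb
    rw [Finset.sum_card_fiberwise_eq_card_filter]
    simp
  · intro D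
    refine le_trans (le_of_eq ?_) (hc D)
    congr 1
    unfold mm
    rw [Finset.sum_card_fiberwise_eq_card_filter]
    simp
  · intro D D' hb hmm
    have step : ∀ t, t ≤ n → Prev M (D ∩ U) S t = Prev M (D' ∩ U) S t →
        Exp M (D ∩ U) (S t) = Exp M (D' ∩ U) (S t) := by
      intro t ht hP
      have e : Z D t = Z D' t := Finset.Subset.antisymm
        (layer_sub h1 h2 hS hm (hL D) (hL D') hb hmm ht hP)
        (layer_sub h1 h2 hS hm (hL D') (hL D) hb.symm hmm.symm ht hP.symm)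
      rw [N_eq h2 hS hm (hL D t), N_eq h2 hS hm (hL D' t), hP, e]
    intro t
    induction t with
    | zero => intro ht; exact step 0 ht rfl
    | succ u ih => intro ht; exact step (u + 1) ht (ih (by omega))

end Crest.Agent.R305
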