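import Crest.Agent.R305.Comp73

/-! Row 305: the compression lemma (chain of maximal maximisers from two small codes). -/

set_option autoImplicit false
open Classical

namespace Crest.Agent.R305.C71

variable {k : ℕ}

noncomputable def fl (D : Finset (Fin k)) (X : Set (Fin k)) : Finset (Fin k) :=
  D.filter (fun e => e ∈ X)

lemma mem_fl {D : Finset (Fin k)} {X : Set (Fin k)} {e : Fin k} : e ∈ fl D X ↔ e ∈ D ∧ e ∈ X := by
  unfold fl
  exact Finset.mem_filter

noncomputable def cnt (D : Finset (Fin k)) (X : Set (Fin k)) : ℕ := (fl D X).card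

noncomputable def yw (y : Fin k → ℕ) (X : Set (Fin k)) : ℕ :=
  ∑ i ∈ Finset.univ.filter (fun e => e ∈ X), y i

lemma cnt_mono (D : Finset (Fin k)) {X Y : Set (Fin k)} (h : ∀ e ∈ D, e ∈ X → e ∈ Y) :
    cnt D X ≤ cnt D Y := by
  unfold cnt
  apply Finset.card_le_card
  intro e he
  rw [mem_fl] at he ⊢
  exact ⟨he.1, h e he.1 he.2⟩

lemma cnt_split (D : Finset (Fin k)) {X Y : Set (Fin k)} (h : X ⊆ Y) :
    cnt D Y = cnt D X + cnt D (Y \ X) := by
  unfold cnt
  rw [← Finset.card_union_of_disjoint]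
  · congr 1
    ext e
    simp only [mem_fl, Finset.mem_union, Set.mem_sdiff]
    constructor
    · rintro ⟨h1, h2⟩
      by_cases hx : e ∈ X
      · exact Or.inl ⟨h1, hx⟩
      · exact Or.inr ⟨h1, h2, hx⟩
    · rintro (⟨h1, h2⟩ | ⟨h1, h2, _⟩)
      · exact ⟨h1, h h2⟩
      · exact ⟨h1, h2⟩
  · rw [Finset.disjoint_left]
    intro e h1 h2
    rw [mem_fl] at h1 h2
    exact h2.2.2 h1.2

lemma yw_mono (y : Fin k → ℕ) {X Y : Set (Fin k)} (h : ∀ e, y e ≠ 0 → e ∈ X → e ∈ Y) :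
    yw y X ≤ yw y Y := by
  unfold yw
  rw [Finset.sum_filter, Finset.sum_filter]
  refine Finset.sum_le_sum fun e _ => ?_
  by_cases h0 : y e = 0
  · simp [h0]
  · by_cases hx : e ∈ X
    · simp [hx, h e h0 hx]
    · simp [hx]

lemma yw_zero (y : Fin k → ℕ) {X : Set (Fin k)} (h : ∀ e, y e ≠ 0 → e ∉ X) : yw y X = 0 := by
  unfold yw
  refine Finset.sum_eq_zero fun e he => ?_
  by_contra h0
  exact h e h0 (Finset.mem_filter.1 he).2

lemma yw_sum (s : Finset ℕ) (y : ℕ → Fin k → ℕ) (X : Set (Fin k)) :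
    yw (fun i => ∑ l ∈ s, y l i) X = ∑ l ∈ s, yw (y l) X := by
  unfold yw
  rw [Finset.sum_comm]

noncomputable def bI (B : Finset (Fin k)) (i : Fin k) : ℕ := if i ∈ B then 1 else 0
noncomputable def mI (B : Finset (Fin k)) (β : Fin k → Fin k) (i : Fin k) : ℕ :=
  (B.filter (fun a => β a = i)).card

lemma yw_code (B : Finset (Fin k)) (β : Fin k → Fin k) (X : Set (Fin k)) :
    yw (fun i => k * bI B i + mI B β i) X =
      k * cnt B X + cnt B (β ⁻¹' X) := by
  unfold yw cnt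
  rw [Finset.sum_add_distrib, ← Finset.mul_sum]
  congr 1
  · congr 1
    unfold bI
    rw [Finset.sum_boole]
    simp only [Nat.cast_id]
    congr 1
    ext e
    simp [mem_fl, and_comm]
  · unfold mI
    rw [Finset.sum_card_fiberwise_eq_card_filter]
    congr 1
    ext e
    simp [mem_fl]

lemma sum_bI (B : Finset (Fin k)) : ∑ i, bI B i = B.card := by
  unfold bI
  rw [Finset.sum_boole]
  simp

lemma sum_mI (B : Finset (Fin k)) (β : Fin k → Fin k) : ∑ i, mI B β i = B.card := by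
  unfold mI
  rw [Finset.sum_card_fiberwise_eq_card_filter]
  simp

section layer

variable {M : Matroid (Fin k)} (h1 : RANK M)
include h1

lemma sub_indep {R : Set (Fin k)} {B A : Finset (Fin k)} (hB : rk M (R ∪ ↑B) = rk M R + B.card)
    (hA : A ⊆ B) : rk M (R ∪ ↑A) = rk M R + A.card := by
  have h2 := h1.2.2.2.2.2.1 R A
  have h3 := h1.2.2.2.2.2.1 (R ∪ ↑A) (B \ A)
  have h4 : R ∪ (↑A : Set (Fin k)) ∪ ↑(B \ A) = R ∪ ↑B := by
    rw [Set.union_assoc, ← Finset.coe_union, Finset.union_sdiff_of_subset hA]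
  rw [h4, Finset.card_sdiff_of_subset hA] at h3
  have := Finset.card_le_card hA
  omega

lemma sub_indep' {P R : Set (Fin k)} {A : Finset (Fin k)} (hPR : P ⊆ R)
    (hA : rk M (R ∪ ↑A) = rk M R + A.card) : rk M P + A.card ≤ rk M (P ∪ ↑A) := by
  have h2 := h1.2.1 (P ∪ ↑A) R
  have h3 : rk M (R ∪ ↑A) ≤ rk M (P ∪ ↑A ∪ R) := h1.1 _ _ (by
    intro e he
    rcases he with he | he
    · exact Or.inr he
    · exact Or.inl (Or.inr he))
  have h4 : rk M P ≤ rk M ((P ∪ ↑A) ∩ R) := h1.1 _ _ (fun e he => ⟨Or.inl he, hPR he⟩)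
  omega

lemma not_mem_cl_erase {R : Set (Fin k)} {B : Finset (Fin k)}
    (hB : rk M (R ∪ ↑B) = rk M R + B.card) {a : Fin k} (ha : a ∈ B) :
    a ∉ M.closure (R ∪ ↑(B.erase a)) := by
  intro h
  have h2 := h1.2.2.2.2.1 _ _ h
  have h3 : insert a (R ∪ (↑(B.erase a) : Set (Fin k))) = R ∪ ↑B := by
    ext e
    simp only [Set.mem_insert_iff, Set.mem_union, Finset.mem_coe, Finset.mem_erase]
    constructor
    · rintro (rfl | h | h)
      · exact Or.inr ha
      · exact Or.inl h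
      · exact Or.inr h.2
    · rintro (h | h)
      · exact Or.inr (Or.inl h)
      · by_cases he : e = a
        · exact Or.inl he
        · exact Or.inr (Or.inr ⟨he, h⟩)
  rw [h3, hB, sub_indep h1 hB (Finset.erase_subset a B), Finset.card_erase_of_mem ha] at h2
  have := Finset.card_pos.2 ⟨a, ha⟩
  omega

lemma inter_cl {R : Set (Fin k)} {B : Finset (Fin k)}
    (hB : rk M (R ∪ ↑B) = rk M R + B.card) {b : Fin k} (hbE : b ∈ M.E)
    (hb : b ∈ M.closure (R ∪ ↑B)) (A : Finset (Fin k)) :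
    A ⊆ B → (∀ a ∈ A, b ∈ M.closure (R ∪ ↑(B.erase a))) → b ∈ M.closure (R ∪ ↑(B \ A)) := by
  induction A using Finset.induction_on with
  | empty => intro _ _; simpa using hb
  | insert a A haA ih =>
    intro hsub hall
    have hA : A ⊆ B := fun e he => hsub (Finset.mem_insert_of_mem he)
    have ha : a ∈ B := hsub (Finset.mem_insert_self _ _)
    have hX := ih hA (fun e he => hall e (Finset.mem_insert_of_mem he))
    have hY := hall a (Finset.mem_insert_self _ _)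
    by_contra hW
    have e1 := h1.2.2.2.1 _ _ hbE hW
    have e2 := h1.2.2.2.2.1 _ _ hX
    have e3 := h1.2.2.2.2.1 _ _ hY
    have e4 := h1.2.1 (insert b (R ∪ (↑(B \ A) : Set (Fin k)))) (insert b (R ∪ (↑(B.erase a) : Set (Fin k))))
    have e5 : rk M (R ∪ ↑B) ≤ rk M (insert b (R ∪ (↑(B \ A) : Set (Fin k))) ∪
        insert b (R ∪ (↑(B.erase a) : Set (Fin k)))) := h1.1 _ _ (by
      intro e he
      rcases he with he | he
      · exact Or.inl (Or.inr (Or.inl he))
      · by_cases hea : e = a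
        · refine Or.inl (Or.inr (Or.inr ?_))
          rw [Finset.mem_coe, Finset.mem_sdiff]
          exact ⟨he, hea ▸ haA⟩
        · refine Or.inr (Or.inr (Or.inr ?_))
          rw [Finset.mem_coe, Finset.mem_erase]
          exact ⟨hea, he⟩)
    have e6 : rk M (insert b (R ∪ (↑(B \ insert a A) : Set (Fin k)))) ≤
        rk M (insert b (R ∪ (↑(B \ A) : Set (Fin k))) ∩
        insert b (R ∪ (↑(B.erase a) : Set (Fin k)))) := h1.1 _ _ (by
      intro e he
      rcases he with he | he | he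
      · exact ⟨Or.inl he, Or.inl he⟩
      · exact ⟨Or.inr (Or.inl he), Or.inr (Or.inl he)⟩
      · rw [Finset.mem_coe, Finset.mem_sdiff, Finset.mem_insert, not_or] at he
        refine ⟨Or.inr (Or.inr ?_), Or.inr (Or.inr ?_)⟩
        · rw [Finset.mem_coe, Finset.mem_sdiff]; exact ⟨he.1, he.2.2⟩
        · rw [Finset.mem_coe, Finset.mem_erase]; exact ⟨he.2.1, he.1⟩)
    have f1 := sub_indep h1 hB (Finset.sdiff_subset (s := B) (t := A))
    have f2 := sub_indep h1 hB (Finset.erase_subset a B)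
    have f3 := sub_indep h1 hB (Finset.sdiff_subset (s := B) (t := insert a A))
    rw [Finset.card_sdiff_of_subset hA] at f1
    rw [Finset.card_erase_of_mem ha] at f2
    rw [Finset.card_sdiff_of_subset hsub, Finset.card_insert_of_notMem haA] at f3
    have g1 := Finset.card_le_card hsub
    rw [Finset.card_insert_of_notMem haA] at g1
    omega

/-- a basis of `N` over `R` inside `D` -/
lemma exists_basis (D : Finset (Fin k)) {R N : Set (Fin k)} (hRN : R ⊆ N) (hNE : N ⊆ M.E)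
    (hup : ∀ Q', R ⊆ Q' → Q' ⊆ N → kap * rk M N ≤ kap * rk M Q' + cnt D (N \ Q')) :
    ∃ B : Finset (Fin k), (∀ a ∈ B, a ∈ D ∧ a ∈ N) ∧ rk M (R ∪ ↑B) = rk M R + B.card ∧
      rk M N ≤ rk M (R ∪ ↑B) := by
  obtain ⟨B, hB, hmax⟩ := Finset.exists_max_image
    ((D.filter (fun e => e ∈ N)).powerset.filter (fun B : Finset (Fin k) =>
      rk M (R ∪ ↑B) = rk M R + B.card)) Finset.card ⟨∅, by simp⟩
  rw [Finset.mem_filter, Finset.mem_powerset] at hB
  have hBN : ∀ a ∈ B, a ∈ D ∧ a ∈ N := fun a ha => Finset.mem_filter.1 (hB.1 ha)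
  have hRB : R ∪ (↑B : Set (Fin k)) ⊆ M.E := by
    intro e he
    rcases he with he | he
    · exact hNE (hRN he)
    · exact hNE (hBN e he).2
  refine ⟨B, hBN, hB.2, ?_⟩
  have hsp : ∀ d ∈ D, d ∈ N → d ∈ M.closure (R ∪ ↑B) := by
    intro d hd hdN
    by_contra hcl
    have hdB : d ∉ B := fun h => hcl (M.subset_closure _ hRB (Or.inr h))
    have e1 := h1.2.2.2.1 _ _ (hNE hdN) hcl
    have h3 : insert d (R ∪ (↑B : Set (Fin k))) = R ∪ ↑(insert d B) := by
      rw [Finset.coe_insert, Set.union_insert]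
    have := hmax (insert d B) (by
      rw [Finset.mem_filter, Finset.mem_powerset]
      refine ⟨?_, ?_⟩
      · intro e he
        rcases Finset.mem_insert.1 he with rfl | he
        · exact Finset.mem_filter.2 ⟨hd, hdN⟩
        · exact hB.1 he
      · rw [← h3, e1, hB.2, Finset.card_insert_of_notMem hdB]; ring)
    rw [Finset.card_insert_of_notMem hdB] at this
    omega
  have h2 := hup (M.closure (R ∪ ↑B) ∩ N)
    (fun e he => ⟨M.subset_closure _ hRB (Or.inl he), hRN he⟩) Set.inter_subset_right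
  have h3 : cnt D (N \ (M.closure (R ∪ ↑B) ∩ N)) = 0 := by
    unfold cnt
    rw [Finset.card_eq_zero, Finset.eq_empty_iff_forall_notMem]
    intro e he
    rw [mem_fl] at he
    exact he.2.2 ⟨hsp e he.1 he.2.1, he.2.1⟩
  have h4 : rk M (M.closure (R ∪ ↑B) ∩ N) ≤ rk M (R ∪ ↑B) := by
    rw [← h1.2.2.1 (R ∪ ↑B)]
    exact h1.1 _ _ Set.inter_subset_left
  rw [h3, add_zero] at h2
  have hk : 0 < kap := by unfold kap; positivity
  exact (Nat.le_of_mul_le_mul_left h2 hk).trans h4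

lemma peel_step (D : Finset (Fin k)) {P R N : Set (Fin k)} (hPR : P ⊆ R) (hRN : R ⊆ N)
    (hNE : N ⊆ M.E)
    (hup : ∀ Q', R ⊆ Q' → Q' ⊆ N → kap * rk M N ≤ kap * rk M Q' + cnt D (N \ Q'))
    (hdown : ∀ Q, P ⊆ Q → Q ⊆ M.E → Q ≠ P → cnt D (Q \ P) + kap * rk M P < kap * rk M Q)
    {B : Finset (Fin k)} (hBN : ∀ a ∈ B, a ∈ D ∧ a ∈ N)
    (hB : rk M (R ∪ ↑B) = rk M R + B.card) (hsp : rk M N ≤ rk M (R ∪ ↑B))
    {A : Finset (Fin k)} (hA : A ⊆ B) (hne : A.Nonempty) :
    ∃ a ∈ A, ∃ b, b ∈ D ∧ b ∈ N ∧ b ∉ M.closure (R ∪ ↑(B.erase a)) ∧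
      b ∉ M.closure (P ∪ ↑A) := by
  by_contra hcon
  push Not at hcon
  have hRBN : R ∪ (↑B : Set (Fin k)) ⊆ N := by
    intro e he
    rcases he with he | he
    · exact hRN he
    · exact (hBN e he).2
  have hNcl : N ⊆ M.closure (R ∪ ↑B) := h1.2.2.2.2.2.2.2.2 _ _ hRBN hNE hsp
  have hRBA : R ∪ (↑(B \ A) : Set (Fin k)) ⊆ M.E := by
    intro e he
    rcases he with he | he
    · exact hNE (hRN he)
    · exact hNE (hBN e (Finset.mem_sdiff.1 he).1).2
  have hPA : P ∪ (↑A : Set (Fin k)) ⊆ M.E := by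
    intro e he
    rcases he with he | he
    · exact hNE (hRN (hPR he))
    · exact hNE (hBN e (hA he)).2
  have h2 := hup (M.closure (R ∪ ↑(B \ A)) ∩ N)
    (fun e he => ⟨M.subset_closure _ hRBA (Or.inl he), hRN he⟩) Set.inter_subset_right
  have h3 : rk M (M.closure (R ∪ ↑(B \ A)) ∩ N) ≤ rk M (R ∪ ↑(B \ A)) := by
    rw [← h1.2.2.1 (R ∪ ↑(B \ A))]
    exact h1.1 _ _ Set.inter_subset_left
  have f1 := sub_indep h1 hB (Finset.sdiff_subset (s := B) (t := A))
  rw [Finset.card_sdiff_of_subset hA] at f1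
  have h4 : cnt D (N \ (M.closure (R ∪ ↑(B \ A)) ∩ N)) ≤ cnt D (M.closure (P ∪ ↑A) \ P) := by
    apply cnt_mono
    intro e heD he
    have hn : e ∉ M.closure (R ∪ ↑(B \ A)) := fun h => he.2 ⟨h, he.1⟩
    refine ⟨?_, fun h => hn (M.subset_closure _ hRBA (Or.inl (hPR h)))⟩
    by_contra hc
    apply hn
    apply inter_cl h1 hB (hNE he.1) (hNcl he.1) A hA
    intro a ha
    by_contra hc2
    exact hc (hcon a ha e heD he.1 hc2)
  obtain ⟨a, ha⟩ := hne
  have h5 := hdown (M.closure (P ∪ ↑A)) (fun e he => M.subset_closure _ hPA (Or.inl he))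
    (M.closure_subset_ground _) (by
      intro h
      have haP : a ∈ P := by rw [← h]; exact M.subset_closure _ hPA (Or.inr ha)
      have hRBa : R ∪ (↑(B.erase a) : Set (Fin k)) ⊆ M.E := by
        intro e he
        rcases he with he | he
        · exact hNE (hRN he)
        · exact hNE (hBN e (Finset.mem_of_mem_erase he)).2
      exact not_mem_cl_erase h1 hB (hA ha) (M.subset_closure _ hRBa (Or.inl (hPR haP))))
  rw [h1.2.2.1] at h5
  have h6 := h1.2.2.2.2.2.1 P A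
  have h7 : rk M (R ∪ ↑B) ≤ rk M N := h1.1 _ _ hRBN
  have g1 := Finset.card_le_card hA
  have k1 : kap * rk M (P ∪ ↑A) ≤ kap * (rk M P + A.card) := Nat.mul_le_mul_left _ h6
  have k2 : kap * (rk M (M.closure (R ∪ ↑(B \ A)) ∩ N) + A.card) ≤ kap * rk M N :=
    Nat.mul_le_mul_left _ (by omega)
  rw [mul_add] at k1 k2
  omega

lemma peel (D : Finset (Fin k)) {P R N : Set (Fin k)} (hPR : P ⊆ R) (hRN : R ⊆ N)
    (hNE : N ⊆ M.E)
    (hup : ∀ Q', R ⊆ Q' → Q' ⊆ N → kap * rk M N ≤ kap * rk M Q' + cnt D (N \ Q'))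
    (hdown : ∀ Q, P ⊆ Q → Q ⊆ M.E → Q ≠ P → cnt D (Q \ P) + kap * rk M P < kap * rk M Q)
    {B : Finset (Fin k)} (hBN : ∀ a ∈ B, a ∈ D ∧ a ∈ N)
    (hB : rk M (R ∪ ↑B) = rk M R + B.card) (hsp : rk M N ≤ rk M (R ∪ ↑B)) (n : ℕ) :
    ∀ A0 : Finset (Fin k), A0.card = n → A0 ⊆ B → ∃ β : Fin k → Fin k,
      (∀ a ∈ A0, β a ∈ D ∧ β a ∈ N ∧ β a ∉ M.closure (R ∪ ↑(B.erase a))) ∧
      ∀ A ⊆ A0, A.Nonempty → ∃ a ∈ A, β a ∉ M.closure (P ∪ ↑A) := by
  induction n with
  | zero =>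
    intro A0 h0 _
    rw [Finset.card_eq_zero] at h0
    subst h0
    refine ⟨id, by simp, ?_⟩
    intro A hA hne
    rw [Finset.subset_empty] at hA
    subst hA
    simp at hne
  | succ n ih =>
    intro A0 h0 hA0
    obtain ⟨a, ha, b, hb1, hb2, hb3, hb4⟩ := peel_step h1 D hPR hRN hNE hup hdown hBN hB hsp hA0
      (Finset.card_pos.1 (by omega))
    obtain ⟨β, hβ1, hβ2⟩ := ih (A0.erase a) (by rw [Finset.card_erase_of_mem ha]; omega)
      ((Finset.erase_subset _ _).trans hA0)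
    refine ⟨Function.update β a b, ?_, ?_⟩
    · intro a' ha'
      by_cases h : a' = a
      · subst h
        rw [Function.update_self]
        exact ⟨hb1, hb2, hb3⟩
      · rw [Function.update_of_ne h]
        exact hβ1 a' (Finset.mem_erase.2 ⟨h, ha'⟩)
    · intro A hA hne
      by_cases h : a ∈ A
      · refine ⟨a, h, ?_⟩
        rw [Function.update_self]
        intro hc
        exact hb4 (M.closure_subset_closure
          (Set.union_subset_union_right _ (Finset.coe_subset.2 hA)) hc)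
      · obtain ⟨a', ha', h'⟩ := hβ2 A (fun e he => Finset.mem_erase.2
          ⟨fun h2 => h (h2 ▸ he), hA he⟩) hne
        refine ⟨a', ha', ?_⟩
        have hne' : a' ≠ a := by
          rintro rfl
          exact h ha'
        rw [Function.update_of_ne hne']
        exact h'

lemma up_y {R N : Set (Fin k)} (hNE : N ⊆ M.E) {B : Finset (Fin k)} (hBN : ∀ a ∈ B, a ∈ N)
    (hB : rk M (R ∪ ↑B) = rk M R + B.card) (hsp : rk M N ≤ rk M (R ∪ ↑B))
    {β : Fin k → Fin k} (hβ : ∀ a ∈ B, β a ∈ N ∧ β a ∉ M.closure (R ∪ ↑(B.erase a)))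
    (Q' : Set (Fin k)) (hRQ : R ⊆ Q') :
    (k + 1) * rk M N ≤ (k + 1) * rk M Q' + yw (fun i => k * bI B i + mI B β i) (N \ Q') := by
  rw [yw_code]
  unfold cnt
  obtain ⟨Z, hZ⟩ : ∃ Z, Z = fl B (N \ Q') := ⟨_, rfl⟩
  rw [← hZ]
  have hZm : ∀ e, e ∈ Z ↔ e ∈ B ∧ e ∉ Q' := fun e => by
    rw [hZ, mem_fl]
    exact ⟨fun h => ⟨h.1, h.2.2⟩, fun h => ⟨h.1, hBN e h.1, h.2⟩⟩
  have a1 : rk M (R ∪ ↑B) ≤ rk M (Q' ∪ ↑Z) := h1.1 _ _ (by
    intro e he
    by_cases hq : e ∈ Q'
    · exact Or.inl hq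
    · rcases he with he | he
      · exact Or.inl (hRQ he)
      · exact Or.inr ((hZm e).2 ⟨he, hq⟩))
  have a2 := h1.2.2.2.2.2.1 Q' Z
  have a3 : Z.card ≤ k := by simpa using Finset.card_le_univ Z
  by_cases hc : rk M N + 1 ≤ rk M Q' + Z.card
  · nlinarith
  · have a4 : Z.card ≤ (fl B (β ⁻¹' (N \ Q'))).card := by
      apply Finset.card_le_card
      intro a ha
      have ha' := (hZm a).1 ha
      rw [mem_fl]
      refine ⟨ha'.1, (hβ a ha'.1).1, fun hq => ?_⟩
      have e1 := h1.2.2.2.1 _ _ (hNE (hβ a ha'.1).1) (hβ a ha'.1).2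
      have f2 := sub_indep h1 hB (Finset.erase_subset a B)
      rw [Finset.card_erase_of_mem ha'.1] at f2
      have e2 : rk M (insert (β a) (R ∪ (↑(B.erase a) : Set (Fin k)))) ≤
          rk M (Q' ∪ ↑(Z.erase a)) := h1.1 _ _ (by
        intro e he
        by_cases hq' : e ∈ Q'
        · exact Or.inl hq'
        · rcases he with he | he | he
          · exact Or.inl (he ▸ hq)
          · exact Or.inl (hRQ he)
          · rw [Finset.mem_coe, Finset.mem_erase] at he
            refine Or.inr ?_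
            rw [Finset.mem_coe, Finset.mem_erase]
            exact ⟨he.1, (hZm e).2 ⟨he.2, hq'⟩⟩)
      have e3 := h1.2.2.2.2.2.1 Q' (Z.erase a)
      rw [Finset.card_erase_of_mem ha] at e3
      have p1 := Finset.card_pos.2 ⟨a, ha⟩
      have p2 := Finset.card_pos.2 ⟨a, ha'.1⟩
      omega
    nlinarith

lemma down_y {P R N : Set (Fin k)} (hPR : P ⊆ R) (hNE : N ⊆ M.E) (hP : M.closure P = P)
    {B : Finset (Fin k)} (hB : rk M (R ∪ ↑B) = rk M R + B.card)
    {β : Fin k → Fin k} (hβ : ∀ a ∈ B, β a ∉ M.closure (R ∪ ↑(B.erase a)))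
    (hβ2 : ∀ A ⊆ B, A.Nonempty → ∃ a ∈ A, β a ∉ M.closure (P ∪ ↑A))
    (Q : Set (Fin k)) (hPQ : P ⊆ Q) (hQN : Q ⊆ N) (hne : ¬ Q ⊆ P) :
    yw (fun i => k * bI B i + mI B β i) Q + (k + 1) * rk M P < (k + 1) * rk M Q := by
  rw [yw_code]
  unfold cnt
  obtain ⟨A, hA⟩ : ∃ A, A = fl B Q := ⟨_, rfl⟩
  rw [← hA]
  have hAm : ∀ e, e ∈ A ↔ e ∈ B ∧ e ∈ Q := fun e => by rw [hA, mem_fl]
  have hAB : A ⊆ B := fun e he => ((hAm e).1 he).1
  have hPAQ : P ∪ (↑A : Set (Fin k)) ⊆ Q := by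
    intro e he
    rcases he with he | he
    · exact hPQ he
    · exact ((hAm e).1 he).2
  have a1 := sub_indep' h1 hPR (sub_indep h1 hB hAB)
  have a2 : rk M (P ∪ ↑A) ≤ rk M Q := h1.1 _ _ hPAQ
  by_cases hc : rk M P + A.card + 1 ≤ rk M Q
  · have a3 : (fl B (β ⁻¹' Q)).card ≤ k := by
      simpa using Finset.card_le_univ (fl B (β ⁻¹' Q))
    nlinarith
  · have hQ : Q ⊆ M.closure (P ∪ ↑A) := h1.2.2.2.2.2.2.2.2 _ _ hPAQ (hQN.trans hNE) (by omega)
    have hAne : A.Nonempty := by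
      rw [Finset.nonempty_iff_ne_empty]
      intro h
      apply hne
      rw [h] at hQ
      simpa [hP] using hQ
    obtain ⟨a0, ha0, h0⟩ := hβ2 A hAB hAne
    have a4 : (fl B (β ⁻¹' Q)).card ≤ (A.erase a0).card := by
      apply Finset.card_le_card
      intro a ha
      rw [mem_fl, Set.mem_preimage] at ha
      rw [Finset.mem_erase]
      refine ⟨fun h => h0 (hQ (h ▸ ha.2)), ?_⟩
      by_contra haA
      apply hβ a ha.1
      refine M.closure_subset_closure ?_ (hQ ha.2)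
      intro e he
      rcases he with he | he
      · exact Or.inl (hPR he)
      · refine Or.inr ?_
        rw [Finset.mem_coe, Finset.mem_erase]
        exact ⟨fun h => haA (h ▸ he), hAB he⟩
    rw [Finset.card_erase_of_mem ha0] at a4
    have p1 := Finset.card_pos.2 ⟨a0, ha0⟩
    have a5 : (fl B (β ⁻¹' Q)).card + 1 ≤ A.card := by omega
    have a6 : rk M P + A.card ≤ rk M Q := by omega
    nlinarith

/-- the layer certificate -/
lemma layer (D : Finset (Fin k)) {P R N : Set (Fin k)} (hPR : P ⊆ R) (hRN : R ⊆ N)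
    (hNE : N ⊆ M.E)
    (hup : ∀ Q', R ⊆ Q' → Q' ⊆ N → kap * rk M N ≤ kap * rk M Q' + cnt D (N \ Q'))
    (flag : Prop) (hP : flag → M.closure P = P)
    (hdown : flag → ∀ Q, P ⊆ Q → Q ⊆ M.E → Q ≠ P →
      cnt D (Q \ P) + kap * rk M P < kap * rk M Q) :
    ∃ b m : Fin k → ℕ, (∀ i, b i ≠ 0 → i ∈ D ∧ i ∈ N ∧ i ∉ P) ∧
      (∀ i, m i ≠ 0 → i ∈ D ∧ i ∈ N ∧ i ∉ P) ∧
      kap * ∑ i, b i ≤ cnt D (N \ P) ∧ ∑ i, m i = ∑ i, b i ∧
      (∀ Q', R ⊆ Q' →
        (k + 1) * rk M N ≤ (k + 1) * rk M Q' + yw (fun i => k * b i + m i) (N \ Q')) ∧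
      (flag → ∀ Q, P ⊆ Q → Q ⊆ N → ¬ Q ⊆ P →
        yw (fun i => k * b i + m i) Q + (k + 1) * rk M P < (k + 1) * rk M Q) := by
  obtain ⟨B, hBN, hB, hsp⟩ := exists_basis h1 D hRN hNE hup
  have hE : ∀ a, R ∪ (↑(B.erase a) : Set (Fin k)) ⊆ M.E := by
    intro a e he
    rcases he with he | he
    · exact hNE (hRN he)
    · exact hNE (hBN e (Finset.mem_of_mem_erase he)).2
  obtain ⟨β, hβ1, hβ2⟩ : ∃ β : Fin k → Fin k,
      (∀ a ∈ B, β a ∈ D ∧ β a ∈ N ∧ β a ∉ M.closure (R ∪ ↑(B.erase a))) ∧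
      (flag → ∀ A ⊆ B, A.Nonempty → ∃ a ∈ A, β a ∉ M.closure (P ∪ ↑A)) := by
    by_cases hf : flag
    · obtain ⟨β, h2, h3⟩ := peel h1 D hPR hRN hNE hup (hdown hf) hBN hB hsp B.card B rfl
        (Finset.Subset.refl _)
      exact ⟨β, h2, fun _ => h3⟩
    · exact ⟨id, fun a ha => ⟨(hBN a ha).1, (hBN a ha).2, not_mem_cl_erase h1 hB ha⟩,
        fun h => absurd h hf⟩
  refine ⟨bI B, mI B β, ?_, ?_, ?_, ?_, ?_, ?_⟩
  · intro i hi
    have hiB : i ∈ B := by
      by_contra h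
      exact hi (by simp [bI, h])
    exact ⟨(hBN i hiB).1, (hBN i hiB).2, fun h => not_mem_cl_erase h1 hB hiB
      (M.subset_closure _ (hE i) (Or.inl (hPR h)))⟩
  · intro i hi
    obtain ⟨a, ha⟩ := Finset.card_pos.1 (Nat.pos_of_ne_zero hi)
    rw [Finset.mem_filter] at ha
    obtain ⟨ha, rfl⟩ := ha
    exact ⟨(hβ1 a ha).1, (hβ1 a ha).2.1, fun h => (hβ1 a ha).2.2
      (M.subset_closure _ (hE a) (Or.inl (hPR h)))⟩
  · rw [sum_bI]
    have h2 := hup R (le_refl R) hRN
    have h3 : cnt D (N \ R) ≤ cnt D (N \ P) := cnt_mono D (fun e _ he => ⟨he.1, fun h => he.2 (hPR h)⟩)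
    have h4 : rk M (R ∪ ↑B) ≤ rk M N := h1.1 _ _ (by
      intro e he
      rcases he with he | he
      · exact hRN he
      · exact (hBN e he).2)
    have k2 : kap * (rk M R + B.card) ≤ kap * rk M N := Nat.mul_le_mul_left _ (by omega)
    rw [mul_add] at k2
    omega
  · rw [sum_bI, sum_mI]
  · intro Q' hQ'
    exact up_y h1 hNE (fun a ha => (hBN a ha).2) hB hsp
      (fun a ha => ⟨(hβ1 a ha).2.1, (hβ1 a ha).2.2⟩) Q' hQ'
  · intro hf Q hPQ hQN hne
    exact down_y h1 hPR hNE (hP hf) hB (fun a ha => (hβ1 a ha).2.2) (hβ2 hf) Q hPQ hQN hne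

/-- certificate for a whole chain -/
lemma chain_cert (h2 : EXPF M) (D : Finset (Fin k)) (S : ℕ → Set (Fin k)) (n : ℕ)
    (hSE : ∀ t, S t ⊆ M.E) (hS : ∀ t t', t ≤ t' → S t ⊆ S t') :
    ∃ b m : Fin k → ℕ, (∀ i, i ∉ D → b i = 0) ∧ (∀ i, i ∉ D → m i = 0) ∧
      kap * ∑ i, b i ≤ D.card ∧ kap * ∑ i, m i ≤ D.card ∧
      (∀ t, t ≤ n → ∀ Q', S t ⊆ Q' → (k + 1) * rk M (Exp M D (S t)) ≤ (k + 1) * rk M Q' +
        yw (fun i => k * b i + m i) (Exp M D (S t) \ Q')) ∧
      (∀ t, t ≤ n → ∀ Q, Exp M D (S t) ⊆ Q → Q ⊆ M.E → ¬ Q ⊆ Exp M D (S t) →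
        yw (fun i => k * b i + m i) (Q \ Exp M D (S t)) + (k + 1) * rk M (Exp M D (S t)) <
          (k + 1) * rk M Q) := by
  obtain ⟨N, hN⟩ : ∃ N : ℕ → Set (Fin k), N = fun t => Exp M D (S t) := ⟨_, rfl⟩
  have hNt : ∀ t, Exp M D (S t) = N t := fun t => by rw [hN]
  simp only [hNt]
  have hmax : ∀ t, IsMax M D (S t) (N t) := fun t => hNt t ▸ (h2 D (S t) (hSE t)).1
  have hcl : ∀ t, M.closure (N t) = N t := fun t => hNt t ▸ (h2 D (S t) (hSE t)).2.1
  have hmono : ∀ t t', t ≤ t' → N t ⊆ N t' := fun t t' h => by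
    rw [← hNt, ← hNt]
    exact (h2 D (S t) (hSE t)).2.2.2.1 _ (hS t t' h) (hSE t')
  have hstr : ∀ t Q, N t ⊆ Q → Q ⊆ M.E → Q ≠ N t → fval M D Q < fval M D (N t) := fun t =>
    hNt t ▸ (h2 D (S t) (hSE t)).2.2.2.2
  have hfv : ∀ Q, fval M D Q = (cnt D Q : ℤ) - (kap : ℤ) * (rk M Q : ℤ) := fun Q => rfl
  let P : ℕ → Set (Fin k) := fun l => Nat.casesOn l ∅ N
  have hP0 : P 0 = ∅ := rfl
  have hPs : ∀ l, P (l + 1) = N l := fun l => rfl
  have hPN : ∀ l, P l ⊆ N l := by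
    intro l
    cases l with
    | zero => exact Set.empty_subset _
    | succ l => exact hmono l (l + 1) (Nat.le_succ l)
  have hlay := fun l => layer h1 D (P := P l) (R := P l ∪ S l) (N := N l) Set.subset_union_left
    (Set.union_subset (hPN l) (hmax l).1) (hmax l).2.1 (by
      intro Q' hQ1 hQ2
      have a1 := (hmax l).2.2 Q' (Set.subset_union_right.trans hQ1) (hQ2.trans (hmax l).2.1)
      rw [hfv, hfv, cnt_split D hQ2] at a1
      push_cast at a1
      zify
      linarith) (l ≠ 0) (by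
      intro hl
      cases l with
      | zero => exact absurd rfl hl
      | succ l => exact hcl l) (by
      intro hl Q hQ1 hQ2 hQ3
      cases l with
      | zero => exact absurd rfl hl
      | succ l =>
        rw [hPs] at hQ1 hQ3 ⊢
        have a1 := hstr l Q hQ1 hQ2 hQ3
        rw [hfv, hfv, cnt_split D hQ1] at a1
        push_cast at a1
        zify
        linarith)
  choose b m hb hm hc hs hup hdown using hlay
  obtain ⟨y, hy⟩ : ∃ y : ℕ → Fin k → ℕ, y = fun l i => k * b l i + m l i := ⟨_, rfl⟩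
  have hyl : ∀ l, (fun i => k * b l i + m l i) = y l := fun l => by rw [hy]
  simp only [hyl] at hup hdown
  have hys : ∀ l i, y l i ≠ 0 → i ∈ N l ∧ i ∉ P l := by
    intro l i hi
    by_cases h0 : b l i = 0
    · refine (hm l i fun h => hi ?_).2
      rw [hy]
      simp [h0, h]
    · exact (hb l i h0).2
  have hcount : ∀ r, ∑ l ∈ Finset.range (r + 1), cnt D (N l \ P l) ≤ cnt D (N r) := by
    intro r
    induction r with
    | zero => simp [hP0]
    | succ r ih =>
      rw [Finset.sum_range_succ, hPs, cnt_split D (hmono r (r + 1) (Nat.le_succ r))]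
      omega
  have hbsum : kap * ∑ i, ∑ l ∈ Finset.range (n + 1), b l i ≤ D.card := by
    rw [Finset.sum_comm, Finset.mul_sum]
    refine (Finset.sum_le_sum fun l _ => hc l).trans ((hcount n).trans ?_)
    exact Finset.card_le_card (fun e he => (mem_fl.1 he).1)
  have hyy : (fun i => k * ∑ l ∈ Finset.range (n + 1), b l i + ∑ l ∈ Finset.range (n + 1), m l i) =
      fun i => ∑ l ∈ Finset.range (n + 1), y l i := by
    funext i
    rw [hy, Finset.mul_sum, Finset.sum_add_distrib]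
  refine ⟨fun i => ∑ l ∈ Finset.range (n + 1), b l i, fun i => ∑ l ∈ Finset.range (n + 1), m l i,
    ?_, ?_, hbsum, ?_, ?_, ?_⟩
  · intro i hi
    refine Finset.sum_eq_zero fun l _ => ?_
    by_contra h
    exact hi (hb l i h).1
  · intro i hi
    refine Finset.sum_eq_zero fun l _ => ?_
    by_contra h
    exact hi (hm l i h).1
  · rw [Finset.sum_comm] at hbsum ⊢
    simp only [hs]
    exact hbsum
  · intro t ht Q' hQ'
    rw [hyy, yw_sum]
    have key : ∀ l, l ≤ t → (k + 1) * rk M (Q' ∪ N l) ≤ (k + 1) * rk M Q' +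
        ∑ l' ∈ Finset.range (l + 1), yw (y l') (N t \ Q') := by
      have step : ∀ l, l ≤ t → (k + 1) * rk M (Q' ∪ N l) ≤ (k + 1) * rk M (Q' ∪ P l) +
          yw (y l) (N t \ Q') := by
        intro l hl
        have a1 := hup l ((Q' ∪ P l) ∩ N l) (by
          intro e he
          rcases he with he | he
          · exact ⟨Or.inr he, hPN l he⟩
          · exact ⟨Or.inl (hQ' (hS l t hl he)), (hmax l).1 he⟩)
        have a2 : yw (y l) (N l \ ((Q' ∪ P l) ∩ N l)) ≤ yw (y l) (N t \ Q') :=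
          yw_mono _ (fun e _ he => ⟨hmono l t hl he.1, fun h => he.2 ⟨Or.inl h, he.1⟩⟩)
        have a3 := h1.2.1 (Q' ∪ P l) (N l)
        have a4 : rk M (Q' ∪ N l) ≤ rk M (Q' ∪ P l ∪ N l) := h1.1 _ _ (by
          intro e he
          rcases he with he | he
          · exact Or.inl (Or.inl he)
          · exact Or.inr he)
        have a5 : (k + 1) * (rk M (Q' ∪ N l) + rk M ((Q' ∪ P l) ∩ N l)) ≤
            (k + 1) * (rk M (Q' ∪ P l) + rk M (N l)) := Nat.mul_le_mul_left _ (by omega)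
        rw [mul_add, mul_add] at a5
        omega
      intro l
      induction l with
      | zero =>
        intro hl
        have := step 0 hl
        rw [hP0, Set.union_empty] at this
        simpa using this
      | succ l ih =>
        intro hl
        have a1 := step (l + 1) hl
        have a2 := ih (by omega)
        rw [hPs] at a1
        rw [Finset.sum_range_succ]
        omega
    have a1 := key t le_rfl
    have a2 : (k + 1) * rk M (N t) ≤ (k + 1) * rk M (Q' ∪ N t) :=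
      Nat.mul_le_mul_left _ (h1.1 _ _ Set.subset_union_right)
    have a3 : ∑ l' ∈ Finset.range (t + 1), yw (y l') (N t \ Q') ≤
        ∑ l' ∈ Finset.range (n + 1), yw (y l') (N t \ Q') :=
      Finset.sum_le_sum_of_subset (Finset.range_mono (by omega))
    omega
  · intro t ht Q hQ1 hQ2 hQ3
    rw [hyy, yw_sum]
    have key : ∀ l, t ≤ l →
        (Q ∩ N l ⊆ N t ∧ ∑ l' ∈ Finset.range (l + 1), yw (y l') (Q \ N t) = 0) ∨
        (∑ l' ∈ Finset.range (l + 1), yw (y l') (Q \ N t) + (k + 1) * rk M (N t) <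
          (k + 1) * rk M (Q ∩ N l)) := by
      intro l hl
      induction l, hl using Nat.le_induction with
      | base =>
        refine Or.inl ⟨Set.inter_subset_right, Finset.sum_eq_zero fun l' hl' => ?_⟩
        refine yw_zero _ fun e he h => h.2 (hmono l' t ?_ (hys l' e he).1)
        have := Finset.mem_range.1 hl'
        omega
      | succ l hl ih =>
        rw [Finset.sum_range_succ]
        by_cases hsub : N l ∪ (Q ∩ N (l + 1)) ⊆ N l
        · have e1 : Q ∩ N (l + 1) = Q ∩ N l := by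
            ext e
            exact ⟨fun h => ⟨h.1, hsub (Or.inr h)⟩,
              fun h => ⟨h.1, hmono l (l + 1) (Nat.le_succ l) h.2⟩⟩
          have e2 : yw (y (l + 1)) (Q \ N t) = 0 := yw_zero _ fun e he h =>
            (hys (l + 1) e he).2 (hsub (Or.inr ⟨h.1, (hys (l + 1) e he).1⟩))
          rw [e1, e2, add_zero]
          exact ih
        · right
          have a1 := hdown (l + 1) (Nat.succ_ne_zero l) (N l ∪ (Q ∩ N (l + 1)))
            Set.subset_union_left
            (Set.union_subset (hmono l (l + 1) (Nat.le_succ l)) Set.inter_subset_right) hsub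
          rw [hPs] at a1
          have a2 : yw (y (l + 1)) (Q \ N t) ≤ yw (y (l + 1)) (N l ∪ (Q ∩ N (l + 1))) :=
            yw_mono _ (fun e he h => Or.inr ⟨h.1, (hys (l + 1) e he).1⟩)
          have a3 := h1.2.1 (N l) (Q ∩ N (l + 1))
          have a4 : rk M (Q ∩ N l) ≤ rk M (N l ∩ (Q ∩ N (l + 1))) := h1.1 _ _
            (fun e he => ⟨he.2, he.1, hmono l (l + 1) (Nat.le_succ l) he.2⟩)
          have a5 : (k + 1) * (rk M (N l ∪ (Q ∩ N (l + 1))) + rk M (Q ∩ N l)) ≤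
              (k + 1) * (rk M (N l) + rk M (Q ∩ N (l + 1))) := Nat.mul_le_mul_left _ (by omega)
          rw [mul_add, mul_add] at a5
          rcases ih with ih | ih
          · have a6 : (k + 1) * rk M (N t) ≤ (k + 1) * rk M (Q ∩ N l) :=
              Nat.mul_le_mul_left _ (h1.1 _ _ (fun e he => ⟨hQ1 he, hmono t l hl he⟩))
            omega
          · omega
    rcases key n ht with h | h
    · obtain ⟨e, he1, he2⟩ := Set.not_subset.1 hQ3
      have a1 := h1.2.2.2.1 (N t) e (hQ2 he1) (by rw [hcl]; exact he2)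
      have a2 : rk M (insert e (N t)) ≤ rk M Q := h1.1 _ _ (Set.insert_subset he1 hQ1)
      have a3 : (k + 1) * (rk M (N t) + 1) ≤ (k + 1) * rk M Q := Nat.mul_le_mul_left _ (by omega)
      rw [mul_add] at a3
      omega
    · have a2 : (k + 1) * rk M (Q ∩ N n) ≤ (k + 1) * rk M Q :=
        Nat.mul_le_mul_left _ (h1.1 _ _ Set.inter_subset_left)
      omega

lemma sub_of_cert {y : Fin k → ℕ} {S N N' : Set (Fin k)} (hN : S ⊆ N) (hN' : S ⊆ N')
    (hE : N ⊆ M.E) (hE' : N' ⊆ M.E)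
    (hup : ∀ Q', S ⊆ Q' → (k + 1) * rk M N' ≤ (k + 1) * rk M Q' + yw y (N' \ Q'))
    (hdown : ∀ Q, N ⊆ Q → Q ⊆ M.E → ¬ Q ⊆ N →
      yw y (Q \ N) + (k + 1) * rk M N < (k + 1) * rk M Q) : N' ⊆ N := by
  by_contra h
  have a1 := hup (N ∩ N') (Set.subset_inter hN hN')
  have a2 := hdown (N ∪ N') Set.subset_union_left (Set.union_subset hE hE')
    (fun h2 => h (Set.subset_union_right.trans h2))
  have a3 : yw y (N' \ (N ∩ N')) ≤ yw y ((N ∪ N') \ N) :=
    yw_mono _ (fun e _ he => ⟨Or.inr he.1, fun h2 => he.2 ⟨h2, he.1⟩⟩)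
  have a4 : (k + 1) * (rk M (N ∪ N') + rk M (N ∩ N')) ≤ (k + 1) * (rk M N + rk M N') :=
    Nat.mul_le_mul_left _ (h1.2.1 N N')
  rw [mul_add, mul_add] at a4
  omega

end layer

end Crest.Agent.R305.C71

namespace Crest.Agent.R305

theorem compress71 {k : ℕ} (M : Matroid (Fin k)) (h1 : RANK M) (h2 : EXPF M) : COMPRESS73 M := by
  intro U S n _ hSE hS
  choose b m hb hm hbs hms hup hdown using fun D : Finset (Fin k) =>
    C71.chain_cert h1 h2 (D ∩ U) S n hSE hS
  have hc : ∀ D : Finset (Fin k), (D ∩ U).card ≤ U.card := fun D =>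
    Finset.card_le_card Finset.inter_subset_right
  refine ⟨b, m, fun D i hi => hb D i fun h => hi (Finset.mem_inter.1 h).2,
    fun D i hi => hm D i fun h => hi (Finset.mem_inter.1 h).2,
    fun D => (hbs D).trans (hc D), fun D => (hms D).trans (hc D), ?_⟩
  intro D D' e1 e2 t ht
  have m1 := (h2 (D ∩ U) (S t) (hSE t)).1
  have m2 := (h2 (D' ∩ U) (S t) (hSE t)).1
  have u1 := hup D t ht
  have u2 := hup D' t ht
  have d1 := hdown D t ht
  have d2 := hdown D' t ht
  rw [← e1, ← e2] at u2 d2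
  exact Set.Subset.antisymm (C71.sub_of_cert h1 m2.1 m1.1 m2.2.1 m1.2.1 u1 d2)
    (C71.sub_of_cert h1 m1.1 m2.1 m1.2.1 m2.2.1 u2 d1)

end Crest.Agent.R305
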