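import Crest.Agent.R305.Comp73

set_option autoImplicit false

open Classical

namespace Crest.Agent.R305.C81

variable {k : ℕ} {M : Matroid (Fin k)}

/-- `Z` independent over `R` -/
def IO (M : Matroid (Fin k)) (R : Set (Fin k)) (Z : Finset (Fin k)) : Prop :=
  rk M (R ∪ ↑Z) = rk M R + Z.card

theorem IO.anti (h1 : RANK M) {R X : Set (Fin k)} {Z : Finset (Fin k)} (h : IO M R Z)
    (hX : X ⊆ R) : IO M X Z := by
  obtain ⟨hm, hs, -, -, -, hu, -, -, -⟩ := h1
  have a1 := hs (X ∪ ↑Z) R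
  have e1 : X ∪ ↑Z ∪ R = R ∪ ↑Z := by
    ext x; simp only [Set.mem_union]; constructor
    · rintro ((h | h) | h)
      · exact Or.inl (hX h)
      · exact Or.inr h
      · exact Or.inl h
    · rintro (h | h)
      · exact Or.inr h
      · exact Or.inl (Or.inr h)
  rw [e1] at a1
  have a2 : rk M X ≤ rk M ((X ∪ ↑Z) ∩ R) :=
    hm _ _ (fun x hx => ⟨Or.inl hx, hX hx⟩)
  have a3 := hu X Z
  unfold IO at h ⊢
  omega

theorem IO.notMem (h1 : RANK M) {R : Set (Fin k)} {Z : Finset (Fin k)} (h : IO M R Z)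
    {z : Fin k} (hz : z ∈ Z) : z ∉ M.closure (R ∪ ↑(Z.erase z)) := by
  intro hc
  obtain ⟨hm, hs, -, -, hin, hu, -, -, -⟩ := h1
  have a1 := hin _ _ hc
  have e1 : insert z (R ∪ ↑(Z.erase z)) = R ∪ ↑Z := by
    ext x; simp only [Set.mem_insert_iff, Set.mem_union, Finset.coe_erase, Set.mem_sdiff,
      Finset.mem_coe, Set.mem_singleton_iff]
    constructor
    · rintro (h | h | h)
      · exact Or.inr (h ▸ hz)
      · exact Or.inl h
      · exact Or.inr h.1
    · rintro (h | h)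
      · exact Or.inr (Or.inl h)
      · by_cases hx : x = z
        · exact Or.inl hx
        · exact Or.inr (Or.inr ⟨h, hx⟩)
  rw [e1] at a1
  have a2 := hu R (Z.erase z)
  have a3 := Finset.card_erase_add_one hz
  unfold IO at h
  omega

theorem IO.back (h1 : RANK M) {R X : Set (Fin k)} {Z : Finset (Fin k)} (h : IO M R Z)
    (hX : X ⊆ R) {y : Fin k} (hy : y ∈ R) (hc : y ∈ M.closure (X ∪ ↑Z)) : y ∈ M.closure X := by
  by_contra hn
  have hyE : y ∈ M.E := M.closure_subset_ground _ hc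
  have b1 := h.anti h1 hX
  have b2 := h.anti h1 (X := insert y X) (Set.insert_subset hy hX)
  obtain ⟨hm, hs, -, hout, hin, hu, -, -, -⟩ := h1
  have a1 := hin _ _ hc
  have a2 := hout X y hyE hn
  rw [← Set.insert_union] at a1
  unfold IO at b1 b2
  omega

theorem ex_a (h1 : RANK M) {R : Set (Fin k)} {Z : Finset (Fin k)} (h : IO M R Z) {b : Fin k}
    (hb : b ∈ M.closure (R ∪ ↑Z)) (A : Finset (Fin k)) (hA : A ⊆ Z)
    (hall : ∀ a ∈ A, b ∈ M.closure (R ∪ ↑(Z.erase a))) : b ∈ M.closure (R ∪ ↑(Z \ A)) := by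
  induction A using Finset.induction_on with
  | empty => simpa using hb
  | insert a A ha ih =>
    have haZ : a ∈ Z := hA (Finset.mem_insert_self _ _)
    have ih' := ih (fun x hx => hA (Finset.mem_insert_of_mem hx))
      (fun x hx => hall x (Finset.mem_insert_of_mem hx))
    by_contra hn
    have e1 : R ∪ ↑(Z \ A) = insert a (R ∪ ↑(Z \ insert a A)) := by
      ext x
      simp only [Set.mem_insert_iff, Set.mem_union, Finset.coe_sdiff, Set.mem_sdiff,
        Finset.mem_coe, Finset.coe_insert]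
      constructor
      · rintro (h | h)
        · exact Or.inr (Or.inl h)
        · by_cases hx : x = a
          · exact Or.inl hx
          · exact Or.inr (Or.inr ⟨h.1, fun h' => h'.elim hx h.2⟩)
      · rintro (h | h | h)
        · exact Or.inr ⟨h ▸ haZ, h ▸ ha⟩
        · exact Or.inl h
        · exact Or.inr ⟨h.1, fun h' => h.2 (Or.inr h')⟩
    rw [e1] at ih'
    have hx := (M.closure_exchange ⟨ih', hn⟩).1
    have hba := hall a (Finset.mem_insert_self _ _)
    refine h.notMem h1 haZ ?_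
    have hsub : insert b (R ∪ ↑(Z \ insert a A)) ⊆ M.closure (R ∪ ↑(Z.erase a)) ∪
        (R ∪ ↑(Z.erase a)) := by
      rintro x (hx | hx | hx)
      · exact Or.inl (hx ▸ hba)
      · exact Or.inr (Or.inl hx)
      · refine Or.inr (Or.inr ?_)
        simp only [Finset.coe_sdiff, Set.mem_sdiff, Finset.mem_coe, Finset.mem_insert,
          not_or] at hx
        simp only [Finset.coe_erase, Set.mem_sdiff, Finset.mem_coe, Set.mem_singleton_iff]
        exact ⟨hx.1, hx.2.1⟩
    have := M.closure_subset_closure hsub hx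
    rwa [Matroid.closure_union_closure_left_eq, Set.union_self] at this

noncomputable def cD (D : Finset (Fin k)) (Q : Set (Fin k)) : ℕ := (D.filter (fun e => e ∈ Q)).card

theorem cD_mono (D : Finset (Fin k)) {Q Q' : Set (Fin k)} (h : Q ⊆ Q') : cD D Q ≤ cD D Q' :=
  Finset.card_le_card (fun x hx => by
    simp only [Finset.mem_filter] at hx ⊢; exact ⟨hx.1, h hx.2⟩)

theorem fval_eq (D : Finset (Fin k)) (Q : Set (Fin k)) :
    fval M D Q = (cD D Q : ℤ) - (kap : ℤ) * (rk M Q : ℤ) := rfl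

theorem exists_basis (h1 : RANK M) (D : Finset (Fin k)) {R N : Set (Fin k)} (hRN : R ⊆ N)
    (hN : M.closure N = N)
    (hup : ∀ Q, R ⊆ Q → Q ⊆ M.E → fval M D Q ≤ fval M D N) :
    ∃ Z : Finset (Fin k), Z ⊆ D ∧ (Z : Set (Fin k)) ⊆ N ∧ IO M R Z ∧ N ⊆ M.closure (R ∪ ↑Z) ∧
      rk M N = rk M R + Z.card ∧ kap * Z.card + cD D R ≤ cD D N := by
  have hNE : N ⊆ M.E := hN ▸ M.closure_subset_ground N
  have hRE : R ⊆ M.E := hRN.trans hNE
  obtain ⟨Z, hZ, hmax⟩ := Finset.exists_max_image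
    ((D.filter (fun e => e ∈ N)).powerset.filter (fun Z => IO M R Z)) Finset.card
    ⟨∅, Finset.mem_filter.2 ⟨Finset.empty_mem_powerset _, by simp [IO]⟩⟩
  simp only [Finset.mem_filter, Finset.mem_powerset] at hZ hmax
  obtain ⟨hZs, hZi⟩ := hZ
  have hZD : Z ⊆ D := fun x hx => (Finset.mem_filter.1 (hZs hx)).1
  have hZN : (Z : Set (Fin k)) ⊆ N := fun x hx => (Finset.mem_filter.1 (hZs hx)).2
  obtain ⟨hm, hs, hcl, hout, hin, hu, -, -, hlast⟩ := id h1
  have hspan : ∀ e ∈ D, e ∈ N → e ∈ M.closure (R ∪ ↑Z) := by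
    intro e heD heN
    by_contra hn
    have heZ : e ∉ Z := fun h => hn (M.subset_closure _ (Set.union_subset hRE (hZN.trans hNE))
      (Or.inr h))
    have a1 := hout _ e (hNE heN) hn
    have hio : IO M R (insert e Z) := by
      unfold IO at hZi ⊢
      rw [Finset.coe_insert, Set.union_insert, a1, Finset.card_insert_of_notMem heZ]
      omega
    have := hmax (insert e Z) ⟨Finset.insert_subset (Finset.mem_filter.2 ⟨heD, heN⟩) hZs, hio⟩
    rw [Finset.card_insert_of_notMem heZ] at this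
    omega
  have hQN : M.closure (R ∪ ↑Z) ⊆ N := by
    rw [← hN]; exact M.closure_subset_closure (Set.union_subset hRN hZN)
  have hRQ : R ⊆ M.closure (R ∪ ↑Z) :=
    Set.subset_union_left.trans (M.subset_closure _ (Set.union_subset hRE (hZN.trans hNE)))
  have a1 := hup _ hRQ (M.closure_subset_ground _)
  have a2 : cD D N ≤ cD D (M.closure (R ∪ ↑Z)) := Finset.card_le_card (fun x hx => by
    simp only [Finset.mem_filter] at hx ⊢; exact ⟨hx.1, hspan x hx.1 hx.2⟩)
  have hk : (0 : ℤ) < kap := by unfold kap; positivity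
  rw [fval_eq, fval_eq] at a1
  have a3 : rk M N ≤ rk M (M.closure (R ∪ ↑Z)) := by
    by_contra hlt
    push Not at hlt
    have : (rk M (M.closure (R ∪ ↑Z)) : ℤ) < rk M N := by exact_mod_cast hlt
    have a2' : (cD D N : ℤ) ≤ cD D (M.closure (R ∪ ↑Z)) := by exact_mod_cast a2
    nlinarith
  have hNQ : N ⊆ M.closure (R ∪ ↑Z) := by
    have := hlast _ _ hQN hNE a3
    rwa [Matroid.closure_closure] at this
  have a4 : rk M N = rk M R + Z.card := by
    have := hm _ _ hQN
    rw [hcl] at this a3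
    unfold IO at hZi
    omega
  refine ⟨Z, hZD, hZN, hZi, hNQ, a4, ?_⟩
  have a5 := hup R subset_rfl hRE
  rw [fval_eq, fval_eq, a4] at a5
  push_cast at a5
  have : (kap : ℤ) * Z.card + cD D R ≤ cD D N := by linarith
  exact_mod_cast this

theorem peel_step (h1 : RANK M) (D : Finset (Fin k)) {P R N : Set (Fin k)} (hPR : P ⊆ R)
    (hRN : R ⊆ N) (hN : M.closure N = N)
    (hup : ∀ Q, R ⊆ Q → Q ⊆ M.E → fval M D Q ≤ fval M D N)
    (hdown : ∀ Q, P ⊆ Q → Q ⊆ M.E → Q ≠ P → fval M D Q < fval M D P)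
    {Z : Finset (Fin k)} (hZN : (Z : Set (Fin k)) ⊆ N) (hio : IO M R Z)
    (hsp : N ⊆ M.closure (R ∪ ↑Z)) (hr : rk M N = rk M R + Z.card)
    (A : Finset (Fin k)) (hA : A ⊆ Z) (hne : A.Nonempty) :
    ∃ a ∈ A, ∃ b ∈ D, b ∈ N ∧ b ∉ M.closure (P ∪ ↑A) ∧ b ∉ M.closure (R ∪ ↑(Z.erase a)) := by
  have hNE : N ⊆ M.E := hN ▸ M.closure_subset_ground N
  have hRE : R ⊆ M.E := hRN.trans hNE
  have hPE : P ⊆ M.E := hPR.trans hRE
  have hZE : (Z : Set (Fin k)) ⊆ M.E := hZN.trans hNE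
  have hAE : (A : Set (Fin k)) ⊆ M.E := (Finset.coe_subset.2 hA).trans hZE
  obtain ⟨hm, hs, hcl, hout, hin, hu, -, -, hlast⟩ := id h1
  have hZAE : ((Z \ A : Finset (Fin k)) : Set (Fin k)) ⊆ M.E :=
    (Finset.coe_subset.2 Finset.sdiff_subset).trans hZE
  have hRQ' : R ⊆ M.closure (R ∪ ↑(Z \ A)) :=
    Set.subset_union_left.trans (M.subset_closure _ (Set.union_subset hRE hZAE))
  have hPQ : P ∪ ↑A ⊆ M.closure (P ∪ ↑A) := M.subset_closure _ (Set.union_subset hPE hAE)
  have u1 := hup _ hRQ' (M.closure_subset_ground _)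
  have hne' : M.closure (P ∪ ↑A) ≠ P := by
    intro he
    obtain ⟨a, ha⟩ := hne
    have haP : a ∈ P := he ▸ hPQ (Or.inr ha)
    exact hio.notMem h1 (hA ha) (M.subset_closure _ (Set.union_subset hRE
      ((Finset.coe_subset.2 (Finset.erase_subset _ _)).trans hZE)) (Or.inl (hPR haP)))
  have d1 := hdown _ (Set.subset_union_left.trans hPQ) (M.closure_subset_ground _) hne'
  rw [fval_eq, fval_eq, hcl] at u1 d1
  have r1 := hu R (Z \ A)
  have r2 := hu P A
  have c1 := Finset.card_sdiff_add_card_eq_card hA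
  have hk : (0 : ℤ) < kap := by unfold kap; positivity
  have hb : ∃ b ∈ D, b ∈ N ∧ b ∉ M.closure (P ∪ ↑A) ∧ b ∉ M.closure (R ∪ ↑(Z \ A)) := by
    by_contra hcon
    push Not at hcon
    have hc : cD D N + cD D P ≤ cD D (M.closure (P ∪ ↑A)) + cD D (M.closure (R ∪ ↑(Z \ A))) := by
      unfold cD
      rw [← Finset.card_union_add_card_inter (D.filter (fun e => e ∈ M.closure (P ∪ ↑A)))]
      apply Nat.add_le_add
      · apply Finset.card_le_card
        intro x hx
        simp only [Finset.mem_filter, Finset.mem_union] at hx ⊢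
        by_cases hq : x ∈ M.closure (P ∪ ↑A)
        · exact Or.inl ⟨hx.1, hq⟩
        · exact Or.inr ⟨hx.1, hcon x hx.1 hx.2 hq⟩
      · apply Finset.card_le_card
        intro x hx
        simp only [Finset.mem_filter, Finset.mem_inter] at hx ⊢
        exact ⟨⟨hx.1, hPQ (Or.inl hx.2)⟩, hx.1, hRQ' (hPR hx.2)⟩
    have hc' : (cD D N : ℤ) + cD D P ≤
        cD D (M.closure (P ∪ ↑A)) + cD D (M.closure (R ∪ ↑(Z \ A))) := by exact_mod_cast hc
    have r1' : (rk M (R ∪ ↑(Z \ A)) : ℤ) + A.card ≤ rk M N := by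
      have : rk M (R ∪ ↑(Z \ A)) + A.card ≤ rk M N := by omega
      exact_mod_cast this
    have r2' : (rk M (P ∪ ↑A) : ℤ) ≤ rk M P + A.card := by exact_mod_cast r2
    nlinarith
  obtain ⟨b, hbD, hbN, hb1, hb2⟩ := hb
  by_contra hcon
  push Not at hcon
  exact hb2 (ex_a h1 hio (hsp hbN) A hA (fun a ha => hcon a ha b hbD hbN hb1))

theorem peel (h1 : RANK M) (D : Finset (Fin k)) {P R N : Set (Fin k)} (hPR : P ⊆ R)
    (hRN : R ⊆ N) (hN : M.closure N = N)
    (hup : ∀ Q, R ⊆ Q → Q ⊆ M.E → fval M D Q ≤ fval M D N)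
    (hdown : ∀ Q, P ⊆ Q → Q ⊆ M.E → Q ≠ P → fval M D Q < fval M D P)
    {Z : Finset (Fin k)} (hZN : (Z : Set (Fin k)) ⊆ N) (hio : IO M R Z)
    (hsp : N ⊆ M.closure (R ∪ ↑Z)) (hr : rk M N = rk M R + Z.card)
    (A : Finset (Fin k)) (hA : A ⊆ Z) :
    ∃ y : Fin k → Fin k, (∀ z ∈ A, y z ∈ D ∧ y z ∈ N ∧ y z ∉ M.closure (R ∪ ↑(Z.erase z))) ∧
      ∀ A' ⊆ A, A'.Nonempty → ∃ z ∈ A', y z ∉ M.closure (P ∪ ↑A') := by
  induction A using Finset.strongInduction with
  | H A ih =>
    by_cases hne : A.Nonempty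
    · obtain ⟨a, ha, b, hbD, hbN, hb1, hb2⟩ :=
        peel_step h1 D hPR hRN hN hup hdown hZN hio hsp hr A hA hne
      obtain ⟨y, hy1, hy2⟩ := ih (A.erase a) (Finset.erase_ssubset ha)
        ((Finset.erase_subset _ _).trans hA)
      refine ⟨Function.update y a b, ?_, ?_⟩
      · intro z hz
        by_cases hza : z = a
        · subst hza; rw [Function.update_self]; exact ⟨hbD, hbN, hb2⟩
        · rw [Function.update_of_ne hza]; exact hy1 z (Finset.mem_erase.2 ⟨hza, hz⟩)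
      · intro A' hA' hne'
        by_cases haA : a ∈ A'
        · refine ⟨a, haA, ?_⟩
          rw [Function.update_self]
          exact fun h => hb1 (M.closure_subset_closure
            (Set.union_subset_union_right _ (Finset.coe_subset.2 hA')) h)
        · obtain ⟨z, hz, hz2⟩ := hy2 A' (fun x hx => Finset.mem_erase.2
            ⟨fun h => haA (h ▸ hx), hA' hx⟩) hne'
          refine ⟨z, hz, ?_⟩
          rwa [Function.update_of_ne (fun h : z = a => haA (h ▸ hz))]
    · rw [Finset.not_nonempty_iff_eq_empty] at hne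
      subst hne
      refine ⟨id, by simp, ?_⟩
      intro A' hA' hne'
      rw [Finset.subset_empty] at hA'
      subst hA'
      simp at hne'


def NN (M : Matroid (Fin k)) (D : Finset (Fin k)) (S : ℕ → Set (Fin k)) (t : ℕ) : Set (Fin k) :=
  Exp M D (S t)

def PP (M : Matroid (Fin k)) (D : Finset (Fin k)) (S : ℕ → Set (Fin k)) : ℕ → Set (Fin k)
  | 0 => ∅
  | t + 1 => NN M D S t

def RR (M : Matroid (Fin k)) (D : Finset (Fin k)) (S : ℕ → Set (Fin k)) (t : ℕ) : Set (Fin k) :=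
  S t ∪ PP M D S t

structure Ok (M : Matroid (Fin k)) (S : ℕ → Set (Fin k)) : Prop where
  h1 : RANK M
  h2 : EXPF M
  hE : ∀ t, S t ⊆ M.E
  hm : ∀ t t', t ≤ t' → S t ⊆ S t'

variable {S : ℕ → Set (Fin k)}

theorem Ok.cl (h : Ok M S) (D : Finset (Fin k)) (t : ℕ) : M.closure (NN M D S t) = NN M D S t :=
  (h.h2 D (S t) (h.hE t)).2.1

theorem Ok.NE (h : Ok M S) (D : Finset (Fin k)) (t : ℕ) : NN M D S t ⊆ M.E :=
  (h.h2 D (S t) (h.hE t)).1.2.1

theorem Ok.mono (h : Ok M S) (D : Finset (Fin k)) {t t' : ℕ} (ht : t ≤ t') :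
    NN M D S t ⊆ NN M D S t' :=
  (h.h2 D (S t) (h.hE t)).2.2.2.1 _ (h.hm _ _ ht) (h.hE t')

theorem Ok.NP (h : Ok M S) (D : Finset (Fin k)) {s t : ℕ} (ht : s < t) :
    NN M D S s ⊆ PP M D S t := by
  cases t with
  | zero => omega
  | succ t => exact h.mono D (by omega)

theorem Ok.PN (h : Ok M S) (D : Finset (Fin k)) (t : ℕ) : PP M D S t ⊆ NN M D S t := by
  cases t with
  | zero => exact Set.empty_subset _
  | succ t => exact h.mono D (by omega)

theorem Ok.RN (h : Ok M S) (D : Finset (Fin k)) (t : ℕ) : RR M D S t ⊆ NN M D S t :=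
  Set.union_subset (h.h2 D (S t) (h.hE t)).1.1 (h.PN D t)

theorem Ok.RR_mono (h : Ok M S) (D : Finset (Fin k)) {s t : ℕ} (ht : s ≤ t) :
    RR M D S s ⊆ RR M D S t := by
  rcases Nat.eq_or_lt_of_le ht with rfl | hlt
  · exact subset_rfl
  · exact (h.RN D s).trans ((h.NP D hlt).trans Set.subset_union_right)

structure Cert (M : Matroid (Fin k)) (D : Finset (Fin k)) (S : ℕ → Set (Fin k))
    (Z : ℕ → Finset (Fin k)) (y : ℕ → Fin k → Fin k) : Prop where
  zD : ∀ t, Z t ⊆ D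
  zN : ∀ t, (Z t : Set (Fin k)) ⊆ NN M D S t
  io : ∀ t, IO M (RR M D S t) (Z t)
  sp : ∀ t, NN M D S t ⊆ M.closure (RR M D S t ∪ ↑(Z t))
  cnt : ∀ t, kap * (Z t).card + cD D (PP M D S t) ≤ cD D (NN M D S t)
  yy : ∀ t, ∀ z ∈ Z t, y t z ∈ D ∧ y t z ∈ NN M D S t ∧
    y t z ∉ M.closure (RR M D S t ∪ ↑((Z t).erase z))
  pl : ∀ t, 0 < t → ∀ A ⊆ Z t, A.Nonempty → ∃ z ∈ A, y t z ∉ M.closure (PP M D S t ∪ ↑A)

theorem Ok.cert (h : Ok M S) (D : Finset (Fin k)) : ∃ Z y, Cert M D S Z y := by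
  have key : ∀ t, ∃ (Z : Finset (Fin k)) (y : Fin k → Fin k), Z ⊆ D ∧
      (Z : Set (Fin k)) ⊆ NN M D S t ∧ IO M (RR M D S t) Z ∧
      NN M D S t ⊆ M.closure (RR M D S t ∪ ↑Z) ∧
      kap * Z.card + cD D (PP M D S t) ≤ cD D (NN M D S t) ∧
      (∀ z ∈ Z, y z ∈ D ∧ y z ∈ NN M D S t ∧ y z ∉ M.closure (RR M D S t ∪ ↑(Z.erase z))) ∧
      (0 < t → ∀ A ⊆ Z, A.Nonempty → ∃ z ∈ A, y z ∉ M.closure (PP M D S t ∪ ↑A)) := by
    intro t
    have hup : ∀ Q, RR M D S t ⊆ Q → Q ⊆ M.E → fval M D Q ≤ fval M D (NN M D S t) :=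
      fun Q hQ hQE => (h.h2 D (S t) (h.hE t)).1.2.2 Q (Set.subset_union_left.trans hQ) hQE
    obtain ⟨Z, z1, z2, z3, z4, z5, z6⟩ := exists_basis h.h1 D (h.RN D t) (h.cl D t) hup
    have z7 : kap * Z.card + cD D (PP M D S t) ≤ cD D (NN M D S t) :=
      le_trans (Nat.add_le_add_left (cD_mono D Set.subset_union_right) _) z6
    cases t with
    | zero =>
      exact ⟨Z, id, z1, z2, z3, z4, z7, fun z hz => ⟨z1 hz, z2 hz, z3.notMem h.h1 hz⟩,
        fun h => absurd h (lt_irrefl _)⟩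
    | succ t =>
      obtain ⟨y, y1, y2⟩ := peel h.h1 D (P := PP M D S (t + 1)) Set.subset_union_right
        (h.RN D (t + 1)) (h.cl D (t + 1)) hup (h.h2 D (S t) (h.hE t)).2.2.2.2 z2 z3 z4 z5 Z
        subset_rfl
      exact ⟨Z, y, z1, z2, z3, z4, z7, y1, fun _ => y2⟩
  choose Z y h1 h2 h3 h4 h5 h6 h7 using key
  exact ⟨Z, y, h1, h2, h3, h4, h5, h6, h7⟩

variable {D D' : Finset (Fin k)} {Z Z' : ℕ → Finset (Fin k)} {y y' : ℕ → Fin k → Fin k}

theorem Cert.disj (h : Ok M S) (c : Cert M D S Z y) {s t : ℕ} {z : Fin k} (hs : z ∈ Z s)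
    (ht : z ∈ Z t) : s = t := by
  have aux : ∀ s t, s < t → z ∈ Z s → z ∈ Z t → False := by
    intro s t hst hs ht
    refine (c.io t).notMem h.h1 ht (M.mem_closure_of_mem' (Or.inl (Or.inr ?_))
      (h.NE D t (c.zN t ht)))
    exact h.NP D hst (c.zN s hs)
  rcases lt_trichotomy s t with h' | h' | h'
  · exact (aux s t h' hs ht).elim
  · exact h'
  · exact (aux t s h' ht hs).elim

theorem Cert.size (c : Cert M D S Z y) (n : ℕ) :
    kap * ∑ t ∈ Finset.range (n + 1), (Z t).card ≤ cD D (NN M D S n) := by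
  induction n with
  | zero => have := c.cnt 0; simp only [zero_add, Finset.range_one, Finset.sum_singleton]; omega
  | succ n ih =>
    have := c.cnt (n + 1)
    rw [Finset.sum_range_succ, mul_add]
    change kap * (Z (n + 1)).card + cD D (NN M D S n) ≤ _ at this
    omega

theorem Cert.far (h : Ok M S) (c : Cert M D S Z y) {t : ℕ} {z : Fin k} (hz : z ∈ Z t) (j : ℕ) :
    y t z ∉ M.closure (RR M D S t ∪ ↑((Z t).erase z) ∪ {x | ∃ s, t < s ∧ s ≤ t + j ∧ x ∈ Z s}) := by
  induction j with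
  | zero =>
    intro hc
    refine (c.yy t z hz).2.2 (M.closure_subset_closure ?_ hc)
    rintro x (hx | ⟨s, h1, h2, -⟩)
    · exact hx
    · omega
  | succ j ih =>
    intro hc
    apply ih
    have hlt : t < t + j + 1 := by omega
    refine (c.io (t + j + 1)).back h.h1 ?_ (Or.inr (h.NP D hlt (c.yy t z hz).2.1))
      (M.closure_subset_closure ?_ hc)
    · rintro x ((hx | hx) | ⟨s, h1, h2, hx⟩)
      · exact h.RR_mono D hlt.le hx
      · exact Or.inr (h.NP D hlt (c.zN t (Finset.mem_of_mem_erase hx)))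
      · exact Or.inr (h.NP D (by omega) (c.zN s hx))
    · rintro x (hx | ⟨s, h1, h2, hx⟩)
      · exact Or.inl (Or.inl hx)
      · by_cases hs : s = t + j + 1
        · exact Or.inr (hs ▸ hx)
        · exact Or.inl (Or.inr ⟨s, h1, by omega, hx⟩)

theorem step (h : Ok M S) (c : Cert M D S Z y) (c' : Cert M D' S Z' y') {n j : ℕ} (hj : j ≤ n)
    (hb : ∀ i ∈ Z' j, ∃ t, t ≤ n ∧ i ∈ Z t)
    (hm : ∀ W : Set (Fin k), ∑ t ∈ Finset.range (n + 1), ((Z' t).filter (fun z => y' t z ∈ W)).card =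
      ∑ t ∈ Finset.range (n + 1), ((Z t).filter (fun z => y t z ∈ W)).card)
    (hP : PP M D' S j = PP M D S j) : NN M D' S j ⊆ NN M D S j := by
  have hR : RR M D' S j = RR M D S j := by unfold RR; rw [hP]
  have hsp := c'.sp j
  rw [hR] at hsp
  obtain ⟨W, hW⟩ : ∃ W : Set (Fin k), W = NN M D' S j \ PP M D S j := ⟨_, rfl⟩
  -- Claim A
  have hA : ∀ t, ∀ z ∈ Z t, y t z ∈ W → z ∈ Z' j := by
    intro t z hz hy
    rw [hW] at hy
    by_contra hn
    have htj : j ≤ t := by
      by_contra hlt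
      exact hy.2 (h.NP D (by omega) (c.yy t z hz).2.1)
    refine c.far h hz n (M.closure_subset_closure ?_ (hsp hy.1))
    rintro x (hx | hx)
    · exact Or.inl (Or.inl (h.RR_mono D htj hx))
    · obtain ⟨s, hs, hxs⟩ := hb x hx
      rcases lt_trichotomy s t with h' | h' | h'
      · exact Or.inl (Or.inl (Or.inr (h.NP D h' (c.zN s hxs))))
      · subst h'
        exact Or.inl (Or.inr (Finset.mem_coe.2 (Finset.mem_erase.2
          ⟨fun he => hn (he ▸ hx), hxs⟩)))
      · exact Or.inr ⟨s, h', by omega, hxs⟩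
  have hlow : (Z' j).card ≤
      ∑ t ∈ Finset.range (n + 1), ((Z' t).filter (fun z => y' t z ∈ W)).card := by
    have e : (Z' j).filter (fun z => y' j z ∈ W) = Z' j := by
      apply Finset.filter_true_of_mem
      intro z hz
      obtain ⟨-, a2, a3⟩ := c'.yy j z hz
      rw [hW]
      refine ⟨a2, fun hp => a3 (M.mem_closure_of_mem' (Or.inl (Or.inr (hP ▸ hp)))
        (h.NE D' j a2))⟩
    calc (Z' j).card = ((Z' j).filter (fun z => y' j z ∈ W)).card := by rw [e]
      _ ≤ _ := Finset.single_le_sum (f := fun t => ((Z' t).filter (fun z => y' t z ∈ W)).card)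
          (fun _ _ => Nat.zero_le _) (Finset.mem_range.2 (by omega))
  rw [hm W, ← Finset.card_biUnion (fun s _ t _ hst => Finset.disjoint_left.2 (fun z h1 h2 =>
    hst (c.disj h (Finset.mem_filter.1 h1).1 (Finset.mem_filter.1 h2).1)))] at hlow
  have heq := Finset.eq_of_subset_of_card_le (fun z hz => by
    obtain ⟨t, -, ht⟩ := Finset.mem_biUnion.1 hz
    exact hA t z (Finset.mem_filter.1 ht).1 (Finset.mem_filter.1 ht).2) hlow
  have hall : ∀ z ∈ Z' j, ∀ t, z ∈ Z t → y t z ∈ W := by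
    intro z hz t hzt
    rw [← heq] at hz
    obtain ⟨s, -, hs⟩ := Finset.mem_biUnion.1 hz
    have := c.disj h (Finset.mem_filter.1 hs).1 hzt
    subst this
    exact (Finset.mem_filter.1 hs).2
  -- no later batch meets `Z' j`
  have hlate : ∀ d l, l + d = n + 1 → j < l → ∀ s, l ≤ s → s ≤ n → ∀ z ∈ Z' j, z ∉ Z s := by
    intro d
    induction d with
    | zero => intro l hl _ s h1 h2; omega
    | succ d ih =>
      intro l hl hjl s h1 h2 z hz hzs
      have ih' := ih (l + 1) (by omega) (by omega)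
      have hsl : s = l := by
        by_contra hne
        exact ih' s (by omega) h2 z hz hzs
      subst hsl
      obtain ⟨w, hw, hw2⟩ := c.pl s (by omega) (Z s ∩ Z' j) Finset.inter_subset_left
        ⟨z, Finset.mem_inter.2 ⟨hzs, hz⟩⟩
      rw [Finset.mem_inter] at hw
      refine hw2 (M.closure_subset_closure ?_ (hsp (hW ▸ hall w hw.2 s hw.1 :
        y s w ∈ NN M D' S j \ PP M D S j).1))
      rintro x (hx | hx)
      · exact Or.inl (h.NP D hjl (h.RN D j hx))
      · obtain ⟨u, hu, hxu⟩ := hb x hx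
        rcases lt_trichotomy u s with h' | h' | h'
        · exact Or.inl (h.NP D h' (c.zN u hxu))
        · subst h'
          exact Or.inr (Finset.mem_coe.2 (Finset.mem_inter.2 ⟨hxu, hx⟩))
        · exact (ih' u (by omega) hu x hx hxu).elim
  rw [← h.cl D j]
  refine hsp.trans (M.closure_subset_closure (Set.union_subset (h.RN D j) ?_))
  intro x hx
  obtain ⟨u, hu, hxu⟩ := hb x hx
  by_cases huj : u ≤ j
  · exact h.mono D huj (c.zN u hxu)
  · exact (hlate (n - j) (j + 1) (by omega) (by omega) u (by omega) hu x hx hxu).elim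

noncomputable def bf (Z : ℕ → Finset (Fin k)) (n : ℕ) (i : Fin k) : ℕ :=
  ∑ t ∈ Finset.range (n + 1), if i ∈ Z t then 1 else 0

noncomputable def mf (Z : ℕ → Finset (Fin k)) (y : ℕ → Fin k → Fin k) (n : ℕ) (i : Fin k) : ℕ :=
  ∑ t ∈ Finset.range (n + 1), ((Z t).filter (fun z => y t z = i)).card

theorem bf_pos (n : ℕ) (i : Fin k) : bf Z n i ≠ 0 ↔ ∃ t, t ≤ n ∧ i ∈ Z t := by
  unfold bf
  rw [Ne, Finset.sum_eq_zero_iff]
  push Not
  simp only [Finset.mem_range, Nat.lt_succ_iff, ne_eq, ite_eq_right_iff, one_ne_zero, imp_false,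
    not_not]

theorem bf_sum (n : ℕ) : ∑ i, bf Z n i = ∑ t ∈ Finset.range (n + 1), (Z t).card := by
  unfold bf
  rw [Finset.sum_comm]
  refine Finset.sum_congr rfl (fun t _ => ?_)
  simp

theorem mf_sum (n : ℕ) (W : Set (Fin k)) :
    ∑ i ∈ Finset.univ.filter (fun i => i ∈ W), mf Z y n i =
      ∑ t ∈ Finset.range (n + 1), ((Z t).filter (fun z => y t z ∈ W)).card := by
  unfold mf
  rw [Finset.sum_comm]
  refine Finset.sum_congr rfl (fun t _ => ?_)
  rw [Finset.card_eq_sum_card_fiberwise (f := y t) (t := Finset.univ.filter (fun i => i ∈ W))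
    (fun z hz => by simpa using (Finset.mem_filter.1 hz).2)]
  refine Finset.sum_congr rfl (fun i hi => ?_)
  congr 1
  ext z
  simp only [Finset.mem_filter, Finset.mem_univ, true_and] at hi ⊢
  exact ⟨fun h => ⟨⟨h.1, h.2 ▸ hi⟩, h.2⟩, fun h => ⟨h.1.1, h.2⟩⟩

theorem determined (h : Ok M S) (c : Cert M D S Z y) (c' : Cert M D' S Z' y') {n : ℕ}
    (hb : bf Z n = bf Z' n) (hm : mf Z y n = mf Z' y' n) (t : ℕ) (ht : t ≤ n) :
    NN M D S t = NN M D' S t := by
  have main : ∀ j, j ≤ n → PP M D' S j = PP M D S j → NN M D S j = NN M D' S j := by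
    intro j hj hP
    apply Set.Subset.antisymm
    · refine step h c' c hj (fun i hi => ?_) (fun W => ?_) hP.symm
      · rw [← bf_pos, ← hb, bf_pos]; exact ⟨j, hj, hi⟩
      · rw [← mf_sum, ← mf_sum, hm]
    · refine step h c c' hj (fun i hi => ?_) (fun W => ?_) hP
      · rw [← bf_pos, hb, bf_pos]; exact ⟨j, hj, hi⟩
      · rw [← mf_sum, ← mf_sum, hm]
  induction t with
  | zero => exact main 0 ht rfl
  | succ t ih => exact main (t + 1) ht (ih (by omega)).symm

end Crest.Agent.R305.C81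

namespace Crest.Agent.R305

open C81

theorem compress81 {k : ℕ} (M : Matroid (Fin k)) (h1 : RANK M) (h2 : EXPF M) : COMPRESS73 M := by
  intro U S n _ hE hmono
  have h : Ok M S := ⟨h1, h2, hE, hmono⟩
  choose Z y c using fun D : Finset (Fin k) => h.cert (D ∩ U)
  have hsize : ∀ D, kap * ∑ t ∈ Finset.range (n + 1), (Z D t).card ≤ U.card := fun D =>
    ((c D).size n).trans ((Finset.card_filter_le _ _).trans
      (Finset.card_le_card Finset.inter_subset_right))
  refine ⟨fun D => bf (Z D) n, fun D => mf (Z D) (y D) n, ?_, ?_, ?_, ?_, ?_⟩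
  · intro D i hi
    by_contra hne
    obtain ⟨t, -, ht⟩ := (bf_pos n i).1 hne
    exact hi (Finset.mem_inter.1 ((c D).zD t ht)).2
  · intro D i hi
    unfold mf
    refine Finset.sum_eq_zero (fun t _ => ?_)
    rw [Finset.card_eq_zero, Finset.filter_eq_empty_iff]
    intro z hz he
    exact hi (he ▸ (Finset.mem_inter.1 ((c D).yy t z hz).1).2)
  · intro D
    rw [bf_sum]; exact hsize D
  · intro D
    have := mf_sum (Z := Z D) (y := y D) n Set.univ
    simp only [Set.mem_univ, Finset.filter_true] at this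
    rw [this]; exact hsize D
  · intro D D' hb hm t ht
    exact determined h (c D) (c D') hb hm t ht

end Crest.Agent.R305
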