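import Mathlib

/-! Row 305: compression of the chain of maximal maximisers (abstract rank function). -/

set_option autoImplicit false
open Finset

namespace Crest.Agent.R305.C84

variable {α : Type*} [DecidableEq α]

structure Rk (r : Finset α → ℕ) : Prop where
  mono : ∀ S T, S ⊆ T → r S ≤ r T
  ins : ∀ e S, r (insert e S) ≤ r S + 1
  sub : ∀ S T, r (S ∪ T) + r (S ∩ T) ≤ r S + r T

/-- `e` is spanned by `X` -/
def sp (r : Finset α → ℕ) (X : Finset α) (e : α) : Prop := r (insert e X) = r X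

instance (r : Finset α → ℕ) (X : Finset α) : DecidablePred (sp r X) :=
  fun e => inferInstanceAs (Decidable (r (insert e X) = r X))

/-- `B` is independent over `X` -/
def Ind (r : Finset α → ℕ) (X B : Finset α) : Prop := r (X ∪ B) = r X + B.card

variable {r : Finset α → ℕ}

theorem sp_of_mem {X : Finset α} {e : α} (h : e ∈ X) : sp r X e := by
  unfold sp; rw [insert_eq_of_mem h]

theorem Rk.dim (hr : Rk r) {X Y : Finset α} (h : X ⊆ Y) (A : Finset α) :
    r (Y ∪ A) + r X ≤ r (X ∪ A) + r Y := by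
  have h1 := hr.sub (X ∪ A) Y
  have h2 : X ∪ A ∪ Y = Y ∪ A := by
    ext x; simp only [mem_union]; constructor
    · rintro ((h' | h') | h'); exacts [Or.inl (h h'), Or.inr h', Or.inl h']
    · rintro (h' | h'); exacts [Or.inr h', Or.inl (Or.inr h')]
  have h3 : r X ≤ r ((X ∪ A) ∩ Y) :=
    hr.mono _ _ (subset_inter subset_union_left h)
  rw [h2] at h1; omega

theorem Rk.sp_mono (hr : Rk r) {X Y : Finset α} (h : X ⊆ Y) {e : α} (he : sp r X e) :
    sp r Y e := by
  have h1 := hr.dim h {e}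
  have h2 := hr.mono Y (insert e Y) (subset_insert _ _)
  unfold sp at *
  rw [union_comm Y, union_comm X, ← insert_eq, ← insert_eq] at h1
  omega

theorem Rk.union_of_sp (hr : Rk r) (X Y : Finset α) (h : ∀ y ∈ Y, sp r X y) :
    r (X ∪ Y) = r X := by
  induction Y using Finset.induction_on with
  | empty => simp
  | insert a Y ha ih =>
    have h1 := ih (fun y hy => h y (mem_insert_of_mem hy))
    have h2 : sp r (X ∪ Y) a := hr.sp_mono subset_union_left (h a (mem_insert_self _ _))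
    unfold sp at h2
    rw [union_insert, h2, h1]

theorem Rk.union_le (hr : Rk r) (X Y : Finset α) : r (X ∪ Y) ≤ r X + Y.card := by
  induction Y using Finset.induction_on with
  | empty => simp
  | insert a Y ha ih =>
    have := hr.ins a (X ∪ Y)
    rw [union_insert, card_insert_of_notMem ha]; omega

theorem Rk.ind_left (hr : Rk r) {X X' B : Finset α} (h : Ind r X B) (hX : X' ⊆ X) :
    Ind r X' B := by
  have h1 := hr.dim hX B
  have h2 := hr.union_le X' B
  unfold Ind at *; omega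

theorem Rk.ind_right (hr : Rk r) {X A B : Finset α} (h : Ind r X B) (hA : A ⊆ B) :
    Ind r X A := by
  have h1 := hr.union_le (X ∪ A) (B \ A)
  have h2 := hr.union_le X A
  have h3 : X ∪ A ∪ B \ A = X ∪ B := by rw [union_assoc, union_sdiff_of_subset hA]
  have h4 := card_sdiff_add_card_eq_card hA
  rw [h3] at h1
  unfold Ind at *; omega

theorem Rk.not_mem_of_ind (hr : Rk r) {X B : Finset α} (h : Ind r X B) {a : α} (ha : a ∈ B) :
    a ∉ X := by
  intro hx
  have h1 := hr.ind_right h (singleton_subset_iff.mpr ha)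
  unfold Ind at h1
  rw [union_eq_left.mpr (singleton_subset_iff.mpr hx)] at h1
  simp at h1

theorem Rk.not_sp_erase (hr : Rk r) {X B : Finset α} (h : Ind r X B) {a : α} (ha : a ∈ B) :
    ¬ sp r (X ∪ B.erase a) a := by
  intro hs
  have h1 := hr.ind_right h (erase_subset a B)
  unfold sp at hs
  unfold Ind at h h1
  rw [← union_insert, insert_erase ha] at hs
  have := card_erase_add_one ha
  omega

theorem Rk.ind_sp (hr : Rk r) {R X B : Finset α} (h : Ind r R B) (hX : X ⊆ R) {b : α}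
    (hb : b ∈ R) (hs : sp r (X ∪ B) b) : sp r X b := by
  have h1 := hr.ind_left h hX
  have h2 := hr.ind_left h (insert_subset hb hX)
  unfold Ind sp at *
  rw [insert_union] at h2
  omega

theorem Rk.sp_inter (hr : Rk r) {X B Y Z : Finset α} (h : Ind r X B) (hY : Y ⊆ B) (hZ : Z ⊆ B)
    {b : α} (h1 : sp r (X ∪ Y) b) (h2 : sp r (X ∪ Z) b) : sp r (X ∪ (Y ∩ Z)) b := by
  have a1 := hr.ind_right h hY
  have a2 := hr.ind_right h hZ
  have a3 := hr.ind_right h (union_subset hY hZ)
  have a4 := hr.ind_right h (inter_subset_left.trans hY : Y ∩ Z ⊆ B)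
  have a5 := hr.sub (insert b (X ∪ Y)) (insert b (X ∪ Z))
  have a6 : r (X ∪ (Y ∪ Z)) ≤ r (insert b (X ∪ Y) ∪ insert b (X ∪ Z)) := by
    apply hr.mono; intro x; simp only [mem_union, mem_insert]; tauto
  have a7 : r (insert b (X ∪ (Y ∩ Z))) ≤ r (insert b (X ∪ Y) ∩ insert b (X ∪ Z)) := by
    apply hr.mono; intro x; simp only [mem_union, mem_insert, mem_inter]; tauto
  have a8 := card_union_add_card_inter Y Z
  have a9 := hr.mono _ _ (subset_insert b (X ∪ (Y ∩ Z)))
  unfold Ind sp at *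
  omega

theorem Rk.sp_sdiff (hr : Rk r) {X B : Finset α} (h : Ind r X B) {b : α} (hb : sp r (X ∪ B) b)
    (A : Finset α) (hA : ∀ a ∈ A, sp r (X ∪ B.erase a) b) : sp r (X ∪ (B \ A)) b := by
  induction A using Finset.induction_on with
  | empty => simpa using hb
  | insert a A ha ih =>
    have h1 := ih (fun y hy => hA y (mem_insert_of_mem hy))
    have h2 := hr.sp_inter h sdiff_subset (erase_subset a B) h1 (hA a (mem_insert_self _ _))
    have h3 : B \ A ∩ B.erase a = B \ insert a A := by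
      ext x; simp only [mem_inter, mem_sdiff, mem_erase, mem_insert]; tauto
    rwa [h3] at h2

theorem Rk.exists_basis (hr : Rk r) (X W : Finset α) :
    ∃ B, B ⊆ W ∧ Ind r X B ∧ r (X ∪ B) = r (X ∪ W) := by
  induction W using Finset.induction_on with
  | empty => exact ⟨∅, Subset.refl _, by simp [Ind], rfl⟩
  | insert a W ha ih =>
    obtain ⟨B, hB, hI, hE⟩ := ih
    have hsub : X ∪ B ⊆ X ∪ W := union_subset_union (Subset.refl _) hB
    by_cases hs : sp r (X ∪ B) a
    · refine ⟨B, hB.trans (subset_insert _ _), hI, ?_⟩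
      have := hr.sp_mono hsub hs
      unfold sp at this
      rw [union_insert, this, hE]
    · have haB : a ∉ B := fun h => ha (hB h)
      have h1 := hr.ins a (X ∪ B)
      have h2 := hr.mono _ _ (subset_insert a (X ∪ B))
      have h3 := hr.ins a (X ∪ W)
      have h4 := hr.mono _ _ (insert_subset_insert a hsub)
      refine ⟨insert a B, insert_subset_insert a hB, ?_, ?_⟩
      · unfold Ind sp at *
        rw [union_insert, card_insert_of_notMem haB]; omega
      · unfold sp at hs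
        rw [union_insert, union_insert]; omega

/-- a basis of `N` over `R` inside `D` -/
theorem Rk.layer_basis (hr : Rk r) {κ : ℕ} (hκ : 0 < κ) {D R N : Finset α} (hRN : R ⊆ N)
    (up : ∀ Q, R ⊆ Q → (D ∩ Q).card + κ * r N ≤ (D ∩ N).card + κ * r Q) :
    ∃ B, B ⊆ D ∩ N ∧ Ind r R B ∧ r (R ∪ B) = r N ∧ κ * B.card + (D ∩ R).card ≤ (D ∩ N).card := by
  obtain ⟨B, hB, hI, hE⟩ := hr.exists_basis R (D ∩ N)
  have h1 := up (R ∪ (D ∩ N)) subset_union_left
  have h2 : (D ∩ N).card ≤ (D ∩ (R ∪ (D ∩ N))).card :=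
    card_le_card (subset_inter inter_subset_left subset_union_right)
  have h3 : r N ≤ r (R ∪ (D ∩ N)) := Nat.le_of_mul_le_mul_left (by omega) hκ
  have h4 : r (R ∪ (D ∩ N)) ≤ r N := hr.mono _ _ (union_subset hRN inter_subset_right)
  have h5 := up R (Subset.refl _)
  have h6 : r N = r R + B.card := by unfold Ind at hI; omega
  refine ⟨B, hB, hI, by omega, ?_⟩
  rw [h6, mul_add] at h5; omega

/-- one peeling step -/
theorem Rk.peel (hr : Rk r) {κ : ℕ} {D P R N B : Finset α} (hPR : P ⊆ R) (hRN : R ⊆ N)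
    (hB : B ⊆ N) (hI : Ind r R B) (hE : r (R ∪ B) = r N)
    (up : ∀ Q, R ⊆ Q → (D ∩ Q).card + κ * r N ≤ (D ∩ N).card + κ * r Q)
    (down : ∀ Q, P ⊆ Q → (D ∩ P).card + κ * r Q ≤ (D ∩ Q).card + κ * r P → Q ⊆ P)
    {A : Finset α} (hA : A ⊆ B) (hne : A.Nonempty) :
    ∃ a ∈ A, ∃ b ∈ D ∩ N, ¬ sp r (R ∪ B.erase a) b ∧ ¬ sp r (P ∪ A) b := by
  by_contra hcon
  push Not at hcon
  have hspN : ∀ b ∈ N, sp r (R ∪ B) b := by
    intro b hb
    have h1 := hr.mono _ _ (insert_subset hb (union_subset hRN hB))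
    have h2 := hr.mono _ _ (subset_insert b (R ∪ B))
    unfold sp; omega
  have key : ∀ b ∈ D ∩ N, sp r (R ∪ (B \ A)) b ∨ sp r (P ∪ A) b := by
    intro b hb
    by_contra h
    push Not at h
    exact h.1 (hr.sp_sdiff hI (hspN b (mem_inter.mp hb).2) A
      (fun a ha => by by_contra h'; exact h.2 (hcon a ha b hb h')))
  set Q' := (R ∪ (B \ A)) ∪ (D ∩ N).filter (sp r (R ∪ (B \ A))) with hQ'
  set Q := (P ∪ A) ∪ (D ∩ N).filter (sp r (P ∪ A)) with hQ
  have r1 : r Q' = r (R ∪ (B \ A)) := hr.union_of_sp _ _ (fun y hy => (mem_filter.mp hy).2)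
  have r2 : r Q = r (P ∪ A) := hr.union_of_sp _ _ (fun y hy => (mem_filter.mp hy).2)
  have i1 := hr.ind_right hI (sdiff_subset : B \ A ⊆ B)
  have i2 := hr.ind_left (hr.ind_right hI hA) hPR
  have c1 := card_sdiff_add_card_eq_card hA
  have u1 := up Q' (subset_union_left.trans subset_union_left)
  have hPQ : P ⊆ Q := subset_union_left.trans subset_union_left
  have d1 : ¬ ((D ∩ P).card + κ * r Q ≤ (D ∩ Q).card + κ * r P) := by
    intro h
    obtain ⟨a, ha⟩ := hne
    exact hr.not_mem_of_ind i2 ha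
      (down Q hPQ h (mem_union_left _ (mem_union_right _ ha)))
  have s1 : D ∩ N ⊆ (D ∩ Q') ∪ ((D ∩ Q) \ (D ∩ P)) := by
    intro b hb
    have hbD := (mem_inter.mp hb).1
    by_cases h : b ∈ Q'
    · exact mem_union_left _ (mem_inter.mpr ⟨hbD, h⟩)
    · refine mem_union_right _ (mem_sdiff.mpr ⟨mem_inter.mpr ⟨hbD, ?_⟩, ?_⟩)
      · rcases key b hb with h' | h'
        · exact absurd (mem_union_right _ (mem_filter.mpr ⟨hb, h'⟩)) h
        · exact mem_union_right _ (mem_filter.mpr ⟨hb, h'⟩)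
      · intro h'
        exact h (mem_union_left _ (mem_union_left _ (hPR (mem_inter.mp h').2)))
  have s2 := (card_le_card s1).trans (card_union_le _ _)
  have s3 := card_sdiff_add_card_eq_card
    (inter_subset_inter (Subset.refl D) hPQ : D ∩ P ⊆ D ∩ Q)
  have e1 : r N = r Q' + A.card := by unfold Ind at *; omega
  have e2 : r Q = r P + A.card := by unfold Ind at *; omega
  rw [e1, mul_add] at u1
  rw [e2, mul_add] at d1
  omega

theorem Rk.exists_beta (hr : Rk r) {W P R B : Finset α}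
    (h : ∀ A ⊆ B, A.Nonempty → ∃ a ∈ A, ∃ b ∈ W, ¬ sp r (R ∪ B.erase a) b ∧ ¬ sp r (P ∪ A) b) :
    ∀ (n : ℕ) (A : Finset α), A.card = n → A ⊆ B → ∃ β : α → α,
      (∀ a ∈ A, β a ∈ W ∧ ¬ sp r (R ∪ B.erase a) (β a)) ∧
      ∀ A' ⊆ A, A'.Nonempty → ∃ a ∈ A', ¬ sp r (P ∪ A') (β a) := by
  intro n
  induction n with
  | zero =>
    intro A hA _
    rw [card_eq_zero] at hA
    subst hA
    refine ⟨id, by simp, ?_⟩
    intro A' hA' hne
    rw [subset_empty] at hA'
    subst hA'
    simp at hne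
  | succ n ih =>
    intro A hA hAB
    obtain ⟨a₀, ha₀, b₀, hb₀, h1, h2⟩ := h A hAB (card_pos.mp (by omega))
    obtain ⟨β, hβ1, hβ2⟩ := ih (A.erase a₀) (by rw [card_erase_of_mem ha₀]; omega)
      ((erase_subset _ _).trans hAB)
    refine ⟨Function.update β a₀ b₀, ?_, ?_⟩
    · intro a ha
      by_cases e : a = a₀
      · subst e; rw [Function.update_self]; exact ⟨hb₀, h1⟩
      · rw [Function.update_of_ne e]; exact hβ1 a (mem_erase.mpr ⟨e, ha⟩)
    · intro A' hA' hne
      by_cases e : a₀ ∈ A'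
      · refine ⟨a₀, e, ?_⟩
        rw [Function.update_self]
        exact fun hs => h2 (hr.sp_mono (union_subset_union (Subset.refl _) hA') hs)
      · obtain ⟨a, ha, hs⟩ := hβ2 A' (fun x hx => mem_erase.mpr ⟨fun hh => e (hh ▸ hx), hA' hx⟩) hne
        refine ⟨a, ha, ?_⟩
        have hne' : a ≠ a₀ := fun hh => e (hh ▸ ha)
        rw [Function.update_of_ne hne']
        exact hs

/-- the previous member of the chain -/
def prev (N : ℕ → Finset α) : ℕ → Finset α
  | 0 => ∅
  | k + 1 => N k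

structure Cert (r : Finset α → ℕ) (S N B : ℕ → Finset α) (β : ℕ → α → α) : Prop where
  c0 : Monotone N
  c1 : ∀ k, S k ⊆ N k
  c1' : ∀ k, B k ⊆ N k
  c2 : ∀ k, Ind r (prev N k ∪ S k) (B k)
  c3 : ∀ k e, e ∈ N k ↔ sp r (prev N k ∪ S k ∪ B k) e
  c4 : ∀ k, ∀ a ∈ B k, β k a ∈ N k ∧ ¬ sp r (prev N k ∪ S k ∪ (B k).erase a) (β k a)
  c5 : ∀ k, ∀ A ⊆ B (k + 1), A.Nonempty → ∃ a ∈ A, ¬ sp r (N k ∪ A) (β (k + 1) a)

theorem prev_sub {N : ℕ → Finset α} (h : Monotone N) (k : ℕ) : prev N k ⊆ N k := by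
  cases k with
  | zero => exact empty_subset _
  | succ k => exact h (Nat.le_succ k)

theorem sub_prev {N : ℕ → Finset α} (h : Monotone N) {j k : ℕ} (hjk : j < k) :
    N j ⊆ prev N k := by
  cases k with
  | zero => omega
  | succ k => exact h (by omega : j ≤ k)

theorem prev_mono {N : ℕ → Finset α} (h : Monotone N) {j k : ℕ} (hjk : j ≤ k) :
    prev N j ⊆ prev N k := by
  rcases hjk.lt_or_eq with h' | h'
  · exact (prev_sub h j).trans (sub_prev h h')
  · rw [h']

section
variable {S N B : ℕ → Finset α} {β : ℕ → α → α}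

theorem Cert.peelW (hr : Rk r) (c : Cert r S N B β) {l : ℕ} {X : Finset α} (hX : X ⊆ N l)
    {b : α} (hb : b ∈ N l) (n : ℕ) :
    sp r (X ∪ (Ioc l (l + n)).biUnion B) b → sp r X b := by
  induction n with
  | zero => simp
  | succ n ih =>
    intro h
    apply ih
    have e : X ∪ (Ioc l (l + (n + 1))).biUnion B
        ⊆ (X ∪ (Ioc l (l + n)).biUnion B) ∪ B (l + n + 1) := by
      intro x hx
      simp only [mem_union, mem_biUnion, mem_Ioc] at hx ⊢
      rcases hx with hx | ⟨j, hj, hx⟩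
      · exact Or.inl (Or.inl hx)
      · by_cases hj' : j = l + n + 1
        · exact Or.inr (hj' ▸ hx)
        · exact Or.inl (Or.inr ⟨j, ⟨hj.1, by omega⟩, hx⟩)
    refine hr.ind_sp (c.c2 (l + n + 1)) ?_ ?_ (hr.sp_mono e h)
    · intro x hx
      apply mem_union_left
      simp only [mem_union, mem_biUnion, mem_Ioc] at hx
      rcases hx with hx | ⟨j, hj, hx⟩
      · exact sub_prev c.c0 (by omega) (hX hx)
      · exact sub_prev c.c0 (by omega) (c.c1' j hx)
    · exact mem_union_left _ (sub_prev c.c0 (by omega) hb)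

theorem Cert.claim1 (hr : Rk r) (c : Cert r S N B β) {K k l : ℕ} (hkl : k ≤ l) (hl : l ≤ K)
    {Z : Finset α} (hZ : Z ⊆ (range (K + 1)).biUnion B) {a : α} (ha : a ∈ B l)
    (hs : sp r (prev N k ∪ S k ∪ Z) (β l a)) : a ∈ Z := by
  by_contra haZ
  apply (c.c4 l a ha).2
  refine c.peelW hr (l := l) ?_ (c.c4 l a ha).1 (K - l) (hr.sp_mono ?_ hs)
  · exact union_subset (union_subset (prev_sub c.c0 l) (c.c1 l)) ((erase_subset _ _).trans (c.c1' l))
  · intro x hx
    rcases mem_union.mp hx with hx | hx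
    · apply mem_union_left
      apply mem_union_left
      rcases hkl.lt_or_eq with h | h
      · apply mem_union_left
        exact sub_prev c.c0 h (union_subset (prev_sub c.c0 k) (c.c1 k) hx)
      · rw [← h]; exact hx
    · obtain ⟨j, hj, hxj⟩ := mem_biUnion.mp (hZ hx)
      rw [mem_range] at hj
      rcases lt_trichotomy j l with h | h | h
      · exact mem_union_left _ (mem_union_left _ (mem_union_left _
          (sub_prev c.c0 h (c.c1' j hxj))))
      · subst h
        exact mem_union_left _ (mem_union_right _ (mem_erase.mpr ⟨fun hh => haZ (hh ▸ hx), hxj⟩))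
      · exact mem_union_right _ (mem_biUnion.mpr ⟨j, mem_Ioc.mpr ⟨h, by omega⟩, hxj⟩)

theorem Cert.not_prev (hr : Rk r) (c : Cert r S N B β) {k l : ℕ} (hkl : k ≤ l) {a : α}
    (ha : a ∈ B l) : a ∉ prev N k := fun h =>
  hr.not_mem_of_ind (c.c2 l) ha (mem_union_left _ (prev_mono c.c0 hkl h))

theorem Cert.disj (hr : Rk r) (c : Cert r S N B β) {j l : ℕ} (h : j ≠ l) :
    Disjoint (B j) (B l) := by
  rw [disjoint_left]
  intro a h1 h2
  rcases lt_or_gt_of_ne h with h' | h'
  · exact c.not_prev hr le_rfl h2 (sub_prev c.c0 h' (c.c1' j h1))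
  · exact c.not_prev hr le_rfl h1 (sub_prev c.c0 h' (c.c1' l h2))

/-- the multiset of the `β`-values -/
def mult (K : ℕ) (B : ℕ → Finset α) (β : ℕ → α → α) (x : α) : ℕ :=
  ∑ l ∈ range (K + 1), ((B l).filter (fun a => β l a = x)).card

theorem sum_mult [Fintype α] (K : ℕ) (B : ℕ → Finset α) (β : ℕ → α → α) (p : α → Prop)
    [DecidablePred p] :
    ∑ x ∈ univ.filter p, mult K B β x
      = ∑ l ∈ range (K + 1), ((B l).filter (fun a => p (β l a))).card := by
  unfold mult
  rw [sum_comm]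
  refine sum_congr rfl (fun l _ => ?_)
  rw [card_eq_sum_card_fiberwise (f := β l) (t := univ.filter p)
    (s := (B l).filter (fun a => p (β l a)))]
  · refine sum_congr rfl (fun x hx => ?_)
    congr 1
    ext a
    simp only [mem_filter, mem_univ, true_and] at hx ⊢
    constructor
    · rintro ⟨h1, h2⟩; exact ⟨⟨h1, h2 ▸ hx⟩, h2⟩
    · rintro ⟨⟨h1, _⟩, h2⟩; exact ⟨h1, h2⟩
  · intro a ha
    simp only [coe_filter, mem_univ, true_and, Set.mem_setOf_eq, mem_coe, mem_filter] at ha ⊢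
    exact ha.2

theorem Cert.half [Fintype α] (hr : Rk r) {N' B' : ℕ → Finset α} {β' : ℕ → α → α}
    (c : Cert r S N B β) (c' : Cert r S N' B' β') {K k : ℕ} (hk : k ≤ K)
    (hZ : (range (K + 1)).biUnion B = (range (K + 1)).biUnion B')
    (hm : mult K B β = mult K B' β') (hp : prev N k = prev N' k) : B' k ⊆ B k := by
  have hsubZ : B' k ⊆ (range (K + 1)).biUnion B := by
    rw [hZ]; exact subset_biUnion_of_mem B' (mem_range.mpr (by omega))
  set p : α → Prop := fun x => x ∉ prev N k ∧ sp r (prev N k ∪ S k ∪ B' k) x with hpdef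
  have e1 := sum_mult K B β p
  have e2 := sum_mult K B' β' p
  rw [hm, e2] at e1
  have low : (B' k).card ≤ ∑ l ∈ range (K + 1), ((B' l).filter (fun a => p (β' l a))).card := by
    refine le_trans ?_ (single_le_sum (f := fun l => ((B' l).filter (fun a => p (β' l a))).card)
      (fun _ _ => Nat.zero_le _) (mem_range.mpr (by omega : k < K + 1)))
    apply le_of_eq
    congr 1
    symm
    rw [filter_eq_self]
    intro a ha
    refine ⟨fun h => (c'.c4 k a ha).2 (sp_of_mem ?_), ?_⟩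
    · rw [hp] at h; exact mem_union_left _ (mem_union_left _ h)
    · rw [hp]; exact (c'.c3 k _).mp (c'.c4 k a ha).1
  have sub : ∀ l ∈ range (K + 1), (B l).filter (fun a => p (β l a)) ⊆ B l ∩ B' k := by
    intro l hl a ha
    rw [mem_filter] at ha
    rw [mem_range] at hl
    refine mem_inter.mpr ⟨ha.1, ?_⟩
    by_cases hlk : l < k
    · exact absurd (sub_prev c.c0 hlk (c.c4 l a ha.1).1) ha.2.1
    · exact c.claim1 hr (by omega) (by omega : l ≤ K) hsubZ ha.1 ha.2.2
  have up : ∑ l ∈ range (K + 1), (B l ∩ B' k).card ≤ (B' k).card := by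
    rw [← card_biUnion]
    · exact card_le_card (biUnion_subset.mpr (fun l _ => inter_subset_right))
    · intro j _ l _ h
      exact (c.disj hr h).mono inter_subset_left inter_subset_left
  have eqs : ∀ l ∈ range (K + 1),
      ((B l).filter (fun a => p (β l a))).card = (B l ∩ B' k).card := by
    rw [← sum_eq_sum_iff_of_le (fun l hl => card_le_card (sub l hl))]
    have := sum_le_sum (fun l hl => card_le_card (sub l hl))
    omega
  have all : ∀ l ≤ K, ∀ a ∈ B l ∩ B' k, sp r (prev N k ∪ S k ∪ B' k) (β l a) := by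
    intro l hl a ha
    have hl' := mem_range.mpr (by omega : l < K + 1)
    rw [← eq_of_subset_of_card_le (sub l hl') (eqs l hl').ge, mem_filter] at ha
    exact ha.2.2
  intro a₀ ha₀
  by_contra hna
  obtain ⟨j₀, hj₀, haj₀⟩ := mem_biUnion.mp (hsubZ ha₀)
  have hj₀k : k < j₀ := by
    rcases lt_trichotomy j₀ k with h | h | h
    · exact absurd (hp ▸ sub_prev c.c0 h (c.c1' j₀ haj₀)) (c'.not_prev hr le_rfl ha₀)
    · exact absurd (h ▸ haj₀) hna
    · exact h
  obtain ⟨l, hl, hmax⟩ := exists_max_image ((range (K + 1)).filter (fun l => (B l ∩ B' k).Nonempty))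
    id ⟨j₀, mem_filter.mpr ⟨hj₀, a₀, mem_inter.mpr ⟨haj₀, ha₀⟩⟩⟩
  have hl1 := hmax j₀ (mem_filter.mpr ⟨hj₀, a₀, mem_inter.mpr ⟨haj₀, ha₀⟩⟩)
  simp only [id] at hl1 hmax
  rw [mem_filter, mem_range] at hl
  obtain ⟨l', rfl⟩ : ∃ l', l = l' + 1 := ⟨l - 1, by omega⟩
  obtain ⟨a, ha, hs⟩ := c.c5 l' _ inter_subset_left hl.2
  refine hs (hr.sp_mono ?_ (all (l' + 1) (by omega) a ha))
  intro x hx
  rcases mem_union.mp hx with hx | hx
  · exact mem_union_left _ (c.c0 (by omega : k ≤ l') (union_subset (prev_sub c.c0 k) (c.c1 k) hx))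
  · obtain ⟨j, hj, hxj⟩ := mem_biUnion.mp (hsubZ hx)
    have := hmax j (mem_filter.mpr ⟨hj, x, mem_inter.mpr ⟨hxj, hx⟩⟩)
    rcases this.lt_or_eq with h | h
    · exact mem_union_left _ (c.c0 (by omega : j ≤ l') (c.c1' j hxj))
    · exact mem_union_right _ (mem_inter.mpr ⟨h ▸ hxj, hx⟩)

theorem Cert.unique [Fintype α] (hr : Rk r) {N' B' : ℕ → Finset α} {β' : ℕ → α → α}
    (c : Cert r S N B β) (c' : Cert r S N' B' β') {K : ℕ}
    (hZ : (range (K + 1)).biUnion B = (range (K + 1)).biUnion B')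
    (hm : mult K B β = mult K B' β') : ∀ k ≤ K, N k = N' k := by
  have step : ∀ k ≤ K, prev N k = prev N' k → N k = N' k := by
    intro k hk hp
    have h1 := c.half hr c' hk hZ hm hp
    have h2 := c'.half hr c hk hZ.symm hm.symm hp.symm
    ext e
    rw [c.c3, c'.c3, hp, Subset.antisymm h1 h2]
  intro k
  induction k with
  | zero => intro hk; exact step 0 hk rfl
  | succ k ih => intro hk; exact step (k + 1) hk (ih (by omega))

end

/-- maximal maximisers are monotone -/
theorem Rk.max_mono (hr : Rk r) {κ : ℕ} {D S S' N N' : Finset α} (hS : S ⊆ S') (h1 : S ⊆ N)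
    (h1' : S' ⊆ N')
    (hmax : ∀ Q, S ⊆ Q → (D ∩ Q).card + κ * r N ≤ (D ∩ N).card + κ * r Q)
    (hmaxl : ∀ Q, S' ⊆ Q → (D ∩ N').card + κ * r Q ≤ (D ∩ Q).card + κ * r N' → Q ⊆ N') :
    N ⊆ N' := by
  have a1 := hmax (N ∩ N') (subset_inter h1 (hS.trans h1'))
  have a2 := Nat.mul_le_mul_left κ (hr.sub N N')
  have a3 := card_union_add_card_inter (D ∩ N) (D ∩ N')
  have a4 : D ∩ N ∪ D ∩ N' = D ∩ (N ∪ N') := (inter_union_distrib_left D N N').symm
  have a5 : D ∩ N ∩ (D ∩ N') = D ∩ (N ∩ N') := by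
    ext x; simp only [mem_inter]; tauto
  rw [a4, a5] at a3
  rw [mul_add, mul_add] at a2
  exact subset_union_left.trans (hmaxl (N ∪ N') (h1'.trans subset_union_right) (by omega))

theorem exists_cert (hr : Rk r) {κ : ℕ} (hκ : 0 < κ) {S : ℕ → Finset α} (hS : Monotone S)
    {D : Finset α} {N : ℕ → Finset α} (hSN : ∀ k, S k ⊆ N k)
    (hmax : ∀ k Q, S k ⊆ Q → (D ∩ Q).card + κ * r (N k) ≤ (D ∩ N k).card + κ * r Q)
    (hmaxl : ∀ k Q, S k ⊆ Q → (D ∩ N k).card + κ * r Q ≤ (D ∩ Q).card + κ * r (N k) →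
      Q ⊆ N k) :
    ∃ (B : ℕ → Finset α) (β : ℕ → α → α), Cert r S N B β ∧ (∀ k, B k ⊆ D) ∧
      (∀ k, ∀ a ∈ B k, β k a ∈ D) ∧
      ∀ k, κ * (B k).card + (D ∩ prev N k).card ≤ (D ∩ N k).card := by
  have hN : Monotone N := fun j k hjk =>
    hr.max_mono (hS hjk) (hSN j) (hSN k) (hmax j) (hmaxl k)
  have hR : ∀ k, prev N k ∪ S k ⊆ N k := fun k => union_subset (prev_sub hN k) (hSN k)
  have up : ∀ k Q, prev N k ∪ S k ⊆ Q →
      (D ∩ Q).card + κ * r (N k) ≤ (D ∩ N k).card + κ * r Q :=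
    fun k Q h => hmax k Q (subset_union_right.trans h)
  choose B hB1 hB2 hB3 hB4 using fun k => hr.layer_basis hκ (hR k) (up k)
  have hβ : ∀ k, ∃ β : α → α,
      (∀ a ∈ B k, β a ∈ D ∩ N k ∧ ¬ sp r (prev N k ∪ S k ∪ (B k).erase a) (β a)) ∧
      (k ≠ 0 → ∀ A' ⊆ B k, A'.Nonempty → ∃ a ∈ A', ¬ sp r (prev N k ∪ A') (β a)) := by
    intro k
    cases k with
    | zero =>
      exact ⟨id, fun a ha => ⟨hB1 0 ha, hr.not_sp_erase (hB2 0) ha⟩, fun h => absurd rfl h⟩
    | succ k =>
      obtain ⟨β, h1, h2⟩ := hr.exists_beta (W := D ∩ N (k + 1)) (P := prev N (k + 1))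
        (R := prev N (k + 1) ∪ S (k + 1)) (B := B (k + 1))
        (fun A hA hne => hr.peel subset_union_left (hR (k + 1))
          ((hB1 (k + 1)).trans inter_subset_right) (hB2 (k + 1)) (hB3 (k + 1)) (up (k + 1))
          (fun Q hQ h => hmaxl k Q ((hSN k).trans hQ) h) hA hne) _ (B (k + 1)) rfl (Subset.refl _)
      exact ⟨β, h1, fun _ => h2⟩
  choose β hβ1 hβ2 using hβ
  refine ⟨B, β, ⟨hN, hSN, fun k => (hB1 k).trans inter_subset_right, hB2, ?_,
    fun k a ha => ⟨(mem_inter.mp (hβ1 k a ha).1).2, (hβ1 k a ha).2⟩,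
    fun k => hβ2 (k + 1) (Nat.succ_ne_zero k)⟩, fun k => (hB1 k).trans inter_subset_left,
    fun k a ha => (mem_inter.mp (hβ1 k a ha).1).1, fun k => ?_⟩
  · intro k e
    have hsub : prev N k ∪ S k ∪ B k ⊆ N k :=
      union_subset (hR k) ((hB1 k).trans inter_subset_right)
    constructor
    · intro he
      have h1 := hr.mono _ _ (insert_subset he hsub)
      have h2 := hr.mono _ _ (subset_insert e (prev N k ∪ S k ∪ B k))
      have h3 := hB3 k
      unfold sp; omega
    · intro he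
      have h1 := hr.sp_mono hsub he
      unfold sp at h1
      refine hmaxl k (insert e (N k)) ((hSN k).trans (subset_insert _ _)) ?_ (mem_insert_self _ _)
      have h2 : (D ∩ N k).card ≤ (D ∩ insert e (N k)).card :=
        card_le_card (inter_subset_inter (Subset.refl _) (subset_insert _ _))
      rw [h1]; omega
  · have h1 := hB4 k
    have h2 : (D ∩ prev N k).card ≤ (D ∩ (prev N k ∪ S k)).card :=
      card_le_card (inter_subset_inter (Subset.refl _) subset_union_left)
    omega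

/-- **Compression**: the chain of maximal maximisers is a function of a small set and a small
multiset. -/
theorem compress [Fintype α] {ι : Type*} (hr : Rk r) {κ : ℕ} (hκ : 0 < κ) {S : ℕ → Finset α}
    (hS : Monotone S) (K : ℕ) (D : ι → Finset α) (N : ι → ℕ → Finset α)
    (hSN : ∀ d k, S k ⊆ N d k)
    (hmax : ∀ d k Q, S k ⊆ Q → (D d ∩ Q).card + κ * r (N d k) ≤ (D d ∩ N d k).card + κ * r Q)
    (hmaxl : ∀ d k Q, S k ⊆ Q →
      (D d ∩ N d k).card + κ * r Q ≤ (D d ∩ Q).card + κ * r (N d k) → Q ⊆ N d k) :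
    ∃ (Z : ι → Finset α) (m : ι → α → ℕ), (∀ d, Z d ⊆ D d) ∧ (∀ d, κ * (Z d).card ≤ (D d).card) ∧
      (∀ d x, x ∉ D d → m d x = 0) ∧ (∀ d, κ * ∑ x, m d x ≤ (D d).card) ∧
      ∀ d d', Z d = Z d' → m d = m d' → ∀ k ≤ K, N d k = N d' k := by
  choose B β hc hB hβ hs using fun d => exists_cert hr hκ hS (hSN d) (hmax d) (hmaxl d)
  have tel : ∀ d n, κ * ∑ l ∈ range n, (B d l).card ≤ (D d ∩ prev (N d) n).card := by
    intro d n
    induction n with
    | zero => simp
    | succ n ih =>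
      have := hs d n
      rw [sum_range_succ, mul_add]
      show _ ≤ (D d ∩ N d n).card
      omega
  have tot : ∀ d, κ * ∑ l ∈ range (K + 1), (B d l).card ≤ (D d).card :=
    fun d => (tel d (K + 1)).trans (card_le_card inter_subset_left)
  refine ⟨fun d => (range (K + 1)).biUnion (B d), fun d => mult K (B d) (β d), ?_, ?_, ?_, ?_, ?_⟩
  · exact fun d => biUnion_subset.mpr (fun l _ => hB d l)
  · exact fun d => (Nat.mul_le_mul_left κ card_biUnion_le).trans (tot d)
  · intro d x hx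
    unfold mult
    refine sum_eq_zero (fun l _ => ?_)
    rw [card_eq_zero, filter_eq_empty_iff]
    intro a ha h
    exact hx (h ▸ hβ d l a ha)
  · intro d
    have := sum_mult K (B d) (β d) (fun _ => True)
    simp only [filter_true] at this
    rw [this]; exact tot d
  · exact fun d d' h1 h2 => (hc d).unique hr (hc d') h1 h2

end Crest.Agent.R305.C84
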