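import Crest.Agent.R305.Bottom25

/-! Row 305, block B17: the finite core from the per-class bound. -/

set_option autoImplicit false

open Classical

namespace Crest.Agent.R305

variable {k : ℕ}

namespace B25

lemma Ex_sum {α : Type*} (p : ℝ) (s : Finset α) (f : α → Finset (Fin k) → ℝ) :
    Ex p (fun A => ∑ a ∈ s, f a A) = ∑ a ∈ s, Ex p (f a) := by
  unfold Ex
  rw [Finset.sum_comm]
  exact Finset.sum_congr rfl fun A _ => Finset.mul_sum _ _ _

lemma wt_nonneg (L m : ℕ) : 0 ≤ wt BB L m := by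
  unfold wt
  split_ifs
  · positivity
  · exact le_rfl

lemma wt_eq (L m : ℕ) (h : m ∈ Finset.Icc 1 L) : wt BB L m = (BB : ℝ)⁻¹ ^ m := by
  unfold wt
  rw [if_pos (Finset.mem_Icc.1 h)]

lemma geom (q : ℝ) (h0 : 0 ≤ q) (h1 : q ≤ 1 / 2) (i n : ℕ) :
    ∑ j ∈ Finset.Icc (i + 1) (i + n), q ^ j ≤ 2 * q * q ^ i - 2 * q * q ^ (i + n) := by
  induction n with
  | zero => simp
  | succ n ih =>
    rw [← Nat.add_assoc, Finset.sum_Icc_succ_top (by omega)]
    have h2 : 0 ≤ q ^ (i + n) := pow_nonneg h0 _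
    have h3 : q ^ (i + n + 1) = q * q ^ (i + n) := by ring
    rw [h3]
    have h4 : 0 ≤ q * q ^ (i + n) := mul_nonneg h0 h2
    nlinarith

/-- the heavier pools cost at most `2/B` of the total pool weight -/
lemma loss (L : ℕ) (U : ℕ → Finset (Fin k)) :
    ∑ j ∈ Finset.Icc 1 L, wt BB L j * (((Finset.Ico 1 j).biUnion U).card : ℝ) ≤
      2 * (BB : ℝ)⁻¹ * ∑ m ∈ Finset.Icc 1 L, wt BB L m * ((U m).card : ℝ) := by
  have hq0 : (0 : ℝ) ≤ (BB : ℝ)⁻¹ := by positivity
  have hq1 : (BB : ℝ)⁻¹ ≤ 1 / 2 := by unfold BB; norm_num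
  calc ∑ j ∈ Finset.Icc 1 L, wt BB L j * (((Finset.Ico 1 j).biUnion U).card : ℝ)
      ≤ ∑ j ∈ Finset.Icc 1 L, ∑ i ∈ Finset.Icc 1 L,
          (if i < j then wt BB L j * ((U i).card : ℝ) else 0) := by
        refine Finset.sum_le_sum fun j hj => ?_
        have h1 : (((Finset.Ico 1 j).biUnion U).card : ℝ) ≤ ∑ i ∈ Finset.Ico 1 j, ((U i).card : ℝ) := by
          exact_mod_cast Finset.card_biUnion_le
        refine (mul_le_mul_of_nonneg_left h1 (wt_nonneg L j)).trans (le_of_eq ?_)
        rw [← Finset.sum_filter, Finset.mul_sum]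
        refine Finset.sum_congr ?_ fun _ _ => rfl
        ext i
        have := Finset.mem_Icc.1 hj
        simp only [Finset.mem_Ico, Finset.mem_filter, Finset.mem_Icc]
        omega
    _ = ∑ i ∈ Finset.Icc 1 L, ∑ j ∈ Finset.Icc 1 L,
          (if i < j then wt BB L j * ((U i).card : ℝ) else 0) := Finset.sum_comm
    _ ≤ _ := by
        rw [Finset.mul_sum]
        refine Finset.sum_le_sum fun i hi => ?_
        have hi' := Finset.mem_Icc.1 hi
        rw [← Finset.sum_filter, ← Finset.sum_mul, ← mul_assoc]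
        refine mul_le_mul_of_nonneg_right ?_ (Nat.cast_nonneg _)
        have h2 : (Finset.Icc 1 L).filter (fun j => i < j) = Finset.Icc (i + 1) (i + (L - i)) := by
          ext j
          simp only [Finset.mem_filter, Finset.mem_Icc]
          omega
        have h3 : ∑ j ∈ (Finset.Icc 1 L).filter (fun j => i < j), wt BB L j =
            ∑ j ∈ Finset.Icc (i + 1) (i + (L - i)), (BB : ℝ)⁻¹ ^ j := by
          rw [← h2]
          exact Finset.sum_congr rfl fun j hj => wt_eq L j (Finset.mem_filter.1 hj).1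
        rw [h3, wt_eq L i hi]
        have h4 := geom _ hq0 hq1 i (L - i)
        have h5 : 0 ≤ 2 * (BB : ℝ)⁻¹ * (BB : ℝ)⁻¹ ^ (i + (L - i)) := by positivity
        linarith

/-- weight of a set, split by classes -/
lemma sum_wt (L : ℕ) (c : Fin k → ℕ) (A : Finset (Fin k)) :
    ∑ e ∈ A, wt BB L (c e) =
      ∑ j ∈ Finset.Icc 1 L, wt BB L j * ((A.filter (fun e => c e = j)).card : ℝ) := by
  have h : ∀ e ∈ A, wt BB L (c e) = ∑ j ∈ Finset.Icc 1 L, (if c e = j then wt BB L j else 0) := by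
    intro e _
    rw [Finset.sum_ite_eq]
    split_ifs with h
    · rfl
    · unfold wt
      rw [if_neg (fun h' => h (Finset.mem_Icc.2 h'))]
  rw [Finset.sum_congr rfl h, Finset.sum_comm]
  refine Finset.sum_congr rfl fun j _ => ?_
  rw [← Finset.sum_filter, Finset.sum_const, nsmul_eq_mul, mul_comm]

end B25

open B25 in
theorem core25 (M : Matroid (Fin k)) (hE : EXB k) (hH : GIVENH M) (hG : GREEDY M)
    (hP : POOLW M) : CORE M := by
  intro L c sel I hI hsel
  obtain ⟨-, hs2, hm2, -, hc2⟩ := hE (1 / 2) (by norm_num) (by norm_num)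
  obtain ⟨-, hst, hmt, -, hct⟩ := hE tt tt_nonneg tt_le_one
  obtain ⟨hg1, hg2, hg3, hg4⟩ := hG L c
  set G := greedy M L c Finset.univ with hGdef
  set W := ∑ e ∈ G, wt BB L (c e) with hW
  have hW0 : 0 ≤ W := Finset.sum_nonneg fun e _ => wt_nonneg _ _
  have hrhs : ∑ l, pS l * ∑ e ∈ sel l, wt BB L (c e) =
      Ex (1 / 2) (fun H => Ex (1 / 2) (fun D => Ex tt (fun T0 =>
        ∑ ep : Fin 3, (∑ e ∈ sel (H, D, T0, ep), wt BB L (c e)) / 3))) := by
    unfold Ex
    simp only [Fintype.sum_prod_type, pS, Finset.mul_sum]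
    refine Finset.sum_congr rfl fun H _ => Finset.sum_congr rfl fun D _ =>
      Finset.sum_congr rfl fun T0 _ => Finset.sum_congr rfl fun ep _ => ?_
    rw [← Finset.mul_sum]
    ring
  have key : ∀ H : Finset (Fin k),
      tt / 6 * (∑ j ∈ Finset.Icc 1 L, wt BB L j *
          (((G.filter (fun e => c e = j)).card : ℝ) - ((H ∩ G.filter (fun e => c e = j)).card : ℝ))) -
        (tt / 32 + 2 * (BB : ℝ)⁻¹) * ∑ m ∈ Finset.Icc 1 L, wt BB L m * ((UH M L c H m).card : ℝ) ≤
      Ex (1 / 2) (fun D => Ex tt (fun T0 =>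
        ∑ ep : Fin 3, (∑ e ∈ sel (H, D, T0, ep), wt BB L (c e)) / 3)) := by
    intro H
    have hj : ∀ j ∈ Finset.Icc 1 L, wt BB L j *
        ((tt / 2 * (((G.filter (fun e => c e = j)).card : ℝ) -
            ((H ∩ G.filter (fun e => c e = j)).card : ℝ)) - 3 * tt / 32 * (UH M L c H j).card) / 3 -
          (((Finset.Ico 1 j).biUnion (UH M L c H)).card : ℝ)) ≤
        wt BB L j * Ex (1 / 2) (fun D => Ex tt (fun T0 =>
          ∑ ep : Fin 3, ((sel (H, D, T0, ep) ∩ UH M L c H j).card : ℝ) / 3)) := by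
      intro j hj
      have hj' := Finset.mem_Icc.1 hj
      refine mul_le_mul_of_nonneg_left ?_ (wt_nonneg _ _)
      have hO : G.filter (fun e => c e = j) \ H ⊆ UH M L c H j := by
        intro e he
        obtain ⟨he1, he2⟩ := Finset.mem_sdiff.1 he
        obtain ⟨he3, he4⟩ := Finset.mem_filter.1 he1
        rw [← he4]
        exact hg4 H e he3 he2
      have hOI : M.Indep ((G.filter (fun e => c e = j) \ H : Finset (Fin k)) : Set (Fin k)) :=
        (hg1 Finset.univ).subset (Finset.coe_subset.2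
          (Finset.sdiff_subset.trans (Finset.filter_subset _ _)))
      have h1 := hH L (UH M L c H) _ j (fun D T0 ep => sel (H, D, T0, ep)) (hg3 H) hj'.1 hj'.2 hO hOI
        (by
          intro D T0 ep
          obtain ⟨-, a2, a3⟩ := hsel (H, D, T0, ep)
          refine ⟨a2, fun b e he hne => a3 e ?_ hne⟩
          unfold Thi at he
          obtain ⟨m, -, hm⟩ := Finset.mem_biUnion.1 he
          unfold Tband at hm
          obtain ⟨b1, b2⟩ := Finset.mem_inter.1 (Finset.mem_filter.1 hm).1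
          obtain ⟨b3, b4⟩ := Finset.mem_sdiff.1 b1
          unfold UH at b2
          have b5 := (Finset.mem_filter.1 b2).2.1
          unfold TS
          simp only [Finset.mem_sdiff, Finset.mem_union, not_or]
          exact ⟨b3, b5, b4⟩)
      have h2 : ((G.filter (fun e => c e = j) \ H).card : ℝ) =
          ((G.filter (fun e => c e = j)).card : ℝ) - ((H ∩ G.filter (fun e => c e = j)).card : ℝ) := by
        have := Finset.card_sdiff_add_card_inter (G.filter (fun e => c e = j)) H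
        rw [Finset.inter_comm H]
        have h7 : ((G.filter (fun e => c e = j) \ H).card : ℝ) +
          ((G.filter (fun e => c e = j) ∩ H).card : ℝ) = (G.filter (fun e => c e = j)).card := by
          exact_mod_cast this
        linarith
      rw [h2] at h1
      exact h1
    have h3 := Finset.sum_le_sum hj
    have h4 := loss L (UH M L c H)
    have h5 : ∑ j ∈ Finset.Icc 1 L, wt BB L j * Ex (1 / 2) (fun D => Ex tt (fun T0 =>
          ∑ ep : Fin 3, ((sel (H, D, T0, ep) ∩ UH M L c H j).card : ℝ) / 3)) ≤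
        Ex (1 / 2) (fun D => Ex tt (fun T0 =>
          ∑ ep : Fin 3, (∑ e ∈ sel (H, D, T0, ep), wt BB L (c e)) / 3)) := by
      simp only [← Ex_mul, ← Ex_sum]
      refine hm2 _ _ fun D => hmt _ _ fun T0 => ?_
      simp only [Finset.mul_sum]
      rw [Finset.sum_comm]
      refine Finset.sum_le_sum fun ep _ => ?_
      rw [sum_wt, Finset.sum_div]
      refine Finset.sum_le_sum fun j _ => ?_
      rw [mul_div_assoc]
      refine mul_le_mul_of_nonneg_left (div_le_div_of_nonneg_right ?_ (by norm_num)) (wt_nonneg _ _)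
      refine Nat.cast_le.2 (Finset.card_le_card fun e he => ?_)
      obtain ⟨b1, b2⟩ := Finset.mem_inter.1 he
      unfold UH at b2
      exact Finset.mem_filter.2 ⟨b1, (Finset.mem_filter.1 b2).2.2.2.1⟩
    refine le_trans ?_ (h3.trans h5)
    have h6 : ∑ j ∈ Finset.Icc 1 L, wt BB L j *
        ((tt / 2 * (((G.filter (fun e => c e = j)).card : ℝ) -
            ((H ∩ G.filter (fun e => c e = j)).card : ℝ)) - 3 * tt / 32 * (UH M L c H j).card) / 3 -
          (((Finset.Ico 1 j).biUnion (UH M L c H)).card : ℝ)) =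
        tt / 6 * (∑ j ∈ Finset.Icc 1 L, wt BB L j *
          (((G.filter (fun e => c e = j)).card : ℝ) - ((H ∩ G.filter (fun e => c e = j)).card : ℝ))) -
        tt / 32 * ∑ m ∈ Finset.Icc 1 L, wt BB L m * ((UH M L c H m).card : ℝ) -
        ∑ j ∈ Finset.Icc 1 L, wt BB L j * (((Finset.Ico 1 j).biUnion (UH M L c H)).card : ℝ) := by
      rw [Finset.mul_sum, Finset.mul_sum, ← Finset.sum_sub_distrib, ← Finset.sum_sub_distrib]
      exact Finset.sum_congr rfl fun j _ => by ring
    rw [h6]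
    linarith
  rw [hrhs]
  refine le_trans ?_ (hm2 _ _ key)
  rw [Ex_sub, Ex_mul, Ex_mul, Ex_sum]
  have h7 : ∑ j ∈ Finset.Icc 1 L, Ex (1 / 2) (fun H : Finset (Fin k) => wt BB L j *
      (((G.filter (fun e => c e = j)).card : ℝ) - ((H ∩ G.filter (fun e => c e = j)).card : ℝ))) =
      W / 2 := by
    rw [hW, sum_wt, Finset.sum_div]
    refine Finset.sum_congr rfl fun j _ => ?_
    rw [Ex_mul, Ex_sub, hc2, Ex_const _ _ hs2]
    ring
  rw [h7]
  have h8 := hP L c
  rw [← hGdef, ← hW] at h8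
  have h9 := hg2 I hI
  have hB : 2 * (BB : ℝ)⁻¹ = tt / 512 := by unfold BB tt; norm_num
  rw [hB]
  have h10 : (tt / 32 + tt / 512) *
      Ex (1 / 2) (fun H => ∑ m ∈ Finset.Icc 1 L, wt BB L m * ((UH M L c H m).card : ℝ)) ≤
      (tt / 32 + tt / 512) * W :=
    mul_le_mul_of_nonneg_left h8 (by linarith [tt_nonneg])
  have h11 : tt / 32 * ∑ e ∈ I, wt BB L (c e) ≤ tt / 32 * W :=
    mul_le_mul_of_nonneg_left h9 (by linarith [tt_nonneg])
  have h12 : 0 ≤ tt * W := mul_nonneg tt_nonneg hW0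
  nlinarith

end Crest.Agent.R305
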