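import Mathlib

/-! Row 305, COUNT block (abstract rank function): telescoping count and weighted loss. -/

set_option autoImplicit false

namespace Crest.Agent.R305.C82

open Finset

variable {α : Type*} [DecidableEq α]

/-- diminishing returns from submodularity -/
theorem dimin (r : Finset α → ℕ) (hmono : ∀ A B, A ⊆ B → r A ≤ r B)
    (hsub : ∀ A B, r (A ∪ B) + r (A ∩ B) ≤ r A + r B) (G S T : Finset α) (h : S ⊆ T) :
    r (T ∪ G) + r S ≤ r (S ∪ G) + r T := by
  have h1 := hsub (S ∪ G) T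
  have h2 : S ∪ G ∪ T = T ∪ G := by
    ext x; simp only [mem_union]
    constructor
    · rintro ((a | a) | a)
      · exact Or.inl (h a)
      · exact Or.inr a
      · exact Or.inl a
    · rintro (a | a)
      · exact Or.inr a
      · exact Or.inl (Or.inr a)
  have h3 : r S ≤ r ((S ∪ G) ∩ T) := hmono _ _ (by
    intro x hx; simp only [mem_inter, mem_union]; exact ⟨Or.inl hx, h hx⟩)
  rw [h2] at h1; omega

theorem r_union_le_card (r : Finset α → ℕ) (hins : ∀ e S, r (insert e S) ≤ r S + 1)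
    (S A : Finset α) : r (S ∪ A) ≤ r S + A.card := by
  induction A using Finset.induction_on with
  | empty => simp
  | insert a A ha ih =>
    rw [union_insert, card_insert_of_notMem ha]
    have := hins a (S ∪ A); omega

/-- a spanned element stays spanned by a larger set -/
theorem span_mono (r : Finset α → ℕ) (hmono : ∀ A B, A ⊆ B → r A ≤ r B)
    (hsub : ∀ A B, r (A ∪ B) + r (A ∩ B) ≤ r A + r B) (e : α) (S T : Finset α) (h : S ⊆ T)
    (he : r (insert e S) = r S) : r (insert e T) = r T := by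
  have h1 := dimin r hmono hsub {e} S T h
  have h2 : T ∪ {e} = insert e T := by ext x; simp [or_comm]
  have h3 : S ∪ {e} = insert e S := by ext x; simp [or_comm]
  rw [h2, h3] at h1
  have h4 := hmono T (insert e T) (subset_insert _ _)
  omega

/-- elementwise spanned sets do not raise the rank -/
theorem r_union_of_span (r : Finset α → ℕ) (hmono : ∀ A B, A ⊆ B → r A ≤ r B)
    (hsub : ∀ A B, r (A ∪ B) + r (A ∩ B) ≤ r A + r B) (S X : Finset α)
    (h : ∀ e ∈ X, r (insert e S) = r S) : r (S ∪ X) = r S := by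
  induction X using Finset.induction_on with
  | empty => simp
  | insert a X ha ih =>
    rw [union_insert]
    have h1 := span_mono r hmono hsub a S (S ∪ X) subset_union_left (h a (mem_insert_self _ _))
    rw [h1]; exact ih (fun e he => h e (mem_insert_of_mem he))

/-- transitivity of spanning -/
theorem span_trans (r : Finset α → ℕ) (hmono : ∀ A B, A ⊆ B → r A ≤ r B)
    (hsub : ∀ A B, r (A ∪ B) + r (A ∩ B) ≤ r A + r B) (e : α) (X S : Finset α)
    (h : ∀ x ∈ X, r (insert x S) = r S) (he : r (insert e X) = r X) :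
    r (insert e S) = r S := by
  have h1 := r_union_of_span r hmono hsub S X h
  have h2 := span_mono r hmono hsub e X (S ∪ X) subset_union_right he
  have h3 := hmono (insert e S) (insert e (S ∪ X)) (insert_subset_insert _ subset_union_left)
  have h4 := hmono S (insert e S) (subset_insert _ _)
  omega

/-- diminishing returns along spanning -/
theorem dimin_span (r : Finset α → ℕ) (hmono : ∀ A B, A ⊆ B → r A ≤ r B)
    (hsub : ∀ A B, r (A ∪ B) + r (A ∩ B) ≤ r A + r B) (G S T : Finset α)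
    (h : ∀ x ∈ S, r (insert x T) = r T) :
    r (T ∪ G) + r S ≤ r (S ∪ G) + r T := by
  have h1 := dimin r hmono hsub G S (T ∪ S) subset_union_right
  have h2 := r_union_of_span r hmono hsub T S h
  have h3 := hmono (T ∪ G) (T ∪ S ∪ G) (union_subset_union subset_union_left (Subset.refl _))
  omega

/-- coloops are independent -/
theorem card_le_of_coloops (r : Finset α → ℕ) (hmono : ∀ A B, A ⊆ B → r A ≤ r B)
    (hsub : ∀ A B, r (A ∪ B) + r (A ∩ B) ≤ r A + r B) (Y Gd : Finset α)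
    (h : ∀ e ∈ Gd, r (insert e (Y ∪ Gd.erase e)) ≠ r (Y ∪ Gd.erase e)) :
    r Y + Gd.card ≤ r (Y ∪ Gd) := by
  induction Gd using Finset.induction_on with
  | empty => simp
  | insert a X ha ih =>
    have h1 : r Y + X.card ≤ r (Y ∪ X) := by
      apply ih
      intro e he hh
      apply h e (mem_insert_of_mem he)
      refine span_mono r hmono hsub e _ _ ?_ hh
      exact union_subset_union (Subset.refl _) (erase_subset_erase _ (subset_insert _ _))
    have h2 := h a (mem_insert_self _ _)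
    rw [erase_insert ha] at h2
    have h3 := hmono (Y ∪ X) (insert a (Y ∪ X)) (subset_insert _ _)
    rw [union_insert, card_insert_of_notMem ha]
    omega

/-- ordered version: every element escapes the span of the earlier ones -/
theorem card_le_of_order {β : Type*} [LinearOrder β] (r : Finset α → ℕ)
    (hmono : ∀ A B, A ⊆ B → r A ≤ r B)
    (hsub : ∀ A B, r (A ∪ B) + r (A ∩ B) ≤ r A + r B) (key : α → β)
    (hkey : Function.Injective key) (Y Gd : Finset α)
    (h : ∀ e ∈ Gd, r (insert e (Y ∪ Gd.filter (fun f => key f < key e))) ≠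
      r (Y ∪ Gd.filter (fun f => key f < key e))) :
    r Y + Gd.card ≤ r (Y ∪ Gd) := by
  induction Gd using Finset.induction_on_max_value key with
  | empty => simp
  | insert a X ha hmax ih =>
    have h1 : r Y + X.card ≤ r (Y ∪ X) := by
      apply ih
      intro e he hh
      apply h e (mem_insert_of_mem he)
      refine span_mono r hmono hsub e _ _ ?_ hh
      exact union_subset_union (Subset.refl _) (filter_subset_filter _ (subset_insert _ _))
    have h2 := h a (mem_insert_self _ _)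
    have h4 : (insert a X).filter (fun f => key f < key a) = X := by
      ext x; simp only [mem_filter, mem_insert]
      constructor
      · rintro ⟨rfl | hx, hlt⟩
        · exact absurd hlt (lt_irrefl _)
        · exact hx
      · intro hx
        refine ⟨Or.inr hx, lt_of_le_of_ne (hmax x hx) ?_⟩
        intro hh; exact ha (hkey hh ▸ hx)
    rw [h4] at h2
    have h3 := hmono (Y ∪ X) (insert a (Y ∪ X)) (subset_insert _ _)
    rw [union_insert, card_insert_of_notMem ha]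
    omega

/-- one time `b`: `S0 = S (b-3)`, `S1 = S b`. -/
theorem one_step (r : Finset α → ℕ) (hmono : ∀ A B, A ⊆ B → r A ≤ r B)
    (hins : ∀ e S, r (insert e S) ≤ r S + 1)
    (hsub : ∀ A B, r (A ∪ B) + r (A ∩ B) ≤ r A + r B) (S0 S1 G F A Tj Tl : Finset α)
    (h01 : ∀ x ∈ S0, r (insert x S1) = r S1)
    (hF : ∀ x ∈ F, r (insert x (S0 ∪ G)) = r (S0 ∪ G))
    (hA : A ⊆ Tj ∪ Tl ∪ G)
    (hmax : ∀ x ∈ Tj, r (insert x (F ∪ A)) = r (F ∪ A))
    (hTj : ∀ x ∈ Tj, r (insert x S1) = r S1) (hTl : ∀ x ∈ Tl, r (insert x S1) = r S1) :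
    r (S0 ∪ Tl ∪ Tj) + r S0 + r (S1 ∪ G) ≤
      r (S0 ∪ Tl) + (A ∩ Tj).card + r (S0 ∪ G) + r S1 := by
  set Y := S0 ∪ Tl with hY
  set Z := Y ∪ G ∪ A ∩ Tj with hZ
  have hself : ∀ (W : Finset α) (x : α), x ∈ W → r (insert x W) = r W := by
    intro W x hx; rw [insert_eq_of_mem hx]
  have hFA : ∀ x ∈ F ∪ A, r (insert x Z) = r Z := by
    intro x hx
    rcases mem_union.1 hx with hx | hx
    · refine span_mono r hmono hsub x (S0 ∪ G) Z ?_ (hF x hx)
      intro y hy
      simp only [hZ, hY, mem_union] at hy ⊢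
      tauto
    · apply hself
      have := hA hx
      simp only [hZ, hY, mem_union, mem_inter] at this ⊢
      tauto
  have h1 : r (Z ∪ Tj) = r Z := r_union_of_span r hmono hsub Z Tj
    (fun x hx => span_trans r hmono hsub x (F ∪ A) Z hFA (hmax x hx))
  have h2 : r Z ≤ r (Y ∪ G) + (A ∩ Tj).card := r_union_le_card r hins _ _
  have h3 : r (Y ∪ Tj ∪ G) ≤ r (Z ∪ Tj) := hmono _ _ (by
    intro y hy
    simp only [hZ, mem_union] at hy ⊢
    tauto)
  have h4 := dimin r hmono hsub G S0 Y subset_union_left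
  have h5 := dimin_span r hmono hsub G (Y ∪ Tj) S1 (by
    intro x hx
    simp only [hY, mem_union] at hx
    rcases hx with (hx | hx) | hx
    · exact h01 x hx
    · exact hTl x hx
    · exact hTj x hx)
  omega

/-- telescoping over times in one residue class mod 3 -/
theorem telescope (ρ : ℕ → ℤ) (hanti : ∀ a, ρ (a + 3) ≤ ρ a) (M : ℤ) (h0 : ∀ a, 0 ≤ ρ a)
    (hM : ∀ a, ρ a ≤ M) (ε : ℕ) (Bs : Finset ℕ) (hB : ∀ b ∈ Bs, 3 ≤ b ∧ b % 3 = ε % 3) :
    ∑ b ∈ Bs, (ρ (b - 3) - ρ b) ≤ M := by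
  obtain ⟨N, hN⟩ : ∃ N, ∀ b ∈ Bs, b < N := ⟨Bs.sup id + 1, fun b hb =>
    Nat.lt_succ_of_le (Finset.le_sup (f := id) hb)⟩
  have hsub : Bs ⊆ (range N).image (fun i => ε % 3 + 3 * (i + 1)) := by
    intro b hb
    obtain ⟨h1, h2⟩ := hB b hb
    have := hN b hb
    refine mem_image.2 ⟨b / 3 - 1, mem_range.2 (by omega), by omega⟩
  have h1 : ∑ b ∈ Bs, (ρ (b - 3) - ρ b) ≤
      ∑ b ∈ (range N).image (fun i => ε % 3 + 3 * (i + 1)), (ρ (b - 3) - ρ b) := by
    apply sum_le_sum_of_subset_of_nonneg hsub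
    intro b hb _
    obtain ⟨i, _, rfl⟩ := mem_image.1 hb
    have := hanti (ε % 3 + 3 * i)
    have e1 : ε % 3 + 3 * (i + 1) - 3 = ε % 3 + 3 * i := by omega
    have e2 : ε % 3 + 3 * (i + 1) = ε % 3 + 3 * i + 3 := by omega
    rw [e1, e2]; linarith
  rw [sum_image (by intro a _ b _ h; simp only at h; omega)] at h1
  have h2 : ∑ i ∈ range N, (ρ (ε % 3 + 3 * (i + 1) - 3) - ρ (ε % 3 + 3 * (i + 1))) =
      ρ (ε % 3 + 3 * 0) - ρ (ε % 3 + 3 * N) := by
    rw [← Finset.sum_range_sub' (fun i => ρ (ε % 3 + 3 * i)) N]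
    refine sum_congr rfl fun i _ => ?_
    have e1 : ε % 3 + 3 * (i + 1) - 3 = ε % 3 + 3 * i := by omega
    rw [e1]
  have := h0 (ε % 3 + 3 * N)
  have := hM (ε % 3 + 3 * 0)
  linarith

/-- COUNT, rank form. `F b` is the set contracted for the elements born at `b`. -/
theorem count_rank (r : Finset α → ℕ) (hmono : ∀ A B, A ⊆ B → r A ≤ r B)
    (hins : ∀ e S, r (insert e S) ≤ r S + 1)
    (hsub : ∀ A B, r (A ∪ B) + r (A ∩ B) ≤ r A + r B) (S : ℕ → Finset α) (G : Finset α)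
    (F A Tj Tl : ℕ → Finset α) (ε : ℕ) (Bs : Finset ℕ)
    (hB : ∀ b ∈ Bs, 3 ≤ b ∧ b % 3 = ε % 3)
    (hS : ∀ a, ∀ x ∈ S a, r (insert x (S (a + 3))) = r (S (a + 3)))
    (hF : ∀ b ∈ Bs, ∀ x ∈ F b, r (insert x (S (b - 3) ∪ G)) = r (S (b - 3) ∪ G))
    (hA : ∀ b ∈ Bs, A b ⊆ Tj b ∪ Tl b ∪ G)
    (hmax : ∀ b ∈ Bs, ∀ x ∈ Tj b, r (insert x (F b ∪ A b)) = r (F b ∪ A b))
    (hTj : ∀ b ∈ Bs, ∀ x ∈ Tj b, r (insert x (S b)) = r (S b))
    (hTl : ∀ b ∈ Bs, ∀ x ∈ Tl b, r (insert x (S b)) = r (S b)) :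
    ∑ b ∈ Bs, ((r (S (b - 3) ∪ Tl b ∪ Tj b) : ℤ) - r (S (b - 3) ∪ Tl b)) ≤
      ∑ b ∈ Bs, ((A b ∩ Tj b).card : ℤ) + G.card := by
  have ht := telescope (fun a => (r (S a ∪ G) : ℤ) - r (S a)) (by
      intro a
      have := dimin_span r hmono hsub G (S a) (S (a + 3)) (hS a)
      omega) G.card (by
      intro a
      have := hmono (S a) (S a ∪ G) subset_union_left
      omega) (by
      intro a
      have := r_union_le_card r hins (S a) G
      omega) ε Bs hB
  have h1 : ∑ b ∈ Bs, ((r (S (b - 3) ∪ Tl b ∪ Tj b) : ℤ) - r (S (b - 3) ∪ Tl b)) ≤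
      ∑ b ∈ Bs, (((A b ∩ Tj b).card : ℤ) + (((r (S (b - 3) ∪ G) : ℤ) - r (S (b - 3))) -
        ((r (S b ∪ G) : ℤ) - r (S b)))) := by
    refine sum_le_sum fun b hb => ?_
    have h3 := (hB b hb).1
    have h01 := hS (b - 3)
    rw [show b - 3 + 3 = b by omega] at h01
    have := one_step r hmono hins hsub (S (b - 3)) (S b) G (F b) (A b) (Tj b) (Tl b) h01
      (hF b hb) (hA b hb) (hmax b hb) (hTj b hb) (hTl b hb)
    omega
  rw [sum_add_distrib] at h1
  linarith

/-- COUNT, coloop form: `Gd b ⊆ Tj b`, each element outside the span of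
`S (b-3) ∪ Tl b ∪ (Gd b - e)`. -/
theorem count_good (r : Finset α → ℕ) (hmono : ∀ A B, A ⊆ B → r A ≤ r B)
    (hins : ∀ e S, r (insert e S) ≤ r S + 1)
    (hsub : ∀ A B, r (A ∪ B) + r (A ∩ B) ≤ r A + r B) (S : ℕ → Finset α) (G : Finset α)
    (F A Tj Tl Gd : ℕ → Finset α) (ε : ℕ) (Bs : Finset ℕ)
    (hB : ∀ b ∈ Bs, 3 ≤ b ∧ b % 3 = ε % 3)
    (hS : ∀ a, ∀ x ∈ S a, r (insert x (S (a + 3))) = r (S (a + 3)))
    (hF : ∀ b ∈ Bs, ∀ x ∈ F b, r (insert x (S (b - 3) ∪ G)) = r (S (b - 3) ∪ G))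
    (hA : ∀ b ∈ Bs, A b ⊆ Tj b ∪ Tl b ∪ G)
    (hmax : ∀ b ∈ Bs, ∀ x ∈ Tj b, r (insert x (F b ∪ A b)) = r (F b ∪ A b))
    (hTj : ∀ b ∈ Bs, ∀ x ∈ Tj b, r (insert x (S b)) = r (S b))
    (hTl : ∀ b ∈ Bs, ∀ x ∈ Tl b, r (insert x (S b)) = r (S b))
    (hGd : ∀ b ∈ Bs, Gd b ⊆ Tj b)
    (hcol : ∀ b ∈ Bs, ∀ e ∈ Gd b, r (insert e (S (b - 3) ∪ Tl b ∪ (Gd b).erase e)) ≠
      r (S (b - 3) ∪ Tl b ∪ (Gd b).erase e)) :
    ∑ b ∈ Bs, (Gd b).card ≤ ∑ b ∈ Bs, (A b ∩ Tj b).card + G.card := by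
  have h1 := count_rank r hmono hins hsub S G F A Tj Tl ε Bs hB hS hF hA hmax hTj hTl
  have h2 : ∑ b ∈ Bs, ((Gd b).card : ℤ) ≤
      ∑ b ∈ Bs, ((r (S (b - 3) ∪ Tl b ∪ Tj b) : ℤ) - r (S (b - 3) ∪ Tl b)) := by
    refine sum_le_sum fun b hb => ?_
    have h3 := card_le_of_coloops r hmono hsub _ _ (hcol b hb)
    have h4 := hmono (S (b - 3) ∪ Tl b ∪ Gd b) (S (b - 3) ∪ Tl b ∪ Tj b)
      (union_subset_union (Subset.refl _) (hGd b hb))
    omega
  have h3 : ((∑ b ∈ Bs, (Gd b).card : ℕ) : ℤ) ≤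
      ((∑ b ∈ Bs, (A b ∩ Tj b).card + G.card : ℕ) : ℤ) := by
    push_cast; linarith
  exact_mod_cast h3

/-- geometric tail -/
theorem geom_tail (B : ℝ) (hB : 2 ≤ B) (i L : ℕ) :
    ∑ j ∈ (range (L + 1)).filter (fun j => i < j), (B⁻¹) ^ j ≤ 2 / B * (B⁻¹) ^ i := by
  have hpos : 0 < B := by linarith
  have hq0 : 0 ≤ B⁻¹ := by positivity
  have hq : B⁻¹ ≤ 1 / 2 := by rw [inv_eq_one_div]; exact one_div_le_one_div_of_le (by norm_num) hB
  have key : ∀ n : ℕ, ∑ j ∈ (range n).filter (fun j => i < j), (B⁻¹) ^ j + 2 * (B⁻¹) ^ (max n (i + 1))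
      ≤ 2 * (B⁻¹) ^ (i + 1) := by
    intro n
    induction n with
    | zero => simp
    | succ n ih =>
      rw [range_add_one, filter_insert]
      split_ifs with h
      · rw [sum_insert (by simp)]
        have e1 : max n (i + 1) = n := by omega
        have e2 : max (n + 1) (i + 1) = n + 1 := by omega
        rw [e1] at ih; rw [e2, pow_succ]
        have : 0 ≤ (B⁻¹) ^ n := by positivity
        nlinarith
      · have e1 : max n (i + 1) = i + 1 := by omega
        have e2 : max (n + 1) (i + 1) = i + 1 := by omega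
        rw [e1] at ih; rw [e2]; exact ih
  have h1 := key (L + 1)
  have h2 : 0 ≤ 2 * (B⁻¹) ^ (max (L + 1) (i + 1)) := by positivity
  have h3 : 2 / B * (B⁻¹) ^ i = 2 * (B⁻¹) ^ (i + 1) := by rw [pow_succ]; field_simp
  linarith

/-- weighted loss of the heavier classes -/
theorem loss_le (B : ℝ) (hB : 2 ≤ B) (L : ℕ) (J : Finset ℕ) (hJ : ∀ j ∈ J, j ≤ L)
    (U : Finset α) (c : α → ℕ) :
    ∑ j ∈ J, (B⁻¹) ^ j * ((U.filter (fun e => c e < j)).card : ℝ) ≤
      2 / B * ∑ e ∈ U, (B⁻¹) ^ (c e) := by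
  have hpos : 0 < B := by linarith
  have h1 : ∀ j, (B⁻¹) ^ j * ((U.filter (fun e => c e < j)).card : ℝ) =
      ∑ e ∈ U, if c e < j then (B⁻¹) ^ j else 0 := by
    intro j
    rw [← sum_filter, sum_const, nsmul_eq_mul, mul_comm]
  simp_rw [h1]
  rw [sum_comm, mul_sum]
  refine sum_le_sum fun e _ => ?_
  rw [← sum_filter]
  refine le_trans ?_ (geom_tail B hB (c e) L)
  apply sum_le_sum_of_subset_of_nonneg
  · intro j hj
    rw [mem_filter] at hj ⊢
    exact ⟨mem_range.2 (Nat.lt_succ_of_le (hJ j hj.1)), hj.2⟩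
  · intro j _ _; positivity

end Crest.Agent.R305.C82
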