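import Crest.Agent.R305.RGDefs55
import Crest.Agent.R305.Count82

/-! Row 305, block B6 (COUNT) of `RGDefs55`. -/

set_option autoImplicit false

open Classical

namespace Crest.Agent.R305

variable {k : ℕ}

theorem birth_unique82 (M : Matroid (Fin k)) (h4 : NCHAIN M) (L : ℕ) (U : ℕ → Finset (Fin k))
    (D T0 : Finset (Fin k)) (j : ℕ) (hj1 : 1 ≤ j) (hjL : j ≤ L) (b b' : ℕ) (x : Fin k)
    (hb : x ∈ Tband M L U D T0 j b) (hb' : x ∈ Tband M L U D T0 j b') : b = b' := by
  have hmono := (h4 L U D T0 j hj1 hjL).2.1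
  simp only [Tband, Finset.mem_filter] at hb hb'
  rcases lt_trichotomy b b' with h | h | h
  · exact absurd (hmono b (b' - 1) (by omega) hb.2.1) hb'.2.2
  · exact h
  · exact absurd (hmono b' (b - 1) (by omega) hb'.2.1) hb.2.2

theorem mem_Thi82 (M : Matroid (Fin k)) (L : ℕ) (U : ℕ → Finset (Fin k))
    (D T0 : Finset (Fin k)) (j b : ℕ) (x : Fin k) :
    x ∈ Thi M L U D T0 j b ↔ ∃ m, j + 1 ≤ m ∧ m ≤ L ∧ 3 * m + 2 ≤ b ∧ x ∈ Tband M L U D T0 m b := by
  simp only [Thi, Finset.mem_biUnion, Finset.mem_filter, Finset.mem_Icc]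
  constructor
  · rintro ⟨m, ⟨⟨h1, h2⟩, h3⟩, h4⟩; exact ⟨m, h1, h2, h3, h4⟩
  · rintro ⟨m, h1, h2, h3, h4⟩; exact ⟨m, ⟨⟨h1, h2⟩, h3⟩, h4⟩

theorem Tband_subset82 (M : Matroid (Fin k)) (L : ℕ) (U : ℕ → Finset (Fin k))
    (D T0 : Finset (Fin k)) (m b : ℕ) (x : Fin k) (h : x ∈ Tband M L U D T0 m b) :
    x ∈ U m ∧ x ∈ Nm M L U D T0 m b := by
  simp only [Tband, Finset.mem_filter, Finset.mem_inter] at h
  exact ⟨h.1.2, h.2.1⟩

theorem count82 (M : Matroid (Fin k)) (h1 : RANK M) (h3 : CHAIN M) (h4 : NCHAIN M) : COUNT M := by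
  intro L U D T0 ep A j hP hj1 hjL hJ hmaxA
  obtain ⟨rmono, rsub, rcl, rins1, rins0, rcard, -, -, -⟩ := h1
  obtain ⟨-, -, c3, -, -, c6⟩ := h3 L U D (Cg D T0)
  obtain ⟨n1, n2, n3, -, n5, -, -⟩ := h4 L U D T0 j hj1 hjL
  set r : Finset (Fin k) → ℕ := fun X => rk M (X : Set (Fin k)) with hr
  have hmono : ∀ X Y : Finset (Fin k), X ⊆ Y → r X ≤ r Y := fun X Y h =>
    rmono _ _ (Finset.coe_subset.2 h)
  have hsub : ∀ X Y : Finset (Fin k), r (X ∪ Y) + r (X ∩ Y) ≤ r X + r Y := by
    intro X Y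
    have := rsub (X : Set (Fin k)) (Y : Set (Fin k))
    simpa only [hr, Finset.coe_union, Finset.coe_inter] using this
  have hins : ∀ (e : Fin k) (X : Finset (Fin k)), r (insert e X) ≤ r X + 1 := by
    intro e X
    have := rcard (X : Set (Fin k)) {e}
    simp only [Finset.card_singleton, Finset.coe_singleton, Set.union_singleton] at this
    simpa only [hr, Finset.coe_insert] using this
  have hsp : ∀ (e : Fin k) (X : Finset (Fin k)), e ∈ M.closure (X : Set (Fin k)) →
      r (insert e X) = r X := by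
    intro e X he
    simpa only [hr, Finset.coe_insert] using rins0 _ e he
  let toF : Set (Fin k) → Finset (Fin k) := fun X => Finset.univ.filter (fun x => x ∈ X)
  have hco : ∀ X, ((toF X : Finset (Fin k)) : Set (Fin k)) = X := by
    intro X; ext x; simp [toF]
  have hmem : ∀ X x, x ∈ toF X ↔ x ∈ X := by intro X x; simp [toF]
  set G : Finset (Fin k) := (Finset.Ico 1 j).biUnion U with hG
  set Bs := (times L j).filter (fun b => b % 3 = ep.val) with hBs
  have hBs' : ∀ b ∈ Bs, 3 * j + 2 ≤ b ∧ b ≤ 3 * L + 3 ∧ b % 3 = ep.val := by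
    intro b hb
    simp only [hBs, times, Finset.mem_filter, Finset.mem_Icc] at hb
    exact ⟨hb.1.1, hb.1.2, hb.2⟩
  have hself : ∀ (t : ℕ) (x : Fin k), x ∈ Nm M L U D T0 j t →
      r (insert x (toF (Nm M L U D T0 j t))) = r (toF (Nm M L U D T0 j t)) := by
    intro t x hx
    rw [Finset.insert_eq_of_mem ((hmem _ _).2 hx)]
  have key := C82.count_rank r hmono hins hsub (fun a => toF (Nm M L U D T0 j (a + 1))) G
    (fun b => toF (Ff M L U D T0 (b - 3))) (fun b => A ∩ Thi M L U D T0 0 b)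
    (fun b => Tband M L U D T0 j b) (fun b => Thi M L U D T0 j b) ep.val Bs
    (by
      intro b hb
      obtain ⟨a1, a2, a3⟩ := hBs' b hb
      have := ep.isLt
      omega)
    (by
      intro a x hx
      exact hself _ x (n2 (a + 1) (a + 3 + 1) (by omega) ((hmem _ _).1 hx)))
    (by
      intro b hb x hx
      apply hsp
      rw [Finset.coe_union, hco]
      have h5 := c6 j (b - 3) hj1 hjL ((hmem _ _).1 hx)
      exact M.closure_subset_closure (Set.union_subset_union_left _ (n5 (b - 3))) h5)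
    (by
      intro b hb x hx
      obtain ⟨m, m1, m2, m3, m4⟩ := (mem_Thi82 M L U D T0 0 b x).1 (Finset.mem_inter.1 hx).2
      simp only [Finset.mem_union]
      rcases lt_trichotomy m j with h | h | h
      · right
        exact Finset.mem_biUnion.2 ⟨m, Finset.mem_Ico.2 ⟨m1, h⟩, (Tband_subset82 M L U D T0 m b x m4).1⟩
      · left; left; rw [← h]; exact m4
      · left; right
        exact (mem_Thi82 M L U D T0 j b x).2 ⟨m, h, m2, m3, m4⟩)
    (by
      intro b hb x hx
      obtain ⟨a1, a2, a3⟩ := hBs' b hb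
      have hx0 : x ∈ Thi M L U D T0 0 b := (mem_Thi82 M L U D T0 0 b x).2 ⟨j, hj1, hjL, a1, hx⟩
      by_cases hxA : x ∈ A
      · rw [Finset.insert_eq_of_mem]
        exact Finset.mem_union_right _ (Finset.mem_inter.2 ⟨hxA, hx0⟩)
      have hxU := (Tband_subset82 M L U D T0 j b x hx).1
      have hxE : x ∈ M.E := hP.1 j hxU
      apply hsp
      by_contra hcl
      apply hmaxA b x hx0 hxA
      refine ⟨?_, ?_⟩
      · intro y hy
        rcases Finset.mem_insert.1 hy with rfl | hy
        · exact ⟨b, a2, a3, hx0⟩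
        · exact hJ.1 y hy
      · intro b'
        by_cases hx' : x ∈ Thi M L U D T0 0 b'
        · obtain ⟨m, m1, m2, m3, m4⟩ := (mem_Thi82 M L U D T0 0 b' x).1 hx'
          have hmj : m = j := by
            by_contra hne
            exact Finset.disjoint_left.1 (hP.2 m j hne) (Tband_subset82 M L U D T0 m b' x m4).1 hxU
          subst hmj
          have hbb := birth_unique82 M h4 L U D T0 m hj1 hjL b b' x hx m4
          subst hbb
          rw [Finset.insert_inter_of_mem hx0, Finset.card_insert_of_notMem (by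
            intro hh; exact hxA (Finset.mem_inter.1 hh).1), Finset.coe_insert, Set.union_insert]
          rw [Finset.coe_union, hco] at hcl
          rw [rins1 _ x hxE hcl, hJ.2 b]; ring
        · rw [Finset.insert_inter_of_notMem hx']; exact hJ.2 b')
    (by
      intro b hb x hx
      exact hself _ x (n2 b (b + 1) (by omega) (Tband_subset82 M L U D T0 j b x hx).2))
    (by
      intro b hb x hx
      obtain ⟨m, m1, m2, m3, m4⟩ := (mem_Thi82 M L U D T0 j b x).1 hx
      have h5 := (h4 L U D T0 m (by omega) m2).2.2.2.1 b (Tband_subset82 M L U D T0 m b x m4).2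
      exact hself _ x (n2 b (b + 1) (by omega) (n3 b (c3 _ _ b (by omega) h5))))
  have hcard : ∑ b ∈ Bs, ((A ∩ Thi M L U D T0 0 b) ∩ Tband M L U D T0 j b).card ≤
      (A ∩ U j).card := by
    rw [← Finset.card_biUnion]
    · apply Finset.card_le_card
      intro x hx
      obtain ⟨b, _, hx⟩ := Finset.mem_biUnion.1 hx
      simp only [Finset.mem_inter] at hx ⊢
      exact ⟨hx.1.1, (Tband_subset82 M L U D T0 j b x hx.2).1⟩
    · intro b _ b' _ hne
      refine Finset.disjoint_left.2 fun x hx hx' => hne ?_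
      exact birth_unique82 M h4 L U D T0 j hj1 hjL b b' x (Finset.mem_inter.1 hx).2
        (Finset.mem_inter.1 hx').2
  have hg : ∑ b ∈ Bs, gain M L U D T0 j b =
      ((∑ b ∈ Bs, ((r (toF (Nm M L U D T0 j (b - 3 + 1)) ∪ Thi M L U D T0 j b ∪
        Tband M L U D T0 j b) : ℤ) - r (toF (Nm M L U D T0 j (b - 3 + 1)) ∪
          Thi M L U D T0 j b)) : ℤ) : ℝ) := by
    push_cast
    refine Finset.sum_congr rfl fun b hb => ?_
    obtain ⟨a1, a2, a3⟩ := hBs' b hb
    have e1 : b - 3 + 1 = b - 2 := by omega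
    simp only [gain, hr, Finset.coe_union, hco, e1]
  rw [hg]
  have h7 : (∑ b ∈ Bs, (((A ∩ Thi M L U D T0 0 b) ∩ Tband M L U D T0 j b).card : ℤ)) ≤
      ((A ∩ U j).card : ℤ) := by exact_mod_cast hcard
  have h8 := le_trans key (add_le_add_left h7 (G.card : ℤ))
  exact_mod_cast h8

end Crest.Agent.R305
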