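import Mathlib

/-! Count-vector lemma: a timed generator schedule over a fixed chain of sets is determined
(as far as the entering pieces go) by the generator set and the sizes of the pieces. -/

set_option autoImplicit false
open Classical

namespace Crest.Agent.R305.CV

variable {α : Type*}

/-- the flat just before generator `g` is inserted -/
def Fl (M : Matroid α) (S : ℕ → Set α) (G : Finset α) (τ pos : α → ℕ) (g : α) : Set α :=
  M.closure (S (τ g) ∪ {x | x ∈ G ∧ pos x < pos g})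

/-- the elements of `U` entering when `g` is inserted -/
noncomputable def Pc (M : Matroid α) (S : ℕ → Set α) (U G : Finset α) (τ pos : α → ℕ) (g : α) :
    Finset α :=
  U.filter (fun e => e ∈ M.closure (insert g (Fl M S G τ pos g)) ∧ e ∉ Fl M S G τ pos g)

structure Valid (M : Matroid α) (S : ℕ → Set α) (U G : Finset α) (τ pos : α → ℕ) : Prop where
  sub : G ⊆ U
  inj : ∀ a ∈ G, ∀ b ∈ G, pos a = pos b → a = b
  mono : ∀ a ∈ G, ∀ b ∈ G, pos a < pos b → τ a ≤ τ b
  nl : ∀ g ∈ G, g ∉ Fl M S G τ pos g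

theorem exch (M : Matroid α) {X : Set α} {e g : α} (h1 : e ∈ M.closure (insert g X))
    (h2 : e ∉ M.closure X) : g ∈ M.closure (insert e X) :=
  (M.closure_exchange ⟨h1, h2⟩).1

theorem cl_insert_cl (M : Matroid α) (g : α) (X : Set α) :
    M.closure (insert g (M.closure X)) = M.closure (insert g X) := by
  simp

theorem Fl_mono_G (M : Matroid α) (S : ℕ → Set α) {G G' : Finset α} (h : G' ⊆ G)
    (τ pos : α → ℕ) (g : α) : Fl M S G' τ pos g ⊆ Fl M S G τ pos g := by
  unfold Fl
  apply M.closure_subset_closure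
  apply Set.union_subset_union_right
  intro x hx
  exact ⟨h hx.1, hx.2⟩

theorem Valid.erase {M : Matroid α} {S : ℕ → Set α} {U G : Finset α} {τ pos : α → ℕ}
    (h : Valid M S U G τ pos) (g : α) : Valid M S U (G.erase g) τ pos where
  sub := (Finset.erase_subset _ _).trans h.sub
  inj := fun a ha b hb => h.inj a (Finset.mem_of_mem_erase ha) b (Finset.mem_of_mem_erase hb)
  mono := fun a ha b hb => h.mono a (Finset.mem_of_mem_erase ha) b (Finset.mem_of_mem_erase hb)
  nl := fun a ha hh => h.nl a (Finset.mem_of_mem_erase ha)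
    (Fl_mono_G M S (Finset.erase_subset _ _) τ pos a hh)

/-- if the flat grows and `g` stays outside, the piece grows -/
theorem piece_mono (M : Matroid α) {X Y : Set α} (hXY : M.closure X ⊆ M.closure Y) {g e : α}
    (hg : g ∉ M.closure Y) (h1 : e ∈ M.closure (insert g (M.closure X))) (h2 : e ∉ M.closure X) :
    e ∈ M.closure (insert g (M.closure Y)) ∧ e ∉ M.closure Y := by
  refine ⟨M.closure_subset_closure (Set.insert_subset_insert hXY) h1, fun he => hg ?_⟩
  have h3 : g ∈ M.closure (insert e (M.closure X)) := exch M h1 (by simpa using h2)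
  have h4 : insert e (M.closure X) ⊆ M.closure Y := Set.insert_subset he hXY
  have := M.closure_subset_closure h4 h3
  simpa using this

/-- pieces of different generators are disjoint -/
theorem piece_sub_later {M : Matroid α} {S : ℕ → Set α} (hS : Monotone S) {U G : Finset α}
    {τ pos : α → ℕ} (h : Valid M S U G τ pos) {a b : α} (ha : a ∈ G) (hb : b ∈ G)
    (hab : pos a < pos b) : M.closure (insert a (Fl M S G τ pos a)) ⊆ Fl M S G τ pos b := by
  unfold Fl
  rw [cl_insert_cl]
  apply M.closure_subset_closure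
  intro x hx
  rcases hx with rfl | hx | hx
  · exact Or.inr ⟨ha, hab⟩
  · exact Or.inl (hS (h.mono a ha b hb hab) hx)
  · exact Or.inr ⟨hx.1, hx.2.trans hab⟩

theorem piece_disj {M : Matroid α} {S : ℕ → Set α} (hS : Monotone S) {U G : Finset α}
    {τ pos : α → ℕ} (h : Valid M S U G τ pos) {a b : α} (ha : a ∈ G) (hb : b ∈ G)
    (hab : a ≠ b) : Disjoint (Pc M S U G τ pos a) (Pc M S U G τ pos b) := by
  rw [Finset.disjoint_left]
  intro e hea heb
  simp only [Pc, Finset.mem_filter] at hea heb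
  rcases lt_trichotomy (pos a) (pos b) with hl | hl | hl
  · exact heb.2.2 (piece_sub_later hS h ha hb hl hea.2.1)
  · exact hab (h.inj a ha b hb hl)
  · exact hea.2.2 (piece_sub_later hS h hb ha hl heb.2.1)

/-- one induction step, with the first schedule having the latest last item -/
theorem step {M : Matroid α} {S : ℕ → Set α} (hS : Monotone S) {U G : Finset α}
    {τ₁ p₁ τ₂ p₂ : α → ℕ} (h₁ : Valid M S U G τ₁ p₁) (h₂ : Valid M S U G τ₂ p₂)
    {g : α} (hg : g ∈ G) (hlast : ∀ a ∈ G, p₁ a ≤ p₁ g) (htime : ∀ a ∈ G, τ₂ a ≤ τ₁ g)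
    (hc : (Pc M S U G τ₁ p₁ g).card = (Pc M S U G τ₂ p₂ g).card) :
    Pc M S U G τ₁ p₁ g = Pc M S U G τ₂ p₂ g ∧
    (∀ a ∈ G.erase g, Pc M S U (G.erase g) τ₁ p₁ a = Pc M S U G τ₁ p₁ a) ∧
    (∀ a ∈ G.erase g, Pc M S U (G.erase g) τ₂ p₂ a = Pc M S U G τ₂ p₂ a) := by
  have hlt : ∀ a ∈ G, a ≠ g → p₁ a < p₁ g := fun a ha hne =>
    lt_of_le_of_ne (hlast a ha) (fun hh => hne (h₁.inj a ha g hg hh))
  have hsub : ∀ a ∈ G, ∀ (Z : Set α), Z ⊆ {x | x ∈ G ∧ x ≠ g} →
      S (τ₂ a) ∪ Z ⊆ S (τ₁ g) ∪ {x | x ∈ G ∧ p₁ x < p₁ g} := by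
    intro a ha Z hZ x hx
    rcases hx with hx | hx
    · exact Or.inl (hS (htime a ha) hx)
    · exact Or.inr ⟨(hZ hx).1, hlt x (hZ hx).1 (hZ hx).2⟩
  have hF : Fl M S G τ₂ p₂ g ⊆ Fl M S G τ₁ p₁ g := by
    unfold Fl
    apply M.closure_subset_closure
    apply hsub g hg
    intro x hx
    exact ⟨hx.1, fun hh => by rw [hh] at hx; exact lt_irrefl _ hx.2⟩
  have hP : Pc M S U G τ₂ p₂ g ⊆ Pc M S U G τ₁ p₁ g := by
    intro e he
    simp only [Pc, Finset.mem_filter] at he ⊢
    exact ⟨he.1, piece_mono M hF (h₁.nl g hg) he.2.1 he.2.2⟩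
  have hEq : Pc M S U G τ₁ p₁ g = Pc M S U G τ₂ p₂ g :=
    (Finset.eq_of_subset_of_card_le hP hc.le).symm
  refine ⟨hEq, ?_, ?_⟩
  · intro a ha
    have hFa : Fl M S (G.erase g) τ₁ p₁ a = Fl M S G τ₁ p₁ a := by
      unfold Fl
      congr 2
      ext x
      simp only [Set.mem_ofPred_eq, Finset.mem_erase]
      constructor
      · rintro ⟨⟨_, h⟩, h'⟩; exact ⟨h, h'⟩
      · rintro ⟨h, h'⟩
        refine ⟨⟨?_, h⟩, h'⟩
        rintro rfl
        exact absurd h' (not_lt.mpr (hlast a (Finset.mem_of_mem_erase ha)))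
    unfold Pc
    rw [hFa]
  · intro a ha
    have haG : a ∈ G := Finset.mem_of_mem_erase ha
    have hag : a ≠ g := Finset.ne_of_mem_erase ha
    have hFa : Fl M S (G.erase g) τ₂ p₂ a ⊆ Fl M S G τ₂ p₂ a :=
      Fl_mono_G M S (Finset.erase_subset _ _) τ₂ p₂ a
    apply Finset.Subset.antisymm
    · intro e he
      simp only [Pc, Finset.mem_filter] at he ⊢
      exact ⟨he.1, piece_mono M hFa (h₂.nl a haG) he.2.1 he.2.2⟩
    · intro e he
      have he' := he
      simp only [Pc, Finset.mem_filter] at he ⊢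
      refine ⟨he.1, ?_, fun hh => he.2.2 (hFa hh)⟩
      by_contra hne
      -- e is spanned only with the help of g
      set X : Set α := insert a (S (τ₂ a) ∪ {x | x ∈ G.erase g ∧ p₂ x < p₂ a}) with hX
      have hne' : e ∉ M.closure X := by
        intro hh; apply hne; unfold Fl; rw [cl_insert_cl]; exact hh
      have h1 : e ∈ M.closure (insert g X) := by
        have := he.2.1
        unfold Fl at this
        rw [cl_insert_cl] at this
        refine M.closure_subset_closure ?_ this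
        intro x hx
        rcases hx with rfl | hx | hx
        · exact Or.inr (Or.inl rfl)
        · exact Or.inr (Or.inr (Or.inl hx))
        · by_cases hxg : x = g
          · exact Or.inl hxg
          · exact Or.inr (Or.inr (Or.inr ⟨Finset.mem_erase.mpr ⟨hxg, hx.1⟩, hx.2⟩))
      have h2 : g ∈ M.closure (insert e X) := exch M h1 hne'
      have hXsub : X ⊆ S (τ₁ g) ∪ {x | x ∈ G ∧ p₁ x < p₁ g} := by
        have := hsub a haG (insert a {x | x ∈ G.erase g ∧ p₂ x < p₂ a}) (by
          intro x hx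
          rcases hx with rfl | hx
          · exact ⟨haG, hag⟩
          · exact ⟨Finset.mem_of_mem_erase hx.1, Finset.ne_of_mem_erase hx.1⟩)
        intro x hx
        apply this
        rcases hx with rfl | hx | hx
        · exact Or.inr (Or.inl rfl)
        · exact Or.inl hx
        · exact Or.inr (Or.inr hx)
      have h3 : e ∉ Fl M S G τ₁ p₁ g := by
        intro hh
        apply h₁.nl g hg
        have h4 : M.closure (insert e X) ⊆ Fl M S G τ₁ p₁ g := by
          have h5 : M.closure (insert e X) ⊆ M.closure (insert e (Fl M S G τ₁ p₁ g)) := by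
            unfold Fl
            rw [cl_insert_cl]
            exact M.closure_subset_closure (Set.insert_subset_insert hXsub)
          rw [Set.insert_eq_of_mem hh] at h5
          unfold Fl at h5 ⊢
          simpa using h5
        exact h4 h2
      have h6 : e ∈ Pc M S U G τ₁ p₁ g := by
        simp only [Pc, Finset.mem_filter]
        refine ⟨he.1, ?_, h3⟩
        unfold Fl
        rw [cl_insert_cl]
        exact M.closure_subset_closure (Set.insert_subset_insert hXsub) h1
      rw [hEq] at h6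
      exact Finset.disjoint_left.mp (piece_disj hS h₂ hg haG hag.symm) h6 he'

theorem countvec {M : Matroid α} {S : ℕ → Set α} (hS : Monotone S) {U : Finset α}
    {τ₁ p₁ τ₂ p₂ : α → ℕ} : ∀ (n : ℕ) (G : Finset α), G.card = n →
      Valid M S U G τ₁ p₁ → Valid M S U G τ₂ p₂ →
      (∀ g ∈ G, (Pc M S U G τ₁ p₁ g).card = (Pc M S U G τ₂ p₂ g).card) →
      ∀ g ∈ G, Pc M S U G τ₁ p₁ g = Pc M S U G τ₂ p₂ g := by
  intro n
  induction n with
  | zero =>
    intro G hG _ _ _ g hg
    rw [Finset.card_eq_zero] at hG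
    simp [hG] at hg
  | succ n ih =>
    intro G hG h₁ h₂ hc
    have hne : G.Nonempty := Finset.card_pos.mp (by omega)
    obtain ⟨g₁, hg₁, hl₁⟩ := Finset.exists_max_image G p₁ hne
    obtain ⟨g₂, hg₂, hl₂⟩ := Finset.exists_max_image G p₂ hne
    have ht₁ : ∀ a ∈ G, τ₁ a ≤ τ₁ g₁ := by
      intro a ha
      rcases (hl₁ a ha).lt_or_eq with h | h
      · exact h₁.mono a ha g₁ hg₁ h
      · rw [h₁.inj a ha g₁ hg₁ h]
    have ht₂ : ∀ a ∈ G, τ₂ a ≤ τ₂ g₂ := by
      intro a ha
      rcases (hl₂ a ha).lt_or_eq with h | h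
      · exact h₂.mono a ha g₂ hg₂ h
      · rw [h₂.inj a ha g₂ hg₂ h]
    have key : ∀ g₀ ∈ G, Pc M S U G τ₁ p₁ g₀ = Pc M S U G τ₂ p₂ g₀ →
        (∀ a ∈ G.erase g₀, Pc M S U (G.erase g₀) τ₁ p₁ a = Pc M S U G τ₁ p₁ a) →
        (∀ a ∈ G.erase g₀, Pc M S U (G.erase g₀) τ₂ p₂ a = Pc M S U G τ₂ p₂ a) →
        ∀ g ∈ G, Pc M S U G τ₁ p₁ g = Pc M S U G τ₂ p₂ g := by
      intro g₀ hg₀ e0 e1 e2 g hg
      by_cases hgg : g = g₀
      · rw [hgg]; exact e0
      · have hge : g ∈ G.erase g₀ := Finset.mem_erase.mpr ⟨hgg, hg⟩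
        rw [← e1 g hge, ← e2 g hge]
        refine ih (G.erase g₀) (by rw [Finset.card_erase_of_mem hg₀]; omega)
          (h₁.erase g₀) (h₂.erase g₀) ?_ g hge
        intro a ha
        rw [e1 a ha, e2 a ha]
        exact hc a (Finset.mem_of_mem_erase ha)
    rcases le_total (τ₂ g₂) (τ₁ g₁) with h | h
    · obtain ⟨e0, e1, e2⟩ := step hS h₁ h₂ hg₁ hl₁ (fun a ha => (ht₂ a ha).trans h) (hc g₁ hg₁)
      exact key g₁ hg₁ e0 e1 e2
    · obtain ⟨e0, e1, e2⟩ := step hS h₂ h₁ hg₂ hl₂ (fun a ha => (ht₁ a ha).trans h)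
        (hc g₂ hg₂).symm
      exact key g₂ hg₂ e0.symm e2 e1

end Crest.Agent.R305.CV
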