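import Mathlib

set_option autoImplicit false
set_option linter.unusedSectionVars false

namespace Crest.Agent.R305.E10

open Finset

variable {α : Type*} [Fintype α] [DecidableEq α]

/-- abstract rank function -/
structure RkH (r : Finset α → ℕ) : Prop where
  empty : r ∅ = 0
  mono : ∀ S T : Finset α, S ⊆ T → r S ≤ r T
  ins : ∀ (e : α) (S : Finset α), r (insert e S) ≤ r S + 1
  sub : ∀ S T : Finset α, r (S ∪ T) + r (S ∩ T) ≤ r S + r T

/-- closure -/
def cl (r : Finset α → ℕ) (S : Finset α) : Finset α :=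
  univ.filter (fun e => r (insert e S) = r S)

variable {r : Finset α → ℕ}

theorem mem_cl {S : Finset α} {e : α} : e ∈ cl r S ↔ r (insert e S) = r S := by
  simp [cl]

theorem subset_cl (S : Finset α) : S ⊆ cl r S := by
  intro e he
  rw [mem_cl, insert_eq_of_mem he]

theorem cl_mono (h : RkH r) {S T : Finset α} (hST : S ⊆ T) : cl r S ⊆ cl r T := by
  intro e he
  rw [mem_cl] at he ⊢
  have h1 := h.sub (insert e S) T
  have h2 : insert e S ∪ T = insert e T := by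
    rw [insert_union, union_eq_right.2 hST]
  have h3 : r S ≤ r (insert e S ∩ T) :=
    h.mono _ _ (subset_inter (subset_insert _ _) hST)
  have h4 : r T ≤ r (insert e T) := h.mono _ _ (subset_insert _ _)
  rw [h2] at h1
  omega

theorem r_union_of_subset_cl (h : RkH r) (S X : Finset α) (hX : X ⊆ cl r S) :
    r (S ∪ X) = r S := by
  induction X using Finset.induction_on with
  | empty => simp
  | insert e X _ ih =>
    have hX' : X ⊆ cl r S := fun a ha => hX (mem_insert_of_mem ha)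
    have he : e ∈ cl r (S ∪ X) := cl_mono h subset_union_left (hX (mem_insert_self _ _))
    rw [mem_cl] at he
    rw [union_insert, he, ih hX']

theorem r_cl (h : RkH r) (S : Finset α) : r (cl r S) = r S := by
  have := r_union_of_subset_cl h S (cl r S) Subset.rfl
  rwa [union_eq_right.2 (subset_cl S)] at this

theorem subset_cl_of_r_le (h : RkH r) {S N : Finset α} (hSN : S ⊆ N) (hr : r N ≤ r S) :
    N ⊆ cl r S := by
  intro e he
  rw [mem_cl]
  have h1 : r (insert e S) ≤ r N := h.mono _ _ (insert_subset he hSN)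
  have h2 : r S ≤ r (insert e S) := h.mono _ _ (subset_insert _ _)
  omega

theorem cl_cl (h : RkH r) (S : Finset α) : cl r (cl r S) = cl r S := by
  apply Subset.antisymm _ (subset_cl _)
  apply subset_cl_of_r_le h ((subset_cl S).trans (subset_cl _))
  rw [r_cl h, r_cl h]

theorem cl_subset_cl (h : RkH r) {S T : Finset α} (hST : S ⊆ cl r T) : cl r S ⊆ cl r T := by
  have := cl_mono h hST
  rwa [cl_cl h] at this

/-- potential with natural weights -/
def phi (r : Finset α → ℕ) (y : α → ℕ) (kap : ℕ) (Q : Finset α) : ℤ :=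
  ((∑ e ∈ Q, y e : ℕ) : ℤ) - (kap : ℤ) * (r Q : ℤ)

theorem phi_supermod (h : RkH r) (y : α → ℕ) (kap : ℕ) (P Q : Finset α) :
    phi r y kap P + phi r y kap Q ≤ phi r y kap (P ∪ Q) + phi r y kap (P ∩ Q) := by
  have h1 : ∑ e ∈ P ∪ Q, y e + ∑ e ∈ P ∩ Q, y e = ∑ e ∈ P, y e + ∑ e ∈ Q, y e :=
    sum_union_inter
  have h2 := h.sub P Q
  have h1' : ((∑ e ∈ P ∪ Q, y e : ℕ) : ℤ) + ((∑ e ∈ P ∩ Q, y e : ℕ) : ℤ)
      = ((∑ e ∈ P, y e : ℕ) : ℤ) + ((∑ e ∈ Q, y e : ℕ) : ℤ) := by exact_mod_cast h1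
  have h2' : (r (P ∪ Q) : ℤ) + (r (P ∩ Q) : ℤ) ≤ (r P : ℤ) + (r Q : ℤ) := by exact_mod_cast h2
  have h3 : (kap : ℤ) * ((r (P ∪ Q) : ℤ) + (r (P ∩ Q) : ℤ)) ≤ (kap : ℤ) * ((r P : ℤ) + (r Q : ℤ)) :=
    mul_le_mul_of_nonneg_left h2' (Int.natCast_nonneg _)
  unfold phi
  linarith

/-- `Q` maximises `phi` among the supersets of `S` -/
def IsMax (r : Finset α → ℕ) (y : α → ℕ) (kap : ℕ) (S Q : Finset α) : Prop :=
  S ⊆ Q ∧ ∀ Q' : Finset α, S ⊆ Q' → phi r y kap Q' ≤ phi r y kap Q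

/-- `N` is the maximal maximiser of `phi` among the supersets of `S` -/
def IsMM (r : Finset α → ℕ) (y : α → ℕ) (kap : ℕ) (S N : Finset α) : Prop :=
  IsMax r y kap S N ∧ ∀ Q : Finset α, IsMax r y kap S Q → Q ⊆ N

theorem IsMM.unique {y : α → ℕ} {kap : ℕ} {S N N' : Finset α}
    (h1 : IsMM r y kap S N) (h2 : IsMM r y kap S N') : N = N' :=
  Subset.antisymm (h2.2 N h1.1) (h1.2 N' h2.1)

theorem exists_isMax (y : α → ℕ) (kap : ℕ) (S : Finset α) : ∃ Q, IsMax r y kap S Q := by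
  obtain ⟨Q, hQ, hmax⟩ := exists_max_image (univ.filter (fun Q : Finset α => S ⊆ Q))
    (phi r y kap) ⟨S, by simp⟩
  exact ⟨Q, (mem_filter.1 hQ).2, fun Q' hQ' => hmax Q' (by simp [hQ'])⟩

theorem IsMax.union (h : RkH r) {y : α → ℕ} {kap : ℕ} {S S' P Q : Finset α}
    (hP : IsMax r y kap S P) (hQ : IsMax r y kap S' Q) (hSS : S ⊆ S') :
    IsMax r y kap S' (P ∪ Q) := by
  refine ⟨hQ.1.trans subset_union_right, fun Q' hQ' => ?_⟩
  have h1 := phi_supermod h y kap P Q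
  have h2 := hP.2 (P ∩ Q) (subset_inter hP.1 (hSS.trans hQ.1))
  have h3 := hQ.2 Q' hQ'
  linarith

theorem IsMax.inter (h : RkH r) {y : α → ℕ} {kap : ℕ} {S S' P Q : Finset α}
    (hP : IsMax r y kap S P) (hQ : IsMax r y kap S' Q) (hSS : S ⊆ S') :
    IsMax r y kap S (P ∩ Q) := by
  refine ⟨subset_inter hP.1 (hSS.trans hQ.1), fun Q' hQ' => ?_⟩
  have h1 := phi_supermod h y kap P Q
  have h2 := hQ.2 (P ∪ Q) (hQ.1.trans subset_union_right)
  have h3 := hP.2 Q' hQ'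
  linarith

theorem exists_isMM (h : RkH r) (y : α → ℕ) (kap : ℕ) (S : Finset α) :
    ∃ N, IsMM r y kap S N := by
  classical
  obtain ⟨Q0, hQ0⟩ := exists_isMax (r := r) y kap S
  obtain ⟨N, hN, hmax⟩ := exists_max_image (univ.filter (fun Q : Finset α => IsMax r y kap S Q))
    card ⟨Q0, by simp [hQ0]⟩
  have hN' : IsMax r y kap S N := (mem_filter.1 hN).2
  refine ⟨N, hN', fun Q hQ => ?_⟩
  have hU : IsMax r y kap S (Q ∪ N) := hQ.union h hN' Subset.rfl
  have hc := hmax (Q ∪ N) (by simp [hU])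
  have : N = Q ∪ N := eq_of_subset_of_card_le subset_union_right hc
  rw [this]; exact subset_union_left

open Classical in
/-- the maximal maximiser (union of all maximisers) -/
noncomputable def ExpW (r : Finset α → ℕ) (y : α → ℕ) (kap : ℕ) (S : Finset α) : Finset α :=
  univ.filter (fun e => ∃ Q, IsMax r y kap S Q ∧ e ∈ Q)

theorem mem_ExpW {y : α → ℕ} {kap : ℕ} {S : Finset α} {e : α} :
    e ∈ ExpW r y kap S ↔ ∃ Q, IsMax r y kap S Q ∧ e ∈ Q := by
  simp [ExpW]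

theorem IsMM.eq_ExpW {y : α → ℕ} {kap : ℕ} {S N : Finset α} (hN : IsMM r y kap S N) :
    N = ExpW r y kap S := by
  ext e
  rw [mem_ExpW]
  exact ⟨fun he => ⟨N, hN.1, he⟩, fun ⟨Q, hQ, he⟩ => hN.2 Q hQ he⟩

theorem isMM_ExpW (h : RkH r) (y : α → ℕ) (kap : ℕ) (S : Finset α) :
    IsMM r y kap S (ExpW r y kap S) := by
  obtain ⟨N, hN⟩ := exists_isMM h y kap S
  rw [← hN.eq_ExpW]; exact hN

/-! ### properties of a maximal maximiser -/

theorem IsMM.subset {y : α → ℕ} {kap : ℕ} {S N : Finset α} (hN : IsMM r y kap S N) : S ⊆ N :=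
  hN.1.1

theorem IsMM.le {y : α → ℕ} {kap : ℕ} {S N Q : Finset α} (hN : IsMM r y kap S N)
    (hQ : S ⊆ Q) : phi r y kap Q ≤ phi r y kap N := hN.1.2 Q hQ

theorem IsMM.lt {y : α → ℕ} {kap : ℕ} {S N Q : Finset α} (hN : IsMM r y kap S N)
    (hQ : S ⊆ Q) (hQN : ¬ Q ⊆ N) : phi r y kap Q < phi r y kap N := by
  by_contra hlt
  push Not at hlt
  exact hQN (hN.2 Q ⟨hQ, fun Q' hQ' => (hN.le hQ').trans hlt⟩)

theorem isMM_of (y : α → ℕ) (kap : ℕ) {S N : Finset α} (hS : S ⊆ N)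
    (hle : ∀ Q, S ⊆ Q → phi r y kap Q ≤ phi r y kap N)
    (hlt : ∀ Q, S ⊆ Q → ¬ Q ⊆ N → phi r y kap Q < phi r y kap N) : IsMM r y kap S N := by
  refine ⟨⟨hS, hle⟩, fun Q hQ => ?_⟩
  by_contra hQN
  exact absurd (hQ.2 N hS) (not_le.2 (hlt Q hQ.1 hQN))

/-- local criterion: UP inside, strict DOWN outside -/
theorem isMM_of_up_down (h : RkH r) (y : α → ℕ) (kap : ℕ) {S N : Finset α} (hS : S ⊆ N)
    (hup : ∀ Q, S ⊆ Q → Q ⊆ N → phi r y kap Q ≤ phi r y kap N)
    (hdown : ∀ Q, N ⊆ Q → Q ≠ N → phi r y kap Q < phi r y kap N) : IsMM r y kap S N := by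
  apply isMM_of y kap hS
  · intro Q hQ
    have h1 := phi_supermod h y kap Q N
    have h2 := hup (Q ∩ N) (subset_inter hQ hS) inter_subset_right
    by_cases hQN : Q ∪ N = N
    · rw [hQN] at h1; linarith
    · have h3 := hdown (Q ∪ N) subset_union_right hQN
      linarith
  · intro Q hQ hQN
    have h1 := phi_supermod h y kap Q N
    have h2 := hup (Q ∩ N) (subset_inter hQ hS) inter_subset_right
    have h3 := hdown (Q ∪ N) subset_union_right (fun hh => hQN (hh ▸ subset_union_left))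
    linarith

theorem phi_le_phi_cl (h : RkH r) (y : α → ℕ) (kap : ℕ) (Q : Finset α) :
    phi r y kap Q ≤ phi r y kap (cl r Q) := by
  unfold phi
  rw [r_cl h]
  have : ∑ e ∈ Q, y e ≤ ∑ e ∈ cl r Q, y e := sum_le_sum_of_subset (subset_cl Q)
  have : ((∑ e ∈ Q, y e : ℕ) : ℤ) ≤ ((∑ e ∈ cl r Q, y e : ℕ) : ℤ) := by exact_mod_cast this
  linarith

theorem IsMM.cl_eq (h : RkH r) {y : α → ℕ} {kap : ℕ} {S N : Finset α}
    (hN : IsMM r y kap S N) : cl r N = N := by
  apply Subset.antisymm _ (subset_cl _)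
  exact hN.2 _ ⟨hN.subset.trans (subset_cl _),
    fun Q' hQ' => (hN.le hQ').trans (phi_le_phi_cl h y kap N)⟩

theorem IsMM.cl_subset (h : RkH r) {y : α → ℕ} {kap : ℕ} {S N X : Finset α}
    (hN : IsMM r y kap S N) (hX : X ⊆ N) : cl r X ⊆ N := by
  have := cl_mono h hX
  rwa [hN.cl_eq h] at this

theorem IsMM.mono (h : RkH r) {y : α → ℕ} {kap : ℕ} {S S' N N' : Finset α}
    (hN : IsMM r y kap S N) (hN' : IsMM r y kap S' N') (hSS : S ⊆ S') : N ⊆ N' :=
  subset_union_left.trans (hN'.2 _ (hN.1.union h hN'.1 hSS))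

/-- the maximal maximiser over `S` is the maximal maximiser over any `S ⊆ R ⊆ N` -/
theorem IsMM.of_between {y : α → ℕ} {kap : ℕ} {S R N : Finset α}
    (hN : IsMM r y kap S N) (hSR : S ⊆ R) (hRN : R ⊆ N) : IsMM r y kap R N :=
  isMM_of y kap hRN (fun _ hQ => hN.le (hSR.trans hQ)) (fun _ hQ hQN => hN.lt (hSR.trans hQ) hQN)

theorem sum_sdiff_add (y : α → ℕ) {Q N : Finset α} (hQN : Q ⊆ N) :
    ∑ e ∈ N \ Q, y e + ∑ e ∈ Q, y e = ∑ e ∈ N, y e := sum_sdiff hQN

/-- UP: for `S ⊆ Q ⊆ N`, `kap * r(N | Q) ≤ y(N \ Q)` -/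
theorem IsMM.up {y : α → ℕ} {kap : ℕ} {S N Q : Finset α} (hN : IsMM r y kap S N)
    (hSQ : S ⊆ Q) (hQN : Q ⊆ N) : kap * r N ≤ ∑ e ∈ N \ Q, y e + kap * r Q := by
  have h1 := hN.le hSQ
  have h2 := sum_sdiff_add y hQN
  unfold phi at h1
  have h2' : ((∑ e ∈ N \ Q, y e : ℕ) : ℤ) + ((∑ e ∈ Q, y e : ℕ) : ℤ)
      = ((∑ e ∈ N, y e : ℕ) : ℤ) := by exact_mod_cast h2
  have : ((kap * r N : ℕ) : ℤ) ≤ ((∑ e ∈ N \ Q, y e + kap * r Q : ℕ) : ℤ) := by
    push_cast at h1 h2' ⊢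
    linarith
  exact_mod_cast this

/-- strict DOWN: for any `X ⊄ N`, `y(X \ N) < kap * r(X | N)` -/
theorem IsMM.down_lt {y : α → ℕ} {kap : ℕ} {S N X : Finset α} (hN : IsMM r y kap S N)
    (hX : ¬ X ⊆ N) : ∑ e ∈ X \ N, y e + kap * r N < kap * r (N ∪ X) := by
  have h1 := hN.lt (hN.subset.trans (subset_union_left (s₂ := X)))
    (fun hh => hX (subset_union_right.trans hh))
  have h2 := sum_sdiff_add y (subset_union_left : N ⊆ N ∪ X)
  rw [union_sdiff_left] at h2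
  unfold phi at h1
  have h2' : ((∑ e ∈ X \ N, y e : ℕ) : ℤ) + ((∑ e ∈ N, y e : ℕ) : ℤ)
      = ((∑ e ∈ N ∪ X, y e : ℕ) : ℤ) := by exact_mod_cast h2
  have : ((∑ e ∈ X \ N, y e + kap * r N : ℕ) : ℤ) < ((kap * r (N ∪ X) : ℕ) : ℤ) := by
    push_cast at h1 h2' ⊢
    linarith
  exact_mod_cast this

/-- weak DOWN: for any `X`, `y(X \ N) ≤ kap * r(X | N)` -/
theorem IsMM.down_le {y : α → ℕ} {kap : ℕ} {S N : Finset α} (hN : IsMM r y kap S N)
    (X : Finset α) : ∑ e ∈ X \ N, y e + kap * r N ≤ kap * r (N ∪ X) := by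
  by_cases hX : X ⊆ N
  · rw [sdiff_eq_empty_iff_subset.2 hX, union_eq_left.2 hX]; simp
  · exact (hN.down_lt hX).le

/-- `N` is spanned by `S` and the support of `y` inside `N` -/
theorem IsMM.subset_cl_supp (h : RkH r) {y : α → ℕ} {kap : ℕ} (hk : 0 < kap) {S N : Finset α}
    (hN : IsMM r y kap S N) : N ⊆ cl r (S ∪ N.filter (fun e => y e ≠ 0)) := by
  have hsub : S ∪ N.filter (fun e => y e ≠ 0) ⊆ N :=
    union_subset hN.subset (filter_subset _ _)
  have h1 := hN.up subset_union_left hsub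
  have h2 : ∑ e ∈ N \ (S ∪ N.filter (fun e => y e ≠ 0)), y e = 0 := by
    apply sum_eq_zero
    intro e he
    rw [mem_sdiff] at he
    by_contra hne
    exact he.2 (mem_union_right _ (mem_filter.2 ⟨he.1, hne⟩))
  rw [h2, zero_add] at h1
  exact subset_cl_of_r_le h hsub (Nat.le_of_mul_le_mul_left h1 hk)

/-! ### the version with a set `D` -/

/-- indicator weights -/
def ind (D : Finset α) : α → ℕ := fun e => if e ∈ D then 1 else 0

theorem sum_ind (D X : Finset α) : ∑ e ∈ X, ind D e = (D ∩ X).card := by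
  unfold ind
  rw [sum_boole, filter_mem_eq_inter, inter_comm]
  simp

theorem phi_ind (D : Finset α) (kap : ℕ) (Q : Finset α) :
    phi r (ind D) kap Q = ((D ∩ Q).card : ℤ) - (kap : ℤ) * (r Q : ℤ) := by
  unfold phi; rw [sum_ind]

/-- the expansion of `S` with respect to `D` -/
noncomputable def Exp (r : Finset α → ℕ) (kap : ℕ) (D S : Finset α) : Finset α :=
  ExpW r (ind D) kap S

theorem mem_Exp {kap : ℕ} {D S : Finset α} {e : α} :
    e ∈ Exp r kap D S ↔ ∃ Q, (S ⊆ Q ∧ ∀ Q', S ⊆ Q' →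
      ((D ∩ Q').card : ℤ) - (kap : ℤ) * (r Q' : ℤ) ≤ ((D ∩ Q).card : ℤ) - (kap : ℤ) * (r Q : ℤ))
      ∧ e ∈ Q := by
  unfold Exp
  rw [mem_ExpW]
  simp only [IsMax, phi_ind]

theorem isMM_Exp (h : RkH r) (kap : ℕ) (D S : Finset α) :
    IsMM r (ind D) kap S (Exp r kap D S) := isMM_ExpW h _ _ _

theorem subset_Exp (h : RkH r) (kap : ℕ) (D S : Finset α) : S ⊆ Exp r kap D S :=
  (isMM_Exp h kap D S).subset

theorem cl_Exp (h : RkH r) (kap : ℕ) (D S : Finset α) : cl r (Exp r kap D S) = Exp r kap D S :=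
  (isMM_Exp h kap D S).cl_eq h

theorem cl_subset_Exp (h : RkH r) (kap : ℕ) (D S : Finset α) : cl r S ⊆ Exp r kap D S :=
  (isMM_Exp h kap D S).cl_subset h (subset_Exp h kap D S)

theorem Exp_mono (h : RkH r) (kap : ℕ) (D : Finset α) {S S' : Finset α} (hSS : S ⊆ S') :
    Exp r kap D S ⊆ Exp r kap D S' :=
  (isMM_Exp h kap D S).mono h (isMM_Exp h kap D S') hSS

theorem Exp_between (h : RkH r) (kap : ℕ) (D : Finset α) {S R : Finset α} (hSR : S ⊆ R)
    (hR : R ⊆ Exp r kap D S) : Exp r kap D R = Exp r kap D S :=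
  (isMM_Exp h kap D R).unique ((isMM_Exp h kap D S).of_between hSR hR)

theorem Exp_univ (h : RkH r) (kap : ℕ) (D : Finset α) : Exp r kap D univ = univ :=
  eq_univ_of_forall fun e => subset_Exp h kap D univ (mem_univ e)

theorem Exp_subset_cl_inter (h : RkH r) {kap : ℕ} (hk : 0 < kap) (D S : Finset α) :
    Exp r kap D S ⊆ cl r (S ∪ (D ∩ Exp r kap D S)) := by
  have := (isMM_Exp h kap D S).subset_cl_supp h hk
  refine this.trans (cl_mono h (union_subset_union_right ?_))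
  intro e he
  rw [mem_filter] at he
  refine mem_inter.2 ⟨?_, he.1⟩
  by_contra hD
  exact he.2 (by simp [ind, hD])

theorem Exp_subset_cl (h : RkH r) {kap : ℕ} (hk : 0 < kap) (D S : Finset α) :
    Exp r kap D S ⊆ cl r (S ∪ D) :=
  (Exp_subset_cl_inter h hk D S).trans (cl_mono h (union_subset_union_right inter_subset_left))

/-- UP -/
theorem Exp_up (h : RkH r) (kap : ℕ) (D : Finset α) {S Q : Finset α} (hSQ : S ⊆ Q)
    (hQ : Q ⊆ Exp r kap D S) :
    kap * r (Exp r kap D S) ≤ (D ∩ (Exp r kap D S \ Q)).card + kap * r Q := by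
  have := (isMM_Exp h kap D S).up hSQ hQ
  rwa [sum_ind] at this

/-- strict DOWN -/
theorem Exp_down_lt (h : RkH r) (kap : ℕ) (D S : Finset α) {X : Finset α}
    (hX : ¬ X ⊆ Exp r kap D S) :
    (D ∩ (X \ Exp r kap D S)).card + kap * r (Exp r kap D S) < kap * r (Exp r kap D S ∪ X) := by
  have := (isMM_Exp h kap D S).down_lt hX
  rwa [sum_ind] at this

/-- weak DOWN -/
theorem Exp_down_le (h : RkH r) (kap : ℕ) (D S X : Finset α) :
    (D ∩ (X \ Exp r kap D S)).card + kap * r (Exp r kap D S) ≤ kap * r (Exp r kap D S ∪ X) := by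
  have := (isMM_Exp h kap D S).down_le X
  rwa [sum_ind] at this

/-- generated rank -/
theorem Exp_rank_le (h : RkH r) (kap : ℕ) (D S : Finset α) :
    kap * r (Exp r kap D S) ≤ D.card + kap * r S := by
  have h1 := Exp_up h kap D (Subset.rfl : S ⊆ S) (subset_Exp h kap D S)
  have h2 : (D ∩ (Exp r kap D S \ S)).card ≤ D.card := card_le_card inter_subset_left
  omega

theorem Exp_loops_rank_le (h : RkH r) (kap : ℕ) (D : Finset α) {S : Finset α} (hS : r S = 0) :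
    kap * r (Exp r kap D S) ≤ D.card := by
  have := Exp_rank_le h kap D S
  rw [hS] at this
  simpa using this

theorem Exp_cl_empty_rank_le (h : RkH r) (kap : ℕ) (D : Finset α) :
    kap * r (Exp r kap D (cl r ∅)) ≤ D.card :=
  Exp_loops_rank_le h kap D (by rw [r_cl h, h.empty])

end Crest.Agent.R305.E10
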