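import Crest.Agent.R305.RGDefs55

/-! Row 305, block B1. -/

set_option autoImplicit false

namespace Crest.Agent.R305

variable {k : ℕ}

theorem coe_rk26 (M : Matroid (Fin k)) (X : Set (Fin k)) : ((rk M X : ℕ) : ℕ∞) = M.eRk X := by
  unfold rk
  refine ENat.natCast_toNat ?_
  exact ((M.eRk_le_encard _).trans_lt (Set.toFinite _).encard_lt_top).ne

theorem rank26 (M : Matroid (Fin k)) : RANK M := by
  have hmono : ∀ X Y : Set (Fin k), X ⊆ Y → rk M X ≤ rk M Y := by
    intro X Y h
    have : ((rk M X : ℕ) : ℕ∞) ≤ (rk M Y : ℕ) := by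
      rw [coe_rk26, coe_rk26]; exact M.eRk_mono h
    exact_mod_cast this
  have hins : ∀ (X : Set (Fin k)) (e : Fin k), e ∈ M.E → e ∉ M.closure X →
      rk M (insert e X) = rk M X + 1 := by
    intro X e he hc
    have h1 := Matroid.eRk_insert_eq_add_one (M := M) (X := X) ⟨he, hc⟩
    rw [← coe_rk26, ← coe_rk26] at h1
    exact_mod_cast h1
  refine ⟨hmono, ?_, ?_, hins, ?_, ?_, ?_, ?_, ?_⟩
  · intro X Y
    have : ((rk M (X ∪ Y) : ℕ) : ℕ∞) + (rk M (X ∩ Y) : ℕ) ≤ (rk M X : ℕ) + (rk M Y : ℕ) := by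
      rw [coe_rk26, coe_rk26, coe_rk26, coe_rk26, add_comm]
      exact M.eRk_inter_add_eRk_union_le _ _
    exact_mod_cast this
  · intro X; unfold rk; rw [M.eRk_closure_eq]
  · intro X e hh
    have h1 : M.eRk (insert e X) = M.eRk X := by
      rw [← M.eRk_closure_eq (insert e X), Matroid.closure_insert_eq_of_mem_closure hh,
        M.eRk_closure_eq]
    unfold rk; rw [h1]
  · intro X A
    have : ((rk M (X ∪ ↑A) : ℕ) : ℕ∞) ≤ (rk M X : ℕ) + (A.card : ℕ) := by
      rw [coe_rk26, coe_rk26, ← Set.encard_coe_eq_coe_finsetCard]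
      exact (M.eRk_union_le_eRk_add_eRk _ _).trans (by gcongr; exact M.eRk_le_encard _)
    exact_mod_cast this
  · intro A
    rw [Matroid.indep_iff_eRk_eq_encard_of_finite (Set.toFinite _), ← coe_rk26,
      Set.encard_coe_eq_coe_finsetCard]
    exact_mod_cast Iff.rfl
  · simp [rk]
  · intro X Y hXY hY hr e he
    by_contra hc
    have h1 := hins X e (hY he) hc
    have h2 := hmono (insert e X) Y (Set.insert_subset he hXY)
    omega

end Crest.Agent.R305
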