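import Crest.Agent.R305.RGDefs55
import Crest.Agent.R305.Exb9
import Crest.Agent.R305.Rank26
import Crest.Agent.R305.ExpF10
import Crest.Agent.R305.Chain66
import Crest.Agent.R305.Path74
import Crest.Agent.R305.CountB69
import Crest.Agent.R305.Gain21
import Crest.Agent.R305.Bottom25
import Crest.Agent.R305.Safe79
import Crest.Agent.R305.Safe17
import Crest.Agent.R305.Alphas22
import Crest.Agent.R305.GivenH05
import Crest.Agent.R305.Greedy38
import Crest.Agent.R305.Core89
import Crest.Agent.R305.Outer85

set_option autoImplicit false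

namespace Crest.Agent.R305

universe u

theorem outer_of_alpha30 {k : ℕ} (M : Matroid (Fin k)) (hA : ALPHA M) : OUTER.{u} M := by
  have h0 : EXB k := exb9
  have h18 : STOP k := stop9
  have h1 : RANK M := rank26 M
  have h2 : EXPF M := expf10 M h1
  have h3 : CHAIN M := chain66 M h1 h2
  have h4 : NCHAIN M := nchain66 M h1 h2 h3
  have hsh : SHELL M := shell74 M h0 h1
  have h5 : INDEP M := indep74 M h1 h3 h4
  have h6 : COUNT M := count69 M h1 h3 h4
  have h7 : GAIN M := gain_of_rank21 M h1
  have h8 : BOTTOM M := bottom25 M h0 h1 h2 h4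
  have h10 : SAFE1 M := S79.safe1_79 M h2 h3 h4 h0
  have h11 : SAFE M := safe17 M h0 h4 h10
  have h13 : ALPHAS M := alphas22 M h0 h18 h3 hA
  have h14 : GIVENH M := givenh05 M h0 h6 h7 h8 h11 h13
  have h15 : GREEDY M := greedy38 M
  have h16 : POOLW M := poolw38 M h0
  have h17 : CORE M := core89 M h0 h15 h16 h14
  exact outer85 M hsh h5 h15 h17

end Crest.Agent.R305
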