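import Crest.Agent.R305.Base41
import Crest.Agent.R305.ExpF10
import Crest.Agent.R305.Chain26
import Crest.Agent.R305.Path74
import Crest.Agent.R305.CountB69
import Crest.Agent.R305.Gain21
import Crest.Agent.R305.Bottom25
import Crest.Agent.R305.Safe79
import Crest.Agent.R305.Safe17
import Crest.Agent.R305.Alphas22
import Crest.Agent.R305.GivenH05
import Crest.Agent.R305.Greedy38
import Crest.Agent.R305.Core89
import Crest.Agent.R305.Outer85

set_option autoImplicit false

namespace Crest.Agent.R305

/-- everything except block B12 -/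
theorem outer_of_alpha41.{u} {k : ℕ} (M : Matroid (Fin k)) (h12 : ALPHA M) : OUTER.{u} M := by
  have h0 : EXB k := exb41
  have h18 : STOP k := stop41
  have h1 : RANK M := rank41 M
  have h2 : EXPF M := expf10 M h1
  have h3 : CHAIN M := chain26 h2
  have h4 : NCHAIN M := nchain26 h2
  have hsh : SHELL M := shell74 M h0 h1
  have hin : INDEP M := indep74 M h1 h3 h4
  have h6 : COUNT M := count69 M h1 h3 h4
  have h7 : GAIN M := gain_of_rank21 M h1
  have h8 : BOTTOM M := bottom25 M h0 h1 h2 h4
  have h10 : SAFE1 M := S79.safe1_79 M h2 h3 h4 h0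
  have h11 : SAFE M := safe17 M h0 h4 h10
  have h13 : ALPHAS M := alphas22 M h0 h18 h3 h12
  have h14 : GIVENH M := givenh05 M h0 h6 h7 h8 h11 h13
  have h15 : GREEDY M := greedy38 M
  have h16 : POOLW M := poolw38 M h0
  have h17 : CORE M := core89 M h0 h15 h16 h14
  exact outer85 M hsh hin h15 h17

end Crest.Agent.R305
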