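import Crest.Agent.R305.RGDefs55

/-! Row 305: the design-independent outer reduction (measure glue, greedy rule, class rounding,
unbounded class range). The finite combinatorial core is the structure `Core49`. -/

set_option autoImplicit false
universe u
open Crest.OnlineMatroid

namespace Crest.Agent.R305

/-- The finite core: seeds `Λ` with weights `p`, listened sets `T`, acceptable sets `J`. -/
structure Core49 {k : ℕ} (M : Matroid (Fin k)) (B : ℕ) (c0 : ℝ) (Λ : Type) [Fintype Λ]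
    (p : Λ → ℝ) (T : Λ → Finset (Fin k))
    (J : ℕ → Λ → (Fin k → ℕ) → Finset (Fin k) → Prop) : Prop where
  nonneg : ∀ l, 0 ≤ p l
  total : ∑ l, p l = 1
  hemp : ∀ L l c, J L l c ∅
  hloc : ∀ L l (c c' : Fin k → ℕ) (A : Finset (Fin k)),
    (∀ e, e ∉ T l ∨ e ∈ A → c e = c' e) → J L l c A → J L l c' A
  hdown : ∀ L l c (A A' : Finset (Fin k)), A' ⊆ A → J L l c A → J L l c A'
  hind : ∀ L l c (A : Finset (Fin k)), J L l c A → M.Indep (A : Set (Fin k))
  hcore : ∀ (L : ℕ) (c : Fin k → ℕ) (sel : Λ → Finset (Fin k)) (I : Finset (Fin k)),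
    M.Indep (I : Set (Fin k)) →
    (∀ l, sel l ⊆ T l ∧ J L l c (sel l) ∧ ∀ e ∈ T l, e ∉ sel l → ¬ J L l c (insert e (sel l))) →
    c0 * ∑ e ∈ I, wt B L (c e) ≤ ∑ l, p l * ∑ e ∈ sel l, wt B L (c e)

section Greedy49
open Classical in
/-- one step of the pure greedy -/
noncomputable def pstep49 {k : ℕ} (T : Finset (Fin k)) (G : Finset (Fin k) → Prop)
    (A : Finset (Fin k)) (e : Fin k) : Finset (Fin k) :=
  if e ∈ T ∧ G (insert e A) then insert e A else A

theorem pstep49_sub {k : ℕ} (T : Finset (Fin k)) (G : Finset (Fin k) → Prop)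
    (A : Finset (Fin k)) (e : Fin k) : A ⊆ pstep49 T G A e := by
  unfold pstep49; split_ifs
  · exact Finset.subset_insert _ _
  · exact subset_rfl

theorem foldl49_sub {k : ℕ} (T : Finset (Fin k)) (G : Finset (Fin k) → Prop)
    (l : List (Fin k)) : ∀ A : Finset (Fin k), A ⊆ l.foldl (pstep49 T G) A := by
  induction l with
  | nil => intro A; exact subset_rfl
  | cons e l ih => intro A; exact (pstep49_sub T G A e).trans (ih _)

theorem foldl49_inv {k : ℕ} (T : Finset (Fin k)) (G : Finset (Fin k) → Prop)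
    (l : List (Fin k)) : ∀ A : Finset (Fin k), A ⊆ T → G A →
      l.foldl (pstep49 T G) A ⊆ T ∧ G (l.foldl (pstep49 T G) A) := by
  induction l with
  | nil => intro A h1 h2; exact ⟨h1, h2⟩
  | cons e l ih =>
    intro A h1 h2
    refine ih _ ?_ ?_
    · unfold pstep49; split_ifs with h
      · exact Finset.insert_subset h.1 h1
      · exact h1
    · unfold pstep49; split_ifs with h
      · exact h.2
      · exact h2

theorem foldl49_max {k : ℕ} (T : Finset (Fin k)) (G : Finset (Fin k) → Prop)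
    (hd : ∀ A A' : Finset (Fin k), A' ⊆ A → G A → G A')
    (l : List (Fin k)) : ∀ A : Finset (Fin k), ∀ e ∈ l, e ∈ T →
      e ∉ l.foldl (pstep49 T G) A → ¬ G (insert e (l.foldl (pstep49 T G) A)) := by
  induction l with
  | nil => intro A e he; simp at he
  | cons a l ih =>
    intro A e he heT hn
    rcases List.mem_cons.1 he with rfl | he
    · intro hG
      apply hn
      have h1 : G (insert e A) :=
        hd _ _ (Finset.insert_subset_insert _ (foldl49_sub T G (e :: l) A)) hG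
      have h2 : e ∈ pstep49 T G A e := by
        unfold pstep49; rw [if_pos ⟨heT, h1⟩]; exact Finset.mem_insert_self _ _
      exact foldl49_sub T G l _ h2
    · exact ih _ e he heT hn

open Classical in
/-- the state update of the online rule -/
noncomputable def ostep49 {k : ℕ} (T : Finset (Fin k))
    (G : (Fin k → ℝ) → Finset (Fin k) → Prop)
    (st : Finset (Fin k) × (Fin k → ℝ)) (q : Fin k × ℝ) : Finset (Fin k) × (Fin k → ℝ) :=
  if q.1 ∈ T ∧ G (Function.update st.2 q.1 q.2) (insert q.1 st.1) then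
    (insert q.1 st.1, Function.update st.2 q.1 q.2) else st

open Classical in
/-- the online rule -/
noncomputable def rule49 {k : ℕ} {Λ : Type} (T : Λ → Finset (Fin k))
    (G : Λ → (Fin k → ℝ) → Finset (Fin k) → Prop) : SampleRule Λ k where
  decide l s hist e y := decide (e ∈ T l ∧
    G l (Function.update (hist.foldl (ostep49 (T l) (G l)) (∅, s)).2 e y)
      (insert e (hist.foldl (ostep49 (T l) (G l)) (∅, s)).1))

/-- the mixed weight vector -/
def mix49 {k : ℕ} (T : Finset (Fin k)) (s v : Fin k → ℝ) : Fin k → ℝ :=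
  fun e => if e ∈ T then v e else s e

theorem aux49 {k : ℕ} {Λ : Type} (T : Λ → Finset (Fin k))
    (G : Λ → (Fin k → ℝ) → Finset (Fin k) → Prop) (l : Λ)
    (hloc : ∀ (x x' : Fin k → ℝ) (A : Finset (Fin k)),
      (∀ e, e ∉ T l ∨ e ∈ A → x e = x' e) → G l x A → G l x' A)
    (s v : Fin k → ℝ) (rest : List (Fin k)) :
    ∀ hist : List (Fin k × ℝ),
      (∀ e, e ∉ T l ∨ e ∈ (hist.foldl (ostep49 (T l) (G l)) (∅, s)).1 →
        (hist.foldl (ostep49 (T l) (G l)) (∅, s)).2 e = mix49 (T l) s v e) →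
      (hist.foldl (ostep49 (T l) (G l)) (∅, s)).1 ∪ sAcceptedAux (rule49 T G) l s v rest hist =
        rest.foldl (pstep49 (T l) (G l (mix49 (T l) s v)))
          (hist.foldl (ostep49 (T l) (G l)) (∅, s)).1 := by
  classical
  induction rest with
  | nil => intro hist _; simp [sAcceptedAux]
  | cons a rest ih =>
    intro hist hinv
    set st := hist.foldl (ostep49 (T l) (G l)) (∅, s) with hst
    have hnew : (hist ++ [(a, v a)]).foldl (ostep49 (T l) (G l)) (∅, s)
        = ostep49 (T l) (G l) st (a, v a) := by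
      rw [List.foldl_append]; rfl
    have hagree : a ∈ T l → ∀ e, e ∉ T l ∨ e ∈ insert a st.1 →
        Function.update st.2 a (v a) e = mix49 (T l) s v e := by
      intro ha e he
      by_cases hea : e = a
      · subst hea; simp [mix49, ha]
      · rw [Function.update_of_ne hea]
        apply hinv
        rcases he with he | he
        · exact Or.inl he
        · rcases Finset.mem_insert.1 he with he | he
          · exact absurd he hea
          · exact Or.inr he
    have hiff : (a ∈ T l ∧ G l (Function.update st.2 a (v a)) (insert a st.1)) ↔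
        (a ∈ T l ∧ G l (mix49 (T l) s v) (insert a st.1)) := by
      constructor
      · rintro ⟨ha, hG⟩; exact ⟨ha, hloc _ _ _ (hagree ha) hG⟩
      · rintro ⟨ha, hG⟩; exact ⟨ha, hloc _ _ _ (fun e he => (hagree ha e he).symm) hG⟩
    have ih' := ih (hist ++ [(a, v a)])
    rw [hnew] at ih'
    by_cases h : a ∈ T l ∧ G l (Function.update st.2 a (v a)) (insert a st.1)
    · have h1 : ostep49 (T l) (G l) st (a, v a) =
          (insert a st.1, Function.update st.2 a (v a)) := by
        unfold ostep49; rw [if_pos h]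
      have h2 : pstep49 (T l) (G l (mix49 (T l) s v)) st.1 a = insert a st.1 := by
        unfold pstep49; rw [if_pos (hiff.1 h)]
      have h3 : (rule49 T G).decide l s hist a (v a) = true := by
        simp only [rule49, decide_eq_true_eq]; exact h
      rw [h1] at ih'
      rw [List.foldl_cons, h2, ← ih' (hagree h.1), sAcceptedAux, if_pos h3]
      ext z; simp only [Finset.mem_union, Finset.mem_singleton, Finset.mem_insert]; tauto
    · have h1 : ostep49 (T l) (G l) st (a, v a) = st := by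
        unfold ostep49; rw [if_neg h]
      have h2 : pstep49 (T l) (G l (mix49 (T l) s v)) st.1 a = st.1 := by
        unfold pstep49; rw [if_neg (fun h' => h (hiff.2 h'))]
      have h3 : ¬ (rule49 T G).decide l s hist a (v a) = true := by
        simp only [rule49, decide_eq_true_eq]; exact h
      rw [h1] at ih'
      rw [List.foldl_cons, h2, ← ih' hinv, sAcceptedAux, if_neg h3, Finset.empty_union]

theorem accepted49 {k : ℕ} {Λ : Type} (T : Λ → Finset (Fin k))
    (G : Λ → (Fin k → ℝ) → Finset (Fin k) → Prop) (l : Λ)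
    (hloc : ∀ (x x' : Fin k → ℝ) (A : Finset (Fin k)),
      (∀ e, e ∉ T l ∨ e ∈ A → x e = x' e) → G l x A → G l x' A)
    (s v : Fin k → ℝ) (order : List (Fin k)) :
    sAccepted (rule49 T G) l s v order =
      order.foldl (pstep49 (T l) (G l (mix49 (T l) s v))) ∅ := by
  have h := aux49 T G l hloc s v order [] (by
    intro e he
    rcases he with he | he
    · simp [mix49, he]
    · simp at he)
  simpa [sAccepted] using h

end Greedy49

section Classes49

/-- the rounded class of a real weight -/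
noncomputable def cls49 (B : ℕ) (x : ℝ) : ℤ × ℤ := (if 0 < x then 1 else 0, ⌊Real.logb B x⌋)

theorem measurable_cls49 (B : ℕ) : Measurable (cls49 B) := by
  unfold cls49
  refine Measurable.prodMk ?_ ?_
  · exact Measurable.ite measurableSet_Ioi measurable_const measurable_const
  · exact Measurable.floor (Real.measurable_log.div_const _)

/-- the class inside the window of half-width `K` -/
def cK49 (K : ℕ) (a : ℤ × ℤ) : ℕ := if a.1 = 1 then ((K : ℤ) - a.2).toNat else 0

theorem wt_cK49 (B : ℕ) (hB : 2 ≤ B) (K : ℕ) (x : ℝ) (hx : 0 ≤ x)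
    (hK : |⌊Real.logb B x⌋| < (K : ℤ)) :
    (B : ℝ) ^ K * wt B (2 * K) (cK49 K (cls49 B x)) ≤ x ∧
      x ≤ B * ((B : ℝ) ^ K * wt B (2 * K) (cK49 K (cls49 B x))) := by
  rcases hx.eq_or_lt with rfl | hx'
  · simp [wt, cK49, cls49]
  have hB0 : (0 : ℝ) < B := by exact_mod_cast (by omega : 0 < B)
  have hj : ⌊Real.logb B x⌋ = Int.log B x := Real.floor_logb_natCast hx
  set j := ⌊Real.logb B x⌋ with hjdef
  have hc : cK49 K (cls49 B x) = ((K : ℤ) - j).toNat := by
    simp [cK49, cls49, hx', hjdef]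
  obtain ⟨h1, h2⟩ := abs_lt.1 hK
  have hm : ((((K : ℤ) - j).toNat : ℕ) : ℤ) = K - j := Int.toNat_of_nonneg (by omega)
  have hw : (B : ℝ) ^ K * wt B (2 * K) (cK49 K (cls49 B x)) = (B : ℝ) ^ j := by
    rw [hc, wt, if_pos (by omega), inv_pow, ← zpow_natCast (B : ℝ) ((K : ℤ) - j).toNat, hm,
      ← zpow_natCast (B : ℝ) K, ← zpow_neg, ← zpow_add₀ hB0.ne']
    congr 1; ring
  rw [hw, hj]
  refine ⟨Int.zpow_log_le_self (by omega) hx', ?_⟩
  have := Int.lt_zpow_succ_log_self (R := ℝ) (b := B) (by omega) x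
  rw [zpow_add₀ hB0.ne', zpow_one, mul_comm] at this
  exact this.le

/-- the limit predicate -/
def Jinf49 {k : ℕ} {Λ : Type} (J : ℕ → Λ → (Fin k → ℕ) → Finset (Fin k) → Prop)
    (l : Λ) (a : Fin k → ℤ × ℤ) (A : Finset (Fin k)) : Prop :=
  ∀ᶠ K in (Filter.hyperfilter ℕ : Filter ℕ), J (2 * K) l (fun e => cK49 K (a e)) A

theorem core_inf49 {k : ℕ} (M : Matroid (Fin k)) (B : ℕ) (hB : 2 ≤ B) (c0 : ℝ)
    (hc : (2 : ℝ)⁻¹ ^ 310 * B ≤ c0) (Λ : Type) [Fintype Λ] (p : Λ → ℝ)
    (T : Λ → Finset (Fin k)) (J : ℕ → Λ → (Fin k → ℕ) → Finset (Fin k) → Prop)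
    (H : Core49 M B c0 Λ p T J) (x : Fin k → ℝ) (hx : ∀ e, 0 ≤ x e)
    (sel : Λ → Finset (Fin k)) (I : Finset (Fin k)) (hI : M.Indep (I : Set (Fin k)))
    (hsel : ∀ l, sel l ⊆ T l ∧ Jinf49 J l (fun e => cls49 B (x e)) (sel l) ∧
      ∀ e ∈ T l, e ∉ sel l → ¬ Jinf49 J l (fun e => cls49 B (x e)) (insert e (sel l))) :
    (2 : ℝ)⁻¹ ^ 310 * ∑ e ∈ I, x e ≤ ∑ l, p l * ∑ e ∈ sel l, x e := by
  have e1 : ∀ᶠ K in (Filter.hyperfilter ℕ : Filter ℕ), ∀ l,
      J (2 * K) l (fun e => cK49 K (cls49 B (x e))) (sel l) :=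
    Filter.eventually_all.2 fun l => (hsel l).2.1
  have e2 : ∀ᶠ K in (Filter.hyperfilter ℕ : Filter ℕ), ∀ l, ∀ e, e ∈ T l → e ∉ sel l →
      ¬ J (2 * K) l (fun e => cK49 K (cls49 B (x e))) (insert e (sel l)) := by
    refine Filter.eventually_all.2 fun l => Filter.eventually_all.2 fun e => ?_
    by_cases h1 : e ∈ T l
    · by_cases h2 : e ∈ sel l
      · exact Filter.Eventually.of_forall fun K _ h => absurd h2 h
      · exact (Ultrafilter.eventually_not.2 ((hsel l).2.2 e h1 h2)).mono fun K h _ _ => h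
    · exact Filter.Eventually.of_forall fun K h => absurd h h1
  have e3 : ∀ᶠ K : ℕ in (Filter.hyperfilter ℕ : Filter ℕ), ∀ e,
      |⌊Real.logb B (x e)⌋| < (K : ℤ) := by
    refine Filter.eventually_all.2 fun e => ?_
    refine Filter.Eventually.filter_mono Nat.hyperfilter_le_atTop ?_
    refine (Filter.eventually_gt_atTop (⌊Real.logb B (x e)⌋.natAbs)).mono fun K hK => ?_
    rw [← Int.natCast_natAbs]; exact_mod_cast hK
  obtain ⟨K, h1, h2, h3⟩ := (e1.and (e2.and e3)).exists
  have hcore := H.hcore (2 * K) (fun e => cK49 K (cls49 B (x e))) sel I hI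
    (fun l => ⟨(hsel l).1, h1 l, fun e he hn => h2 l e he hn⟩)
  have hB0 : (0 : ℝ) < B := by exact_mod_cast (by omega : 0 < B)
  have hBK : (0 : ℝ) < (B : ℝ) ^ K := pow_pos hB0 K
  have hw := fun e => wt_cK49 B hB K (x e) (hx e) (h3 e)
  have hw0 : ∀ e, 0 ≤ wt B (2 * K) (cK49 K (cls49 B (x e))) := by
    intro e; unfold wt; split_ifs
    · positivity
    · exact le_rfl
  have hS : 0 ≤ ∑ e ∈ I, wt B (2 * K) (cK49 K (cls49 B (x e))) :=
    Finset.sum_nonneg fun e _ => hw0 e
  calc (2 : ℝ)⁻¹ ^ 310 * ∑ e ∈ I, x e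
      ≤ (2 : ℝ)⁻¹ ^ 310 * ∑ e ∈ I,
          (B : ℝ) * ((B : ℝ) ^ K * wt B (2 * K) (cK49 K (cls49 B (x e)))) :=
        mul_le_mul_of_nonneg_left (Finset.sum_le_sum fun e _ => (hw e).2) (by positivity)
    _ = (B : ℝ) ^ K * (((2 : ℝ)⁻¹ ^ 310 * B) *
          ∑ e ∈ I, wt B (2 * K) (cK49 K (cls49 B (x e)))) := by
        rw [← Finset.mul_sum, ← Finset.mul_sum]; ring
    _ ≤ (B : ℝ) ^ K * (c0 * ∑ e ∈ I, wt B (2 * K) (cK49 K (cls49 B (x e)))) :=
        mul_le_mul_of_nonneg_left (mul_le_mul_of_nonneg_right hc hS) hBK.le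
    _ ≤ (B : ℝ) ^ K * ∑ l, p l * ∑ e ∈ sel l, wt B (2 * K) (cK49 K (cls49 B (x e))) :=
        mul_le_mul_of_nonneg_left hcore hBK.le
    _ = ∑ l, p l * ∑ e ∈ sel l, (B : ℝ) ^ K * wt B (2 * K) (cK49 K (cls49 B (x e))) := by
        rw [Finset.mul_sum]
        refine Finset.sum_congr rfl fun l _ => ?_
        rw [← Finset.mul_sum]; ring
    _ ≤ ∑ l, p l * ∑ e ∈ sel l, x e :=
        Finset.sum_le_sum fun l _ => mul_le_mul_of_nonneg_left
          (Finset.sum_le_sum fun e _ => (hw e).1) (H.nonneg l)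

end Classes49

section Measure49
open MeasureTheory ProbabilityTheory

/-- the worst-order value as a function of the mixed weights -/
noncomputable def gval49 {k : ℕ} (B : ℕ) (T : Finset (Fin k))
    (G : (Fin k → ℤ × ℤ) → Finset (Fin k) → Prop) (x : Fin k → ℝ) : ENNReal :=
  ⨅ σ : Equiv.Perm (Fin k), ENNReal.ofReal
    (∑ e ∈ (List.ofFn σ).foldl (pstep49 T (G fun e => cls49 B (x e))) ∅, x e)

theorem measurable_gval49 {k : ℕ} (B : ℕ) (T : Finset (Fin k))
    (G : (Fin k → ℤ × ℤ) → Finset (Fin k) → Prop) : Measurable (gval49 B T G) := by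
  unfold gval49
  refine Measurable.iInf fun σ => ENNReal.measurable_ofReal.comp ?_
  have h1 : Measurable (fun q : (Fin k → ℤ × ℤ) × (Fin k → ℝ) =>
      ∑ e ∈ (List.ofFn σ).foldl (pstep49 T (G q.1)) ∅, q.2 e) := by
    refine measurable_from_prod_countable_right fun a => ?_
    exact Finset.measurable_sum (s := (List.ofFn σ).foldl (pstep49 T (G a)) ∅)
      (f := fun e (y : Fin k → ℝ) => y e) fun e _ => measurable_pi_apply e
  have h2 : Measurable (fun x : Fin k → ℝ => ((fun e => cls49 B (x e)), x)) :=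
    Measurable.prodMk
      (measurable_pi_lambda _ fun e => (measurable_cls49 B).comp (measurable_pi_apply e))
      measurable_id
  exact h1.comp h2

theorem measurable_mix49 {k : ℕ} {Ω : Type u} [MeasurableSpace Ω] (T : Finset (Fin k))
    (S V : Ω → Fin k → ℝ) (hS : Measurable S) (hV : Measurable V) :
    Measurable (fun ω => mix49 T (S ω) (V ω)) := by
  refine measurable_pi_lambda _ fun e => ?_
  unfold mix49
  by_cases h : e ∈ T
  · simp only [if_pos h]; exact (measurable_pi_apply e).comp hV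
  · simp only [if_neg h]; exact (measurable_pi_apply e).comp hS

theorem map_mix49 {k : ℕ} {Ω : Type u} [MeasurableSpace Ω] (P : Measure Ω)
    [IsProbabilityMeasure P] (T : Finset (Fin k))
    (S V : Ω → Fin k → ℝ) (hS : Measurable S) (hV : Measurable V)
    (hind : iIndepFun
      (fun (i : Fin k × Bool) (ω : Ω) => if i.2 = true then S ω i.1 else V ω i.1) P)
    (hlaw : ∀ e, P.map (fun ω => S ω e) = P.map (fun ω => V ω e)) :
    P.map (fun ω => mix49 T (S ω) (V ω)) = Measure.pi (fun e => P.map (fun ω => V ω e)) := by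
  have hg : Function.Injective (fun e : Fin k => (e, decide (e ∉ T))) :=
    fun a b h => congrArg Prod.fst h
  have h1 := hind.precomp hg
  have h2 : (fun (e : Fin k) (ω : Ω) => if (decide (e ∉ T)) = true then S ω e else V ω e) =
      fun e ω => mix49 T (S ω) (V ω) e := by
    funext e ω; unfold mix49; by_cases h : e ∈ T <;> simp [h]
  have h3 : iIndepFun (fun e ω => mix49 T (S ω) (V ω) e) P := h2 ▸ h1
  have hm : ∀ e, Measurable (fun ω => mix49 T (S ω) (V ω) e) := fun e =>
    (measurable_pi_apply e).comp (measurable_mix49 T S V hS hV)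
  have h4 := (iIndepFun_iff_map_fun_eq_pi_map (fun e => (hm e).aemeasurable)).1 h3
  rw [h4]
  congr 1
  funext e
  unfold mix49
  by_cases h : e ∈ T
  · simp only [if_pos h]
  · simp only [if_neg h]; exact hlaw e

end Measure49

/-- The statement S0468 for `M` from a finite core. -/
theorem outer49 {k : ℕ} (M : Matroid (Fin k)) (B : ℕ) (hB : 2 ≤ B) (c0 : ℝ)
    (hc : (2 : ℝ)⁻¹ ^ 310 * B ≤ c0) (Λ : Type) [Fintype Λ] (p : Λ → ℝ)
    (T : Λ → Finset (Fin k)) (J : ℕ → Λ → (Fin k → ℕ) → Finset (Fin k) → Prop)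
    (H : Core49 M B c0 Λ p T J) :
    ∃ (ΩR : Type) (_ : MeasurableSpace ΩR) (μR : MeasureTheory.Measure ΩR) (R : SampleRule ΩR k),
      MeasureTheory.IsProbabilityMeasure μR ∧
      (∀ (r : ΩR) (s v : Fin k → ℝ) (order : List (Fin k)),
        M.Indep (sAccepted R r s v order : Set (Fin k))) ∧
      ∀ (Ω : Type u) [MeasurableSpace Ω] (P : MeasureTheory.Measure Ω)
        [MeasureTheory.IsProbabilityMeasure P] (S V : Ω → Fin k → ℝ),
        Measurable S → Measurable V → (∀ ω e, 0 ≤ S ω e ∧ 0 ≤ V ω e) →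
        ProbabilityTheory.iIndepFun
          (fun (i : Fin k × Bool) (ω : Ω) => if i.2 = true then S ω i.1 else V ω i.1) P →
        (∀ e, P.map (fun ω => S ω e) = P.map (fun ω => V ω e)) →
        ∫⁻ ω, optWeight M (V ω) ∂P ≠ ⊤ →
        (2 : ENNReal)⁻¹ ^ 310 * ∫⁻ ω, optWeight M (V ω) ∂P ≤
          ∫⁻ p, ⨅ σ : Equiv.Perm (Fin k),
            ENNReal.ofReal (∑ e ∈ sAccepted R p.1 (S p.2) (V p.2) (List.ofFn σ), V p.2 e)
            ∂(μR.prod P) := by
  classical
  letI : MeasurableSpace Λ := ⊤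
  haveI : MeasurableSingletonClass Λ := ⟨fun _ => trivial⟩
  set G : Λ → (Fin k → ℝ) → Finset (Fin k) → Prop :=
    fun l x A => Jinf49 J l (fun e => cls49 B (x e)) A with hG
  have hloc : ∀ l (x x' : Fin k → ℝ) (A : Finset (Fin k)),
      (∀ e, e ∉ T l ∨ e ∈ A → x e = x' e) → G l x A → G l x' A := by
    intro l x x' A h hA
    exact hA.mono fun K hK => H.hloc _ _ _ _ _ (fun e he => by simp only [h e he]) hK
  have hdown : ∀ l x (A A' : Finset (Fin k)), A' ⊆ A → G l x A → G l x A' := by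
    intro l x A A' h hA
    exact hA.mono fun K hK => H.hdown _ _ _ _ _ h hK
  have hemp : ∀ l x, G l x ∅ := fun l x => Filter.Eventually.of_forall fun K => H.hemp _ _ _
  have hindep : ∀ l x A, G l x A → M.Indep (A : Set (Fin k)) := by
    intro l x A hA
    obtain ⟨K, hK⟩ := hA.exists
    exact H.hind _ _ _ _ hK
  set μR : MeasureTheory.Measure Λ :=
    ∑ l, ENNReal.ofReal (p l) • MeasureTheory.Measure.dirac l with hμ
  have hprob : MeasureTheory.IsProbabilityMeasure μR := by
    constructor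
    rw [hμ, MeasureTheory.Measure.finsetSum_apply]
    simp only [MeasureTheory.Measure.smul_apply, MeasureTheory.measure_univ, smul_eq_mul, mul_one]
    rw [← ENNReal.ofReal_sum_of_nonneg (fun l _ => H.nonneg l), H.total, ENNReal.ofReal_one]
  refine ⟨Λ, inferInstance, μR, rule49 T G, hprob, ?_, ?_⟩
  · intro r s v order
    rw [accepted49 T G r (hloc r)]
    exact hindep _ _ _ (foldl49_inv _ _ order ∅ (Finset.empty_subset _) (hemp _ _)).2
  intro Ω _ P _ S V hS hV hnn hind hlaw _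
  have hfun : (fun q : Λ × Ω => ⨅ σ : Equiv.Perm (Fin k), ENNReal.ofReal
      (∑ e ∈ sAccepted (rule49 T G) q.1 (S q.2) (V q.2) (List.ofFn σ), V q.2 e)) =
      fun q => gval49 B (T q.1) (Jinf49 J q.1) (mix49 (T q.1) (S q.2) (V q.2)) := by
    funext q
    unfold gval49
    refine iInf_congr fun σ => ?_
    rw [accepted49 T G q.1 (hloc q.1)]
    congr 1
    refine Finset.sum_congr rfl fun e he => ?_
    have := (foldl49_inv _ _ (List.ofFn σ) ∅ (Finset.empty_subset _) (hemp _ _)).1 he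
    simp only [mix49, if_pos this]
  rw [hfun]
  have hmeas : Measurable fun q : Λ × Ω =>
      gval49 B (T q.1) (Jinf49 J q.1) (mix49 (T q.1) (S q.2) (V q.2)) :=
    measurable_from_prod_countable_right fun l =>
      (measurable_gval49 B (T l) (Jinf49 J l)).comp (measurable_mix49 (T l) S V hS hV)
  rw [MeasureTheory.lintegral_prod _ hmeas.aemeasurable]
  have hVmix : ∀ ω, mix49 Finset.univ (S ω) (V ω) = V ω := by
    intro ω; funext e; simp [mix49]
  have hinner : ∀ l, ∫⁻ ω, gval49 B (T l) (Jinf49 J l) (mix49 (T l) (S ω) (V ω)) ∂P =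
      ∫⁻ ω, gval49 B (T l) (Jinf49 J l) (V ω) ∂P := by
    intro l
    rw [← MeasureTheory.lintegral_map (measurable_gval49 B (T l) (Jinf49 J l))
        (measurable_mix49 (T l) S V hS hV), map_mix49 P (T l) S V hS hV hind hlaw,
      ← map_mix49 P Finset.univ S V hS hV hind hlaw,
      MeasureTheory.lintegral_map (measurable_gval49 B (T l) (Jinf49 J l))
        (measurable_mix49 Finset.univ S V hS hV)]
    simp only [hVmix]
  simp only [hinner]
  rw [hμ, MeasureTheory.lintegral_finsetSum_measure]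
  simp only [MeasureTheory.lintegral_smul_measure, MeasureTheory.lintegral_dirac, smul_eq_mul]
  have hsum : ∑ l, ENNReal.ofReal (p l) * ∫⁻ ω, gval49 B (T l) (Jinf49 J l) (V ω) ∂P =
      ∫⁻ ω, ∑ l, ENNReal.ofReal (p l) * gval49 B (T l) (Jinf49 J l) (V ω) ∂P := by
    have hm : ∀ l, Measurable fun ω => gval49 B (T l) (Jinf49 J l) (V ω) :=
      fun l => (measurable_gval49 B (T l) (Jinf49 J l)).comp hV
    rw [MeasureTheory.lintegral_finsetSum _ fun l _ => (hm l).const_mul _]
    refine Finset.sum_congr rfl fun l _ => ?_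
    exact (MeasureTheory.lintegral_const_mul _ (hm l)).symm
  rw [hsum]
  refine (MeasureTheory.lintegral_const_mul_le _ _).trans
    (MeasureTheory.lintegral_mono fun ω => ?_)
  have hx : ∀ e, 0 ≤ V ω e := fun e => (hnn ω e).2
  have hσ : ∀ l, ∃ σ : Equiv.Perm (Fin k), ENNReal.ofReal
      (∑ e ∈ (List.ofFn σ).foldl (pstep49 (T l) (G l (V ω))) ∅, V ω e) =
      gval49 B (T l) (Jinf49 J l) (V ω) := fun l => exists_eq_ciInf_of_finite
  choose σ hσ using hσ
  simp only [← hσ]
  unfold optWeight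
  rw [ENNReal.mul_iSup]
  refine iSup_le fun I => ?_
  rw [ENNReal.mul_iSup]
  refine iSup_le fun hI => ?_
  have hcore := core_inf49 M B hB c0 hc Λ p T J H (V ω) hx
    (fun l => (List.ofFn (σ l)).foldl (pstep49 (T l) (G l (V ω))) ∅) I hI (fun l =>
      ⟨(foldl49_inv _ _ _ ∅ (Finset.empty_subset _) (hemp _ _)).1,
       (foldl49_inv _ _ _ ∅ (Finset.empty_subset _) (hemp l _)).2,
       fun e he hn => foldl49_max _ _ (hdown l _) _ ∅ e
        (List.mem_ofFn.2 ⟨(σ l).symm e, by simp⟩) he hn⟩)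
  have h2 : (2 : ENNReal)⁻¹ ^ 310 = ENNReal.ofReal ((2 : ℝ)⁻¹ ^ 310) := by
    rw [ENNReal.ofReal_pow (by norm_num), ENNReal.ofReal_inv_of_pos (by norm_num)]
    simp
  rw [h2, ← ENNReal.ofReal_mul (by positivity)]
  refine (ENNReal.ofReal_le_ofReal hcore).trans ?_
  rw [ENNReal.ofReal_sum_of_nonneg fun l _ =>
    mul_nonneg (H.nonneg l) (Finset.sum_nonneg fun e _ => hx e)]
  refine Finset.sum_le_sum fun l _ => ?_
  rw [ENNReal.ofReal_mul (H.nonneg l)]

/-- B20: the outer reduction for the concrete RG data. -/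
theorem outer {k : ℕ} (M : Matroid (Fin k)) (h4 : SHELL M) (h5 : INDEP M) (h15 : GREEDY M)
    (h17 : CORE M) : OUTER.{u} M := by
  obtain ⟨a1, a2, a3, a4, a5, -⟩ := h4
  refine outer49 M BB (by unfold BB; norm_num) (tt / 32) ?_ (Seed k) pS TS (JS M)
    ⟨a1, a2, a3, a4, a5, ?_, h17⟩
  · have h : (2 : ℝ)⁻¹ ^ 310 = (2 : ℝ)⁻¹ ^ 135 * (2 : ℝ)⁻¹ ^ 175 :=
      pow_add (2 : ℝ)⁻¹ 135 175
    have h1 : (2 : ℝ)⁻¹ ^ 175 ≤ 1 := pow_le_one₀ (by norm_num) (by norm_num)
    have h2 : (2 : ℝ)⁻¹ ^ 135 * (BB : ℝ) = tt / 32 := by unfold BB tt; norm_num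
    have h3 : (0 : ℝ) ≤ (2 : ℝ)⁻¹ ^ 135 * (BB : ℝ) :=
      mul_nonneg (pow_nonneg (by norm_num) _) (Nat.cast_nonneg _)
    rw [h, ← h2, mul_right_comm]
    exact mul_le_of_le_one_right h3 h1
  · intro L l c A hA
    exact h5 L _ _ _ _ A ((h15 L c).2.2.1 l.1) hA

end Crest.Agent.R305
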