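import Crest.Agent.R305.Compress49
import Crest.Agent.R305.AlphaGlue51
import Crest.Agent.R305.Outer49
import Crest.Agent.R305.Exb9
import Crest.Agent.R305.Rank26
import Crest.Agent.R305.ExpF10
import Crest.Agent.R305.Chain66
import Crest.Agent.R305.Path74
import Crest.Agent.R305.CountB69
import Crest.Agent.R305.Gain21
import Crest.Agent.R305.Bottom25
import Crest.Agent.R305.Safe79
import Crest.Agent.R305.Safe17
import Crest.Agent.R305.Alphas22
import Crest.Agent.R305.GivenH05
import Crest.Agent.R305.Greedy38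
import Crest.Agent.R305.Core89

set_option autoImplicit false
universe u

namespace Crest.Agent.R305

variable {k : ℕ}

theorem compress51_49 (M : Matroid (Fin k)) (h1 : RANK M) (h2 : EXPF M) : COMPRESS M := by
  intro U S n hU hS hmono
  obtain ⟨b, m, a1, a2, a3, a4, a5⟩ := compress49 M h1 h2 U S n hU hS hmono
  refine ⟨b, m, a1, a2, fun D => le_trans (Nat.mul_le_mul_left _ ?_) (a3 D),
    fun D => le_trans (Nat.mul_le_mul_left _ ?_) (a4 D), a5⟩
  · exact Finset.sum_le_sum_of_subset (Finset.subset_univ _)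
  · exact Finset.sum_le_sum_of_subset (Finset.subset_univ _)

theorem final49 (M : Matroid (Fin k)) : OUTER.{u} M := by
  have h0 : EXB k := exb9
  have h18 : STOP k := stop9
  have h1 : RANK M := rank26 M
  have h2 : EXPF M := expf10 M h1
  have h3 : CHAIN M := chain66 M h1 h2
  have h4 : NCHAIN M := nchain66 M h1 h2 h3
  have hA : ALPHA M := alpha_of_compress M h0 h1 h2 (compress51_49 M h1 h2)
  have hS1 : SAFE1 M := S79.safe1_79 M h2 h3 h4 h0
  have hG : GIVENH M := givenh05 M h0 (count69 M h1 h3 h4) (gain_of_rank21 M h1)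
    (bottom25 M h0 h1 h2 h4) (safe17 M h0 h4 hS1) (alphas22 M h0 h18 h3 hA)
  exact outer M (shell74 M h0 h1) (indep74 M h1 h3 h4) (greedy38 M)
    (core89 M h0 (greedy38 M) (poolw38 M h0) hG)

end Crest.Agent.R305
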