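import Crest.Agent.R305.Base41
import Crest.Agent.R305.ExpF10
import Crest.Agent.R305.Chain26
import Crest.Agent.R305.Path74
import Crest.Agent.R305.CountB69
import Crest.Agent.R305.Gain70
import Crest.Agent.R305.Bottom25
import Crest.Agent.R305.Safe67
import Crest.Agent.R305.Safe17
import Crest.Agent.R305.Alphas22
import Crest.Agent.R305.GivenH05
import Crest.Agent.R305.Greedy38
import Crest.Agent.R305.Core89
import Crest.Agent.R305.Outer85

/-! Row 305: everything from ALPHA. -/

set_option autoImplicit false

namespace Crest.Agent.R305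

universe u
variable {k : ℕ}

theorem final_of_alpha62 (M : Matroid (Fin k)) (hA : ALPHA M) : OUTER.{u} M := by
  have h1 : RANK M := rank41 M
  have h0 : EXB k := exb41
  have h18 : STOP k := stop41
  have h2 : EXPF M := expf10 M h1
  have h3 : CHAIN M := chain26 h2
  have h4 : NCHAIN M := nchain26 h2
  have hS : SHELL M := shell74 M h0 h1
  have hI : INDEP M := indep74 M h1 h3 h4
  have hC : COUNT M := count69 M h1 h3 h4
  have hG : GAIN M := gain70 M h1
  have hB : BOTTOM M := bottom25 M h0 h1 h2 h4
  have hS1 : SAFE1 M := S67.safe1 M h2 h3 h4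
  have hSf : SAFE M := safe17 M h0 h4 hS1
  have hAs : ALPHAS M := alphas22 M h0 h18 h3 hA
  have hH : GIVENH M := givenh05 M h0 hC hG hB hSf hAs
  have hGr : GREEDY M := greedy38 M
  have hP : POOLW M := poolw38 M h0
  have hCo : CORE M := core89 M h0 hGr hP hH
  exact outer85 M hS hI hGr hCo

end Crest.Agent.R305
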