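import Crest.Agent.R305.Exb9
import Crest.Agent.R305.Rank26
import Crest.Agent.R305.ExpF10
import Crest.Agent.R305.Chain92
import Crest.Agent.R305.Path74
import Crest.Agent.R305.CountB69
import Crest.Agent.R305.Gain21
import Crest.Agent.R305.Bottom25
import Crest.Agent.R305.Safe17
import Crest.Agent.R305.Safe79
import Crest.Agent.R305.Alphas22
import Crest.Agent.R305.GivenH05
import Crest.Agent.R305.Greedy38
import Crest.Agent.R305.Core25
import Crest.Agent.R305.Outer85
import Crest.Agent.R305.Compress49
import Crest.Agent.R305.AlphaGlue51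

set_option autoImplicit false
universe u

namespace Crest.Agent.R305

theorem compress_of73_8 {k : ℕ} (M : Matroid (Fin k)) (h : COMPRESS73 M) : COMPRESS M := by
  intro U S n hU hS hm
  obtain ⟨b, m, h1, h2, h3, h4, h5⟩ := h U S n hU hS hm
  refine ⟨b, m, h1, h2, fun D => le_trans (Nat.mul_le_mul_left _ ?_) (h3 D),
    fun D => le_trans (Nat.mul_le_mul_left _ ?_) (h4 D), h5⟩
  · exact Finset.sum_le_sum_of_subset (Finset.subset_univ U)
  · exact Finset.sum_le_sum_of_subset (Finset.subset_univ U)

theorem final8 {k : ℕ} (M : Matroid (Fin k)) : OUTER.{u} M := by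
  have h0 : EXB k := exb9
  have h18 : STOP k := stop9
  have h1 : RANK M := rank26 M
  have h2 : EXPF M := expf10 M h1
  have h3 : CHAIN M := chain92 M h1 h2
  have h4 : NCHAIN M := nchain92 M h1 h2 h3
  have hA : ALPHA M := alpha_of_compress M h0 h1 h2 (compress_of73_8 M (compress49 M h1 h2))
  have hS : SAFE M := safe17 M h0 h4 (S79.safe1_79 M h2 h3 h4 h0)
  have hG : GIVENH M := givenh05 M h0 (count69 M h1 h3 h4) (gain_of_rank21 M h1)
    (bottom25 M h0 h1 h2 h4) hS (alphas22 M h0 h18 h3 hA)
  exact outer85 M (shell74 M h0 h1) (indep74 M h1 h3 h4) (greedy38 M)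
    (core25 M h0 hG (greedy38 M) (poolw38 M h0))

end Crest.Agent.R305
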