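import Crest.Agent.R305.Alphas22
import Crest.Agent.R305.Bottom25
import Crest.Agent.R305.Core89
import Crest.Agent.R305.GivenH05
import Crest.Agent.R305.Outer55
import Crest.Agent.R305.Path74
import Crest.Agent.R305.Safe17
import Crest.Agent.R305.Safe67
import Crest.Agent.R305.Greedy38
import Crest.Agent.R305.CountB69
import Crest.Agent.R305.Gain70
import Crest.Agent.R305.Base37
import Crest.Agent.R305.Base41

/-! Row 305: everything except `ALPHA` (helper99). -/

set_option autoImplicit false
universe u

namespace Crest.Agent.R305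

theorem outer_of_alpha99 {k : ℕ} (M : Matroid (Fin k)) (hA : ALPHA M) : OUTER.{u} M := by
  have h0 : EXB k := exb41
  have h18 : STOP k := stop41
  have h1 := rank37 M
  have h2 := expf37 M
  have h3 := chain37 M
  have h4 := nchain37 M
  have hG := greedy38 M
  exact outer55 M (shell74 M h0 h1) (indep74 M h1 h3 h4) hG
    (core89 M h0 hG (poolw38 M h0)
      (givenh05 M h0 (count69 M h1 h3 h4) (gain70 M h1) (bottom25 M h0 h1 h2 h4)
        (safe17 M h0 h4 (S67.safe1 M h2 h3 h4)) (alphas22 M h0 h18 h3 hA)))

end Crest.Agent.R305
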