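import Mathlib

set_option autoImplicit false
set_option linter.unusedSectionVars false

namespace Crest.Agent.R305.G47
open Finset

variable {ι : Type*} [Fintype ι] [DecidableEq ι]

/-- product Bernoulli weight -/
noncomputable def pw (τ : ℝ) (s : ι → Bool) : ℝ := ∏ i, if s i = true then τ else 1 - τ

theorem pw_half_nonneg (d : ι → Bool) : 0 ≤ pw (1/2) d := by
  unfold pw
  apply Finset.prod_nonneg
  intro i _
  split_ifs <;> norm_num

theorem sum_prod_bool (g : ι → Bool → ℝ) (hg : ∀ i, g i true + g i false = 1) :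
    ∑ d : ι → Bool, ∏ i, g i (d i) = 1 := by
  have h := Finset.prod_univ_sum (fun _ : ι => (Finset.univ : Finset Bool)) g
  rw [Fintype.piFinset_univ] at h
  rw [← h]
  apply Finset.prod_eq_one
  intro i _
  simp [hg i]

theorem sum_pw (τ : ℝ) : ∑ d : ι → Bool, pw τ d = 1 := by
  unfold pw
  exact sum_prod_bool (fun _ b => if b = true then τ else 1 - τ) (by intro i; simp)

/-- likelihood ratio -/
noncomputable def lr (V : Finset ι) (d : ι → Bool) : ℝ :=
  ∏ i ∈ V, if d i = true then (1/2 : ℝ) else 3/2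

theorem lr_pos (V : Finset ι) (d : ι → Bool) : 0 < lr V d := by
  unfold lr
  apply Finset.prod_pos
  intro i _
  split_ifs <;> norm_num

theorem sum_pw_lr (V : Finset ι) : ∑ d : ι → Bool, pw (1/2) d * lr V d = 1 := by
  have h : ∀ d : ι → Bool, pw (1/2) d * lr V d =
      ∏ i, (fun i (b : Bool) => if i ∈ V then (if b = true then (1/4 : ℝ) else 3/4) else 1/2) i (d i) := by
    intro d
    unfold pw lr
    rw [← Finset.prod_ite_mem_eq V, ← Finset.prod_mul_distrib]
    apply Finset.prod_congr rfl
    intro i _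
    by_cases hi : i ∈ V <;> cases hd : d i <;> simp [hi] <;> norm_num
  rw [Finset.sum_congr rfl (fun d _ => h d)]
  refine sum_prod_bool (fun i (b : Bool) => if i ∈ V then (if b = true then (1/4 : ℝ) else 3/4) else 1/2) ?_
  intro i
  by_cases hi : i ∈ V <;> simp [hi] <;> norm_num

theorem log_three_half : (2/5 : ℝ) ≤ Real.log (3/2) := by
  have h1 : Real.exp 1 < 2.7182818286 := Real.exp_one_lt_d9
  have h0 : 0 < Real.exp 1 := Real.exp_pos 1
  have h2 : Real.exp 2 ≤ (3/2 : ℝ) ^ 5 := by
    have : Real.exp 2 = Real.exp 1 * Real.exp 1 := by rw [← Real.exp_add]; norm_num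
    rw [this]; nlinarith
  have h3 : (2 : ℝ) ≤ Real.log ((3/2 : ℝ) ^ 5) := by
    rw [Real.le_log_iff_exp_le (by positivity)]; exact h2
  rw [Real.log_pow] at h3
  push_cast at h3
  linarith

theorem log_lr_ge (V : Finset ι) (d : ι → Bool)
    (h : 8 * (V.filter (fun e => d e = true)).card ≤ V.card) :
    (V.card : ℝ) / 4 ≤ Real.log (lr V d) := by
  unfold lr
  rw [Finset.prod_ite, Finset.prod_const, Finset.prod_const, Real.log_mul (by positivity) (by positivity),
    Real.log_pow, Real.log_pow]
  have hc := Finset.card_filter_add_card_filter_not (s := V) (fun e => d e = true)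
  have hc' : ((V.filter (fun e => d e = true)).card : ℝ) +
      ((V.filter (fun e => ¬ d e = true)).card : ℝ) = V.card := by exact_mod_cast hc
  have h' : 8 * ((V.filter (fun e => d e = true)).card : ℝ) ≤ V.card := by exact_mod_cast h
  have hl2 : Real.log 2 < 0.6931471808 := Real.log_two_lt_d9
  have hh : Real.log (1/2 : ℝ) = - Real.log 2 := by rw [one_div, Real.log_inv]
  rw [hh]
  have h3 := log_three_half
  have ha : (0 : ℝ) ≤ ((V.filter (fun e => d e = true)).card : ℝ) := by positivity
  have hb : (0 : ℝ) ≤ ((V.filter (fun e => ¬ d e = true)).card : ℝ) := by positivity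
  nlinarith

/-- Gibbs (Kraft + Jensen) inequality: a code `y d` with prior `π` determines a `d`-poor set. -/
theorem gibbs_abs {C : Type*} (y : (ι → Bool) → C) (W : C → Finset ι) (π : C → ℝ)
    (hπ : ∀ c, 0 ≤ π c) (hpos : ∀ d, 0 < π (y d)) (hsum : ∀ s : Finset C, ∑ c ∈ s, π c ≤ 1)
    (K : ℝ) (hK : ∀ d, -K ≤ Real.log (π (y d)))
    (hpoor : ∀ d, 8 * ((W (y d)).filter (fun e => d e = true)).card ≤ (W (y d)).card) :
    ∑ d, pw (1/2) d * ((W (y d)).card : ℝ) ≤ 4 * K := by
  classical
  have h1 : ∑ d, pw (1/2) d * (π (y d) * lr (W (y d)) d) ≤ 1 := by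
    calc ∑ d, pw (1/2) d * (π (y d) * lr (W (y d)) d)
        ≤ ∑ d, ∑ c ∈ Finset.univ.image y, π c * (pw (1/2) d * lr (W c) d) := by
          apply Finset.sum_le_sum
          intro d _
          have := Finset.single_le_sum (s := Finset.univ.image y)
            (f := fun c => π c * (pw (1/2) d * lr (W c) d))
            (fun c _ => mul_nonneg (hπ c) (mul_nonneg (pw_half_nonneg d) (lr_pos _ _).le))
            (Finset.mem_image_of_mem y (Finset.mem_univ d))
          linarith
      _ = ∑ c ∈ Finset.univ.image y, π c := by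
          rw [Finset.sum_comm]
          apply Finset.sum_congr rfl
          intro c _
          rw [← Finset.mul_sum, sum_pw_lr, mul_one]
      _ ≤ 1 := hsum _
  have h2 : ∀ d, ((W (y d)).card : ℝ) ≤ 4 * K + 4 * (π (y d) * lr (W (y d)) d - 1) := by
    intro d
    have a1 := Real.log_le_sub_one_of_pos (mul_pos (hpos d) (lr_pos (W (y d)) d))
    rw [Real.log_mul (hpos d).ne' (lr_pos _ _).ne'] at a1
    have a2 := log_lr_ge (W (y d)) d (hpoor d)
    have a3 := hK d
    linarith
  calc ∑ d, pw (1/2) d * ((W (y d)).card : ℝ)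
      ≤ ∑ d, pw (1/2) d * (4 * K + 4 * (π (y d) * lr (W (y d)) d - 1)) :=
        Finset.sum_le_sum fun d _ => mul_le_mul_of_nonneg_left (h2 d) (pw_half_nonneg d)
    _ = (4 * K - 4) * ∑ d : ι → Bool, pw (1/2) d +
          4 * ∑ d, pw (1/2) d * (π (y d) * lr (W (y d)) d) := by
        rw [Finset.mul_sum, Finset.mul_sum, ← Finset.sum_add_distrib]
        apply Finset.sum_congr rfl
        intro d _
        ring
    _ ≤ 4 * K := by rw [sum_pw]; linarith

/-- product priors on `ι → ℕ` have mass at most one on every finite set -/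
theorem prior_sum_le (q : ι → ℕ → ℝ) (hq : ∀ e j, 0 ≤ q e j)
    (hq1 : ∀ e M, ∑ j ∈ Finset.range M, q e j ≤ 1) (s : Finset (ι → ℕ)) :
    ∑ c ∈ s, ∏ e, q e (c e) ≤ 1 := by
  classical
  set M := s.sup (fun c => Finset.univ.sup c) + 1 with hM
  have hs : s ⊆ Fintype.piFinset (fun _ : ι => Finset.range M) := by
    intro c hc
    rw [Fintype.mem_piFinset]
    intro e
    rw [Finset.mem_range, hM]
    have h1 : c e ≤ Finset.univ.sup c := Finset.le_sup (f := c) (Finset.mem_univ e)
    have h2 : Finset.univ.sup c ≤ s.sup (fun c => Finset.univ.sup c) :=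
      Finset.le_sup (f := fun c => Finset.univ.sup c) hc
    omega
  calc ∑ c ∈ s, ∏ e, q e (c e)
      ≤ ∑ c ∈ Fintype.piFinset (fun _ : ι => Finset.range M), ∏ e, q e (c e) :=
        Finset.sum_le_sum_of_subset_of_nonneg hs
          (fun c _ _ => Finset.prod_nonneg fun e _ => hq e _)
    _ = ∏ e, ∑ j ∈ Finset.range M, q e j := (Finset.prod_univ_sum _ _).symm
    _ ≤ 1 := Finset.prod_le_one (fun e _ => Finset.sum_nonneg fun j _ => hq e j)
        (fun e _ => hq1 e M)

theorem log_one_sub_ge (x : ℝ) (h0 : 0 ≤ x) (h : x ≤ 1/2) : -(2 * x) ≤ Real.log (1 - x) := by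
  have hp : 0 < 1 - x := by linarith
  have h1 := Real.one_sub_inv_le_log_of_pos hp
  have h2 : (1 - x)⁻¹ ≤ 1 + 2 * x := by
    rw [inv_le_comm₀ hp (by linarith), ← one_div, div_le_iff₀ (by linarith)]
    nlinarith
  linarith

/-- Gibbs inequality with a geometric prior: codes `y d : ι → ℕ` supported in `U` with total
mass at most `m |U| / κ`. -/
theorem gibbs (U : Finset ι) (y : (ι → Bool) → ι → ℕ) (W : (ι → ℕ) → Finset ι) (κ m : ℕ)
    (hκ : 2 ≤ κ) (hsupp : ∀ d e, e ∉ U → y d e = 0)
    (hsum : ∀ d, κ * ∑ e, y d e ≤ m * U.card)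
    (hpoor : ∀ d, 8 * ((W (y d)).filter (fun e => d e = true)).card ≤ (W (y d)).card) :
    ∑ d, pw (1/2) d * ((W (y d)).card : ℝ) ≤
      4 * ((2 + m * Real.log κ) / κ * U.card) := by
  classical
  have hκ' : (2 : ℝ) ≤ κ := by exact_mod_cast hκ
  have hκ0 : (0 : ℝ) < κ := by linarith
  set x : ℝ := 1 / κ with hx
  have hx0 : 0 < x := by positivity
  have hx1 : x ≤ 1/2 := by rw [hx]; exact one_div_le_one_div_of_le (by norm_num) hκ'
  let q : ι → ℕ → ℝ := fun e j => if e ∈ U then (1 - x) * x ^ j else if j = 0 then 1 else 0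
  have hq : ∀ e j, 0 ≤ q e j := by
    intro e j
    simp only [q]
    split_ifs
    · exact mul_nonneg (by linarith) (by positivity)
    · norm_num
    · norm_num
  have hq1 : ∀ e M, ∑ j ∈ Finset.range M, q e j ≤ 1 := by
    intro e M
    by_cases he : e ∈ U
    · simp only [q, he, if_true]
      rw [← Finset.mul_sum, mul_neg_geom_sum]
      have : 0 ≤ x ^ M := by positivity
      linarith
    · simp only [q, he, if_false]
      rw [Finset.sum_ite_eq']
      split_ifs <;> norm_num
  have hval : ∀ d, ∏ e, q e (y d e) = (1 - x) ^ U.card * x ^ (∑ e, y d e) := by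
    intro d
    have h1 : ∀ e, q e (y d e) = (if e ∈ U then (1 - x) else 1) * x ^ (y d e) := by
      intro e
      by_cases he : e ∈ U
      · simp [q, he]
      · simp [q, he, hsupp d e he]
    simp_rw [h1]
    rw [Finset.prod_mul_distrib, Finset.prod_ite_mem_eq, Finset.prod_const, Finset.prod_pow_eq_pow_sum]
  apply gibbs_abs y W (fun c => ∏ e, q e (c e)) (fun c => Finset.prod_nonneg fun e _ => hq e _)
    _ (prior_sum_le q hq hq1) _ _ hpoor
  · intro d
    show 0 < ∏ e, q e (y d e)
    rw [hval]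
    have : 0 < 1 - x := by linarith
    positivity
  · intro d
    show _ ≤ Real.log (∏ e, q e (y d e))
    have hp : 0 < 1 - x := by linarith
    rw [hval, Real.log_mul (by positivity) (by positivity), Real.log_pow, Real.log_pow]
    have h1 := log_one_sub_ge x hx0.le hx1
    have h2 : Real.log x = - Real.log κ := by rw [hx, one_div, Real.log_inv]
    have h3 : (κ : ℝ) * ((∑ e, y d e : ℕ) : ℝ) ≤ m * U.card := by exact_mod_cast hsum d
    have h4 : 0 ≤ Real.log κ := Real.log_nonneg (by linarith)
    have h5 : ((∑ e, y d e : ℕ) : ℝ) ≤ m * U.card * x := by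
      rw [hx, mul_one_div, le_div_iff₀ hκ0]; linarith
    have h6 : (2 + m * Real.log κ) / κ * U.card = (2 * x) * U.card + (m * U.card * x) * Real.log κ := by
      rw [hx]; field_simp
    rw [h2, h6]
    have h7 : (0 : ℝ) ≤ U.card := by positivity
    nlinarith [mul_le_mul_of_nonneg_right h5 h4, mul_le_mul_of_nonneg_left h1 h7]

end Crest.Agent.R305.G47
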