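import Crest.Agent.R305.RGDefs55

set_option autoImplicit false

open Finset
open Classical

namespace Crest.Agent.R305.H57

variable {k : ℕ}

noncomputable def qw (tau : ℝ) (y : Fin k) (s : Finset (Fin k)) : ℝ :=
  ∏ i ∈ univ.erase y, (if i ∈ s then tau else 1 - tau)

lemma bern_nonneg {tau : ℝ} (h0 : 0 ≤ tau) (h1 : tau ≤ 1) (s : Finset (Fin k)) :
    0 ≤ bern tau s := by
  unfold bern
  refine Finset.prod_nonneg fun i _ => ?_
  split_ifs <;> linarith

lemma qw_nonneg {tau : ℝ} (h0 : 0 ≤ tau) (h1 : tau ≤ 1) (y : Fin k) (s : Finset (Fin k)) :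
    0 ≤ qw tau y s := by
  unfold qw
  refine Finset.prod_nonneg fun i _ => ?_
  split_ifs <;> linarith

lemma bern_eq (tau : ℝ) (y : Fin k) (s : Finset (Fin k)) :
    bern tau s = (if y ∈ s then tau else 1 - tau) * qw tau y s := by
  unfold bern qw
  rw [← Finset.mul_prod_erase univ _ (mem_univ y)]

lemma qw_insert (tau : ℝ) (y : Fin k) (s : Finset (Fin k)) :
    qw tau y (insert y s) = qw tau y s := by
  unfold qw
  refine Finset.prod_congr rfl fun i hi => ?_
  have : i ≠ y := Finset.ne_of_mem_erase hi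
  simp [this]

lemma Ex_pair (tau : ℝ) (y : Fin k) (f : Finset (Fin k) → ℝ) :
    Ex tau f =
      ∑ s ∈ univ.filter (fun s : Finset (Fin k) => y ∉ s),
        qw tau y s * ((1 - tau) * f s + tau * f (insert y s)) := by
  unfold Ex
  rw [← Finset.sum_filter_add_sum_filter_not univ (fun s : Finset (Fin k) => y ∉ s)]
  have h2 : ∑ s ∈ univ.filter (fun s : Finset (Fin k) => ¬ y ∉ s), bern tau s * f s =
      ∑ s ∈ univ.filter (fun s : Finset (Fin k) => y ∉ s),
        qw tau y s * (tau * f (insert y s)) := by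
    symm
    refine Finset.sum_bij' (fun s _ => insert y s) (fun s _ => s.erase y) ?_ ?_ ?_ ?_ ?_
    · intro s _; simp
    · intro s _; simp
    · intro s hs
      have : y ∉ s := by simpa using hs
      exact Finset.erase_insert this
    · intro s hs
      have : y ∈ s := by simpa using hs
      exact Finset.insert_erase this
    · intro s _
      rw [bern_eq tau y, qw_insert]; simp; ring
  rw [h2, ← Finset.sum_add_distrib]
  refine Finset.sum_congr rfl fun s hs => ?_
  have : y ∉ s := by simpa using hs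
  rw [bern_eq tau y]; simp [this]; ring

lemma Ex_le_of_pair {tau : ℝ} (h0 : 0 ≤ tau) (h1 : tau ≤ 1) (y : Fin k)
    (f g : Finset (Fin k) → ℝ)
    (h : ∀ s, y ∉ s → (1 - tau) * f s + tau * f (insert y s) ≤
      (1 - tau) * g s + tau * g (insert y s)) :
    Ex tau f ≤ Ex tau g := by
  rw [Ex_pair tau y f, Ex_pair tau y g]
  refine Finset.sum_le_sum fun s hs => ?_
  exact mul_le_mul_of_nonneg_left (h s (by simpa using hs)) (qw_nonneg h0 h1 y s)

lemma Ex_mono {tau : ℝ} (h0 : 0 ≤ tau) (h1 : tau ≤ 1) (f g : Finset (Fin k) → ℝ)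
    (h : ∀ s, f s ≤ g s) : Ex tau f ≤ Ex tau g := by
  unfold Ex
  exact Finset.sum_le_sum fun s _ => mul_le_mul_of_nonneg_left (h s) (bern_nonneg h0 h1 s)

/-- hybrid set: on fresh exposed coordinates take `T`, elsewhere its complement -/
noncomputable def XF (fresh : Finset (Fin k) → Fin k → Prop) (F : Finset (Fin k))
    (s : Finset (Fin k)) : Finset (Fin k) :=
  univ.filter fun z => ((z ∈ F ∧ fresh s z) ↔ z ∈ s)

lemma mem_XF (fresh : Finset (Fin k) → Fin k → Prop) (F s : Finset (Fin k)) (z : Fin k) :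
    z ∈ XF fresh F s ↔ ((z ∈ F ∧ fresh s z) ↔ z ∈ s) := by
  unfold XF; simp

noncomputable def GG (tau : ℝ) (a b : Prop) : ℝ :=
  (1 - 2 * tau) * (if a ∧ ¬ b then 1 else 0) - tau * (if ¬ a then 1 else 0)

lemma GG_step {tau : ℝ} (h0 : 0 ≤ tau) (h1 : tau ≤ 1 / 2) (a a' b b' : Prop) (h : a → a') :
    (1 - tau) * GG tau a b' + tau * GG tau a' b ≤ (1 - tau) * GG tau a' b' + tau * GG tau a b := by
  unfold GG
  by_cases ha : a <;> by_cases ha' : a' <;> by_cases hb : b <;> by_cases hb' : b' <;>
    simp [ha, ha', hb, hb'] <;> first | exact absurd (h ha) ha' | nlinarith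

theorem hybrid_aux {tau : ℝ} (h0 : 0 ≤ tau) (h1 : tau ≤ 1 / 2)
    (A : Finset (Fin k) → Finset (Fin k) → Prop) (hA : ∀ s S S', S ⊆ S' → A s S → A s S')
    (fresh : Finset (Fin k) → Fin k → Prop) (ρ : Fin k → ℕ)
    (hyp : ∀ s y, y ∉ s → (fresh s y ∨ fresh (insert y s) y) →
      (∀ S, A s S ↔ A (insert y s) S) ∧
        ∀ z, ρ z ≤ ρ y → (fresh s z ↔ fresh (insert y s) z))
    (F : Finset (Fin k)) :
    Ex tau (fun s => GG tau (A s (XF fresh F s)) (A s sᶜ)) ≤
      Ex tau (fun s => GG tau (A s sᶜ) (A s sᶜ)) := by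
  induction F using Finset.induction_on_max_value ρ with
  | empty =>
    refine le_of_eq ?_
    congr 1
    funext s
    have : XF fresh ∅ s = sᶜ := by
      ext z; rw [mem_XF]; simp
    rw [this]
  | insert y F hyF hmax ih =>
    refine le_trans ?_ ih
    refine Ex_le_of_pair h0 (by linarith) y _ _ fun s hs => ?_
    by_cases hf : fresh s y ∨ fresh (insert y s) y
    · obtain ⟨hAA, hfr⟩ := hyp s y hs hf
      have hfy : fresh s y ↔ fresh (insert y s) y := hfr y le_rfl
      have hf1 : fresh s y := by tauto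
      have hf2 : fresh (insert y s) y := by tauto
      have e1 : XF fresh (insert y F) s = XF fresh F (insert y s) := by
        ext z
        rw [mem_XF, mem_XF]
        by_cases hz : z = y
        · subst hz; simp [hf1, hs, hyF]
        · by_cases hzF : z ∈ F
          · have := hfr z (hmax z hzF)
            simp only [mem_insert, hz, hzF, false_or, true_and, this]
          · simp [hz, hzF]
      have e2 : XF fresh (insert y F) (insert y s) = XF fresh F s := by
        ext z
        rw [mem_XF, mem_XF]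
        by_cases hz : z = y
        · subst hz; simp [hf2, hs, hyF]
        · by_cases hzF : z ∈ F
          · have := hfr z (hmax z hzF)
            simp only [mem_insert, hz, hzF, false_or, true_and, this]
          · simp [hz, hzF]
      have hsub : XF fresh F (insert y s) ⊆ XF fresh F s := by
        intro z
        rw [mem_XF, mem_XF]
        by_cases hz : z = y
        · subst hz; simp [hs, hyF]
        · by_cases hzF : z ∈ F
          · have := hfr z (hmax z hzF)
            simp only [mem_insert, hz, hzF, false_or, true_and, this]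
            exact id
          · simp [hz, hzF]
      rw [e1, e2]
      have k1 : A (insert y s) (XF fresh F s) = A s (XF fresh F s) := propext (hAA _).symm
      have k2 : A (insert y s) (XF fresh F (insert y s)) = A s (XF fresh F (insert y s)) :=
        propext (hAA _).symm
      rw [k1, k2]
      exact GG_step h0 h1 _ _ _ _ (hA s _ _ hsub)
    · push Not at hf
      have e1 : XF fresh (insert y F) s = XF fresh F s := by
        ext z
        rw [mem_XF, mem_XF]
        by_cases hz : z = y
        · subst hz; simp [hf.1]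
        · simp [hz]
      have e2 : XF fresh (insert y F) (insert y s) = XF fresh F (insert y s) := by
        ext z
        rw [mem_XF, mem_XF]
        by_cases hz : z = y
        · subst hz; simp [hf.2]
        · simp [hz]
      rw [e1, e2]

/-- **Lemma (*)**, no conditioning needed. -/
theorem hybrid {tau : ℝ} (h0 : 0 ≤ tau) (h1 : tau < 1 / 2)
    (A : Finset (Fin k) → Finset (Fin k) → Prop) (hA : ∀ s S S', S ⊆ S' → A s S → A s S')
    (fresh : Finset (Fin k) → Fin k → Prop) (ρ : Fin k → ℕ)
    (hyp : ∀ s y, y ∉ s → (fresh s y ∨ fresh (insert y s) y) →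
      (∀ S, A s S ↔ A (insert y s) S) ∧
        ∀ z, ρ z ≤ ρ y → (fresh s z ↔ fresh (insert y s) z))
    (f g : Finset (Fin k) → ℝ)
    (hf : ∀ s, f s ≤ if A s (XF fresh univ s) ∧ ¬ A s sᶜ then 1 else 0)
    (hg : ∀ s, (if ¬ A s (XF fresh univ s) then 1 else 0) ≤ g s) :
    Ex tau f ≤ tau / (1 - 2 * tau) * Ex tau g := by
  have h := hybrid_aux h0 h1.le A hA fresh ρ hyp univ
  have h2 : Ex tau (fun s => GG tau (A s sᶜ) (A s sᶜ)) ≤ 0 := by
    unfold Ex
    refine Finset.sum_nonpos fun s _ => ?_
    refine mul_nonpos_of_nonneg_of_nonpos (bern_nonneg h0 (by linarith) s) ?_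
    unfold GG
    by_cases ha : A s sᶜ <;> simp [ha, h0]
  have h3 := h.trans h2
  have h4 : Ex tau (fun s => (1 - 2 * tau) * f s - tau * g s) ≤
      Ex tau (fun s => GG tau (A s (XF fresh univ s)) (A s sᶜ)) := by
    refine Ex_mono h0 (by linarith) _ _ fun s => ?_
    unfold GG
    have a1 := mul_le_mul_of_nonneg_left (hf s) (show 0 ≤ 1 - 2 * tau by linarith)
    have a2 := mul_le_mul_of_nonneg_left (hg s) h0
    linarith
  have h5 : Ex tau (fun s => (1 - 2 * tau) * f s - tau * g s) =
      (1 - 2 * tau) * Ex tau f - tau * Ex tau g := by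
    unfold Ex
    rw [Finset.mul_sum, Finset.mul_sum, ← Finset.sum_sub_distrib]
    exact Finset.sum_congr rfl fun s _ => by ring
  have hp : 0 < 1 - 2 * tau := by linarith
  rw [div_mul_eq_mul_div, le_div_iff₀ hp]
  linarith

end Crest.Agent.R305.H57
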