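import Crest.Agent.R305.RGDefs55

/-! Row 305: block B5 (INDEP). -/

set_option autoImplicit false
set_option linter.unusedVariables false

open Classical

namespace Crest.Agent.R305
open Finset

variable {k : ℕ}

theorem indep62 (M : Matroid (Fin k)) (h1 : RANK M) (h3 : CHAIN M) (h4 : NCHAIN M) :
    INDEP M := by
  intro L U D T0 ep A hP hJ
  obtain ⟨hmono, hsub, -, -, -, hle, hind, h0, -⟩ := h1
  obtain ⟨-, c2, c3, -, -, -⟩ := h3 L U D (Cg D T0)
  have hle' : ∀ X : Finset (Fin k), rk M (X : Set (Fin k)) ≤ X.card := by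
    intro X
    have := hle ∅ X
    rw [Set.empty_union, h0] at this
    omega
  have hF : ∀ b y, y ∈ Thi M L U D T0 0 b → y ∈ Ff M L U D T0 b := by
    intro b y hy
    simp only [Thi, mem_biUnion, mem_filter, mem_Icc, Tband] at hy
    obtain ⟨m, ⟨⟨hm1, hm2⟩, -⟩, -, hy, -⟩ := hy
    have := (h4 L U D T0 m (by omega) hm2).2.2.2.1 b hy
    exact c3 (L - m + 1) L b (by omega) this
  have key : ∀ n : ℕ, rk M ((A.filter (fun y => ∃ b, b < n ∧ b % 3 = ep.val ∧
      y ∈ Thi M L U D T0 0 b) : Finset (Fin k)) : Set (Fin k)) =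
      (A.filter (fun y => ∃ b, b < n ∧ b % 3 = ep.val ∧ y ∈ Thi M L U D T0 0 b)).card := by
    intro n
    induction n with
    | zero => simp [h0]
    | succ n ih =>
      set X := A.filter (fun y => ∃ b, b < n ∧ b % 3 = ep.val ∧ y ∈ Thi M L U D T0 0 b) with hX
      by_cases hn : n % 3 = ep.val
      · have e1 : A.filter (fun y => ∃ b, b < n + 1 ∧ b % 3 = ep.val ∧ y ∈ Thi M L U D T0 0 b) =
            X ∪ (A ∩ Thi M L U D T0 0 n) := by
          ext y
          simp only [hX, mem_filter, mem_union, mem_inter]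
          constructor
          · rintro ⟨hy, b, hb, hb2, hb3⟩
            rcases Nat.lt_succ_iff_lt_or_eq.mp hb with h | h
            · exact Or.inl ⟨hy, b, h, hb2, hb3⟩
            · subst h; exact Or.inr ⟨hy, hb3⟩
          · rintro (⟨hy, b, hb, hb2, hb3⟩ | ⟨hy, hb⟩)
            · exact ⟨hy, b, by omega, hb2, hb3⟩
            · exact ⟨hy, n, by omega, hn, hb⟩
        rw [e1]
        have hXF : (X : Set (Fin k)) ⊆ Ff M L U D T0 (n - 3) := by
          intro y hy
          simp only [hX, coe_filter, Set.mem_setOf_eq] at hy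
          obtain ⟨-, b, hb, hb2, hb3⟩ := hy
          exact c2 L b (n - 3) (by omega) (hF b y hb3)
        have s1 := hsub (Ff M L U D T0 (n - 3)) ((X ∪ (A ∩ Thi M L U D T0 0 n) : Finset (Fin k)))
        have s2 : rk M (Ff M L U D T0 (n - 3) ∪ ↑(A ∩ Thi M L U D T0 0 n)) ≤
            rk M (Ff M L U D T0 (n - 3) ∪ ↑(X ∪ (A ∩ Thi M L U D T0 0 n) : Finset (Fin k))) :=
          hmono _ _ (Set.union_subset_union_right _ (by
            rw [coe_union]; exact Set.subset_union_right))
        have s3 : rk M (X : Set (Fin k)) ≤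
            rk M (Ff M L U D T0 (n - 3) ∩ ↑(X ∪ (A ∩ Thi M L U D T0 0 n) : Finset (Fin k))) :=
          hmono _ _ (Set.subset_inter hXF (by rw [coe_union]; exact Set.subset_union_left))
        have s4 := hJ.2 n
        have s5 := hle' (X ∪ (A ∩ Thi M L U D T0 0 n))
        have s6 := card_union_le X (A ∩ Thi M L U D T0 0 n)
        omega
      · have e1 : A.filter (fun y => ∃ b, b < n + 1 ∧ b % 3 = ep.val ∧ y ∈ Thi M L U D T0 0 b) =
            X := by
          ext y
          simp only [hX, mem_filter]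
          constructor
          · rintro ⟨hy, b, hb, hb2, hb3⟩
            rcases Nat.lt_succ_iff_lt_or_eq.mp hb with h | h
            · exact ⟨hy, b, h, hb2, hb3⟩
            · subst h; exact absurd hb2 hn
          · rintro ⟨hy, b, hb, hb2, hb3⟩
            exact ⟨hy, b, by omega, hb2, hb3⟩
        rw [e1]; exact ih
  have e2 : A.filter (fun y => ∃ b, b < 3 * L + 4 ∧ b % 3 = ep.val ∧
      y ∈ Thi M L U D T0 0 b) = A := by
    apply filter_true_of_mem
    intro y hy
    obtain ⟨b, hb, hb2, hb3⟩ := hJ.1 y hy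
    exact ⟨b, by omega, hb2, hb3⟩
  have := key (3 * L + 4)
  rw [e2] at this
  exact (hind A).mpr this

end Crest.Agent.R305
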