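import Mathlib
import Crest.Prelude.Def_SampleRule
import Crest.Agent.R305.Round63

set_option autoImplicit false
universe u
open Crest.OnlineMatroid

namespace Crest.Agent.R305.M63

open MeasureTheory ProbabilityTheory
open scoped ENNReal

section greedy
variable {k : ℕ} {L : Type} (F : L → (Fin k → ℝ) → Finset (Fin k) → Prop)

open Classical in
/-- one step of the online rule: state = accepted set and current weight vector -/
noncomputable def step (l : L) (st : Finset (Fin k) × (Fin k → ℝ)) (a : Fin k × ℝ) :
    Finset (Fin k) × (Fin k → ℝ) :=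
  if F l (Function.update st.2 a.1 a.2) (insert a.1 st.1) then
    (insert a.1 st.1, Function.update st.2 a.1 a.2) else st

open Classical in
/-- the online rule -/
noncomputable def rule : SampleRule L k where
  decide l s hist e t :=
    decide (F l (Function.update (hist.foldl (step F l) (∅, s)).2 e t)
      (insert e (hist.foldl (step F l) (∅, s)).1))

theorem aux_eq (l : L) (s v : Fin k → ℝ) (rest : List (Fin k)) (hist : List (Fin k × ℝ)) :
    (hist.foldl (step F l) (∅, s)).1 ∪ sAcceptedAux (rule F) l s v rest hist =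
      ((rest.map fun e => (e, v e)).foldl (step F l) (hist.foldl (step F l) (∅, s))).1 := by
  induction rest generalizing hist with
  | nil => simp [sAcceptedAux]
  | cons e rest ih =>
    have h := ih (hist ++ [(e, v e)])
    rw [List.foldl_append] at h
    simp only [List.map_cons, List.foldl_cons, List.foldl_nil] at h ⊢
    rw [← h, sAcceptedAux, ← Finset.union_assoc]
    congr 1
    by_cases hF : F l (Function.update (hist.foldl (step F l) (∅, s)).2 e (v e))
      (insert e (hist.foldl (step F l) (∅, s)).1)
    · have h1 : (rule F).decide l s hist e (v e) = true := by simp [rule, hF]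
      rw [if_pos h1]
      conv_rhs => rw [step]
      rw [if_pos hF]
      ext a; simp [or_comm]
    · have h1 : ¬ ((rule F).decide l s hist e (v e) = true) := by simp [rule, hF]
      rw [if_neg h1]
      conv_rhs => rw [step]
      rw [if_neg hF]
      simp

theorem acc_eq (l : L) (s v : Fin k → ℝ) (order : List (Fin k)) :
    sAccepted (rule F) l s v order =
      ((order.map fun e => (e, v e)).foldl (step F l) (∅, s)).1 := by
  have h := aux_eq F l s v order []
  simpa [sAccepted] using h

variable (lis : L → Finset (Fin k))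

/-- samples off the listened set, values on it -/
def mix (l : L) (s v : Fin k → ℝ) : Fin k → ℝ := fun e => if e ∈ lis l then v e else s e

variable {F lis}

theorem inv_fold
    (hsub : ∀ l x A, F l x A → A ⊆ lis l)
    (hd : ∀ l x A A', A' ⊆ A → F l x A → F l x A')
    (hloc : ∀ l x y A, (∀ e, e ∉ lis l ∨ e ∈ A → x e = y e) → F l x A → F l y A)
    (l : L) (s v : Fin k → ℝ) (order : List (Fin k)) (st : Finset (Fin k) × (Fin k → ℝ))
    (h1 : F l (mix lis l s v) st.1)
    (h2 : ∀ e, e ∉ lis l ∨ e ∈ st.1 → st.2 e = mix lis l s v e) :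
    F l (mix lis l s v) ((order.map fun e => (e, v e)).foldl (step F l) st).1 ∧
    st.1 ⊆ ((order.map fun e => (e, v e)).foldl (step F l) st).1 ∧
    ∀ e ∈ order, e ∉ ((order.map fun e => (e, v e)).foldl (step F l) st).1 →
      ¬ F l (mix lis l s v) (insert e ((order.map fun e => (e, v e)).foldl (step F l) st).1) := by
  induction order generalizing st with
  | nil => simpa using h1
  | cons a rest ih =>
    simp only [List.map_cons, List.foldl_cons]
    have key : a ∈ lis l → ∀ e, e ∉ lis l ∨ e ∈ insert a st.1 →
        Function.update st.2 a (v a) e = mix lis l s v e := by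
      intro ha e he
      by_cases hea : e = a
      · subst hea
        simp [mix, ha]
      · rw [Function.update_of_ne hea]
        apply h2
        rcases he with he | he
        · exact Or.inl he
        · exact Or.inr ((Finset.mem_insert.1 he).resolve_left hea)
    by_cases hF : F l (Function.update st.2 a (v a)) (insert a st.1)
    · have ha : a ∈ lis l := hsub _ _ _ hF (Finset.mem_insert_self _ _)
      have hs : step F l st (a, v a) = (insert a st.1, Function.update st.2 a (v a)) := by
        rw [step, if_pos hF]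
      rw [hs]
      obtain ⟨i1, i2, i3⟩ := ih (insert a st.1, Function.update st.2 a (v a))
        (hloc _ _ _ _ (key ha) hF) (key ha)
      refine ⟨i1, (Finset.subset_insert _ _).trans i2, ?_⟩
      intro e he hn
      rcases List.mem_cons.1 he with rfl | he
      · exact absurd (i2 (Finset.mem_insert_self _ _)) hn
      · exact i3 e he hn
    · have hs : step F l st (a, v a) = st := by
        rw [step, if_neg hF]
      rw [hs]
      obtain ⟨i1, i2, i3⟩ := ih st h1 h2
      refine ⟨i1, i2, ?_⟩
      intro e he hn
      rcases List.mem_cons.1 he with rfl | he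
      · intro hc
        have h3 : F l (mix lis l s v) (insert e st.1) :=
          hd _ _ _ _ (Finset.insert_subset_insert _ i2) hc
        have ha : e ∈ lis l := hsub _ _ _ h3 (Finset.mem_insert_self _ _)
        exact hF (hloc _ _ _ _ (fun b hb => (key ha b hb).symm) h3)
      · exact i3 e he hn

theorem acc_spec
    (h0 : ∀ l x, F l x ∅)
    (hsub : ∀ l x A, F l x A → A ⊆ lis l)
    (hd : ∀ l x A A', A' ⊆ A → F l x A → F l x A')
    (hloc : ∀ l x y A, (∀ e, e ∉ lis l ∨ e ∈ A → x e = y e) → F l x A → F l y A)
    (l : L) (s v : Fin k → ℝ) (order : List (Fin k)) :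
    F l (mix lis l s v) (sAccepted (rule F) l s v order) ∧
    ∀ e ∈ order, e ∉ sAccepted (rule F) l s v order →
      ¬ F l (mix lis l s v) (insert e (sAccepted (rule F) l s v order)) := by
  rw [acc_eq]
  have := inv_fold hsub hd hloc l s v order (∅, s) (h0 _ _) (by
    intro e he
    rcases he with he | he
    · simp [mix, he]
    · simp at he)
  exact ⟨this.1, this.2.2⟩

end greedy

theorem law_mix {k : ℕ} {Ω : Type u} [MeasurableSpace Ω] (P : Measure Ω)
    [IsProbabilityMeasure P] (S V : Ω → Fin k → ℝ) (hS : Measurable S) (hV : Measurable V)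
    (hind : iIndepFun
      (fun (i : Fin k × Bool) (ω : Ω) => if i.2 = true then S ω i.1 else V ω i.1) P)
    (hlaw : ∀ e, P.map (fun ω => S ω e) = P.map (fun ω => V ω e)) (b : Fin k → Bool) :
    P.map (fun ω e => if b e = true then S ω e else V ω e) =
      Measure.pi (fun e => P.map (fun ω => V ω e)) := by
  have hinj : Function.Injective (fun e : Fin k => (e, b e)) := fun a a' h => congrArg Prod.fst h
  have h1 : iIndepFun (fun (e : Fin k) (ω : Ω) => if b e = true then S ω e else V ω e) P :=
    iIndepFun.precomp (f := fun (i : Fin k × Bool) (ω : Ω) =>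
      if i.2 = true then S ω i.1 else V ω i.1) hinj hind
  have hm : ∀ e : Fin k, Measurable (fun ω : Ω => if b e = true then S ω e else V ω e) := by
    intro e
    by_cases h : b e = true
    · simp only [h, if_true]; exact (measurable_pi_apply e).comp hS
    · simp only [h]; exact (measurable_pi_apply e).comp hV
  rw [(iIndepFun_iff_map_fun_eq_pi_map (fun e => (hm e).aemeasurable)).1 h1]
  congr 1
  funext e
  by_cases h : b e = true
  · simpa [h] using hlaw e
  · simp [h]

theorem result_of_coreMeas {k : ℕ} (M : Matroid (Fin k))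
    (h : CoreMeas k M ((2 : ℝ)⁻¹ ^ 310)) :
    ∃ (ΩR : Type) (_ : MeasurableSpace ΩR) (μR : MeasureTheory.Measure ΩR) (R : SampleRule ΩR k),
      MeasureTheory.IsProbabilityMeasure μR ∧
      (∀ (r : ΩR) (s v : Fin k → ℝ) (order : List (Fin k)),
        M.Indep (sAccepted R r s v order : Set (Fin k))) ∧
      ∀ (Ω : Type u) [MeasurableSpace Ω] (P : MeasureTheory.Measure Ω)
        [MeasureTheory.IsProbabilityMeasure P] (S V : Ω → Fin k → ℝ),
        Measurable S → Measurable V → (∀ ω e, 0 ≤ S ω e ∧ 0 ≤ V ω e) →
        ProbabilityTheory.iIndepFun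
          (fun (i : Fin k × Bool) (ω : Ω) => if i.2 = true then S ω i.1 else V ω i.1) P →
        (∀ e, P.map (fun ω => S ω e) = P.map (fun ω => V ω e)) →
        ∫⁻ ω, optWeight M (V ω) ∂P ≠ ⊤ →
        (2 : ENNReal)⁻¹ ^ 310 * ∫⁻ ω, optWeight M (V ω) ∂P ≤
          ∫⁻ p, ⨅ σ : Equiv.Perm (Fin k),
            ENNReal.ofReal (∑ e ∈ sAccepted R p.1 (S p.2) (V p.2) (List.ofFn σ), V p.2 e)
            ∂(μR.prod P) := by
  classical
  obtain ⟨L, hL, p, lis, F, hp, hs, h0, hI, hd, hloc, hmeas, hmain⟩ := h
  have hsub : ∀ l x A, F l x A → A ⊆ lis l := fun l x A h => (hI l x A h).1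
  letI : MeasurableSpace L := ⊤
  haveI : MeasurableSingletonClass L := ⟨fun _ => trivial⟩
  let μR : Measure L := ∑ l, ENNReal.ofReal (p l) • Measure.dirac l
  have hμ : ∀ f : L → ℝ≥0∞, ∫⁻ l, f l ∂μR = ∑ l, ENNReal.ofReal (p l) * f l := by
    intro f
    simp only [μR]
    rw [lintegral_finsetSum_measure]
    refine Finset.sum_congr rfl fun l _ => ?_
    rw [lintegral_smul_measure, lintegral_dirac, smul_eq_mul]
  have hprob : IsProbabilityMeasure μR := by
    constructor
    have := hμ (fun _ => 1)
    rw [lintegral_one] at this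
    rw [this]
    simp only [mul_one]
    rw [← ENNReal.ofReal_sum_of_nonneg (fun l _ => hp l), hs, ENNReal.ofReal_one]
  refine ⟨L, ⊤, μR, rule F, hprob, ?_, ?_⟩
  · intro l s v order
    exact (hI _ _ _ (acc_spec h0 hsub hd hloc l s v order).1).2
  intro Ω _ P _ S V hS hV hpos hind hlaw _
  let Mx : L → (Fin k → ℝ) → Finset (Fin k) → Prop := fun l x A =>
    F l x A ∧ ∀ e, e ∉ A → ¬ F l x (insert e A)
  let G : L → (Fin k → ℝ) → ℝ≥0∞ := fun l x =>
    ⨅ A : Finset (Fin k), if Mx l x A then ENNReal.ofReal (∑ e ∈ A, x e) else ⊤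
  have hMx : ∀ l A, MeasurableSet {x | Mx l x A} := by
    intro l A
    have : {x | Mx l x A} = {x | F l x A} ∩ ⋂ e : Fin k, ⋂ (_ : e ∉ A), {x | F l x (insert e A)}ᶜ := by
      ext x; simp [Mx]
    rw [this]
    exact (hmeas l A).inter (MeasurableSet.iInter fun e => MeasurableSet.iInter fun _ =>
      (hmeas l _).compl)
  have hG : ∀ l, Measurable (G l) := by
    intro l
    refine Measurable.iInf fun A => Measurable.ite (hMx l A) ?_ measurable_const
    exact ENNReal.measurable_ofReal.comp
      (Finset.measurable_sum _ fun e _ => measurable_pi_apply e)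
  have hacc : ∀ l s v (σ : Equiv.Perm (Fin k)),
      Mx l (mix lis l s v) (sAccepted (rule F) l s v (List.ofFn σ)) := by
    intro l s v σ
    have := acc_spec h0 hsub hd hloc l s v (List.ofFn σ)
    refine ⟨this.1, fun e he => this.2 e ?_ he⟩
    rw [List.mem_ofFn]
    exact ⟨σ.symm e, by simp⟩
  have hmixm : ∀ l, Measurable (fun ω => mix lis l (S ω) (V ω)) := by
    intro l
    refine measurable_pi_lambda _ fun e => ?_
    by_cases h : e ∈ lis l
    · simp only [mix, h, if_true]; exact (measurable_pi_apply e).comp hV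
    · simp only [mix, h, if_false]; exact (measurable_pi_apply e).comp hS
  have hlawmix : ∀ l, P.map (fun ω => mix lis l (S ω) (V ω)) = P.map V := by
    intro l
    have a1 := law_mix P S V hS hV hind hlaw (fun e => decide (e ∉ lis l))
    have a2 := law_mix P S V hS hV hind hlaw (fun _ => false)
    have e1 : (fun ω e => if (decide (e ∉ lis l)) = true then S ω e else V ω e) =
        fun ω => mix lis l (S ω) (V ω) := by
      funext ω e
      by_cases h : e ∈ lis l <;> simp [mix, h]
    have e2 : (fun ω e => if false = true then S ω e else V ω e) = V := by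
      funext ω e; simp
    rw [e1] at a1
    rw [e2] at a2
    rw [a1, a2]
  -- pointwise bound
  have hpt : ∀ x : Fin k → ℝ, (∀ e, 0 ≤ x e) →
      (2 : ENNReal)⁻¹ ^ 310 * optWeight M x ≤ ∑ l, ENNReal.ofReal (p l) * G l x := by
    intro x hx
    have hex : ∀ l, ∃ A, Mx l x A ∧ ∀ A', Mx l x A' → ∑ e ∈ A, x e ≤ ∑ e ∈ A', x e := by
      intro l
      have hne : (Finset.univ.filter (Mx l x)).Nonempty := by
        refine ⟨sAccepted (rule F) l x x (List.ofFn (1 : Equiv.Perm (Fin k))), ?_⟩
        have := hacc l x x 1
        have e1 : mix lis l x x = x := by funext e; simp [mix]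
        rw [e1] at this
        simpa using this
      obtain ⟨A, hA, hmin⟩ := Finset.exists_min_image _ (fun A => ∑ e ∈ A, x e) hne
      exact ⟨A, (Finset.mem_filter.1 hA).2, fun A' hA' => hmin A' (by simpa using hA')⟩
    choose sel hsel hmin using hex
    have hGl : ∀ l, ENNReal.ofReal (∑ e ∈ sel l, x e) ≤ G l x := by
      intro l
      refine le_iInf fun A => ?_
      split_ifs with hA
      · exact ENNReal.ofReal_le_ofReal (hmin l A hA)
      · exact le_top
    unfold optWeight
    simp only [ENNReal.mul_iSup]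
    refine iSup_le fun I => iSup_le fun hIi => ?_
    have h1 := hmain x hx sel hsel I hIi
    have h2 : (2 : ENNReal)⁻¹ ^ 310 = ENNReal.ofReal ((2 : ℝ)⁻¹ ^ 310) := by
      rw [ENNReal.ofReal_pow (by norm_num), ENNReal.ofReal_inv_of_pos (by norm_num)]
      simp
    rw [h2, ← ENNReal.ofReal_mul (by positivity)]
    refine (ENNReal.ofReal_le_ofReal h1).trans ?_
    rw [ENNReal.ofReal_sum_of_nonneg
      (fun l _ => mul_nonneg (hp l) (Finset.sum_nonneg fun e _ => hx e))]
    refine Finset.sum_le_sum fun l _ => ?_
    rw [ENNReal.ofReal_mul (hp l)]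
    exact mul_le_mul_right (hGl l) _
  have hprodm : Measurable (fun q : L × Ω => G q.1 (mix lis q.1 (S q.2) (V q.2))) :=
    measurable_from_prod_countable_right fun l => (hG l).comp (hmixm l)
  calc (2 : ENNReal)⁻¹ ^ 310 * ∫⁻ ω, optWeight M (V ω) ∂P
      = ∫⁻ ω, (2 : ENNReal)⁻¹ ^ 310 * optWeight M (V ω) ∂P := by
        rw [lintegral_const_mul' _ _ (ENNReal.pow_ne_top (by simp))]
    _ ≤ ∫⁻ ω, ∑ l, ENNReal.ofReal (p l) * G l (V ω) ∂P :=
        lintegral_mono fun ω => hpt (V ω) (fun e => (hpos ω e).2)
    _ = ∑ l, ENNReal.ofReal (p l) * ∫⁻ ω, G l (V ω) ∂P := by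
        rw [lintegral_finsetSum (f := fun l ω => ENNReal.ofReal (p l) * G l (V ω)) _
          (fun l _ => ((hG l).comp hV).const_mul _)]
        refine Finset.sum_congr rfl fun l _ => ?_
        rw [lintegral_const_mul' _ _ ENNReal.ofReal_ne_top]
    _ = ∑ l, ENNReal.ofReal (p l) * ∫⁻ ω, G l (mix lis l (S ω) (V ω)) ∂P := by
        refine Finset.sum_congr rfl fun l _ => ?_
        rw [← lintegral_map (hG l) hV, ← lintegral_map (hG l) (hmixm l), hlawmix l]
    _ = ∫⁻ q : L × Ω, G q.1 (mix lis q.1 (S q.2) (V q.2)) ∂(μR.prod P) := by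
        rw [lintegral_prod _ hprodm.aemeasurable, hμ]
    _ ≤ _ := by
        refine lintegral_mono fun q => le_iInf fun σ => ?_
        refine (iInf_le _ (sAccepted (rule F) q.1 (S q.2) (V q.2) (List.ofFn σ))).trans ?_
        have hq := hacc q.1 (S q.2) (V q.2) σ
        rw [if_pos hq]
        apply le_of_eq
        congr 1
        refine Finset.sum_congr rfl fun e he => ?_
        have := hsub _ _ _ hq.1 he
        simp [mix, this]

end Crest.Agent.R305.M63
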