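import Mathlib
import Crest.Prelude.Def_SampleRule
import Crest.Agent.R305.Meas63

set_option autoImplicit false
universe u
open Crest.OnlineMatroid

namespace Crest.Agent.R305.M63

open Filter

/-- Weight of class `m`: `B⁻¹ ^ m` inside the window `1..L` (class 1 is the heaviest), `0` outside. -/
noncomputable def wt63 (B L m : ℕ) : ℝ := if 1 ≤ m ∧ m ≤ L then ((B : ℝ)⁻¹) ^ m else 0

/-- class of a real weight in the window of half-width `N` -/
noncomputable def cls (B N : ℕ) (t : ℝ) : ℕ :=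
  if 0 < t then ((N : ℤ) + 1 - Int.log B t).toNat else 0

theorem wt_cls {B : ℕ} (hB : 2 ≤ B) (t : ℝ) (ht : t = 0 ∨ ∃ n : ℤ, t = (B : ℝ) ^ n) :
    ∀ᶠ N : ℕ in atTop, wt63 B (2 * N + 1) (cls B N t) = ((B : ℝ)⁻¹) ^ (N + 1) * t := by
  rcases ht with rfl | ⟨n, rfl⟩
  · exact Eventually.of_forall fun N => by simp [wt63, cls]
  · have hB0 : (0 : ℝ) < B := by exact_mod_cast (by omega : 0 < B)
    filter_upwards [eventually_ge_atTop n.natAbs] with N hN
    have hpos : (0 : ℝ) < (B : ℝ) ^ n := zpow_pos hB0 n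
    have hlog : Int.log B ((B : ℝ) ^ n) = n := Int.log_zpow (by omega) n
    unfold wt63 cls
    rw [if_pos hpos, hlog, if_pos (by omega)]
    have h1 : ((((N : ℤ) + 1 - n).toNat : ℕ) : ℤ) = (N : ℤ) + 1 - n := by omega
    rw [← zpow_natCast, h1, ← zpow_natCast, inv_zpow', inv_zpow', ← zpow_add₀ hB0.ne']
    congr 1
    push_cast
    ring

theorem core63_of_finite {k : ℕ} (M : Matroid (Fin k)) (B : ℕ) (hB : 2 ≤ B) (c0 : ℝ)
    (Λ : Type) [Fintype Λ] (p : Λ → ℝ) (T : Λ → Finset (Fin k))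
    (J : ℕ → Λ → (Fin k → ℕ) → Finset (Fin k) → Prop)
    (nonneg : ∀ l, 0 ≤ p l) (total : ∑ l, p l = 1) (hemp : ∀ L l c, J L l c ∅)
    (hloc : ∀ L l (c c' : Fin k → ℕ) (A : Finset (Fin k)),
      (∀ e, e ∉ T l ∨ e ∈ A → c e = c' e) → J L l c A → J L l c' A)
    (hdown : ∀ L l c (A A' : Finset (Fin k)), A' ⊆ A → J L l c A → J L l c A')
    (hind : ∀ L l c (A : Finset (Fin k)), J L l c A → M.Indep (A : Set (Fin k)))
    (hcore : ∀ (L : ℕ) (c : Fin k → ℕ) (sel : Λ → Finset (Fin k)) (I : Finset (Fin k)),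
      M.Indep (I : Set (Fin k)) →
      (∀ l, sel l ⊆ T l ∧ J L l c (sel l) ∧
        ∀ e ∈ T l, e ∉ sel l → ¬ J L l c (insert e (sel l))) →
      c0 * ∑ e ∈ I, wt63 B L (c e) ≤ ∑ l, p l * ∑ e ∈ sel l, wt63 B L (c e)) :
    Core63 k M B c0 := by
  classical
  refine ⟨Λ, inferInstance, p, T, fun l x A => A ⊆ T l ∧
    ∀ᶠ N : ℕ in (hyperfilter ℕ : Filter ℕ), J (2 * N + 1) l (fun e => cls B N (x e)) A,
    nonneg, total, ?_, ?_, ?_, ?_, ?_⟩
  · intro l x
    exact ⟨Finset.empty_subset _, Eventually.of_forall fun N => hemp _ _ _⟩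
  · intro l x A h
    obtain ⟨N, hN⟩ := h.2.exists
    exact ⟨h.1, hind _ _ _ _ hN⟩
  · intro l x A A' h1 h2
    exact ⟨h1.trans h2.1, h2.2.mono fun N hN => hdown _ _ _ _ _ h1 hN⟩
  · intro l x y A h1 h2
    exact ⟨h2.1, h2.2.mono fun N hN => hloc _ _ _ _ _ (fun e he => by simp only [h1 e he]) hN⟩
  · intro x hx sel hsel I hI
    have e1 : ∀ᶠ N : ℕ in (hyperfilter ℕ : Filter ℕ), ∀ l, sel l ⊆ T l ∧
        J (2 * N + 1) l (fun e => cls B N (x e)) (sel l) ∧
        ∀ e ∈ T l, e ∉ sel l →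
          ¬ J (2 * N + 1) l (fun e => cls B N (x e)) (insert e (sel l)) := by
      rw [eventually_all]
      intro l
      refine (Eventually.of_forall fun _ => (hsel l).1.1).and ((hsel l).1.2.and ?_)
      rw [eventually_all]
      intro e
      by_cases he : e ∈ T l
      · by_cases hn : e ∈ sel l
        · exact Eventually.of_forall fun N _ h => absurd hn h
        · have h3 := (hsel l).2 e hn
          have h4 : ¬ ∀ᶠ N : ℕ in (hyperfilter ℕ : Filter ℕ),
              J (2 * N + 1) l (fun e => cls B N (x e)) (insert e (sel l)) := fun h =>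
            h3 ⟨Finset.insert_subset he (hsel l).1.1, h⟩
          exact (Ultrafilter.eventually_not.2 h4).mono fun N hN _ _ => hN
      · exact Eventually.of_forall fun N h => absurd h he
    have e2 : ∀ᶠ N : ℕ in (hyperfilter ℕ : Filter ℕ), ∀ e,
        wt63 B (2 * N + 1) (cls B N (x e)) = ((B : ℝ)⁻¹) ^ (N + 1) * x e := by
      rw [eventually_all]
      intro e
      exact (wt_cls hB (x e) (hx e)).filter_mono Nat.hyperfilter_le_atTop
    obtain ⟨N, h1, h2⟩ := (e1.and e2).exists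
    have h3 := hcore (2 * N + 1) (fun e => cls B N (x e)) sel I hI h1
    simp only [h2, ← Finset.mul_sum] at h3
    have hB0 : (0 : ℝ) < B := by exact_mod_cast (by omega : 0 < B)
    have hq : (0 : ℝ) < ((B : ℝ)⁻¹) ^ (N + 1) := by positivity
    have h4 : ∑ l, p l * (((B : ℝ)⁻¹) ^ (N + 1) * ∑ e ∈ sel l, x e) =
        ((B : ℝ)⁻¹) ^ (N + 1) * ∑ l, p l * ∑ e ∈ sel l, x e := by
      rw [Finset.mul_sum]
      exact Finset.sum_congr rfl fun l _ => by ring
    rw [h4, mul_left_comm] at h3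
    exact le_of_mul_le_mul_left h3 hq

/-- The statement S0468 for `M` from a finite core. -/
theorem outer63 {k : ℕ} (M : Matroid (Fin k)) (B : ℕ) (hB : 2 ≤ B) (c0 : ℝ)
    (hc : (2 : ℝ)⁻¹ ^ 310 * B ≤ c0)
    (Λ : Type) [Fintype Λ] (p : Λ → ℝ) (T : Λ → Finset (Fin k))
    (J : ℕ → Λ → (Fin k → ℕ) → Finset (Fin k) → Prop)
    (nonneg : ∀ l, 0 ≤ p l) (total : ∑ l, p l = 1) (hemp : ∀ L l c, J L l c ∅)
    (hloc : ∀ L l (c c' : Fin k → ℕ) (A : Finset (Fin k)),
      (∀ e, e ∉ T l ∨ e ∈ A → c e = c' e) → J L l c A → J L l c' A)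
    (hdown : ∀ L l c (A A' : Finset (Fin k)), A' ⊆ A → J L l c A → J L l c A')
    (hind : ∀ L l c (A : Finset (Fin k)), J L l c A → M.Indep (A : Set (Fin k)))
    (hcore : ∀ (L : ℕ) (c : Fin k → ℕ) (sel : Λ → Finset (Fin k)) (I : Finset (Fin k)),
      M.Indep (I : Set (Fin k)) →
      (∀ l, sel l ⊆ T l ∧ J L l c (sel l) ∧
        ∀ e ∈ T l, e ∉ sel l → ¬ J L l c (insert e (sel l))) →
      c0 * ∑ e ∈ I, wt63 B L (c e) ≤ ∑ l, p l * ∑ e ∈ sel l, wt63 B L (c e)) :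
    ∃ (ΩR : Type) (_ : MeasurableSpace ΩR) (μR : MeasureTheory.Measure ΩR) (R : SampleRule ΩR k),
      MeasureTheory.IsProbabilityMeasure μR ∧
      (∀ (r : ΩR) (s v : Fin k → ℝ) (order : List (Fin k)),
        M.Indep (sAccepted R r s v order : Set (Fin k))) ∧
      ∀ (Ω : Type u) [MeasurableSpace Ω] (P : MeasureTheory.Measure Ω)
        [MeasureTheory.IsProbabilityMeasure P] (S V : Ω → Fin k → ℝ),
        Measurable S → Measurable V → (∀ ω e, 0 ≤ S ω e ∧ 0 ≤ V ω e) →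
        ProbabilityTheory.iIndepFun
          (fun (i : Fin k × Bool) (ω : Ω) => if i.2 = true then S ω i.1 else V ω i.1) P →
        (∀ e, P.map (fun ω => S ω e) = P.map (fun ω => V ω e)) →
        ∫⁻ ω, optWeight M (V ω) ∂P ≠ ⊤ →
        (2 : ENNReal)⁻¹ ^ 310 * ∫⁻ ω, optWeight M (V ω) ∂P ≤
          ∫⁻ p, ⨅ σ : Equiv.Perm (Fin k),
            ENNReal.ofReal (∑ e ∈ sAccepted R p.1 (S p.2) (V p.2) (List.ofFn σ), V p.2 e)
            ∂(μR.prod P) :=
  result_of_coreMeas M (coreMeas_of_core63 (by exact_mod_cast (by omega : 1 < B))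
    (by positivity) hc
    (core63_of_finite M B hB c0 Λ p T J nonneg total hemp hloc hdown hind hcore))

end Crest.Agent.R305.M63
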