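import Crest.Agent.R305.Exb9
import Crest.Agent.R305.Rank26
import Crest.Agent.R305.ExpF10
import Crest.Agent.R305.Chain66
import Crest.Agent.R305.Path74
import Crest.Agent.R305.Gain21
import Crest.Agent.R305.Bottom25
import Crest.Agent.R305.Safe79
import Crest.Agent.R305.Safe17
import Crest.Agent.R305.Alphas22
import Crest.Agent.R305.GivenH05
import Crest.Agent.R305.Greedy38
import Crest.Agent.R305.Core89
import Crest.Agent.R305.Outer85
import Crest.Agent.R305.CountB69
import Crest.Agent.R305.AlphaGlue51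
import Crest.Agent.R305.Comp73

set_option autoImplicit false
universe u

namespace Crest.Agent.R305

theorem pre17 {k : ℕ} (M : Matroid (Fin k)) (hC : COUNT M) (hA : ALPHA M) : OUTER.{u} M := by
  have h0 : EXB k := exb9
  have h18 : STOP k := stop9
  have h1 := rank26 M
  have h2 := expf10 M h1
  have h3 := chain66 M h1 h2
  have h4 := nchain66 M h1 h2 h3
  have h11 := safe17 M h0 h4 (S79.safe1_79 M h2 h3 h4 h0)
  have h14 := givenh05 M h0 hC (gain_of_rank21 M h1) (bottom25 M h0 h1 h2 h4) h11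
    (alphas22 M h0 h18 h3 hA)
  exact outer85 M (shell74 M h0 h1) (indep74 M h1 h3 h4) (greedy38 M)
    (core89 M h0 (greedy38 M) (poolw38 M h0) h14)

theorem pre17a {k : ℕ} (M : Matroid (Fin k)) (hA : ALPHA M) : OUTER.{u} M :=
  pre17 M (count69 M (rank26 M) (chain66 M (rank26 M) (expf10 M (rank26 M)))
    (nchain66 M (rank26 M) (expf10 M (rank26 M)) (chain66 M (rank26 M) (expf10 M (rank26 M))))) hA

theorem pre17c {k : ℕ} (M : Matroid (Fin k)) (hc : COMPRESS M) : OUTER.{u} M :=
  pre17a M (alpha_of_compress M exb9 (rank26 M) (expf10 M (rank26 M)) hc)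

theorem compress_of_73 {k : ℕ} (M : Matroid (Fin k)) (hc : COMPRESS73 M) : COMPRESS M := by
  intro U S n h1 h2 h3
  obtain ⟨b, m, hb, hm, hb', hm', hd⟩ := hc U S n h1 h2 h3
  refine ⟨b, m, hb, hm, fun D => le_trans (Nat.mul_le_mul_left _ ?_) (hb' D),
    fun D => le_trans (Nat.mul_le_mul_left _ ?_) (hm' D), hd⟩
  · exact Finset.sum_le_sum_of_subset (Finset.subset_univ _)
  · exact Finset.sum_le_sum_of_subset (Finset.subset_univ _)

theorem pre17d {k : ℕ} (M : Matroid (Fin k)) (hc : COMPRESS73 M) : OUTER.{u} M :=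
  pre17c M (compress_of_73 M hc)

end Crest.Agent.R305
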