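import Mathlib

/-! Abstract rank-function toolkit (row 305): closure, conditional rank, bases, matroid bridge. -/

set_option autoImplicit false
open Finset

namespace Crest.Agent.R305.K26

variable {α : Type*} [DecidableEq α]

/-- matroid rank axioms -/
structure IsRk (r : Finset α → ℕ) : Prop where
  empty : r ∅ = 0
  mono : ∀ ⦃S T : Finset α⦄, S ⊆ T → r S ≤ r T
  ins : ∀ (e : α) (S : Finset α), r (insert e S) ≤ r S + 1
  sub : ∀ S T : Finset α, r (S ∪ T) + r (S ∩ T) ≤ r S + r T

/-- closure -/
def cl [Fintype α] (r : Finset α → ℕ) (S : Finset α) : Finset α :=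
  univ.filter (fun e => r (insert e S) = r S)

theorem mem_cl [Fintype α] {r : Finset α → ℕ} {S : Finset α} {e : α} :
    e ∈ cl r S ↔ r (insert e S) = r S := by
  simp [cl]

namespace IsRk

variable {r : Finset α → ℕ} (h : IsRk r)
include h

theorem le_ins (e : α) (S : Finset α) : r S ≤ r (insert e S) := h.mono (subset_insert _ _)

theorem union_le (S T : Finset α) : r (S ∪ T) ≤ r S + r T := by
  have := h.sub S T; omega

theorem union_le_card (S A : Finset α) : r (S ∪ A) ≤ r S + A.card := by
  induction A using Finset.induction_on with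
  | empty => simp
  | insert a A ha ih =>
    rw [union_insert, card_insert_of_notMem ha]
    have := h.ins a (S ∪ A); omega

theorem le_card (A : Finset α) : r A ≤ A.card := by
  have := h.union_le_card ∅ A
  rw [h.empty, empty_union] at this; omega

theorem le_sdiff_add (S T : Finset α) : r T ≤ r S + (T \ S).card := by
  have h1 := h.union_le_card S (T \ S)
  have h2 : r T ≤ r (S ∪ T \ S) := h.mono (by intro x hx; simp; tauto)
  omega

/-- diminishing returns (conditional rank is antitone in the conditioning set) -/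
theorem dim {S T : Finset α} (hST : S ⊆ T) (A : Finset α) :
    r (A ∪ T) + r S ≤ r (A ∪ S) + r T := by
  have h1 := h.sub (A ∪ S) T
  have h2 : A ∪ S ∪ T = A ∪ T := by
    rw [union_assoc, union_eq_right.2 hST]
  have h3 : r S ≤ r ((A ∪ S) ∩ T) := h.mono (by
    intro x hx; simp only [mem_inter, mem_union]; exact ⟨Or.inr hx, hST hx⟩)
  rw [h2] at h1; omega

theorem dim' {S T : Finset α} (hST : S ⊆ T) (A : Finset α) :
    r (T ∪ A) + r S ≤ r (S ∪ A) + r T := by
  have := h.dim hST A
  rwa [union_comm A T, union_comm A S] at this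

theorem dim_ins {S T : Finset α} (hST : S ⊆ T) (e : α) :
    r (insert e T) + r S ≤ r (insert e S) + r T := by
  have := h.dim hST {e}
  simpa [← insert_eq] using this

/-- an independent (over `R`) set has independent (over `R`) subsets -/
theorem indep_over_subset {R A B : Finset α} (hB : r (R ∪ B) = r R + B.card) (hA : A ⊆ B) :
    r (R ∪ A) = r R + A.card := by
  have h1 := h.union_le_card R A
  have h2 := h.union_le_card (R ∪ A) (B \ A)
  have h3 : R ∪ A ∪ B \ A = R ∪ B := by
    rw [union_assoc, union_sdiff_of_subset hA]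
  have h4 := card_sdiff_add_card_eq_card hA
  rw [h3] at h2; omega

theorem indep_subset {A B : Finset α} (hB : r B = B.card) (hA : A ⊆ B) : r A = A.card := by
  have := h.indep_over_subset (R := ∅) (B := B) (by simpa [h.empty] using hB) hA
  simpa [h.empty] using this

/-- independence over a bigger set implies independence over a smaller set -/
theorem indep_over_anti {R R' A : Finset α} (hR : R ⊆ R') (hA : r (R' ∪ A) = r R' + A.card) :
    r (R ∪ A) = r R + A.card := by
  have h1 := h.dim' hR A
  have h2 := h.union_le_card R A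
  omega

variable [Fintype α]

theorem mem_cl_iff_le {S : Finset α} {e : α} : e ∈ cl r S ↔ r (insert e S) ≤ r S := by
  rw [mem_cl]; have := h.le_ins e S; omega

theorem notMem_cl {S : Finset α} {e : α} : e ∉ cl r S ↔ r (insert e S) = r S + 1 := by
  rw [mem_cl]; have := h.le_ins e S; have := h.ins e S; omega

theorem notMem_cl_iff_lt {S : Finset α} {e : α} : e ∉ cl r S ↔ r S < r (insert e S) := by
  rw [mem_cl]; have := h.le_ins e S; omega

omit h in
theorem subset_cl (S : Finset α) : S ⊆ cl r S := by
  intro e he; rw [mem_cl, insert_eq_of_mem he]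

theorem cl_mono {S T : Finset α} (hST : S ⊆ T) : cl r S ⊆ cl r T := by
  intro e he
  rw [mem_cl] at he
  rw [h.mem_cl_iff_le]
  have := h.dim_ins hST e; omega

theorem r_union_of_subset_cl {S A : Finset α} (hA : A ⊆ cl r S) : r (S ∪ A) = r S := by
  induction A using Finset.induction_on with
  | empty => simp
  | insert a A ha ih =>
    rw [union_insert]
    have h1 : a ∈ cl r (S ∪ A) := h.cl_mono subset_union_left (hA (mem_insert_self _ _))
    rw [mem_cl.1 h1, ih ((subset_insert _ _).trans hA)]

theorem r_cl (S : Finset α) : r (cl r S) = r S := by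
  have h1 := h.r_union_of_subset_cl (S := S) (A := cl r S) Subset.rfl
  rwa [union_eq_right.2 (subset_cl S)] at h1

theorem r_le_of_subset_cl {S A : Finset α} (hA : A ⊆ cl r S) : r A ≤ r S := by
  have := h.mono hA; rwa [h.r_cl] at this

theorem subset_cl_of_r_union {S A : Finset α} (hA : r (S ∪ A) ≤ r S) : A ⊆ cl r S := by
  intro e he
  rw [h.mem_cl_iff_le]
  refine le_trans (h.mono ?_) hA
  intro x hx
  rcases mem_insert.1 hx with rfl | hx
  · exact mem_union_right _ he
  · exact mem_union_left _ hx

theorem subset_cl_iff {S A : Finset α} : A ⊆ cl r S ↔ r (S ∪ A) = r S :=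
  ⟨h.r_union_of_subset_cl, fun hh => h.subset_cl_of_r_union hh.le⟩

theorem subset_cl_of_r_le {S T : Finset α} (hST : S ⊆ T) (hr : r T ≤ r S) : T ⊆ cl r S :=
  h.subset_cl_of_r_union (by rwa [union_eq_right.2 hST])

theorem cl_cl (S : Finset α) : cl r (cl r S) = cl r S := by
  refine Subset.antisymm ?_ (subset_cl _)
  refine h.subset_cl_of_r_le ((subset_cl S).trans (subset_cl _)) ?_
  rw [h.r_cl, h.r_cl]

theorem cl_subset_cl {S T : Finset α} (hST : S ⊆ cl r T) : cl r S ⊆ cl r T := by
  have := h.cl_mono hST; rwa [h.cl_cl] at this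

theorem cl_subset_of_closed {S F : Finset α} (hF : cl r F = F) (hS : S ⊆ F) : cl r S ⊆ F := by
  have := h.cl_mono hS; rwa [hF] at this

theorem cl_eq_of_between {S T : Finset α} (h1 : S ⊆ T) (h2 : T ⊆ cl r S) : cl r T = cl r S :=
  Subset.antisymm (h.cl_subset_cl h2) (h.cl_mono h1)

theorem cl_union_cl_left (S A : Finset α) : cl r (cl r S ∪ A) = cl r (S ∪ A) :=
  h.cl_eq_of_between (union_subset_union (subset_cl S) Subset.rfl)
    (union_subset (h.cl_mono subset_union_left) (subset_union_right.trans (subset_cl _)))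

theorem cl_union_cl_right (S A : Finset α) : cl r (A ∪ cl r S) = cl r (A ∪ S) := by
  rw [union_comm, h.cl_union_cl_left, union_comm]

theorem cl_insert_cl (e : α) (S : Finset α) : cl r (insert e (cl r S)) = cl r (insert e S) := by
  rw [insert_eq, insert_eq e S, h.cl_union_cl_right]

theorem r_cl_union (S A : Finset α) : r (cl r S ∪ A) = r (S ∪ A) := by
  rw [← h.r_cl, h.cl_union_cl_left, h.r_cl]

theorem r_union_cl (S A : Finset α) : r (A ∪ cl r S) = r (A ∪ S) := by
  rw [union_comm, h.r_cl_union, union_comm]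

theorem r_insert_cl (e : α) (S : Finset α) : r (insert e (cl r S)) = r (insert e S) := by
  rw [insert_eq, insert_eq e S, h.r_union_cl]

theorem cl_inter_subset (S T : Finset α) : cl r (S ∩ T) ⊆ cl r S ∩ cl r T :=
  subset_inter (h.cl_mono inter_subset_left) (h.cl_mono inter_subset_right)

theorem closed_inter {F G : Finset α} (hF : cl r F = F) (hG : cl r G = G) :
    cl r (F ∩ G) = F ∩ G := by
  refine Subset.antisymm ?_ (subset_cl _)
  have := h.cl_inter_subset F G; rwa [hF, hG] at this

theorem cl_univ : cl r (univ : Finset α) = univ :=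
  Subset.antisymm (subset_univ _) (subset_cl _)

theorem r_cl_empty : r (cl r (∅ : Finset α)) = 0 := by rw [h.r_cl, h.empty]

/-- exchange -/
theorem exchange {X : Finset α} {e g : α} (h1 : e ∈ cl r (insert g X)) (h2 : e ∉ cl r X) :
    g ∈ cl r (insert e X) := by
  rw [mem_cl] at h1
  rw [h.notMem_cl] at h2
  rw [h.mem_cl_iff_le, insert_comm, h1, h2]
  exact h.ins g X

/-- a closed set strictly inside a set has smaller rank -/
theorem r_lt_of_closed {F Q : Finset α} (hF : cl r F = F) (hFQ : F ⊆ Q) (hne : Q ≠ F) :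
    r F < r Q := by
  by_contra hc
  have := h.subset_cl_of_r_le hFQ (not_lt.1 hc)
  rw [hF] at this
  exact hne (Subset.antisymm this hFQ)

theorem indep_over_insert {R B : Finset α} {e : α} (hB : r (R ∪ B) = r R + B.card)
    (he : e ∉ cl r (R ∪ B)) : e ∉ B ∧ r (R ∪ insert e B) = r R + (insert e B).card := by
  have heB : e ∉ B := fun hh => he (subset_cl _ (mem_union_right _ hh))
  refine ⟨heB, ?_⟩
  rw [union_insert, card_insert_of_notMem heB, h.notMem_cl.1 he, hB, add_assoc]

theorem notMem_cl_of_indep_over {R B : Finset α} {e : α} (hB : r (R ∪ B) = r R + B.card)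
    (he : e ∈ B) : e ∉ cl r (R ∪ B.erase e) := by
  rw [h.notMem_cl, ← union_insert, insert_erase he, hB,
    h.indep_over_subset hB (erase_subset e B), card_erase_of_mem he]
  have := card_pos.2 ⟨e, he⟩; omega

/-- extend an independent (over `R`) subset `A` of `X` to a basis of `X` over `R` -/
theorem exists_basis_over_ext (R X A : Finset α) (hAX : A ⊆ X) (hA : r (R ∪ A) = r R + A.card) :
    ∃ B, A ⊆ B ∧ B ⊆ X ∧ r (R ∪ B) = r R + B.card ∧ r (R ∪ B) = r (R ∪ X) ∧
      X ⊆ cl r (R ∪ B) := by
  obtain ⟨B, hB, hmax⟩ := exists_max_image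
    (X.powerset.filter (fun B => A ⊆ B ∧ r (R ∪ B) = r R + B.card)) card
    ⟨A, by simp [hAX, hA]⟩
  simp only [mem_filter, mem_powerset] at hB hmax
  have hX : X ⊆ cl r (R ∪ B) := by
    intro e he
    by_contra hc
    obtain ⟨h1, h2⟩ := h.indep_over_insert hB.2.2 hc
    have := hmax (insert e B) ⟨insert_subset he hB.1, hB.2.1.trans (subset_insert _ _), h2⟩
    rw [card_insert_of_notMem h1] at this; omega
  refine ⟨B, hB.2.1, hB.1, hB.2.2, ?_, hX⟩
  have h1 := h.r_union_of_subset_cl hX
  rw [union_assoc, union_eq_right.2 hB.1] at h1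
  exact h1.symm

theorem exists_basis_over (R X : Finset α) :
    ∃ B, B ⊆ X ∧ r (R ∪ B) = r R + B.card ∧ r (R ∪ B) = r (R ∪ X) ∧ X ⊆ cl r (R ∪ B) := by
  obtain ⟨B, -, h1⟩ := h.exists_basis_over_ext R X ∅ (empty_subset _) (by simp)
  exact ⟨B, h1⟩

theorem exists_basis (X : Finset α) :
    ∃ B, B ⊆ X ∧ r B = B.card ∧ r B = r X ∧ X ⊆ cl r B := by
  obtain ⟨B, h1, h2, h3, h4⟩ := h.exists_basis_over ∅ X
  exact ⟨B, h1, by simpa [h.empty] using h2, by simpa using h3, by simpa using h4⟩

/-- the number of elements of `A` not spanned by `R` and the other elements of `A`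
is at most the conditional rank of `A` over `R` -/
theorem card_coloops_le (R A : Finset α) :
    (A.filter (fun e => e ∉ cl r (R ∪ A.erase e))).card + r R ≤ r (R ∪ A) := by
  obtain ⟨B, h1, h2, h3, h4⟩ := h.exists_basis_over R A
  have : A.filter (fun e => e ∉ cl r (R ∪ A.erase e)) ⊆ B := by
    intro e he
    rw [mem_filter] at he
    by_contra hc
    refine he.2 (h.cl_mono (union_subset_union Subset.rfl ?_) (h4 he.1))
    intro x hx
    exact mem_erase.2 ⟨fun hh => hc (hh ▸ hx), h1 hx⟩
  have := card_le_card this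
  omega

/-- a maximal (inside `X`) set independent over `R` spans `X` over `R` -/
theorem span_of_maximal {R X B : Finset α} (hB : r (R ∪ B) = r R + B.card)
    (hmax : ∀ e ∈ X, e ∉ B → r (R ∪ insert e B) ≠ r R + (insert e B).card) :
    X ⊆ cl r (R ∪ B) := by
  intro e he
  by_contra hc
  obtain ⟨h1, h2⟩ := h.indep_over_insert hB hc
  exact hmax e he h1 h2

end IsRk

/-! ### Matroid bridge -/

section bridge

variable [Fintype α]

/-- rank function of a matroid on a finite type -/
noncomputable def rk (M : Matroid α) (X : Finset α) : ℕ := (M.eRk (X : Set α)).toNat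

omit [DecidableEq α] in
theorem coe_rk (M : Matroid α) (X : Finset α) : ((rk M X : ℕ) : ℕ∞) = M.eRk (X : Set α) := by
  unfold rk
  refine ENat.natCast_toNat ?_
  exact ((M.eRk_le_encard _).trans_lt (Set.toFinite _).encard_lt_top).ne

theorem isRk_rk (M : Matroid α) : IsRk (rk M) where
  empty := by simp [rk]
  mono := by
    intro S T hST
    have : ((rk M S : ℕ) : ℕ∞) ≤ (rk M T : ℕ) := by
      rw [coe_rk, coe_rk]; exact M.eRk_mono (by exact_mod_cast hST)
    exact_mod_cast this
  ins := by
    intro e S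
    have : ((rk M (insert e S) : ℕ) : ℕ∞) ≤ (rk M S : ℕ) + 1 := by
      rw [coe_rk, coe_rk, coe_insert]; exact M.eRk_insert_le_add_one _ _
    exact_mod_cast this
  sub := by
    intro S T
    have : ((rk M (S ∪ T) : ℕ) : ℕ∞) + (rk M (S ∩ T) : ℕ) ≤ (rk M S : ℕ) + (rk M T : ℕ) := by
      rw [coe_rk, coe_rk, coe_rk, coe_rk, coe_union, coe_inter, add_comm]
      exact M.eRk_inter_add_eRk_union_le _ _
    exact_mod_cast this

omit [DecidableEq α] in
theorem indep_iff_rk (M : Matroid α) (X : Finset α) :
    M.Indep (X : Set α) ↔ rk M X = X.card := by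
  rw [Matroid.indep_iff_eRk_eq_encard_of_finite (Set.toFinite _), ← coe_rk, Set.encard_coe_eq_coe_finsetCard]
  exact_mod_cast Iff.rfl

theorem mem_cl_rk (M : Matroid α) (X : Finset α) {e : α} (he : e ∈ M.E) :
    e ∈ cl (rk M) X ↔ e ∈ M.closure (X : Set α) := by
  rw [mem_cl]
  constructor
  · intro hh
    by_contra hc
    have h1 := Matroid.eRk_insert_eq_add_one (M := M) (X := (X : Set α)) ⟨he, hc⟩
    rw [← coe_insert, ← coe_rk, ← coe_rk, hh] at h1
    have : rk M X = rk M X + 1 := by exact_mod_cast h1
    omega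
  · intro hh
    have h1 : M.eRk (insert e (X : Set α)) = M.eRk (X : Set α) := by
      rw [← M.eRk_closure_eq (insert e (X : Set α)), Matroid.closure_insert_eq_of_mem_closure hh,
        M.eRk_closure_eq]
    rw [← coe_insert, ← coe_rk, ← coe_rk] at h1
    exact_mod_cast h1

theorem mem_cl_rk_of_notMem (M : Matroid α) (X : Finset α) {e : α} (he : e ∉ M.E) :
    e ∈ cl (rk M) X := by
  rw [mem_cl]
  have h1 : M.eRk (insert e (X : Set α)) = M.eRk (X : Set α) := by
    rw [← M.eRk_inter_ground (insert e (X : Set α)), Set.insert_inter_of_notMem he,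
      M.eRk_inter_ground]
  rw [← coe_insert, ← coe_rk, ← coe_rk] at h1
  exact_mod_cast h1

end bridge

end Crest.Agent.R305.K26
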