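import Crest.Agent.R305.StarEx13

set_option autoImplicit false
open Classical

namespace Crest.Agent.R305.S13
open Crest.Agent.R305

variable {k : ℕ}

/-- level `s` closure through the rounds, with guard set `S` -/
def tau (M : Matroid (Fin k)) (L : ℕ) (U : ℕ → Finset (Fin k)) (D : Finset (Fin k)) (s : ℕ)
    (S : Finset (Fin k)) : ℕ → Set (Fin k)
  | 0 => S0 M L s
  | i + 1 => if 3 * (L - i) ≤ s then
      M.closure (Exp M (D ∩ U (L - i)) (tau M L U D s S i) ∪ ↑(S ∩ U (L - i)))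
    else tau M L U D s S i

variable {M : Matroid (Fin k)}

lemma S0_sub (L s : ℕ) : S0 M L s ⊆ M.E := by
  unfold S0; split_ifs
  · exact M.closure_subset_ground _
  · exact le_rfl

lemma tau_sub (L : ℕ) (U : ℕ → Finset (Fin k)) (D : Finset (Fin k)) (s : ℕ)
    (S : Finset (Fin k)) (i : ℕ) : tau M L U D s S i ⊆ M.E := by
  induction i with
  | zero => exact S0_sub L s
  | succ i ih =>
    rw [tau]; split_ifs
    · exact M.closure_subset_ground _
    · exact ih

lemma exp_sub (hE : EXPF M) (D : Finset (Fin k)) {S : Set (Fin k)} (hS : S ⊆ M.E) :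
    S ⊆ Exp M D S ∧ Exp M D S ⊆ M.E := ⟨(hE D S hS).1.1, (hE D S hS).1.2.1⟩

lemma exp_mono (hE : EXPF M) (D : Finset (Fin k)) {S S' : Set (Fin k)} (h : S ⊆ S')
    (hS : S' ⊆ M.E) : Exp M D S ⊆ Exp M D S' := (hE D S (h.trans hS)).2.2.2.1 S' h hS

lemma tau_mono (hE : EXPF M) (L : ℕ) (U : ℕ → Finset (Fin k)) (D : Finset (Fin k)) (s : ℕ)
    {S S' : Finset (Fin k)} (h : S ⊆ S') (i : ℕ) : tau M L U D s S i ⊆ tau M L U D s S' i := by
  induction i with
  | zero => exact le_rfl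
  | succ i ih =>
    rw [tau, tau]; split_ifs
    · refine M.closure_subset_closure (Set.union_subset_union
        (exp_mono hE _ ih (tau_sub _ _ _ _ _ _)) ?_)
      exact Finset.coe_subset.2 (Finset.inter_subset_inter_right h)
    · exact ih

lemma tau_succ (hE : EXPF M) (L : ℕ) (U : ℕ → Finset (Fin k)) (D : Finset (Fin k)) (s : ℕ)
    (S : Finset (Fin k)) (i : ℕ) : tau M L U D s S i ⊆ tau M L U D s S (i + 1) := by
  rw [tau]; split_ifs
  · have h := exp_sub hE (D ∩ U (L - i)) (tau_sub L U D s S i)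
    exact h.1.trans ((M.subset_closure _ h.2).trans (M.closure_subset_closure Set.subset_union_left))
  · exact le_rfl

lemma tau_le (hE : EXPF M) (L : ℕ) (U : ℕ → Finset (Fin k)) (D : Finset (Fin k)) (s : ℕ)
    (S : Finset (Fin k)) {i i' : ℕ} (h : i ≤ i') : tau M L U D s S i ⊆ tau M L U D s S i' := by
  induction h with
  | refl => exact le_rfl
  | step _ ih => exact ih.trans (tau_succ hE _ _ _ _ _ _)

lemma mem_tau (hE : EXPF M) (L : ℕ) (U : ℕ → Finset (Fin k)) (hU : Pools M U)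
    (D : Finset (Fin k)) (s : ℕ) (S : Finset (Fin k)) {m i : ℕ} (hm : m ≤ L) (hs : 3 * m ≤ s)
    (hi : L - m + 1 ≤ i) {y : Fin k} (hy : y ∈ S) (hyU : y ∈ U m) : y ∈ tau M L U D s S i := by
  refine tau_le hE L U D s S hi ?_
  have e : L - (L - m) = m := by omega
  rw [tau, e, if_pos hs]
  refine M.mem_closure_of_mem' (Or.inr ?_) (hU.1 m hyU)
  simp [hy, hyU]

lemma St_congr (L : ℕ) (U : ℕ → Finset (Fin k)) (D C C' : Finset (Fin k)) (i : ℕ)
    (h : ∀ i' < i, C ∩ U (L - i') = C' ∩ U (L - i')) : St M L U D C i = St M L U D C' i := by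
  induction i with
  | zero => rfl
  | succ i ih =>
    rw [St, St, ih (fun i' hi' => h i' (by omega)), h i (by omega)]

lemma Nm_eq (L : ℕ) (U : ℕ → Finset (Fin k)) (D T0 : Finset (Fin k)) {i : ℕ} (hi : i ≤ L)
    (t : ℕ) : Nm M L U D T0 (L - i) t
      = Nstep M (D ∩ U (L - i)) (L - i) (St M L U D (Cg D T0) i) t := by
  unfold Nm
  have : L - (L - i) = i := by omega
  rw [this]

lemma St_sub (hC : CHAIN M) (L : ℕ) (U : ℕ → Finset (Fin k)) (D C : Finset (Fin k)) (i t : ℕ) :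
    St M L U D C i t ⊆ M.E := by
  rw [← (hC L U D C).1 i t]; exact M.closure_subset_ground _

/-- the real path at level `s` is below `tau S` as soon as `S` holds the old guards -/
lemma St_le_tau (hE : EXPF M) (L : ℕ) (U : ℕ → Finset (Fin k)) (D T0 : Finset (Fin k)) (s : ℕ)
    (S : Finset (Fin k)) (i : ℕ) (hi : i ≤ L)
    (h : ∀ i' < i, 3 * (L - i') ≤ s → ∀ y, y ∈ Cg D T0 → y ∈ U (L - i') →
      y ∈ Nm M L U D T0 (L - i') (s + 1) → y ∈ S) :
    St M L U D (Cg D T0) i s ⊆ tau M L U D s S i := by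
  induction i with
  | zero => exact le_rfl
  | succ i ih =>
    have ih' := ih (by omega) (fun i' hi' => h i' (by omega))
    rw [St, tau, Sstep]
    split_ifs with hs
    · refine M.closure_subset_closure (Set.union_subset_union ?_ ?_)
      · rw [Nstep, if_pos hs]
        exact exp_mono hE _ ih' (tau_sub _ _ _ _ _ _)
      · rintro y ⟨hy1, hy2⟩
        have hy1' := Finset.mem_inter.1 (Finset.mem_coe.1 hy1)
        rw [← Nm_eq L U D T0 (by omega)] at hy2
        exact Finset.mem_coe.2 (Finset.mem_inter.2 ⟨h i (by omega) hs y hy1'.1 hy1'.2 hy2, hy1'.2⟩)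
    · exact ih'

/-- `tau` of guards of the pool is below the real path one level higher -/
lemma tau_le_St (hE : EXPF M) (hC : CHAIN M) (L : ℕ) (U : ℕ → Finset (Fin k))
    (D T0 : Finset (Fin k)) (s : ℕ) (S : Finset (Fin k)) (i : ℕ) (hi : i ≤ L)
    (h : ∀ i' < i, ∀ y, y ∈ S → y ∈ U (L - i') →
      y ∈ Cg D T0 ∧ y ∈ Nm M L U D T0 (L - i') (s + 1 + 1)) :
    tau M L U D s S i ⊆ St M L U D (Cg D T0) i (s + 1) := by
  induction i with
  | zero => exact (hC L U D (Cg D T0)).2.1 0 s (s + 1) (by omega)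
  | succ i ih =>
    have ih' := ih (by omega) (fun i' hi' => h i' (by omega))
    rw [tau]
    split_ifs with hs
    · have hs' : 3 * (L - i) ≤ s + 1 := by omega
      rw [St, Sstep, if_pos hs']
      refine M.closure_subset_closure (Set.union_subset_union ?_ ?_)
      · rw [Nstep, if_pos hs']
        exact exp_mono hE _ ih' (St_sub hC _ _ _ _ _ _)
      · intro y hy
        have hy' := Finset.mem_inter.1 (Finset.mem_coe.1 hy)
        have := h i (by omega) y hy'.1 hy'.2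
        rw [Nm_eq L U D T0 (by omega)] at this
        exact ⟨Finset.mem_coe.2 (Finset.mem_inter.2 ⟨this.1, hy'.2⟩), this.2⟩
    · exact ih'.trans ((hC L U D (Cg D T0)).2.2.1 i (i + 1) (s + 1) (by omega))

lemma mem_pool {L : ℕ} {U : ℕ → Finset (Fin k)} {D T0 : Finset (Fin k)} {j b : ℕ} {y : Fin k} :
    y ∈ pool M L U D T0 j b ↔
      ∃ m, (j + 1 ≤ m ∧ m ≤ L) ∧ (y ∈ U m ∧ y ∉ D) ∧ y ∈ Nm M L U D T0 m b := by
  unfold pool
  simp only [Finset.mem_biUnion, Finset.mem_Icc, Finset.mem_filter, Finset.mem_sdiff]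

lemma cls_unique {U : ℕ → Finset (Fin k)} (hU : Pools M U) {y : Fin k} {m m' : ℕ}
    (h : y ∈ U m) (h' : y ∈ U m') : m = m' := by
  by_contra hne
  exact Finset.disjoint_left.1 (hU.2 m m' hne) h h'

/-- exposure order: lightest class first -/
noncomputable def ordU (L : ℕ) (U : ℕ → Finset (Fin k)) (y : Fin k) : ℕ :=
  if h : ∃ m, y ∈ U m then L - h.choose else 0

lemma ordU_eq {U : ℕ → Finset (Fin k)} (hU : Pools M U) (L : ℕ) {y : Fin k} {m : ℕ}
    (h : y ∈ U m) : ordU L U y = L - m := by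
  have hex : ∃ m, y ∈ U m := ⟨m, h⟩
  unfold ordU
  rw [dif_pos hex, cls_unique hU hex.choose_spec h]

theorem safe1_13 (hE : EXPF M) (hC : CHAIN M) (hN : NCHAIN M) (hL : LOCT M) : SAFE1 M := by
  intro L U D j b e hU hj1 hjL hb
  obtain ⟨hb1, hb2⟩ := Finset.mem_Icc.1 hb
  obtain ⟨s, rfl⟩ : ∃ s, b = s + 1 + 1 := ⟨b - 2, by omega⟩
  have hs : 3 * j ≤ s := by omega
  have e1 : s + 1 + 1 - 1 = s + 1 := by omega
  have e2 : s + 1 + 1 - 2 = s := by omega
  set b := s + 1 + 1 with hbdef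
  let Q : Finset (Fin k) → Finset (Fin k) := fun T => pool M L U D T j b
  let tN : Finset (Fin k) → Set (Fin k) := fun S => Exp M (D ∩ U j) (tau M L U D s S (L - j))
  let G : Finset (Fin k) → Prop := fun T => e ∈ (T \ D) ∩ U j ∧ e ∈ Nm M L U D T j b
  let A : Finset (Fin k) → Finset (Fin k) → Prop := fun T S =>
    ¬ G T ∨ e ∈ M.closure (tN S ∪ ↑(X0 M L U D T j b e))
  let fresh : Finset (Fin k) → Fin k → Prop := fun T y =>
    ∃ m, y ∈ U m ∧ 3 * m + 2 ≤ b ∧ y ∉ Nm M L U D T m (s + 1)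
  let X : Finset (Fin k) → Finset (Fin k) := fun T => (Q T).filter fun y => (fresh T y ↔ y ∈ T)
  have hnotQ : ∀ T y, y ∈ U j → y ∉ Q T := by
    intro T y hy hyQ
    obtain ⟨m, hm, hy', -⟩ := mem_pool.1 hyQ
    have := cls_unique hU hy hy'.1
    omega
  have htN : ∀ S S', S ⊆ S' → tN S ⊆ tN S' := fun S S' h =>
    exp_mono hE _ (tau_mono hE L U D s h _) (tau_sub _ _ _ _ _ _)
  have htNE : ∀ S, tN S ⊆ M.E := fun S => (exp_sub hE _ (tau_sub _ _ _ _ _ _)).2
  have hNj : ∀ T t, 3 * j ≤ t → Nm M L U D T j t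
      = Exp M (D ∩ U j) (St M L U D (Cg D T) (L - j) t) := by
    intro T t ht; unfold Nm Nstep; rw [if_pos ht]
  -- `N_(b-2) ⊆ tN (X T)`
  have hlow : ∀ T, Nm M L U D T j s ⊆ tN (X T) := by
    intro T
    rw [hNj T s hs]
    refine exp_mono hE _ (St_le_tau hE L U D T s (X T) (L - j) (by omega) ?_)
      (tau_sub _ _ _ _ _ _)
    intro i' hi' hs' y hyC hyU hyN
    have hyC' : y ∉ D ∧ y ∉ T := by simpa [Cg, not_or] using hyC
    refine Finset.mem_filter.2 ⟨mem_pool.2 ⟨L - i', ⟨by omega, by omega⟩, ⟨hyU, hyC'.1⟩, ?_⟩, ?_⟩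
    · exact (hN L U D T (L - i') (by omega) (by omega)).2.1 (s + 1) b (by omega) hyN
    · refine ⟨fun ⟨m, hm1, _, hm3⟩ => ?_, fun h => absurd h hyC'.2⟩
      rw [cls_unique hU hm1 hyU] at hm3
      exact absurd hyN hm3
  have hthi : ∀ T, (↑(Thi M L U D T j b) : Set (Fin k)) ⊆ tN (X T) := by
    intro T y hy
    have hy' := Finset.mem_coe.1 hy
    unfold Thi Tband at hy'
    simp only [Finset.mem_biUnion, Finset.mem_filter, Finset.mem_Icc, Finset.mem_inter,
      Finset.mem_sdiff] at hy'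
    obtain ⟨m, ⟨⟨hm1, hm2⟩, hm3⟩, ⟨⟨hyT, hyD⟩, hyU⟩, hyN, hyN'⟩ := hy'
    refine (exp_sub hE _ (tau_sub _ _ _ _ _ _)).1 ?_
    refine mem_tau hE L U hU D s (X T) hm2 (by omega) (by omega) ?_ hyU
    refine Finset.mem_filter.2 ⟨mem_pool.2 ⟨m, ⟨hm1, hm2⟩, ⟨hyU, hyD⟩, hyN⟩, ?_⟩
    exact ⟨fun _ => hyT, fun _ => ⟨m, hyU, hm3, by rwa [e1] at hyN'⟩⟩
  have hup : ∀ T, tN (Q T \ T) ⊆ Nm M L U D T j (s + 1) := by
    intro T
    rw [hNj T (s + 1) (by omega)]
    refine exp_mono hE _ (tau_le_St hE hC L U D T s (Q T \ T) (L - j) (by omega) ?_)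
      (St_sub hC _ _ _ _ _ _)
    intro i' hi' y hy hyU
    obtain ⟨hyQ, hyT⟩ := Finset.mem_sdiff.1 hy
    obtain ⟨m, hm, hy', hyN⟩ := mem_pool.1 hyQ
    rw [cls_unique hU hy'.1 hyU] at hyN
    exact ⟨by simp [Cg, hy'.2, hyT], hyN⟩
  have htt0 : (0 : ℝ) ≤ tt := by unfold tt; positivity
  have htt : tt < 1 / 2 := by
    unfold tt
    have : ((2 : ℝ)⁻¹) ^ 60 ≤ ((2 : ℝ)⁻¹) ^ 2 :=
      pow_le_pow_of_le_one (by norm_num) (by norm_num) (by norm_num)
    linarith [show ((2 : ℝ)⁻¹) ^ 2 < 1 / 2 by norm_num]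
  have main := starEx tt htt0 htt Q
    (fun T T' h => by
      ext y
      simp only [Q, mem_pool]
      refine exists_congr fun m => and_congr_right fun hm => ?_
      rw [hL L U D T T' j b hU hj1 hjL h m b (by omega) hm.2 le_rfl])
    A
    (fun T T' h S => by
      have hNe := hL L U D T T' j b hU hj1 hjL h j b le_rfl hjL le_rfl
      have hG : G T' ↔ G T := by
        simp only [G, hNe, Finset.mem_inter, Finset.mem_sdiff]
        constructor
        · rintro ⟨⟨⟨h1, h2⟩, h3⟩, h4⟩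
          exact ⟨⟨⟨(h e (hnotQ T e h3)).2 h1, h2⟩, h3⟩, h4⟩
        · rintro ⟨⟨⟨h1, h2⟩, h3⟩, h4⟩
          exact ⟨⟨⟨(h e (hnotQ T e h3)).1 h1, h2⟩, h3⟩, h4⟩
      have hX0 : X0 M L U D T' j b e = X0 M L U D T j b e := by
        ext f
        simp only [X0, hNe, Finset.mem_filter, Finset.mem_inter, Finset.mem_sdiff]
        constructor
        · rintro ⟨⟨⟨h1, h2⟩, h3⟩, h4⟩
          exact ⟨⟨⟨(h f (hnotQ T f h3)).2 h1, h2⟩, h3⟩, h4⟩
        · rintro ⟨⟨⟨h1, h2⟩, h3⟩, h4⟩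
          exact ⟨⟨⟨(h f (hnotQ T f h3)).1 h1, h2⟩, h3⟩, h4⟩
      simp only [A, hG, hX0])
    (fun T S S' h hA => hA.imp_right fun h1 =>
      M.closure_subset_closure (Set.union_subset_union_left _ (htN S S' h)) h1)
    (ordU L U) fresh
    (fun T T' y hy h => by
      obtain ⟨m, hm, hy', -⟩ := mem_pool.1 hy
      have hSt : St M L U D (Cg D T) (L - m) = St M L U D (Cg D T') (L - m) := by
        refine St_congr L U D _ _ _ fun i' hi' => ?_
        ext z
        simp only [Cg, Finset.mem_inter, Finset.mem_compl, Finset.mem_union]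
        refine and_congr_left fun hz => ?_
        rw [h z (Or.inr (by rw [ordU_eq hU L hz, ordU_eq hU L hy'.1]; omega))]
      refine exists_congr fun m' => and_congr_right fun hm' => ?_
      rw [cls_unique hU hm' hy'.1]
      unfold Nm
      rw [hSt])
    X (fun T i => Finset.mem_filter)
  have bern0 : ∀ T : Finset (Fin k), 0 ≤ bern tt T := fun T =>
    Finset.prod_nonneg fun i _ => by split_ifs <;> linarith
  have Exm : ∀ f g : Finset (Fin k) → ℝ, (∀ T, f T ≤ g T) → Ex tt f ≤ Ex tt g := fun f g h =>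
    Finset.sum_le_sum fun T _ => mul_le_mul_of_nonneg_left (h T) (bern0 T)
  refine le_trans (Exm _ _ fun T => ?_) (main.trans
    (mul_le_mul_of_nonneg_left (Exm _ _ fun T => ?_) (div_nonneg htt0 (by linarith))))
  · unfold ind
    by_cases hH : Harm M L U D T j b e
    · obtain ⟨h1, h2, h3, h4⟩ := hH
      have hG : G T := ⟨h1, h2⟩
      rw [e2] at h3
      rw [e1] at h4
      have hA1 : A T (X T) := Or.inr (M.closure_subset_closure
        (Set.union_subset_union_left _ (Set.union_subset (hlow T) (hthi T))) h3)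
      have hA2 : ¬ A T (Q T \ T) := by
        rintro (h | h)
        · exact h hG
        · exact h4 (M.closure_subset_closure (Set.union_subset_union_left _ (hup T)) h)
      rw [if_pos (show A T (X T) ∧ ¬ A T (Q T \ T) from ⟨hA1, hA2⟩)]
      split_ifs <;> norm_num
    · rw [if_neg hH]; split_ifs <;> norm_num
  · unfold ind
    by_cases hA : A T (X T)
    · rw [if_neg (not_not.2 hA)]; split_ifs <;> norm_num
    · rw [if_pos hA]
      have hG : G T := by
        by_contra h; exact hA (Or.inl h)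
      obtain ⟨h1, h2⟩ := hG
      have h1' := Finset.mem_inter.1 h1
      rw [if_pos]
      refine ⟨(Finset.mem_sdiff.1 h1'.1).1, h1'.2, h2, fun h3 => hA (Or.inr ?_)⟩
      rw [e2] at h3
      exact M.mem_closure_of_mem' (Or.inl (hlow T h3)) (hU.1 j h1'.2)

end Crest.Agent.R305.S13
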