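import Crest.Agent.R305.RGDefs55
import Crest.Agent.R305.Star13

/-! Row 305, block B10 (SAFE1) from lemma (*) with stopping set. -/

set_option autoImplicit false

open Classical

namespace Crest.Agent.R305.X14

variable {k : ℕ}

/-- one time level rebuilt from an arbitrary set `S` of contracted elements -/
def lev (M : Matroid (Fin k)) (L : ℕ) (U : ℕ → Finset (Fin k)) (D : Finset (Fin k)) (t : ℕ)
    (S : Finset (Fin k)) : ℕ → Set (Fin k)
  | 0 => S0 M L t
  | i + 1 => if 3 * (L - i) ≤ t then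
      M.closure (Exp M (D ∩ U (L - i)) (lev M L U D t S i) ∪ ↑(S ∩ U (L - i)))
    else lev M L U D t S i

theorem lev_sub (M : Matroid (Fin k)) (L : ℕ) (U : ℕ → Finset (Fin k)) (D : Finset (Fin k))
    (t : ℕ) (S : Finset (Fin k)) (i : ℕ) : lev M L U D t S i ⊆ M.E := by
  induction i with
  | zero =>
    simp only [lev, S0]
    split_ifs
    · exact M.closure_subset_ground _
    · exact subset_rfl
  | succ i ih =>
    simp only [lev]
    split_ifs
    · exact M.closure_subset_ground _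
    · exact ih

theorem sub_cl (M : Matroid (Fin k)) {X Y : Set (Fin k)} (h : X ⊆ Y) (hE : X ⊆ M.E) :
    X ⊆ M.closure Y := fun _ hx => M.inter_ground_subset_closure Y ⟨h hx, hE hx⟩

theorem lev_mono {M : Matroid (Fin k)} (h2 : EXPF M) (L : ℕ) (U : ℕ → Finset (Fin k))
    (D : Finset (Fin k)) (t : ℕ) {S S' : Finset (Fin k)} (h : S ⊆ S') (i : ℕ) :
    lev M L U D t S i ⊆ lev M L U D t S' i := by
  induction i with
  | zero => simp only [lev]; exact subset_rfl
  | succ i ih =>
    simp only [lev]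
    split_ifs
    · apply M.closure_subset_closure
      apply Set.union_subset_union
      · exact (h2 _ _ (lev_sub M L U D t S i)).2.2.2.1 _ ih (lev_sub M L U D t S' i)
      · exact Finset.coe_subset.2 (Finset.inter_subset_inter_right h)
    · exact ih

theorem lev_step {M : Matroid (Fin k)} (h2 : EXPF M) (L : ℕ) (U : ℕ → Finset (Fin k))
    (D : Finset (Fin k)) (t : ℕ) (S : Finset (Fin k)) (i : ℕ) :
    lev M L U D t S i ⊆ lev M L U D t S (i + 1) := by
  simp only [lev]
  split_ifs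
  · exact sub_cl M (((h2 _ _ (lev_sub M L U D t S i)).1.1).trans Set.subset_union_left)
      (lev_sub M L U D t S i)
  · exact subset_rfl

theorem lev_le {M : Matroid (Fin k)} (h2 : EXPF M) (L : ℕ) (U : ℕ → Finset (Fin k))
    (D : Finset (Fin k)) (t : ℕ) (S : Finset (Fin k)) {i i' : ℕ} (h : i ≤ i') :
    lev M L U D t S i ⊆ lev M L U D t S i' := by
  induction h with
  | refl => exact subset_rfl
  | step _ ih => exact ih.trans (lev_step h2 L U D t S _)

theorem St_sub {M : Matroid (Fin k)} (h3 : CHAIN M) (L : ℕ) (U : ℕ → Finset (Fin k))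
    (D C : Finset (Fin k)) (i t : ℕ) : St M L U D C i t ⊆ M.E := by
  rw [← (h3 L U D C).1 i t]; exact M.closure_subset_ground _

theorem Nm_eq (M : Matroid (Fin k)) (L : ℕ) (U : ℕ → Finset (Fin k)) (D T0 : Finset (Fin k))
    {i : ℕ} (hi : i ≤ L) (t : ℕ) :
    Nm M L U D T0 (L - i) t =
      Nstep M (D ∩ U (L - i)) (L - i) (St M L U D (Cg D T0) i) t := by
  unfold Nm
  rw [show L - (L - i) = i by omega]

/-- the true level is below the rebuilt level -/
theorem St_sub_lev {M : Matroid (Fin k)} (h2 : EXPF M) (h3 : CHAIN M) (L : ℕ)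
    (U : ℕ → Finset (Fin k)) (D T0 X : Finset (Fin k)) (j t : ℕ)
    (hX : ∀ m, j < m → m ≤ L → 3 * m ≤ t → ∀ y ∈ Cg D T0 ∩ U m,
      y ∈ Nm M L U D T0 m (t + 1) → y ∈ X) (i : ℕ) (hi : i ≤ L - j) :
    St M L U D (Cg D T0) i t ⊆ lev M L U D t X i := by
  induction i with
  | zero => simp only [St, lev]; exact subset_rfl
  | succ i ih =>
    have ih' := ih (by omega)
    simp only [St, lev, Sstep]
    split_ifs with h
    · apply M.closure_subset_closure
      apply Set.union_subset_union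
      · simp only [Nstep, if_pos h]
        exact (h2 _ _ (St_sub h3 L U D _ i t)).2.2.2.1 _ ih' (lev_sub M L U D t X i)
      · rintro y ⟨hy1, hy2⟩
        rw [← Nm_eq M L U D T0 (by omega : i ≤ L)] at hy2
        have hy1' : y ∈ Cg D T0 ∩ U (L - i) := Finset.mem_coe.1 hy1
        exact Finset.mem_coe.2 (Finset.mem_inter.2
          ⟨hX (L - i) (by omega) (by omega) h y hy1' hy2, (Finset.mem_inter.1 hy1').2⟩)
    · exact ih'

/-- the level rebuilt from guards of the pool is below the next true level -/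
theorem lev_sub_St {M : Matroid (Fin k)} (h2 : EXPF M) (h3 : CHAIN M) (L : ℕ)
    (U : ℕ → Finset (Fin k)) (D T0 X : Finset (Fin k)) (j t : ℕ)
    (hX : ∀ m, j < m → m ≤ L → ∀ y ∈ X ∩ U m,
      y ∈ Cg D T0 ∧ y ∈ Nm M L U D T0 m (t + 2)) (i : ℕ) (hi : i ≤ L - j) :
    lev M L U D t X i ⊆ St M L U D (Cg D T0) i (t + 1) := by
  induction i with
  | zero =>
    have := (h3 L U D (Cg D T0)).2.1 0 t (t + 1) (by omega)
    simpa only [St, lev] using this
  | succ i ih =>
    have ih' := ih (by omega)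
    simp only [lev]
    split_ifs with h
    · have h' : 3 * (L - i) ≤ t + 1 := by omega
      simp only [St, Sstep, if_pos h']
      apply M.closure_subset_closure
      apply Set.union_subset_union
      · simp only [Nstep, if_pos h']
        exact (h2 _ _ (lev_sub M L U D t X i)).2.2.2.1 _ ih' (St_sub h3 L U D _ i (t + 1))
      · intro y hy
        have hy' : y ∈ X ∩ U (L - i) := Finset.mem_coe.1 hy
        obtain ⟨a, b⟩ := hX (L - i) (by omega) (by omega) y hy'
        refine ⟨Finset.mem_coe.2 (Finset.mem_inter.2 ⟨a, (Finset.mem_inter.1 hy').2⟩), ?_⟩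
        rw [← Nm_eq M L U D T0 (by omega : i ≤ L)]
        exact b
    · exact ih'.trans ((h3 L U D (Cg D T0)).2.2.1 i (i + 1) (t + 1) (by omega))

/-- predictability of level `t` from level `t + 1` and the labels of the lighter classes -/
theorem St_pred (M : Matroid (Fin k)) (L : ℕ) (U : ℕ → Finset (Fin k))
    (D T0 T0' : Finset (Fin k)) (m t : ℕ)
    (hN : ∀ m', m < m' → m' ≤ L → Nm M L U D T0' m' (t + 1) = Nm M L U D T0 m' (t + 1))
    (hT : ∀ m', m < m' → m' ≤ L → ∀ y ∈ U m', (y ∈ T0 ↔ y ∈ T0')) (i : ℕ) (hi : i ≤ L - m) :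
    St M L U D (Cg D T0') i t = St M L U D (Cg D T0) i t := by
  induction i with
  | zero => simp only [St]
  | succ i ih =>
    have ih' := ih (by omega)
    have e1 := hN (L - i) (by omega) (by omega)
    rw [Nm_eq M L U D T0 (by omega : i ≤ L), Nm_eq M L U D T0' (by omega : i ≤ L)] at e1
    have e2 : Cg D T0' ∩ U (L - i) = Cg D T0 ∩ U (L - i) := by
      ext y
      simp only [Cg, Finset.mem_inter, Finset.mem_compl, Finset.mem_union]
      constructor
      · rintro ⟨a, b⟩
        exact ⟨by rwa [hT (L - i) (by omega) (by omega) y b], b⟩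
      · rintro ⟨a, b⟩
        exact ⟨by rwa [← hT (L - i) (by omega) (by omega) y b], b⟩
    have e3 : Nstep M (D ∩ U (L - i)) (L - i) (St M L U D (Cg D T0') i) t =
        Nstep M (D ∩ U (L - i)) (L - i) (St M L U D (Cg D T0) i) t := by
      simp only [Nstep, ih']
    simp only [St, Sstep]
    rw [e1, e2, e3, ih']

noncomputable def toT (w : Fin k → Bool) : Finset (Fin k) := Finset.univ.filter (fun e => w e = true)

theorem mem_toT (w : Fin k → Bool) (e : Fin k) : e ∈ toT w ↔ w e = true := by simp [toT]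

noncomputable def eqv (k : ℕ) : (Fin k → Bool) ≃ Finset (Fin k) where
  toFun := toT
  invFun := fun A e => decide (e ∈ A)
  left_inv := fun w => by funext e; simp [mem_toT]
  right_inv := fun A => by ext e; simp [mem_toT]

theorem Ex_eq (p : ℝ) (f : Finset (Fin k) → ℝ) :
    Ex p f = ∑ w : Fin k → Bool, S13.pw (fun b : Bool => if b = true then p else 1 - p) w * f (toT w) := by
  unfold Ex
  symm
  refine Fintype.sum_equiv (eqv k) _ _ (fun w => ?_)
  have : bern p (toT w) = S13.pw (fun b : Bool => if b = true then p else 1 - p) w := by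
    unfold bern S13.pw
    refine Finset.prod_congr rfl (fun e _ => ?_)
    simp only [mem_toT]
  show _ = bern p (toT w) * f (toT w)
  rw [this]

noncomputable def cls (U : ℕ → Finset (Fin k)) (y : Fin k) : ℕ :=
  if h : ∃ m, y ∈ U m then h.choose else 0

theorem cls_eq {M : Matroid (Fin k)} {U : ℕ → Finset (Fin k)} (hP : Pools M U) {y : Fin k} {m : ℕ}
    (h : y ∈ U m) : cls U y = m := by
  have hex : ∃ m, y ∈ U m := ⟨m, h⟩
  unfold cls
  rw [dif_pos hex]
  by_contra hne
  exact Finset.disjoint_left.1 (hP.2 _ _ hne) hex.choose_spec h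

theorem mem_pool (M : Matroid (Fin k)) (L : ℕ) (U : ℕ → Finset (Fin k)) (D T0 : Finset (Fin k))
    (j b : ℕ) (y : Fin k) : y ∈ pool M L U D T0 j b ↔
      ∃ m, j < m ∧ m ≤ L ∧ y ∈ U m ∧ y ∉ D ∧ y ∈ Nm M L U D T0 m b := by
  simp only [pool, Finset.mem_biUnion, Finset.mem_Icc, Finset.mem_filter, Finset.mem_sdiff]
  constructor
  · rintro ⟨m, ⟨a, b⟩, ⟨c, d⟩, e⟩; exact ⟨m, by omega, b, c, d, e⟩
  · rintro ⟨m, a, b, c, d, e⟩; exact ⟨m, ⟨by omega, b⟩, ⟨c, d⟩, e⟩

theorem tt_pos : 0 < tt := by unfold tt; positivity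
theorem tt_lt : tt < 1 / 2 := by unfold tt; norm_num

theorem safe1x14 (M : Matroid (Fin k)) (h2 : EXPF M) (h3 : CHAIN M) (h4 : NCHAIN M)
    (h19 : LOCT M) : SAFE1 M := by
  intro L U D j b e hP hj1 hjL hb
  simp only [times, Finset.mem_Icc] at hb
  obtain ⟨c, rfl⟩ : ∃ c, b = c + 2 := ⟨b - 2, by omega⟩
  have hc : 3 * j ≤ c := by omega
  have e1 : c + 2 - 2 = c := by omega
  have e2 : c + 2 - 1 = c + 1 := by omega
  set p : Bool → ℝ := fun b : Bool => if b = true then tt else 1 - tt with hp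
  have hp0 : ∀ l, 0 ≤ p l := by
    intro l; have := tt_pos; have := tt_lt
    simp only [hp]; split_ifs <;> linarith
  have hp1 : ∑ l, p l = 1 := by simp [hp]
  let Q : (Fin k → Bool) → Finset (Fin k) := fun w => pool M L U D (toT w) j (c + 2)
  let cond : (Fin k → Bool) → Prop := fun w =>
    e ∈ (toT w \ D) ∩ U j ∧ e ∈ Nm M L U D (toT w) j (c + 2)
  let A : (Fin k → Bool) → Finset (Fin k) → Prop := fun w S => ¬ cond w ∨
    e ∈ M.closure (Exp M (D ∩ U j) (lev M L U D c S (L - j)) ∪ ↑(X0 M L U D (toT w) j (c + 2) e))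
  let fresh : (Fin k → Bool) → Fin k → Prop := fun w y =>
    y ∉ Nm M L U D (toT w) (cls U y) (c + 1) ∧ 3 * cls U y ≤ c
  let X : (Fin k → Bool) → Finset (Fin k) := fun w => (Q w).filter
    (fun i => (fresh w i ∧ w i = true) ∨ (¬ fresh w i ∧ w i = false))
  let Cq : (Fin k → Bool) → Finset (Fin k) := fun w => (Q w).filter (fun i => w i = false)
  have hloc : ∀ w w' : Fin k → Bool, (∀ i ∉ Q w, w i = w' i) → ∀ m t, j ≤ m → m ≤ L → c + 2 ≤ t →
      Nm M L U D (toT w') m t = Nm M L U D (toT w) m t := by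
    intro w w' h
    refine h19 L U D (toT w) (toT w') j (c + 2) hP hj1 hjL (fun y hy => ?_)
    rw [mem_toT, mem_toT, h y hy]
  have hUj : ∀ w : Fin k → Bool, ∀ y ∈ U j, y ∉ Q w := by
    intro w y hy hq
    obtain ⟨m, a, -, hm, -⟩ := (mem_pool M L U D _ j _ y).1 hq
    exact Finset.disjoint_left.1 (hP.2 j m (by omega)) hy hm
  have hQ : ∀ w w', (∀ i ∉ Q w, w i = w' i) → Q w' = Q w := by
    intro w w' h
    ext y
    simp only [Q, mem_pool]
    constructor
    · rintro ⟨m, a1, a2, a3, a4, a5⟩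
      exact ⟨m, a1, a2, a3, a4, by rwa [hloc w w' h m _ (by omega) a2 le_rfl] at a5⟩
    · rintro ⟨m, a1, a2, a3, a4, a5⟩
      exact ⟨m, a1, a2, a3, a4, by rwa [hloc w w' h m _ (by omega) a2 le_rfl]⟩
  have hA : ∀ w w', (∀ i ∉ Q w, w i = w' i) → ∀ S, (A w' S ↔ A w S) := by
    intro w w' h S
    have hT : (toT w' \ D) ∩ U j = (toT w \ D) ∩ U j := by
      ext y
      simp only [Finset.mem_inter, Finset.mem_sdiff, mem_toT]
      constructor
      · rintro ⟨⟨a, b⟩, c⟩; exact ⟨⟨by rwa [h y (hUj w y c)], b⟩, c⟩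
      · rintro ⟨⟨a, b⟩, c⟩; exact ⟨⟨by rwa [← h y (hUj w y c)], b⟩, c⟩
    have hN := hloc w w' h j (c + 2) le_rfl hjL le_rfl
    have hX0 : X0 M L U D (toT w') j (c + 2) e = X0 M L U D (toT w) j (c + 2) e := by
      unfold X0; rw [hT, hN]
    simp only [A, cond, hT, hN, hX0]
  have hmono : ∀ w S S', S ⊆ S' → A w S → A w S' := by
    intro w S S' h hS
    rcases hS with hS | hS
    · exact Or.inl hS
    · refine Or.inr (M.closure_subset_closure (Set.union_subset_union_left _ ?_) hS)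
      exact (h2 _ _ (lev_sub M L U D c S _)).2.2.2.1 _ (lev_mono h2 L U D c h _)
        (lev_sub M L U D c S' _)
  have hf : ∀ w w' i, i ∈ Q w → (∀ y, (y ∉ Q w ∨ L - cls U y < L - cls U i) → w y = w' y) →
      (fresh w i ↔ fresh w' i) := by
    intro w w' i hi h
    obtain ⟨m, a1, a2, a3, -, -⟩ := (mem_pool M L U D _ j _ i).1 hi
    have hcl := cls_eq hP a3
    have hS : St M L U D (Cg D (toT w')) (L - m) (c + 1) =
        St M L U D (Cg D (toT w)) (L - m) (c + 1) := by
      refine St_pred M L U D (toT w) (toT w') m (c + 1) (fun m' b1 b2 => ?_)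
        (fun m' b1 b2 y hy => ?_) _ le_rfl
      · exact hloc w w' (fun y hy => h y (Or.inl hy)) m' _ (by omega) b2 le_rfl
      · rw [mem_toT, mem_toT, h y (Or.inr (by rw [cls_eq hP hy, hcl]; omega))]
    have hN : Nm M L U D (toT w') m (c + 1) = Nm M L U D (toT w) m (c + 1) := by
      simp only [Nm, Nstep, hS]
    simp only [fresh, hcl, hN]
  have key := S13.star p hp0 hp1 (fun l => l = false) (fun l => l = true) Q hQ A hA hmono
    (fun y => L - cls U y) fresh hf X Cq (fun w i => by simp only [X, Finset.mem_filter])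
    (fun w i => by simp only [Cq, Finset.mem_filter])
  have hplT : S13.pl p (fun l => l = true) = tt := by simp [S13.pl, hp]
  have hplC : S13.pl p (fun l => l = false) = 1 - tt := by simp [S13.pl, hp]
  rw [hplT, hplC] at key
  -- the true level `c` lies below the rebuilt one
  have hlow : ∀ w, Nm M L U D (toT w) j c ⊆ Exp M (D ∩ U j) (lev M L U D c (X w) (L - j)) := by
    intro w
    have h1 : St M L U D (Cg D (toT w)) (L - j) c ⊆ lev M L U D c (X w) (L - j) := by
      refine St_sub_lev h2 h3 L U D (toT w) (X w) j c (fun m a1 a2 a3 y hy hN => ?_) _ le_rfl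
      obtain ⟨hy1, hy2⟩ := Finset.mem_inter.1 hy
      simp only [Cg, Finset.mem_compl, Finset.mem_union, not_or, mem_toT] at hy1
      refine Finset.mem_filter.2 ⟨(mem_pool M L U D _ j _ y).2 ⟨m, a1, a2, hy2, hy1.1, ?_⟩, Or.inr ⟨?_, ?_⟩⟩
      · exact (h4 L U D (toT w) m (by omega) a2).2.1 (c + 1) (c + 2) (by omega) hN
      · simp only [fresh, cls_eq hP hy2]
        exact fun hh => hh.1 hN
      · simpa using hy1.2
    simp only [Nm, Nstep, if_pos hc]
    exact (h2 _ _ (St_sub h3 L U D _ _ c)).2.2.2.1 _ h1 (lev_sub M L U D c _ _)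
  have hthi : ∀ w, (↑(Thi M L U D (toT w) j (c + 2)) : Set (Fin k)) ⊆
      Exp M (D ∩ U j) (lev M L U D c (X w) (L - j)) := by
    intro w y hy
    have hy' := Finset.mem_coe.1 hy
    simp only [Thi, Finset.mem_biUnion, Finset.mem_filter, Finset.mem_Icc, Tband, Finset.mem_inter,
      Finset.mem_sdiff, mem_toT, e2] at hy'
    obtain ⟨m, ⟨⟨a1, a2⟩, a3⟩, ⟨⟨b1, b2⟩, b3⟩, b4, b5⟩ := hy'
    have hyX : y ∈ X w := by
      refine Finset.mem_filter.2 ⟨(mem_pool M L U D _ j _ y).2 ⟨m, by omega, a2, b3, b2, b4⟩,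
        Or.inl ⟨?_, b1⟩⟩
      simp only [fresh, cls_eq hP b3]
      exact ⟨b5, by omega⟩
    have h1 : y ∈ lev M L U D c (X w) (L - m + 1) := by
      have hm : L - (L - m) = m := by omega
      simp only [lev, hm]
      rw [if_pos (by omega)]
      exact M.inter_ground_subset_closure _
        ⟨Or.inr (Finset.mem_coe.2 (Finset.mem_inter.2 ⟨hyX, b3⟩)), hP.1 m (Finset.mem_coe.2 b3)⟩
    exact (h2 _ _ (lev_sub M L U D c _ _)).1.1 (lev_le h2 L U D c _ (by omega) h1)
  have hhigh : ∀ w, Exp M (D ∩ U j) (lev M L U D c (Cq w) (L - j)) ⊆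
      Nm M L U D (toT w) j (c + 1) := by
    intro w
    have h1 : lev M L U D c (Cq w) (L - j) ⊆ St M L U D (Cg D (toT w)) (L - j) (c + 1) := by
      refine lev_sub_St h2 h3 L U D (toT w) (Cq w) j c (fun m a1 a2 y hy => ?_) _ le_rfl
      obtain ⟨hy1, hy2⟩ := Finset.mem_inter.1 hy
      obtain ⟨hq, hw⟩ := Finset.mem_filter.1 hy1
      obtain ⟨m', -, -, c3, c4, c5⟩ := (mem_pool M L U D _ j _ y).1 hq
      have : m' = m := by rw [← cls_eq hP c3, cls_eq hP hy2]
      subst this
      refine ⟨?_, c5⟩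
      simp only [Cg, Finset.mem_compl, Finset.mem_union, not_or, mem_toT]
      exact ⟨c4, by simp [hw]⟩
    have hc' : 3 * j ≤ c + 1 := by omega
    simp only [Nm, Nstep, if_pos hc']
    exact (h2 _ _ (lev_sub M L U D c _ _)).2.2.2.1 _ h1 (St_sub h3 L U D _ _ _)
  have hL : Ex tt (fun T0 => if Harm M L U D T0 j (c + 2) e then (1 : ℝ) else 0) ≤
      ∑ w, S13.pw p w * S13.ind (A w (X w) ∧ ¬ A w (Cq w)) := by
    rw [Ex_eq]
    refine Finset.sum_le_sum (fun w _ => mul_le_mul_of_nonneg_left ?_ (S13.pw_nonneg hp0 w))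
    unfold S13.ind
    by_cases hH : Harm M L U D (toT w) j (c + 2) e
    · rw [if_pos hH, if_pos]
      obtain ⟨a1, a2, a3, a4⟩ := hH
      rw [e1] at a3
      rw [e2] at a4
      refine ⟨Or.inr (M.closure_subset_closure ?_ a3), ?_⟩
      · exact Set.union_subset_union_left _ (Set.union_subset (hlow w) (hthi w))
      · rintro (hh | hh)
        · exact hh ⟨a1, a2⟩
        · exact a4 (M.closure_subset_closure (Set.union_subset_union_left _ (hhigh w)) hh)
    · rw [if_neg hH]; split_ifs <;> norm_num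
  have hR : ∑ w, S13.pw p w * S13.ind (¬ A w (X w)) ≤
      Ex tt (fun T0 => if e ∈ T0 ∧ e ∈ U j ∧ e ∈ Nm M L U D T0 j (c + 2) ∧
        e ∉ Nm M L U D T0 j (c + 2 - 2) then (1 : ℝ) else 0) := by
    rw [Ex_eq]
    refine Finset.sum_le_sum (fun w _ => mul_le_mul_of_nonneg_left ?_ (S13.pw_nonneg hp0 w))
    unfold S13.ind
    by_cases hH : ¬ A w (X w)
    · rw [if_pos hH, if_pos]
      simp only [A, not_or, not_not] at hH
      obtain ⟨⟨a1, a2⟩, a3⟩ := hH
      obtain ⟨b1, b2⟩ := Finset.mem_inter.1 a1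
      refine ⟨(Finset.mem_sdiff.1 b1).1, b2, a2, fun hh => a3 ?_⟩
      rw [e1] at hh
      exact M.inter_ground_subset_closure _ ⟨Or.inl (hlow w hh), hP.1 j (Finset.mem_coe.2 b2)⟩
    · rw [if_neg hH]; split_ifs <;> norm_num
  have ht := tt_pos
  have ht2 := tt_lt
  have hd : 0 < 1 - 2 * tt := by linarith
  rw [div_mul_eq_mul_div, le_div_iff₀ hd]
  have h5 := mul_le_mul_of_nonneg_left hL hd.le
  have h6 := mul_le_mul_of_nonneg_left hR ht.le
  have h7 : (1 - tt - tt) = 1 - 2 * tt := by ring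
  rw [h7] at key
  linarith

end Crest.Agent.R305.X14
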