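import Crest.Agent.R305.RGDefs55
import Crest.Agent.R305.StarB79

/-! Row 305, block B10 (`SAFE1`) through the Boolean stopping-set form of lemma (*). -/

set_option autoImplicit false

open Classical

namespace Crest.Agent.R305.S19

variable {k : ℕ}

/-- the subset encoded by a Boolean vector -/
noncomputable def toF (w : Fin k → Bool) : Finset (Fin k) := Finset.univ.filter (fun i => w i = true)

theorem mem_toF (w : Fin k → Bool) (i : Fin k) : i ∈ toF w ↔ w i = true := by
  simp [toF]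

noncomputable def pB (t : ℝ) : Bool → ℝ := fun b => if b = true then t else 1 - t

theorem Ex_eq_bool (t : ℝ) (f : Finset (Fin k) → ℝ) :
    Ex t f = ∑ w : Fin k → Bool, (∏ i, pB t (w i)) * f (toF w) := by
  unfold Ex
  symm
  refine Fintype.sum_bijective toF ⟨?_, ?_⟩ _ _ ?_
  · intro w w' h
    funext i
    have h1 := mem_toF w i
    have h2 := mem_toF w' i
    rw [h] at h1
    cases hw : w i <;> cases hw' : w' i <;> simp_all
  · intro A
    refine ⟨fun i => decide (i ∈ A), ?_⟩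
    ext i
    simp [mem_toF]
  · intro w
    congr 1
    unfold bern
    refine Finset.prod_congr rfl fun i _ => ?_
    simp only [mem_toF, pB]

/-- the level-`s` closure through the rounds, fed with the set `X` -/
def tauS (M : Matroid (Fin k)) (L : ℕ) (U : ℕ → Finset (Fin k)) (D : Finset (Fin k)) (s : ℕ)
    (X : Finset (Fin k)) : ℕ → Set (Fin k)
  | 0 => M.closure ∅
  | i + 1 => if 3 * (L - i) ≤ s then
      M.closure (Exp M (D ∩ U (L - i)) (tauS M L U D s X i) ∪ ((X ∩ U (L - i) : Finset (Fin k)) : Set (Fin k)))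
    else tauS M L U D s X i

variable {M : Matroid (Fin k)} {L : ℕ} {U : ℕ → Finset (Fin k)} {D : Finset (Fin k)}

theorem tauS_ground (s : ℕ) (X : Finset (Fin k)) : ∀ i, tauS M L U D s X i ⊆ M.E
  | 0 => M.closure_subset_ground _
  | i + 1 => by
    unfold tauS
    split_ifs
    · exact M.closure_subset_ground _
    · exact tauS_ground s X i

theorem Exp_ground (h2 : EXPF M) (A : Finset (Fin k)) {S : Set (Fin k)} (hS : S ⊆ M.E) :
    Exp M A S ⊆ M.E := (h2 A S hS).1.2.1

theorem sub_Exp (h2 : EXPF M) (A : Finset (Fin k)) {S : Set (Fin k)} (hS : S ⊆ M.E) :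
    S ⊆ Exp M A S := (h2 A S hS).1.1

theorem Exp_mono (h2 : EXPF M) (A : Finset (Fin k)) {S S' : Set (Fin k)} (h : S ⊆ S')
    (hS : S' ⊆ M.E) : Exp M A S ⊆ Exp M A S' := (h2 A S (h.trans hS)).2.2.2.1 S' h hS

theorem tauS_mono (h2 : EXPF M) (s : ℕ) {X Y : Finset (Fin k)} (h : X ⊆ Y) :
    ∀ i, tauS M L U D s X i ⊆ tauS M L U D s Y i
  | 0 => subset_rfl
  | i + 1 => by
    unfold tauS
    split_ifs
    · refine M.closure_subset_closure (Set.union_subset_union ?_ ?_)
      · exact Exp_mono h2 _ (tauS_mono h2 s h i) (tauS_ground s Y i)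
      · exact Finset.coe_subset.2 (Finset.inter_subset_inter_right h)
    · exact tauS_mono h2 s h i

theorem tauS_succ_big (h2 : EXPF M) (hP : Pools M U) (s : ℕ) (X : Finset (Fin k)) (i : ℕ)
    (hi : 3 * (L - i) ≤ s) :
    Exp M (D ∩ U (L - i)) (tauS M L U D s X i) ∪ ((X ∩ U (L - i) : Finset (Fin k)) : Set (Fin k)) ⊆
      tauS M L U D s X (i + 1) := by
  conv_rhs => unfold tauS
  rw [if_pos hi]
  refine M.subset_closure _ (Set.union_subset (Exp_ground h2 _ (tauS_ground s X i)) ?_)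
  exact (Finset.coe_subset.2 Finset.inter_subset_right).trans (hP.1 _)

theorem tauS_le_succ (h2 : EXPF M) (hP : Pools M U) (s : ℕ) (X : Finset (Fin k)) (i : ℕ) :
    tauS M L U D s X i ⊆ tauS M L U D s X (i + 1) := by
  by_cases hi : 3 * (L - i) ≤ s
  · exact ((sub_Exp h2 _ (tauS_ground s X i)).trans Set.subset_union_left).trans
      (tauS_succ_big h2 hP s X i hi)
  · conv_rhs => unfold tauS
    rw [if_neg hi]

theorem tauS_le (h2 : EXPF M) (hP : Pools M U) (s : ℕ) (X : Finset (Fin k)) {i i' : ℕ}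
    (h : i ≤ i') : tauS M L U D s X i ⊆ tauS M L U D s X i' := by
  induction h with
  | refl => exact subset_rfl
  | step _ ih => exact ih.trans (tauS_le_succ h2 hP s X _)

theorem cls_unique (hP : Pools M U) {y : Fin k} {m m' : ℕ} (h : y ∈ U m) (h' : y ∈ U m') :
    m = m' := by
  by_contra hne
  exact Finset.disjoint_left.1 (hP.2 m m' hne) h h'

theorem St_congr (C C' : Finset (Fin k)) :
    ∀ i, (∀ i' < i, C ∩ U (L - i') = C' ∩ U (L - i')) → St M L U D C i = St M L U D C' i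
  | 0, _ => rfl
  | i + 1, h => by
    unfold St
    rw [St_congr C C' i (fun i' hi' => h i' (Nat.lt_succ_of_lt hi')), h i (Nat.lt_succ_self i)]

theorem St_ground (h3 : CHAIN M) (C : Finset (Fin k)) (i t : ℕ) : St M L U D C i t ⊆ M.E := by
  rw [← (h3 L U D C).1 i t]
  exact M.closure_subset_ground _

theorem mem_pool {T0 : Finset (Fin k)} {j b : ℕ} {y : Fin k} :
    y ∈ pool M L U D T0 j b ↔
      ∃ m, (j + 1 ≤ m ∧ m ≤ L) ∧ y ∈ U m ∧ y ∉ D ∧ y ∈ Nm M L U D T0 m b := by
  simp only [pool, Finset.mem_biUnion, Finset.mem_Icc, Finset.mem_filter, Finset.mem_sdiff]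
  constructor
  · rintro ⟨m, h1, ⟨h2, h3⟩, h4⟩
    exact ⟨m, h1, h2, h3, h4⟩
  · rintro ⟨m, h1, h2, h3, h4⟩
    exact ⟨m, h1, ⟨h2, h3⟩, h4⟩

/-- fresh = eligible and born exactly at `b` -/
def fr (M : Matroid (Fin k)) (L : ℕ) (U : ℕ → Finset (Fin k)) (D T0 : Finset (Fin k))
    (j b : ℕ) (y : Fin k) : Prop :=
  ∃ m, (j + 1 ≤ m ∧ m ≤ L) ∧ y ∈ U m ∧ y ∉ Nm M L U D T0 m (b - 1) ∧ 3 * m + 2 ≤ b

theorem Nm_eq_step (T0 : Finset (Fin k)) {i : ℕ} (hi : i ≤ L) (t : ℕ) :
    Nstep M (D ∩ U (L - i)) (L - i) (St M L U D (Cg D T0) i) t = Nm M L U D T0 (L - i) t := by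
  unfold Nm
  rw [Nat.sub_sub_self hi]

/-- claim 1 -/
theorem St_sub_tau (h2 : EXPF M) (h3 : CHAIN M) (h4 : NCHAIN M) (hP : Pools M U)
    (T0 X : Finset (Fin k)) {j b : ℕ} (hj : 1 ≤ j) (hjL : j ≤ L) (hb1 : 3 * j + 2 ≤ b)
    (hb2 : b ≤ 3 * L + 3)
    (hX : ∀ y, y ∈ pool M L U D T0 j b → (y ∈ T0 ↔ fr M L U D T0 j b y) → y ∈ X) :
    ∀ i, i ≤ L - j → St M L U D (Cg D T0) i (b - 2) ⊆ tauS M L U D (b - 2) X i
  | 0, _ => by
    unfold St tauS S0
    rw [if_pos (by omega)]
  | i + 1, hi => by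
    have ih := St_sub_tau h2 h3 h4 hP T0 X hj hjL hb1 hb2 hX i (by omega)
    unfold St tauS Sstep
    split_ifs with hc
    · refine M.closure_subset_closure (Set.union_subset_union ?_ ?_)
      · unfold Nstep
        rw [if_pos hc]
        exact Exp_mono h2 _ ih (tauS_ground _ _ _)
      · rw [Nm_eq_step T0 (by omega), show b - 2 + 1 = b - 1 by omega]
        rintro y ⟨hy1, hy2⟩
        have hy1' : y ∈ Cg D T0 ∩ U (L - i) := Finset.mem_coe.1 hy1
        rw [Finset.mem_inter] at hy1'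
        obtain ⟨hyC, hyU⟩ := hy1'
        simp only [Cg, Finset.mem_compl, Finset.mem_union, not_or] at hyC
        have hN := h4 L U D T0 (L - i) (by omega) (by omega)
        refine Finset.mem_coe.2 (Finset.mem_inter.2 ⟨hX y ?_ ?_, hyU⟩)
        · exact mem_pool.2 ⟨L - i, ⟨by omega, by omega⟩, hyU, hyC.1, hN.2.1 _ _ (by omega) hy2⟩
        · constructor
          · intro h
            exact absurd h hyC.2
          · rintro ⟨m, -, hm, hn, -⟩
            rw [cls_unique hP hm hyU] at hn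
            exact absurd hy2 hn
    · exact ih

/-- claim 3 -/
theorem tau_sub_St (h2 : EXPF M) (h3 : CHAIN M) (hP : Pools M U)
    (T0 X : Finset (Fin k)) {j b : ℕ} (hj : 1 ≤ j) (hjL : j ≤ L) (hb1 : 3 * j + 2 ≤ b)
    (hb2 : b ≤ 3 * L + 3)
    (hX : ∀ y, y ∈ X → y ∈ pool M L U D T0 j b ∧ y ∉ T0) :
    ∀ i, i ≤ L - j → tauS M L U D (b - 2) X i ⊆ St M L U D (Cg D T0) i (b - 1)
  | 0, _ => by
    unfold St tauS S0
    rw [if_pos (by omega)]
  | i + 1, hi => by
    have ih := tau_sub_St h2 h3 hP T0 X hj hjL hb1 hb2 hX i (by omega)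
    by_cases hc : 3 * (L - i) ≤ b - 2
    · unfold St tauS Sstep
      rw [if_pos hc, if_pos (by omega)]
      refine M.closure_subset_closure (Set.union_subset_union ?_ ?_)
      · unfold Nstep
        rw [if_pos (by omega)]
        exact Exp_mono h2 _ ih (St_ground h3 _ _ _)
      · rw [Nm_eq_step T0 (by omega), show b - 1 + 1 = b by omega]
        intro y hy
        have hy' := Finset.mem_inter.1 (Finset.mem_coe.1 hy)
        obtain ⟨hyp, hyT⟩ := hX y hy'.1
        obtain ⟨m, -, hm, hD, hN⟩ := mem_pool.1 hyp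
        rw [cls_unique hP hm hy'.2] at hN
        refine ⟨Finset.mem_coe.2 (Finset.mem_inter.2 ⟨?_, hy'.2⟩), hN⟩
        simp only [Cg, Finset.mem_compl, Finset.mem_union, not_or]
        exact ⟨hD, hyT⟩
    · have e1 : tauS M L U D (b - 2) X (i + 1) = tauS M L U D (b - 2) X i := by
        conv_lhs => unfold tauS
        rw [if_neg hc]
      rw [e1]
      exact ih.trans ((h3 L U D (Cg D T0)).2.2.1 i (i + 1) _ (Nat.le_succ i))

/-- claim 2 -/
theorem Thi_sub_tau (h2 : EXPF M) (hP : Pools M U)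
    (T0 X : Finset (Fin k)) {j b : ℕ}
    (hX : ∀ y, y ∈ pool M L U D T0 j b → (y ∈ T0 ↔ fr M L U D T0 j b y) → y ∈ X) :
    (Thi M L U D T0 j b : Set (Fin k)) ⊆ tauS M L U D (b - 2) X (L - j) := by
  intro y hy
  have hy' := Finset.mem_coe.1 hy
  simp only [Thi, Tband, Finset.mem_biUnion, Finset.mem_filter, Finset.mem_Icc, Finset.mem_inter,
    Finset.mem_sdiff] at hy'
  obtain ⟨m, ⟨⟨hm1, hm2⟩, hm3⟩, ⟨⟨hT, hD⟩, hU⟩, hN1, hN2⟩ := hy'
  have hyX : y ∈ X := hX y (mem_pool.2 ⟨m, ⟨hm1, hm2⟩, hU, hD, hN1⟩)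
    ⟨fun _ => ⟨m, ⟨hm1, hm2⟩, hU, hN2, hm3⟩, fun _ => hT⟩
  have e : L - (L - m) = m := Nat.sub_sub_self hm2
  have h1 := tauS_succ_big (L := L) (D := D) h2 hP (b - 2) X (L - m) (by omega)
  refine tauS_le h2 hP (b - 2) X (show L - m + 1 ≤ L - j by omega) (h1 (Or.inr ?_))
  rw [e]
  exact Finset.mem_coe.2 (Finset.mem_inter.2 ⟨hyX, hU⟩)

/-- class of an element -/
noncomputable def cls (U : ℕ → Finset (Fin k)) (y : Fin k) : ℕ :=
  if h : ∃ m, y ∈ U m then Classical.choose h else 0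

theorem cls_eq (hP : Pools M U) {y : Fin k} {m : ℕ} (h : y ∈ U m) : cls U y = m := by
  have hex : ∃ m, y ∈ U m := ⟨m, h⟩
  unfold cls
  rw [dif_pos hex]
  exact cls_unique hP (Classical.choose_spec hex) h

theorem tt_pos : 0 < tt := by unfold tt; positivity

theorem tt_lt : tt < 1 / 2 := by
  unfold tt
  have : (2 : ℝ)⁻¹ ^ 60 ≤ (2 : ℝ)⁻¹ ^ 2 :=
    pow_le_pow_of_le_one (by norm_num) (by norm_num) (by norm_num)
  norm_num at this ⊢

theorem safe1_19 (h2 : EXPF M) (h3 : CHAIN M) (h4 : NCHAIN M) (h19 : LOCT M) : SAFE1 M := by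
  intro L U D j b e hP hj hjL hb
  obtain ⟨hb1, hb2⟩ := Finset.mem_Icc.1 hb
  have ht0 := tt_pos
  have ht1 := tt_lt
  let tauN : Finset (Fin k) → Set (Fin k) := fun X =>
    Exp M (D ∩ U j) (tauS M L U D (b - 2) X (L - j))
  let Q : (Fin k → Bool) → Finset (Fin k) := fun w => pool M L U D (toF w) j b
  let A : (Fin k → Bool) → Finset (Fin k) → Prop := fun w X =>
    ¬ (e ∈ (toF w \ D) ∩ U j ∧ e ∈ Nm M L U D (toF w) j b) ∨
      e ∈ M.closure (tauN X ∪ ↑(X0 M L U D (toF w) j b e))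
  let fresh : (Fin k → Bool) → Fin k → Prop := fun w y => fr M L U D (toF w) j b y
  have hagree : ∀ w w' : Fin k → Bool, (∀ i, i ∉ Q w → w' i = w i) →
      ∀ y, y ∉ pool M L U D (toF w) j b → (y ∈ toF w ↔ y ∈ toF w') := by
    intro w w' h y hy
    rw [mem_toF, mem_toF, h y hy]
  have hloc : ∀ w w' : Fin k → Bool, (∀ i, i ∉ Q w → w' i = w i) →
      ∀ m, j ≤ m → m ≤ L → Nm M L U D (toF w') m b = Nm M L U D (toF w) m b := by
    intro w w' h m h1 h2'
    exact h19 L U D (toF w) (toF w') j b hP hj hjL (hagree w w' h) m b h1 h2' le_rfl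
  have hown : ∀ (w : Fin k → Bool) (y : Fin k), y ∈ U j → y ∉ Q w := by
    intro w y hy hq
    obtain ⟨m, ⟨hm, -⟩, hU, -⟩ := mem_pool.1 hq
    have := cls_unique hP hU hy
    omega
  have hQ : ∀ w w', (∀ i, i ∉ Q w → w' i = w i) → Q w' = Q w := by
    intro w w' h
    ext y
    simp only [Q, mem_pool]
    refine exists_congr fun m => and_congr_right fun hm => ?_
    rw [hloc w w' h m (by omega) hm.2]
  have hA : ∀ w w', (∀ i, i ∉ Q w → w' i = w i) → ∀ X, A w' X ↔ A w X := by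
    intro w w' h X
    have e1 : (toF w' \ D) ∩ U j = (toF w \ D) ∩ U j := by
      ext y
      simp only [Finset.mem_inter, Finset.mem_sdiff, mem_toF]
      refine and_congr_left fun hy => ?_
      rw [h y (hown w y hy)]
    have e2 := hloc w w' h j le_rfl hjL
    have e3 : X0 M L U D (toF w') j b e = X0 M L U D (toF w) j b e := by
      unfold X0
      rw [e1, e2]
    simp only [A, e1, e2, e3]
  have hmono : ∀ w X Y, X ⊆ Y → A w X → A w Y := by
    intro w X Y hXY h
    rcases h with h | h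
    · exact Or.inl h
    · refine Or.inr (M.closure_subset_closure (Set.union_subset_union_left _ ?_) h)
      exact Exp_mono h2 _ (tauS_mono h2 _ hXY _) (tauS_ground _ _ _)
  have hf : ∀ w w' i, i ∈ Q w → (∀ z, z ∉ Q w → w' z = w z) →
      (∀ z ∈ Q w, cls U i < cls U z → w' z = w z) → (fresh w' i ↔ fresh w i) := by
    intro w w' i _ h1 h2'
    simp only [fresh, fr]
    refine exists_congr fun m => and_congr_right fun hm => and_congr_right fun hU => ?_
    have e1 : St M L U D (Cg D (toF w')) (L - m) = St M L U D (Cg D (toF w)) (L - m) := by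
      refine St_congr _ _ _ fun i' hi' => ?_
      ext z
      simp only [Finset.mem_inter, Cg, Finset.mem_compl, Finset.mem_union, mem_toF]
      refine and_congr_left fun hz => ?_
      have : w' z = w z := by
        by_cases hq : z ∈ Q w
        · refine h2' z hq ?_
          rw [cls_eq hP hU, cls_eq hP hz]
          omega
        · exact h1 z hq
      rw [this]
    unfold Nm
    rw [e1]
  have key := S79.star_bool (pB tt) (by simp [pB]; linarith) (by simp [pB]; linarith)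
    Q hQ A hA hmono (cls U) fresh hf
  have hpt : pB tt true = tt := by simp [pB]
  have hpf : pB tt false = 1 - tt := by simp [pB]
  rw [hpt, hpf] at key
  have hw0 : ∀ w : Fin k → Bool, 0 ≤ ∏ i, pB tt (w i) := by
    intro w
    refine Finset.prod_nonneg fun i _ => ?_
    unfold pB
    split_ifs <;> linarith
  have hXin : ∀ w : Fin k → Bool, ∀ y, y ∈ pool M L U D (toF w) j b →
      (y ∈ toF w ↔ fr M L U D (toF w) j b y) →
      y ∈ (Q w).filter (fun i => w i = true ↔ fresh w i) := by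
    intro w y h1 h2'
    rw [mem_toF] at h2'
    exact Finset.mem_filter.2 ⟨h1, h2'⟩
  have hCin : ∀ w : Fin k → Bool, ∀ y, y ∈ (Q w).filter (fun i => w i = false) →
      y ∈ pool M L U D (toF w) j b ∧ y ∉ toF w := by
    intro w y h
    obtain ⟨h1, h2'⟩ := Finset.mem_filter.1 h
    refine ⟨h1, ?_⟩
    rw [mem_toF, h2']
    simp
  have hN2 : ∀ w : Fin k → Bool, Nm M L U D (toF w) j (b - 2) ⊆
      tauN ((Q w).filter (fun i => w i = true ↔ fresh w i)) := by
    intro w
    unfold Nm Nstep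
    rw [if_pos (by omega)]
    exact Exp_mono h2 _ (St_sub_tau h2 h3 h4 hP _ _ hj hjL hb1 hb2 (hXin w) _ le_rfl)
      (tauS_ground _ _ _)
  have hN1 : ∀ w : Fin k → Bool, tauN ((Q w).filter (fun i => w i = false)) ⊆
      Nm M L U D (toF w) j (b - 1) := by
    intro w
    unfold Nm Nstep
    rw [if_pos (by omega)]
    exact Exp_mono h2 _ (tau_sub_St h2 h3 hP _ _ hj hjL hb1 hb2 (hCin w) _ le_rfl)
      (St_ground h3 _ _ _)
  have hTh : ∀ w : Fin k → Bool, (Thi M L U D (toF w) j b : Set (Fin k)) ⊆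
      tauN ((Q w).filter (fun i => w i = true ↔ fresh w i)) := by
    intro w
    exact (Thi_sub_tau h2 hP _ _ (hXin w)).trans (sub_Exp h2 _ (tauS_ground _ _ _))
  have hL : Ex tt (fun T0 => if Harm M L U D T0 j b e then 1 else 0) ≤
      ∑ w : Fin k → Bool, (∏ i, pB tt (w i)) *
        S79.ind (A w ((Q w).filter (fun i => w i = true ↔ fresh w i)) ∧
          ¬ A w ((Q w).filter (fun i => w i = false))) := by
    rw [Ex_eq_bool]
    refine Finset.sum_le_sum fun w _ => mul_le_mul_of_nonneg_left ?_ (hw0 w)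
    unfold S79.ind
    by_cases hH : Harm M L U D (toF w) j b e
    · rw [if_pos hH, if_pos]
      obtain ⟨g1, g2, g3, g4⟩ := hH
      constructor
      · refine Or.inr (M.closure_subset_closure (Set.union_subset_union_left _ ?_) g3)
        exact Set.union_subset (hN2 w) (hTh w)
      · rintro (h | h)
        · exact h ⟨g1, g2⟩
        · exact g4 (M.closure_subset_closure (Set.union_subset_union_left _ (hN1 w)) h)
    · rw [if_neg hH]
      split_ifs <;> norm_num
  have hR : ∑ w : Fin k → Bool, (∏ i, pB tt (w i)) *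
        S79.ind (¬ A w ((Q w).filter (fun i => w i = true ↔ fresh w i))) ≤
      Ex tt (fun T0 => if e ∈ T0 ∧ e ∈ U j ∧ e ∈ Nm M L U D T0 j b ∧
        e ∉ Nm M L U D T0 j (b - 2) then 1 else 0) := by
    rw [Ex_eq_bool]
    refine Finset.sum_le_sum fun w _ => mul_le_mul_of_nonneg_left ?_ (hw0 w)
    unfold S79.ind
    by_cases hH : ¬ A w ((Q w).filter (fun i => w i = true ↔ fresh w i))
    · rw [if_pos hH, if_pos]
      simp only [A, not_or, not_not] at hH
      obtain ⟨⟨g1, g2⟩, g3⟩ := hH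
      have g1' := Finset.mem_inter.1 g1
      refine ⟨(Finset.mem_sdiff.1 g1'.1).1, g1'.2, g2, fun h => g3 ?_⟩
      exact M.mem_closure_of_mem' (Or.inl (hN2 w h)) (hP.1 j (Finset.mem_coe.2 g1'.2))
    · rw [if_neg hH]
      split_ifs <;> norm_num
  have hpos : 0 < 1 - 2 * tt := by linarith
  rw [div_mul_eq_mul_div, le_div_iff₀ hpos]
  have e1 : 1 - tt - tt = 1 - 2 * tt := by ring
  rw [e1] at key
  calc _ ≤ _ := mul_le_mul_of_nonneg_right hL hpos.le
    _ = _ := mul_comm _ _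
    _ ≤ _ := key
    _ ≤ _ := mul_le_mul_of_nonneg_left hR ht0.le

end Crest.Agent.R305.S19
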