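import Mathlib
import Crest.Agent.R305.Star13

set_option autoImplicit false

namespace Crest.Agent.R305.S30
open Finset

/-- abstract round system -/
structure RG (α : Type*) [Fintype α] [DecidableEq α] where
  cl : Finset α → Finset α
  ex : ℕ → Finset α → Finset α
  Y : ℕ → Finset α
  cls : α → ℕ
  L : ℕ
  K : ℕ
  S0 : ℕ → Finset α
  N : (α → Bool) → ℕ → ℕ → Finset α
  S : (α → Bool) → ℕ → ℕ → Finset α
  sub_cl : ∀ X, X ⊆ cl X
  cl_mono : ∀ X Z, X ⊆ Z → cl X ⊆ cl Z
  cl_cl : ∀ X, cl (cl X) ⊆ cl X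
  sub_ex : ∀ m X, X ⊆ ex m X
  ex_mono : ∀ m X Z, X ⊆ Z → ex m X ⊆ ex m Z
  Y_cls : ∀ m y, y ∈ Y m → cls y = m
  S0_mono : ∀ k, S0 k ⊆ S0 (k + 1)
  S0_top : ∀ k, K ≤ k → S0 k = univ
  hN : ∀ t m k, m ≤ L → N t m k = ex m (S t (m + 1) k)
  hS1 : ∀ t m k, m ≤ L → 3 * m ≤ k →
    S t m k = cl (N t m k ∪ ((Y m).filter (fun y => t y = false) ∩ N t m (k + 1)))
  hS2 : ∀ t m k, m ≤ L → k < 3 * m → S t m k = S t (m + 1) k
  hS0 : ∀ t k, S t (L + 1) k = S0 k

variable {α : Type*} [Fintype α] [DecidableEq α] (R : RG α)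

/-- downward induction on the class index -/
lemma down_ind (L : ℕ) (P : ℕ → Prop) (h0 : P (L + 1)) (hs : ∀ m, m ≤ L → P (m + 1) → P m) :
    ∀ m, m ≤ L + 1 → P m := by
  intro m hm
  have : ∀ r, r ≤ L + 1 → P (L + 1 - r) := by
    intro r
    induction r with
    | zero => intro _; simpa using h0
    | succ r ih =>
      intro hr
      have h1 := ih (by omega)
      have e : L + 1 - r = (L + 1 - (r + 1)) + 1 := by omega
      rw [e] at h1
      exact hs _ (by omega) h1
  have h := this (L + 1 - m) (by omega)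
  have e : L + 1 - (L + 1 - m) = m := by omega
  rwa [e] at h

lemma S_sub_N (t : α → Bool) (m k : ℕ) (hm : m ≤ R.L) : R.S t (m + 1) k ⊆ R.N t m k := by
  rw [R.hN t m k hm]; exact R.sub_ex _ _

lemma N_sub_S (t : α → Bool) (m k : ℕ) (hm : m ≤ R.L) (hk : 3 * m ≤ k) :
    R.N t m k ⊆ R.S t m k := by
  rw [R.hS1 t m k hm hk]
  exact subset_union_left.trans (R.sub_cl _)

lemma S_round (t : α → Bool) (m k : ℕ) (hm : m ≤ R.L) : R.S t (m + 1) k ⊆ R.S t m k := by
  rcases Nat.lt_or_ge k (3 * m) with h | h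
  · rw [R.hS2 t m k hm h]
  · exact (S_sub_N R t m k hm).trans (N_sub_S R t m k hm h)

lemma S_succ (t : α → Bool) : ∀ m, m ≤ R.L + 1 → ∀ k, R.S t m k ⊆ R.S t m (k + 1) := by
  refine down_ind R.L (fun m => ∀ k, R.S t m k ⊆ R.S t m (k + 1)) ?_ ?_
  · intro k; rw [R.hS0, R.hS0]; exact R.S0_mono k
  · intro m hm ih k
    have hN : R.N t m k ⊆ R.N t m (k + 1) := by
      rw [R.hN t m k hm, R.hN t m (k + 1) hm]; exact R.ex_mono _ _ _ (ih k)
    rcases Nat.lt_or_ge k (3 * m) with h | h
    · rw [R.hS2 t m k hm h]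
      exact (ih k).trans (S_round R t m (k + 1) hm)
    · rw [R.hS1 t m k hm h, R.hS1 t m (k + 1) hm (by omega)]
      apply R.cl_mono
      exact union_subset (hN.trans subset_union_left)
        (inter_subset_right.trans subset_union_left)

lemma S_mono (t : α → Bool) (m : ℕ) (hm : m ≤ R.L + 1) {k k' : ℕ} (h : k ≤ k') :
    R.S t m k ⊆ R.S t m k' := by
  induction h with
  | refl => exact subset_rfl
  | step _ ih => exact ih.trans (S_succ R t m hm _)

lemma N_mono (t : α → Bool) (m : ℕ) (hm : m ≤ R.L) {k k' : ℕ} (h : k ≤ k') :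
    R.N t m k ⊆ R.N t m k' := by
  rw [R.hN t m k hm, R.hN t m k' hm]
  exact R.ex_mono _ _ _ (S_mono R t (m + 1) (by omega) h)

lemma S_top (t : α → Bool) (k : ℕ) (hk : R.K ≤ k) : ∀ m, m ≤ R.L + 1 → R.S t m k = univ := by
  refine down_ind R.L (fun m => R.S t m k = univ) ?_ ?_
  · rw [R.hS0]; exact R.S0_top k hk
  · intro m hm ih
    have := S_round R t m k hm
    rw [ih] at this
    exact univ_subset_iff.mp this

/-- stopping property -/
lemma stop (t t' : α → Bool) (k : ℕ)
    (h : ∀ y, y ∈ R.Y (R.cls y) → R.cls y ≤ R.L → y ∉ R.N t (R.cls y) k → t y = t' y) :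
    ∀ k', k ≤ k' → ∀ m, m ≤ R.L + 1 → R.S t' m k' = R.S t m k' := by
  have key : ∀ d k', k ≤ k' → R.K ≤ k' + d → ∀ m, m ≤ R.L + 1 → R.S t' m k' = R.S t m k' := by
    intro d
    induction d with
    | zero =>
      intro k' _ hK m hm
      rw [S_top R t' k' (by omega) m hm, S_top R t k' (by omega) m hm]
    | succ d ih =>
      intro k' hk hK
      have hnext := ih (k' + 1) (by omega) (by omega)
      refine down_ind R.L (fun m => R.S t' m k' = R.S t m k') ?_ ?_
      · rw [R.hS0, R.hS0]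
      · intro m hm ihm
        rcases Nat.lt_or_ge k' (3 * m) with h3 | h3
        · rw [R.hS2 t' m k' hm h3, R.hS2 t m k' hm h3, ihm]
        · have e1 : R.N t' m k' = R.N t m k' := by
            rw [R.hN t' m k' hm, R.hN t m k' hm, ihm]
          have e2 : R.N t' m (k' + 1) = R.N t m (k' + 1) := by
            rw [R.hN t' m _ hm, R.hN t m _ hm, hnext (m + 1) (by omega)]
          rw [R.hS1 t' m k' hm h3, R.hS1 t m k' hm h3, e1, e2]
          congr 1
          ext y
          by_cases hy : y ∈ R.N t m k'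
          · simp [hy]
          · by_cases hY : y ∈ R.Y m
            · have hc := R.Y_cls m y hY
              have : t y = t' y := by
                apply h y
                · rw [hc]; exact hY
                · rw [hc]; exact hm
                · rw [hc]; exact fun h' => hy (N_mono R t m hm hk h')
              simp [hy, hY, this]
            · simp [hy, hY]
  intro k' hk
  exact key R.K k' hk (by omega)

/-- the level-`n` closure through the rounds -/
def tau (n : ℕ) (X : Finset α) : ℕ → Finset α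
  | 0 => R.S0 n
  | r + 1 => if 3 * (R.L - r) ≤ n then
      R.cl (R.ex (R.L - r) (tau n X r) ∪ X.filter (fun y => R.cls y = R.L - r))
    else tau n X r

lemma tau_mono (n : ℕ) {X Z : Finset α} (h : X ⊆ Z) : ∀ r, tau R n X r ⊆ tau R n Z r := by
  intro r
  induction r with
  | zero => exact subset_rfl
  | succ r ih =>
    simp only [tau]
    split_ifs
    · exact R.cl_mono _ _ (union_subset_union (R.ex_mono _ _ _ ih) (filter_subset_filter _ h))
    · exact ih

lemma tau_succ (n : ℕ) (X : Finset α) (r : ℕ) : tau R n X r ⊆ tau R n X (r + 1) := by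
  simp only [tau]
  split_ifs
  · exact (R.sub_ex _ _).trans (subset_union_left.trans (R.sub_cl _))
  · exact subset_rfl

lemma tau_le (n : ℕ) (X : Finset α) {r r' : ℕ} (h : r ≤ r') : tau R n X r ⊆ tau R n X r' := by
  induction h with
  | refl => exact subset_rfl
  | step _ ih => exact ih.trans (tau_succ R n X _)

lemma mem_tau (n : ℕ) (X : Finset α) (y : α) (hy : y ∈ X) (hL : R.cls y ≤ R.L)
    (h3 : 3 * R.cls y ≤ n) : y ∈ tau R n X (R.L - R.cls y + 1) := by
  have e : R.L - (R.L - R.cls y) = R.cls y := by omega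
  simp only [tau, e, if_pos h3]
  exact R.sub_cl _ (mem_union_right _ (mem_filter.mpr ⟨hy, rfl⟩))

lemma S_sub_tau (t : α → Bool) (n j : ℕ) (X : Finset α)
    (hX : ∀ m y, j < m → m ≤ R.L → 3 * m ≤ n → y ∈ R.Y m → t y = false → y ∈ R.N t m (n + 1) →
      y ∈ X) :
    ∀ r, r + j ≤ R.L → R.S t (R.L + 1 - r) n ⊆ tau R n X r := by
  intro r
  induction r with
  | zero => intro _; simp only [tau, Nat.sub_zero]; rw [R.hS0]
  | succ r ih =>
    intro hr
    have ih' := ih (by omega)
    have e1 : R.L + 1 - (r + 1) = R.L - r := by omega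
    have e2 : R.L + 1 - r = R.L - r + 1 := by omega
    rw [e1]; rw [e2] at ih'
    simp only [tau]
    split_ifs with h3
    · rw [R.hS1 t _ n (by omega) h3]
      apply R.cl_mono
      apply union_subset_union
      · rw [R.hN t _ n (by omega)]; exact R.ex_mono _ _ _ ih'
      · intro y hy
        rw [mem_inter, mem_filter] at hy
        exact mem_filter.mpr ⟨hX _ y (by omega) (by omega) h3 hy.1.1 hy.1.2 hy.2,
          R.Y_cls _ y hy.1.1⟩
    · rw [R.hS2 t _ n (by omega) (by omega)]; exact ih'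

lemma tau_sub_S (t : α → Bool) (n : ℕ) (X : Finset α)
    (hX : ∀ y, y ∈ X → y ∈ R.Y (R.cls y) ∧ t y = false ∧ y ∈ R.N t (R.cls y) (n + 2)) :
    ∀ r, r ≤ R.L → tau R n X r ⊆ R.S t (R.L + 1 - r) (n + 1) := by
  intro r
  induction r with
  | zero => intro _; simp only [tau, Nat.sub_zero]; rw [R.hS0]; exact R.S0_mono n
  | succ r ih =>
    intro hr
    have ih' := ih (by omega)
    have e1 : R.L + 1 - (r + 1) = R.L - r := by omega
    have e2 : R.L + 1 - r = R.L - r + 1 := by omega
    rw [e1]; rw [e2] at ih'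
    simp only [tau]
    split_ifs with h3
    · rw [R.hS1 t _ (n + 1) (by omega) (by omega)]
      apply R.cl_mono
      apply union_subset_union
      · rw [R.hN t _ (n + 1) (by omega)]; exact R.ex_mono _ _ _ ih'
      · intro y hy
        rw [mem_filter] at hy
        obtain ⟨h1, h2, h4⟩ := hX y hy.1
        rw [hy.2] at h1 h4
        exact mem_inter.mpr ⟨mem_filter.mpr ⟨h1, h2⟩, h4⟩
    · exact ih'.trans (S_round R t _ (n + 1) (by omega))

/-- the pool at time `n+2` for a victim of class `j` -/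
def pool (j n : ℕ) (t : α → Bool) : Finset α :=
  univ.filter (fun y => j < R.cls y ∧ R.cls y ≤ R.L ∧ y ∈ R.Y (R.cls y) ∧ 3 * R.cls y ≤ n ∧
    y ∈ R.N t (R.cls y) (n + 2))

lemma mem_pool (j n : ℕ) (t : α → Bool) (y : α) : y ∈ pool R j n t ↔
    (j < R.cls y ∧ R.cls y ≤ R.L ∧ y ∈ R.Y (R.cls y) ∧ 3 * R.cls y ≤ n ∧
      y ∈ R.N t (R.cls y) (n + 2)) := by
  simp [pool]

lemma stop_pool (j n : ℕ) (t t' : α → Bool) (h : ∀ i, i ∉ pool R j n t → t i = t' i) :
    ∀ m, m ≤ R.L → R.N t' m (n + 2) = R.N t m (n + 2) := by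
  intro m hm
  have := stop R t t' (n + 2) (fun y _ _ hy => h y (fun h' => hy ((mem_pool R j n t y).mp h').2.2.2.2))
    (n + 2) le_rfl (m + 1) (by omega)
  rw [R.hN t' m _ hm, R.hN t m _ hm, this]

lemma pred_pool (j n : ℕ) (t t' : α → Bool) (m : ℕ) (hm : m ≤ R.L)
    (h : ∀ i, (i ∉ pool R j n t ∨ R.L - R.cls i < R.L - m) → t i = t' i) :
    R.N t' m (n + 1) = R.N t m (n + 1) := by
  have hs := stop_pool R j n t t' (fun i hi => h i (Or.inl hi))
  have key : ∀ m', m' ≤ R.L + 1 → m < m' → R.S t' m' (n + 1) = R.S t m' (n + 1) := by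
    refine down_ind R.L (fun m' => m < m' → R.S t' m' (n + 1) = R.S t m' (n + 1)) ?_ ?_
    · intro _; rw [R.hS0, R.hS0]
    · intro m' hm' ih hlt
      have ihm := ih (by omega)
      rcases Nat.lt_or_ge (n + 1) (3 * m') with h3 | h3
      · rw [R.hS2 t' m' _ hm' h3, R.hS2 t m' _ hm' h3, ihm]
      · have e1 : R.N t' m' (n + 1) = R.N t m' (n + 1) := by
          rw [R.hN t' m' _ hm', R.hN t m' _ hm', ihm]
        rw [R.hS1 t' m' _ hm' h3, R.hS1 t m' _ hm' h3, e1, hs m' hm']
        congr 2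
        ext y
        by_cases hY : y ∈ R.Y m'
        · have hc := R.Y_cls m' y hY
          have : t y = t' y := h y (Or.inr (by rw [hc]; omega))
          simp [hY, this]
        · simp [hY]
  rw [R.hN t' m _ hm, R.hN t m _ hm, key (m + 1) (by omega) (by omega)]

lemma ind_mono {P Q : Prop} (h : P → Q) : S13.ind P ≤ S13.ind Q := by
  unfold S13.ind
  by_cases hP : P
  · simp [hP, h hP]
  · by_cases hQ : Q <;> simp [hP, hQ]

lemma ind_nonneg (P : Prop) : 0 ≤ S13.ind P := by
  unfold S13.ind; split_ifs <;> norm_num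

/-- SAFETY at one time `k = n+2` for one victim `e` of class `j`. -/
theorem safety (p : Bool → ℝ) (hp : ∀ l, 0 ≤ p l) (hp1 : ∑ l, p l = 1) (j n : ℕ) (hj : j ≤ R.L)
    (e : α) (G : (α → Bool) → Prop) (X0 TS : (α → Bool) → Finset α)
    (hG : ∀ t t', (∀ y, R.cls y ≤ j → t y = t' y) → R.N t' j (n + 2) = R.N t j (n + 2) →
      (G t' ↔ G t))
    (hX0 : ∀ t t', (∀ y, R.cls y ≤ j → t y = t' y) → R.N t' j (n + 2) = R.N t j (n + 2) →
      X0 t' = X0 t)
    (hTS : ∀ t y, y ∈ TS t → j < R.cls y ∧ R.cls y ≤ R.L ∧ y ∈ R.Y (R.cls y) ∧ t y = true ∧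
      3 * R.cls y ≤ n ∧ y ∈ R.N t (R.cls y) (n + 2) ∧ y ∉ R.N t (R.cls y) (n + 1)) :
    (p false - p true) * ∑ t, S13.pw p t * S13.ind (G t ∧ e ∈ R.cl (R.N t j n ∪ TS t ∪ X0 t) ∧
        e ∉ R.cl (R.N t j (n + 1) ∪ X0 t))
      ≤ p true * ∑ t, S13.pw p t * S13.ind (G t ∧ e ∉ R.N t j n) := by
  classical
  by_cases hpp : p false - p true ≤ 0
  · refine le_trans (mul_nonpos_of_nonpos_of_nonneg hpp (sum_nonneg fun t _ =>
      mul_nonneg (S13.pw_nonneg hp t) (by unfold S13.ind; split_ifs <;> norm_num))) ?_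
    exact mul_nonneg (hp _) (sum_nonneg fun t _ =>
      mul_nonneg (S13.pw_nonneg hp t) (by unfold S13.ind; split_ifs <;> norm_num))
  push Not at hpp
  let A : (α → Bool) → Finset α → Prop := fun t X =>
    ¬ G t ∨ e ∈ R.cl (R.ex j (tau R n X (R.L - j)) ∪ X0 t)
  let fresh : (α → Bool) → α → Prop := fun t y => y ∉ R.N t (R.cls y) (n + 1)
  let X : (α → Bool) → Finset α := fun t => (pool R j n t).filter
    (fun i => (fresh t i ∧ t i = true) ∨ (¬ fresh t i ∧ t i = false))
  let Cq : (α → Bool) → Finset α := fun t => (pool R j n t).filter (fun i => t i = false)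
  have hagree : ∀ t t' : α → Bool, (∀ i, i ∉ pool R j n t → t i = t' i) →
      ∀ y, R.cls y ≤ j → t y = t' y := by
    intro t t' h y hy
    apply h y
    intro h'
    have := ((mem_pool R j n t y).mp h').1
    omega
  have hstar := S13.star p hp hp1 (fun b => b = false) (fun b => b = true) (pool R j n)
    (by
      intro t t' h
      ext y
      rw [mem_pool, mem_pool]
      constructor
      · rintro ⟨h1, h2, h3, h4, h5⟩
        exact ⟨h1, h2, h3, h4, by rwa [stop_pool R j n t t' h _ h2] at h5⟩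
      · rintro ⟨h1, h2, h3, h4, h5⟩
        exact ⟨h1, h2, h3, h4, by rwa [stop_pool R j n t t' h _ h2]⟩)
    A
    (by
      intro t t' h S
      have h1 := hagree t t' h
      have h2 := stop_pool R j n t t' h j hj
      simp only [A, hG t t' h1 h2, hX0 t t' h1 h2])
    (by
      intro t S S2 hS hA
      rcases hA with hA | hA
      · exact Or.inl hA
      · exact Or.inr (R.cl_mono _ _ (union_subset_union
          (R.ex_mono _ _ _ (tau_mono R n hS _)) subset_rfl) hA))
    (fun y => R.L - R.cls y) fresh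
    (by
      intro t t' i hi h
      have := pred_pool R j n t t' (R.cls i) ((mem_pool R j n t i).mp hi).2.1 h
      simp only [fresh, this])
    X Cq
    (by intro t i; simp only [X, mem_filter])
    (by intro t i; simp only [Cq, mem_filter])
  have hpl1 : S13.pl p (fun b => b = false) = p false := by simp [S13.pl]
  have hpl2 : S13.pl p (fun b => b = true) = p true := by simp [S13.pl]
  rw [hpl1, hpl2] at hstar
  have hNX : ∀ t, R.N t j n ⊆ R.ex j (tau R n (X t) (R.L - j)) := by
    intro t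
    rw [R.hN t j n hj]
    apply R.ex_mono
    have := S_sub_tau R t n j (X t) (by
      intro m y hjm hm h3 hY ht hN
      have hc := R.Y_cls m y hY
      refine mem_filter.mpr ⟨(mem_pool R j n t y).mpr ?_, Or.inr ⟨?_, ht⟩⟩
      · rw [hc]; exact ⟨hjm, hm, hY, h3, N_mono R t m hm (by omega) hN⟩
      · simp only [fresh, hc, not_not]; exact hN) (R.L - j) (by omega)
    have e1 : R.L + 1 - (R.L - j) = j + 1 := by omega
    rwa [e1] at this
  refine le_trans (mul_le_mul_of_nonneg_left (sum_le_sum fun t _ =>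
    mul_le_mul_of_nonneg_left ?_ (S13.pw_nonneg hp t)) hpp.le) (le_trans hstar
    (mul_le_mul_of_nonneg_left (sum_le_sum fun t _ =>
      mul_le_mul_of_nonneg_left ?_ (S13.pw_nonneg hp t)) (hp _)))
  · unfold S13.ind
    split_ifs with h1 h2
    · exact le_rfl
    · exfalso
      apply h2
      obtain ⟨hg, h3, h4⟩ := h1
      refine ⟨Or.inr (R.cl_mono _ _ ?_ h3), ?_⟩
      · refine union_subset (union_subset ((hNX t).trans subset_union_left) ?_) subset_union_right
        intro y hy
        obtain ⟨a1, a2, a3, a4, a5, a6, a7⟩ := hTS t y hy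
        have hyX : y ∈ X t := mem_filter.mpr
          ⟨(mem_pool R j n t y).mpr ⟨a1, a2, a3, a5, a6⟩, Or.inl ⟨a7, a4⟩⟩
        have := tau_le R n (X t) (show R.L - R.cls y + 1 ≤ R.L - j by omega)
          (mem_tau R n (X t) y hyX a2 a5)
        exact mem_union_left _ (R.sub_ex _ _ this)
      · rintro (h5 | h5)
        · exact h5 hg
        · apply h4
          refine R.cl_mono _ _ (union_subset_union ?_ subset_rfl) h5
          rw [R.hN t j (n + 1) hj]
          apply R.ex_mono
          have := tau_sub_S R t n (Cq t) (by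
            intro y hy
            have h6 := mem_filter.mp hy
            have h7 := (mem_pool R j n t y).mp h6.1
            exact ⟨h7.2.2.1, h6.2, h7.2.2.2.2⟩) (R.L - j) (by omega)
          have e1 : R.L + 1 - (R.L - j) = j + 1 := by omega
          rwa [e1] at this
    · norm_num
    · exact le_rfl
  · apply ind_mono
    intro h1
    simp only [A, not_or, not_not] at h1
    exact ⟨h1.1, fun h3 => h1.2 (R.sub_cl _ (mem_union_left _ (hNX t h3)))⟩

/-- a victim is in the window `N (n+2) - N n` for at most two times -/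
lemma window_le_two (t : α → Bool) (j : ℕ) (hj : j ≤ R.L) (e : α) (I : Finset ℕ) :
    ∑ n ∈ I, S13.ind (e ∈ R.N t j (n + 2) ∧ e ∉ R.N t j n) ≤ 2 := by
  classical
  have h1 : ∑ n ∈ I, S13.ind (e ∈ R.N t j (n + 2) ∧ e ∉ R.N t j n)
      = ((I.filter (fun n => e ∈ R.N t j (n + 2) ∧ e ∉ R.N t j n)).card : ℝ) := by
    rw [card_filter]; push_cast
    refine sum_congr rfl fun n _ => ?_
    unfold S13.ind
    split_ifs <;> simp_all
  rw [h1]
  set J := I.filter (fun n => e ∈ R.N t j (n + 2) ∧ e ∉ R.N t j n) with hJ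
  rcases J.eq_empty_or_nonempty with h0 | h0
  · rw [h0]; norm_num
  · have hsub : J ⊆ {J.min' h0, J.min' h0 + 1} := by
      intro n hn
      have hmin := (mem_filter.mp (J.min'_mem h0)).2.1
      have hn' := (mem_filter.mp hn).2.2
      have hle := J.min'_le n hn
      have : n < J.min' h0 + 2 := by
        by_contra hc
        exact hn' (N_mono R t j hj (by omega) hmin)
      simp only [mem_insert, mem_singleton]; omega
    have := (card_le_card hsub).trans (card_le_two)
    exact_mod_cast this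

end Crest.Agent.R305.S30
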