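import Crest.Agent.R305.RGDefs55
import Crest.Agent.R305.Star13

set_option autoImplicit false

open Classical

namespace Crest.Agent.R305.S32

variable {k : ℕ}

noncomputable def toF (w : Fin k → Bool) : Finset (Fin k) := Finset.univ.filter (fun i => w i = true)

theorem mem_toF (w : Fin k → Bool) (i : Fin k) : i ∈ toF w ↔ w i = true := by simp [toF]

theorem toF_bij : Function.Bijective (toF (k := k)) := by
  constructor
  · intro w w' h
    funext i
    have := congrArg (fun A => i ∈ A) h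
    simp only [mem_toF, eq_iff_iff] at this
    cases h1 : w i <;> cases h2 : w' i <;> simp_all
  · intro A
    refine ⟨fun i => decide (i ∈ A), ?_⟩
    ext i; simp [mem_toF]

theorem Ex_eq (p : ℝ) (f : Finset (Fin k) → ℝ) :
    Ex p f = ∑ w : Fin k → Bool, S13.pw (fun b : Bool => if b = true then p else 1 - p) w * f (toF w) := by
  unfold Ex
  symm
  refine Fintype.sum_bijective toF toF_bij _ _ fun w => ?_
  congr 1
  unfold S13.pw bern
  refine Finset.prod_congr rfl fun i _ => ?_
  simp only [mem_toF]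

theorem Ex_mono' (p : ℝ) (h0 : 0 ≤ p) (h1 : p ≤ 1) (f g : Finset (Fin k) → ℝ)
    (h : ∀ A, f A ≤ g A) : Ex p f ≤ Ex p g := by
  unfold Ex
  refine Finset.sum_le_sum fun A _ => mul_le_mul_of_nonneg_left (h A) ?_
  unfold bern
  refine Finset.prod_nonneg fun i _ => ?_
  split_ifs <;> linarith

theorem starF (t : ℝ) (h0 : 0 ≤ t) (h1 : t ≤ 1)
    (Q : Finset (Fin k) → Finset (Fin k))
    (hQ : ∀ T T', (∀ i, i ∉ Q T → (i ∈ T ↔ i ∈ T')) → Q T' = Q T)
    (A : Finset (Fin k) → Finset (Fin k) → Prop)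
    (hA : ∀ T T', (∀ i, i ∉ Q T → (i ∈ T ↔ i ∈ T')) → ∀ S, (A T' S ↔ A T S))
    (hmono : ∀ T S S', S ⊆ S' → A T S → A T S')
    (ord : Fin k → ℕ) (fresh : Finset (Fin k) → Fin k → Prop)
    (hf : ∀ T T' i, i ∈ Q T → (∀ j, (j ∉ Q T ∨ ord j < ord i) → (j ∈ T ↔ j ∈ T')) →
      (fresh T i ↔ fresh T' i)) :
    (1 - 2 * t) * Ex t (fun T => if A T ((Q T).filter (fun i => (fresh T i ↔ i ∈ T))) ∧
        ¬ A T (Q T \ T) then 1 else 0) ≤
      t * Ex t (fun T => if ¬ A T ((Q T).filter (fun i => (fresh T i ↔ i ∈ T))) then 1 else 0) := by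
  have key : ∀ (w w' : Fin k → Bool) (i : Fin k), w i = w' i → (i ∈ toF w ↔ i ∈ toF w') := by
    intro w w' i h; rw [mem_toF, mem_toF, h]
  have h := S13.star (fun b : Bool => if b = true then t else 1 - t)
    (fun b => by cases b <;> simp <;> linarith) (by simp)
    (fun b => b = false) (fun b => b = true) (fun w => Q (toF w))
    (fun w w' h => hQ _ _ fun i hi => key w w' i (h i hi))
    (fun w => A (toF w)) (fun w w' h => hA _ _ fun i hi => key w w' i (h i hi))
    (fun w => hmono _) ord (fun w => fresh (toF w))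
    (fun w w' i hi h => hf _ _ i hi fun j hj => key w w' j (h j hj))
    (fun w => (Q (toF w)).filter (fun i => (fresh (toF w) i ↔ i ∈ toF w)))
    (fun w => Q (toF w) \ toF w)
    (fun w i => by
      rw [Finset.mem_filter, mem_toF]
      by_cases hfr : fresh (toF w) i <;> cases hw : w i <;> simp [hfr])
    (fun w i => by
      rw [Finset.mem_sdiff, mem_toF]
      cases hw : w i <;> simp)
  have e1 : S13.pl (fun b : Bool => if b = true then t else 1 - t) (fun b => b = false) = 1 - t := by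
    simp [S13.pl]
  have e2 : S13.pl (fun b : Bool => if b = true then t else 1 - t) (fun b => b = true) = t := by
    simp [S13.pl]
  rw [e1, e2] at h
  rw [Ex_eq, Ex_eq]
  have e3 : (1 : ℝ) - 2 * t = 1 - t - t := by ring
  rw [e3]
  unfold S13.ind at h
  convert h using 5

section
variable {M : Matroid (Fin k)} {L : ℕ} {U : ℕ → Finset (Fin k)} {D : Finset (Fin k)}

theorem mem_pool (T0 : Finset (Fin k)) (j b : ℕ) (y : Fin k) :
    y ∈ pool M L U D T0 j b ↔
      ∃ m, j + 1 ≤ m ∧ m ≤ L ∧ y ∈ U m ∧ y ∉ D ∧ y ∈ Nm M L U D T0 m b := by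
  simp only [pool, Finset.mem_biUnion, Finset.mem_Icc, Finset.mem_filter, Finset.mem_sdiff]
  constructor
  · rintro ⟨m, ⟨h1, h2⟩, ⟨h3, h4⟩, h5⟩; exact ⟨m, h1, h2, h3, h4, h5⟩
  · rintro ⟨m, h1, h2, h3, h4, h5⟩; exact ⟨m, ⟨h1, h2⟩, ⟨h3, h4⟩, h5⟩

theorem mem_Cg (T0 : Finset (Fin k)) (y : Fin k) : y ∈ Cg D T0 ↔ y ∉ D ∧ y ∉ T0 := by
  simp [Cg]

theorem uniq (hP : Pools M U) {m m' : ℕ} {y : Fin k} (h : y ∈ U m) (h' : y ∈ U m') : m = m' := by
  by_contra hne
  exact Finset.disjoint_left.1 (hP.2 m m' hne) h h'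

theorem Nm_eq (T0 : Finset (Fin k)) (i t : ℕ) (hi : i ≤ L) :
    Nm M L U D T0 (L - i) t = Nstep M (D ∩ U (L - i)) (L - i) (St M L U D (Cg D T0) i) t := by
  unfold Nm
  rw [show L - (L - i) = i by omega]

theorem St_succ (T0 : Finset (Fin k)) (i t : ℕ) (hi : i ≤ L) :
    St M L U D (Cg D T0) (i + 1) t =
      if 3 * (L - i) ≤ t then M.closure (Nm M L U D T0 (L - i) t ∪
        (((Cg D T0 ∩ U (L - i) : Finset (Fin k)) : Set (Fin k)) ∩ Nm M L U D T0 (L - i) (t + 1)))
      else St M L U D (Cg D T0) i t := by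
  rw [Nm_eq T0 i t hi, Nm_eq T0 i (t + 1) hi]
  rfl

theorem St_loc (hN : NCHAIN M) (hP : Pools M U) (T0 T0' : Finset (Fin k)) (j b : ℕ)
    (h : ∀ y, y ∉ pool M L U D T0 j b → (y ∈ T0 ↔ y ∈ T0')) (i : ℕ) (hi : i + j ≤ L) :
    ∀ t, b ≤ t → St M L U D (Cg D T0') i t = St M L U D (Cg D T0) i t := by
  induction i with
  | zero => intro t _; rfl
  | succ i ih =>
    intro t ht
    have ih' := ih (by omega)
    have hN' : ∀ t, b ≤ t → Nm M L U D T0' (L - i) t = Nm M L U D T0 (L - i) t := by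
      intro t ht
      rw [Nm_eq T0 i t (by omega), Nm_eq T0' i t (by omega)]
      unfold Nstep
      rw [ih' t ht]
    rw [St_succ T0 i t (by omega), St_succ T0' i t (by omega), hN' t ht, hN' (t + 1) (by omega),
      ih' t ht]
    have hmono := (hN L U D T0 (L - i) (by omega) (by omega)).2.1 b t ht
    have : Nm M L U D T0 (L - i) t ∪
        (((Cg D T0' ∩ U (L - i) : Finset (Fin k)) : Set (Fin k)) ∩ Nm M L U D T0 (L - i) (t + 1)) =
        Nm M L U D T0 (L - i) t ∪
        (((Cg D T0 ∩ U (L - i) : Finset (Fin k)) : Set (Fin k)) ∩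
          Nm M L U D T0 (L - i) (t + 1)) := by
      ext y
      simp only [Set.mem_union, Set.mem_inter_iff, Finset.mem_coe, Finset.mem_inter, mem_Cg]
      by_cases hy : y ∈ Nm M L U D T0 (L - i) t
      · simp [hy]
      · by_cases hyU : y ∈ U (L - i)
        · by_cases hyD : y ∈ D
          · simp [hyD]
          · by_cases hyp : y ∈ pool M L U D T0 j b
            · obtain ⟨m, _, _, hm3, _, hm5⟩ := (mem_pool T0 j b y).1 hyp
              have hmm : m = L - i := uniq hP hm3 hyU
              subst hmm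
              exact absurd (hmono hm5) hy
            · rw [h y hyp]
        · simp [hyU]
    rw [this]

theorem Nm_loc (hN : NCHAIN M) (hP : Pools M U) (T0 T0' : Finset (Fin k)) (j b : ℕ)
    (h : ∀ y, y ∉ pool M L U D T0 j b → (y ∈ T0 ↔ y ∈ T0')) (m t : ℕ) (hjm : j ≤ m) (hm : m ≤ L)
    (ht : b ≤ t) : Nm M L U D T0' m t = Nm M L U D T0 m t := by
  unfold Nm Nstep
  rw [St_loc hN hP T0 T0' j b h (L - m) (by omega) t ht]

/-- the two-scenario recursion at time `s` with guard set `S` -/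
noncomputable def tau (M : Matroid (Fin k)) (L : ℕ) (U : ℕ → Finset (Fin k)) (D : Finset (Fin k))
    (s : ℕ) (S : Finset (Fin k)) : ℕ → Set (Fin k)
  | 0 => S0 M L s
  | i + 1 => if 3 * (L - i) ≤ s then
      M.closure (Exp M (D ∩ U (L - i)) (tau M L U D s S i) ∪ ((S ∩ U (L - i) : Finset (Fin k)) : Set (Fin k)))
    else tau M L U D s S i

theorem tau_succ (s : ℕ) (S : Finset (Fin k)) (i : ℕ) :
    tau M L U D s S (i + 1) = if 3 * (L - i) ≤ s then
      M.closure (Exp M (D ∩ U (L - i)) (tau M L U D s S i) ∪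
        ((S ∩ U (L - i) : Finset (Fin k)) : Set (Fin k)))
    else tau M L U D s S i := rfl

theorem tau_E (s : ℕ) (S : Finset (Fin k)) (i : ℕ) : tau M L U D s S i ⊆ M.E := by
  induction i with
  | zero =>
    show S0 M L s ⊆ M.E
    unfold S0
    split_ifs
    · exact M.closure_subset_ground _
    · exact subset_rfl
  | succ i ih =>
    rw [tau_succ]
    split_ifs
    · exact M.closure_subset_ground _
    · exact ih

theorem exp_sub (hE : EXPF M) (D' : Finset (Fin k)) (S : Set (Fin k)) (h : S ⊆ M.E) :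
    S ⊆ Exp M D' S := (hE D' S h).1.1

theorem exp_E (hE : EXPF M) (D' : Finset (Fin k)) (S : Set (Fin k)) (h : S ⊆ M.E) :
    Exp M D' S ⊆ M.E := (hE D' S h).1.2.1

theorem exp_mono (hE : EXPF M) (D' : Finset (Fin k)) (S S' : Set (Fin k)) (h : S ⊆ S')
    (h' : S' ⊆ M.E) : Exp M D' S ⊆ Exp M D' S' := (hE D' S (h.trans h')).2.2.2.1 S' h h'

theorem tau_monoS (hE : EXPF M) (s : ℕ) (S S' : Finset (Fin k)) (h : S ⊆ S') (i : ℕ) :
    tau M L U D s S i ⊆ tau M L U D s S' i := by
  induction i with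
  | zero => exact subset_rfl
  | succ i ih =>
    rw [tau_succ, tau_succ]
    split_ifs
    · refine M.closure_subset_closure (Set.union_subset_union
        (exp_mono hE _ _ _ ih (tau_E s S' i)) ?_)
      exact Finset.coe_subset.2 (Finset.inter_subset_inter_right h)
    · exact ih

theorem step_E (hE : EXPF M) (hP : Pools M U) (s : ℕ) (S : Finset (Fin k)) (i : ℕ) :
    Exp M (D ∩ U (L - i)) (tau M L U D s S i) ∪
        ((S ∩ U (L - i) : Finset (Fin k)) : Set (Fin k)) ⊆ M.E := by
  refine Set.union_subset (exp_E hE _ _ (tau_E s S i)) ?_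
  exact (Finset.coe_subset.2 Finset.inter_subset_right).trans (hP.1 _)

theorem tau_monoi (hE : EXPF M) (hP : Pools M U) (s : ℕ) (S : Finset (Fin k)) (i i' : ℕ)
    (h : i ≤ i') : tau M L U D s S i ⊆ tau M L U D s S i' := by
  induction i', h using Nat.le_induction with
  | base => exact subset_rfl
  | succ n _ ih =>
    refine ih.trans ?_
    rw [tau_succ]
    split_ifs
    · exact ((exp_sub hE _ _ (tau_E s S n)).trans Set.subset_union_left).trans
        (M.subset_closure _ (step_E hE hP s S n))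
    · exact subset_rfl

theorem St_E (hC : CHAIN M) (C : Finset (Fin k)) (i t : ℕ) : St M L U D C i t ⊆ M.E := by
  rw [← (hC L U D C).1 i t]; exact M.closure_subset_ground _

theorem Nm_act (T0 : Finset (Fin k)) (m t : ℕ) (h : 3 * m ≤ t) :
    Nm M L U D T0 m t = Exp M (D ∩ U m) (St M L U D (Cg D T0) (L - m) t) := by
  unfold Nm Nstep; rw [if_pos h]

def fresh (M : Matroid (Fin k)) (L : ℕ) (U : ℕ → Finset (Fin k)) (D : Finset (Fin k)) (b : ℕ)
    (T0 : Finset (Fin k)) (y : Fin k) : Prop :=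
  ∃ m, y ∈ U m ∧ y ∉ Nm M L U D T0 m (b - 1)

theorem fresh_iff (hP : Pools M U) (b : ℕ) (T0 : Finset (Fin k)) {m : ℕ} {y : Fin k}
    (hy : y ∈ U m) : fresh M L U D b T0 y ↔ y ∉ Nm M L U D T0 m (b - 1) := by
  constructor
  · rintro ⟨m', h1, h2⟩
    rw [uniq hP hy h1]; exact h2
  · intro h; exact ⟨m, hy, h⟩

noncomputable def XX (M : Matroid (Fin k)) (L : ℕ) (U : ℕ → Finset (Fin k)) (D : Finset (Fin k))
    (j b : ℕ) (T0 : Finset (Fin k)) : Finset (Fin k) :=
  (pool M L U D T0 j b).filter (fun i => (fresh M L U D b T0 i ↔ i ∈ T0))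

theorem claim1 (hE : EXPF M) (hC : CHAIN M) (hN : NCHAIN M) (hP : Pools M U) (T0 : Finset (Fin k))
    (j b : ℕ) (hb : 2 ≤ b) (i : ℕ) (hi : i + j ≤ L) :
    St M L U D (Cg D T0) i (b - 2) ⊆ tau M L U D (b - 2) (XX M L U D j b T0) i := by
  induction i with
  | zero => exact subset_rfl
  | succ i ih =>
    have ih' := ih (by omega)
    rw [St_succ T0 i _ (by omega), tau_succ]
    split_ifs with h3
    · refine M.closure_subset_closure (Set.union_subset_union ?_ ?_)
      · rw [Nm_act T0 _ _ h3, show L - (L - i) = i by omega]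
        exact exp_mono hE _ _ _ ih' (tau_E _ _ _)
      · rintro y ⟨hy1, hy2⟩
        rw [show b - 2 + 1 = b - 1 by omega] at hy2
        simp only [Finset.mem_coe, Finset.mem_inter, mem_Cg] at hy1 ⊢
        refine ⟨?_, hy1.2⟩
        unfold XX
        rw [Finset.mem_filter, mem_pool, fresh_iff hP b T0 hy1.2]
        refine ⟨⟨L - i, by omega, by omega, hy1.2, hy1.1.1, ?_⟩, ?_⟩
        · exact (hN L U D T0 (L - i) (by omega) (by omega)).2.1 (b - 1) b (by omega) hy2
        · simp [hy2, hy1.1.2]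
    · exact ih'

theorem claim2 (hE : EXPF M) (hP : Pools M U) (T0 : Finset (Fin k)) (j b : ℕ) :
    (Thi M L U D T0 j b : Set (Fin k)) ⊆ tau M L U D (b - 2) (XX M L U D j b T0) (L - j) := by
  intro y hy
  simp only [Thi, Tband, Finset.mem_coe, Finset.mem_biUnion, Finset.mem_filter, Finset.mem_Icc,
    Finset.mem_inter, Finset.mem_sdiff] at hy
  obtain ⟨m, ⟨⟨h1, h2⟩, h3⟩, ⟨⟨h4, h5⟩, h6⟩, h7, h8⟩ := hy
  refine tau_monoi hE hP _ _ (L - m + 1) (L - j) (by omega) ?_
  rw [tau_succ, if_pos (by omega)]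
  refine M.subset_closure _ (step_E hE hP _ _ _) (Or.inr ?_)
  rw [show L - (L - m) = m by omega]
  simp only [Finset.mem_coe, Finset.mem_inter]
  refine ⟨?_, h6⟩
  unfold XX
  rw [Finset.mem_filter, mem_pool, fresh_iff hP b T0 h6]
  exact ⟨⟨m, h1, h2, h6, h5, h7⟩, by simp [h8, h4]⟩

theorem claim3 (hE : EXPF M) (hC : CHAIN M) (hP : Pools M U) (T0 : Finset (Fin k))
    (j b : ℕ) (hb : 2 ≤ b) (i : ℕ) (hi : i + j ≤ L) :
    tau M L U D (b - 2) (pool M L U D T0 j b \ T0) i ⊆ St M L U D (Cg D T0) i (b - 1) := by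
  induction i with
  | zero => exact (hC L U D (Cg D T0)).2.1 0 (b - 2) (b - 1) (by omega)
  | succ i ih =>
    have ih' := ih (by omega)
    rw [tau_succ]
    split_ifs with h3
    · rw [St_succ T0 i _ (by omega), if_pos (by omega)]
      refine M.closure_subset_closure (Set.union_subset_union ?_ ?_)
      · rw [Nm_act T0 _ _ (by omega), show L - (L - i) = i by omega]
        exact exp_mono hE _ _ _ ih' (St_E hC _ _ _)
      · intro y hy
        rw [show b - 1 + 1 = b by omega]
        simp only [Finset.mem_coe, Finset.mem_inter, Finset.mem_sdiff, mem_pool] at hy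
        obtain ⟨⟨⟨m, _, _, h3, h4, h5⟩, h6⟩, h7⟩ := hy
        have hmm : m = L - i := uniq hP h3 h7
        subst hmm
        refine ⟨?_, h5⟩
        simp only [Finset.mem_coe, Finset.mem_inter, mem_Cg]
        exact ⟨⟨h4, h6⟩, h7⟩
    · exact ih'.trans ((hC L U D (Cg D T0)).2.2.1 i (i + 1) (b - 1) (by omega))

noncomputable def cls (U : ℕ → Finset (Fin k)) (y : Fin k) : ℕ :=
  if h : ∃ m, y ∈ U m then h.choose else 0

theorem cls_eq (hP : Pools M U) {m : ℕ} {y : Fin k} (hy : y ∈ U m) : cls U y = m := by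
  have h : ∃ m, y ∈ U m := ⟨m, hy⟩
  unfold cls
  rw [dif_pos h]
  exact uniq hP h.choose_spec hy

theorem St_fresh (hN : NCHAIN M) (hP : Pools M U) (T0 T0' : Finset (Fin k)) (j b m : ℕ)
    (hb : 1 ≤ b) (hjm : j ≤ m)
    (h : ∀ y, y ∉ pool M L U D T0 j b → (y ∈ T0 ↔ y ∈ T0'))
    (h' : ∀ m' y, m < m' → m' ≤ L → y ∈ U m' → (y ∈ T0 ↔ y ∈ T0')) (i : ℕ) (hi : i + m ≤ L) :
    St M L U D (Cg D T0') i (b - 1) = St M L U D (Cg D T0) i (b - 1) := by
  induction i with
  | zero => rfl
  | succ i ih =>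
    have ih' := ih (by omega)
    have e1 : Nm M L U D T0' (L - i) (b - 1) = Nm M L U D T0 (L - i) (b - 1) := by
      rw [Nm_eq T0 i _ (by omega), Nm_eq T0' i _ (by omega)]
      unfold Nstep
      rw [ih']
    have e2 : Nm M L U D T0' (L - i) (b - 1 + 1) = Nm M L U D T0 (L - i) (b - 1 + 1) :=
      Nm_loc hN hP T0 T0' j b h (L - i) _ (by omega) (by omega) (by omega)
    have e3 : Cg D T0' ∩ U (L - i) = Cg D T0 ∩ U (L - i) := by
      ext y
      simp only [Finset.mem_inter, mem_Cg]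
      by_cases hy : y ∈ U (L - i)
      · rw [h' (L - i) y (by omega) (by omega) hy]
      · simp [hy]
    rw [St_succ T0 i _ (by omega), St_succ T0' i _ (by omega), e1, e2, e3, ih']

def AA (M : Matroid (Fin k)) (L : ℕ) (U : ℕ → Finset (Fin k)) (D : Finset (Fin k))
    (j b : ℕ) (e : Fin k) (T0 S : Finset (Fin k)) : Prop :=
  (e ∈ (T0 \ D) ∩ U j ∧ e ∈ Nm M L U D T0 j b) →
    e ∈ M.closure (Exp M (D ∩ U j) (tau M L U D (b - 2) S (L - j)) ∪ ↑(X0 M L U D T0 j b e))

end

theorem loct32 {M : Matroid (Fin k)} (hN : NCHAIN M) : LOCT M := by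
  intro L U D T0 T0' j b hP _ _ h m t hjm hm ht
  exact Nm_loc hN hP T0 T0' j b h m t hjm hm ht

theorem safe1_32 {M : Matroid (Fin k)} (hE : EXPF M) (hC : CHAIN M) (hN : NCHAIN M) : SAFE1 M := by
  intro L U D j b e hP hj1 hjL hb
  simp only [times, Finset.mem_Icc] at hb
  have ht0 : (0 : ℝ) ≤ tt := by unfold tt; positivity
  have ht1 : tt ≤ 1 / 4 := by unfold tt; norm_num
  have hoff : ∀ T y, y ∈ U j → y ∉ pool M L U D T j b := by
    intro T y hy hp
    obtain ⟨m, h1, _, h3, _⟩ := (mem_pool T j b y).1 hp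
    have := uniq hP h3 hy
    omega
  have key := starF tt ht0 (by linarith) (fun T => pool M L U D T j b)
    (fun T T' h => by
      ext y
      simp only [mem_pool]
      refine exists_congr fun m => ?_
      constructor
      · rintro ⟨h1, h2, h3, h4, h5⟩
        rw [Nm_loc hN hP T T' j b h m b (by omega) h2 le_rfl] at h5
        exact ⟨h1, h2, h3, h4, h5⟩
      · rintro ⟨h1, h2, h3, h4, h5⟩
        rw [← Nm_loc hN hP T T' j b h m b (by omega) h2 le_rfl] at h5
        exact ⟨h1, h2, h3, h4, h5⟩)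
    (AA M L U D j b e)
    (fun T T' h S => by
      have e1 := Nm_loc hN hP T T' j b h j b le_rfl hjL le_rfl
      have e2 : (T' \ D) ∩ U j = (T \ D) ∩ U j := by
        ext y
        simp only [Finset.mem_inter, Finset.mem_sdiff]
        by_cases hy : y ∈ U j
        · rw [h y (hoff T y hy)]
        · simp [hy]
      unfold AA X0
      rw [e1, e2])
    (fun T S S' hS hA hpre => by
      refine M.closure_subset_closure (Set.union_subset_union_left _ ?_) (hA hpre)
      exact exp_mono hE _ _ _ (tau_monoS hE _ _ _ hS _) (tau_E _ _ _))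
    (fun y => L - cls U y) (fresh M L U D b)
    (fun T T' y hy h => by
      obtain ⟨m, h1, h2, h3, _⟩ := (mem_pool T j b y).1 hy
      rw [fresh_iff hP b T h3, fresh_iff hP b T' h3]
      have := St_fresh (L := L) (D := D) hN hP T T' j b m (by omega) (by omega)
        (fun z hz => h z (Or.inl hz))
        (fun m' z hm hm' hz => h z (Or.inr (by
          show L - cls U z < L - cls U y
          rw [cls_eq hP hz, cls_eq hP h3]; omega))) (L - m) (by omega)
      unfold Nm Nstep
      rw [this])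
  have hN2 : ∀ T, Nm M L U D T j (b - 2) ⊆
      Exp M (D ∩ U j) (tau M L U D (b - 2) (XX M L U D j b T) (L - j)) := by
    intro T
    rw [Nm_act T j _ (by omega)]
    exact exp_mono hE _ _ _ (claim1 hE hC hN hP T j b (by omega) (L - j) (by omega)) (tau_E _ _ _)
  have hL : Ex tt (fun T0 => if Harm M L U D T0 j b e then 1 else 0) ≤
      Ex tt (fun T => if AA M L U D j b e T ((pool M L U D T j b).filter
        (fun i => (fresh M L U D b T i ↔ i ∈ T))) ∧
        ¬ AA M L U D j b e T (pool M L U D T j b \ T) then 1 else 0) := by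
    refine Ex_mono' tt ht0 (by linarith) _ _ fun T => ?_
    by_cases hH : Harm M L U D T j b e
    · rw [if_pos hH, if_pos]
      obtain ⟨h1, h2, h3, h4⟩ := hH
      constructor
      · intro _
        refine M.closure_subset_closure (Set.union_subset_union_left _ ?_) h3
        refine Set.union_subset (hN2 T) ?_
        exact (claim2 hE hP T j b).trans (exp_sub hE _ _ (tau_E _ _ _))
      · intro hA
        refine h4 (M.closure_subset_closure (Set.union_subset_union_left _ ?_) (hA ⟨h1, h2⟩))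
        rw [Nm_act T j _ (by omega)]
        exact exp_mono hE _ _ _ (claim3 hE hC hP T j b (by omega) (L - j) (by omega))
          (St_E hC _ _ _)
    · rw [if_neg hH]; split_ifs <;> norm_num
  have hR : Ex tt (fun T => if ¬ AA M L U D j b e T ((pool M L U D T j b).filter
        (fun i => (fresh M L U D b T i ↔ i ∈ T))) then 1 else 0) ≤
      Ex tt (fun T0 => if e ∈ T0 ∧ e ∈ U j ∧ e ∈ Nm M L U D T0 j b ∧
        e ∉ Nm M L U D T0 j (b - 2) then 1 else 0) := by
    refine Ex_mono' tt ht0 (by linarith) _ _ fun T => ?_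
    by_cases hA : AA M L U D j b e T ((pool M L U D T j b).filter
        (fun i => (fresh M L U D b T i ↔ i ∈ T)))
    · rw [if_neg (not_not.2 hA)]; split_ifs <;> norm_num
    · rw [if_pos hA, if_pos]
      unfold AA at hA
      rw [Classical.not_imp] at hA
      obtain ⟨⟨h1, h2⟩, h3⟩ := hA
      simp only [Finset.mem_inter, Finset.mem_sdiff] at h1
      refine ⟨h1.1.1, h1.2, h2, fun h4 => h3 ?_⟩
      exact M.mem_closure_of_mem' (Or.inl (hN2 T h4)) (hP.1 j h1.2)
  have hpos : 0 < 1 - 2 * tt := by linarith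
  rw [div_mul_eq_mul_div, le_div_iff₀ hpos]
  have h1 := mul_le_mul_of_nonneg_left hL hpos.le
  have h2 := mul_le_mul_of_nonneg_left hR ht0
  have key' : (1 - 2 * tt) * Ex tt (fun T => if AA M L U D j b e T ((pool M L U D T j b).filter
        (fun i => (fresh M L U D b T i ↔ i ∈ T))) ∧
        ¬ AA M L U D j b e T (pool M L U D T j b \ T) then 1 else 0) ≤
      tt * Ex tt (fun T => if ¬ AA M L U D j b e T ((pool M L U D T j b).filter
        (fun i => (fresh M L U D b T i ↔ i ∈ T))) then 1 else 0) := by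
    convert key
  linarith

end Crest.Agent.R305.S32
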