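import Mathlib
import Crest.Agent.R305.Star13

set_option autoImplicit false
set_option linter.unusedSectionVars false
open Finset

namespace Crest.Agent.R305.U75
open Crest.Agent.R305.S13

variable {ι L : Type*} [Fintype ι] [DecidableEq ι] [Fintype L]

/-- An abstract system of rounds `top, top - 1, ..., 0` acting on a time-indexed chain.
`S w m k` is the state at time `k` after round `m` (and `S w (top+1)` is the initial chain). -/
structure IsSys (cl : Finset ι → Finset ι) (Ex : ℕ → Finset ι → Finset ι) (Z : ℕ → Finset ι)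
    (cls : ι → ℕ) (act : ℕ → ℕ) (top : ℕ) (init : ℕ → Finset ι) (isC : L → Prop)
    (Cg : (ι → L) → ℕ → Finset ι) (S : (ι → L) → ℕ → ℕ → Finset ι) : Prop where
  cl_ext : ∀ A, A ⊆ cl A
  cl_mono : ∀ A B, A ⊆ B → cl A ⊆ cl B
  ex_ext : ∀ m A, A ⊆ Ex m A
  ex_mono : ∀ m A B, A ⊆ B → Ex m A ⊆ Ex m B
  hZ : ∀ m y, y ∈ Z m → cls y = m
  hC : ∀ w m y, y ∈ Cg w m ↔ y ∈ Z m ∧ isC (w y)
  init_mono : ∀ k, init k ⊆ init (k + 1)
  base : ∀ w k, S w (top + 1) k = init k
  step_on : ∀ w m k, m ≤ top → act m ≤ k →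
    S w m k = cl (Ex m (S w (m + 1) k) ∪ (Cg w m ∩ Ex m (S w (m + 1) (k + 1))))
  step_off : ∀ w m k, m ≤ top → ¬ act m ≤ k → S w m k = S w (m + 1) k

section
variable {cl : Finset ι → Finset ι} {Ex : ℕ → Finset ι → Finset ι} {Z : ℕ → Finset ι}
  {cls : ι → ℕ} {act : ℕ → ℕ} {top : ℕ} {init : ℕ → Finset ι} {isC : L → Prop}
  {Cg : (ι → L) → ℕ → Finset ι} {S : (ι → L) → ℕ → ℕ → Finset ι}

/-- downward induction on the rounds -/
lemma down_ind {P : ℕ → Prop} (top : ℕ) (h0 : P (top + 1))
    (hs : ∀ m, m ≤ top → P (m + 1) → P m) : ∀ m, m ≤ top + 1 → P m := by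
  intro m hm
  induction hm using Nat.decreasingInduction with
  | self => exact h0
  | of_succ k hk ih => exact hs k (by omega) ih

lemma IsSys.sub_step (h : IsSys cl Ex Z cls act top init isC Cg S) (w : ι → L) {m : ℕ}
    (hm : m ≤ top) (k : ℕ) : S w (m + 1) k ⊆ S w m k := by
  by_cases ha : act m ≤ k
  · rw [h.step_on w m k hm ha]
    exact (h.ex_ext m _).trans (subset_union_left.trans (h.cl_ext _))
  · rw [h.step_off w m k hm ha]

lemma IsSys.mono_succ (h : IsSys cl Ex Z cls act top init isC Cg S) (w : ι → L) :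
    ∀ m, m ≤ top + 1 → ∀ k, S w m k ⊆ S w m (k + 1) := by
  refine down_ind top ?_ ?_
  · intro k; rw [h.base, h.base]; exact h.init_mono k
  · intro m hm ih k
    by_cases ha : act m ≤ k
    · rw [h.step_on w m k hm ha, h.step_on w m (k + 1) hm (by omega)]
      refine h.cl_mono _ _ (union_subset_union (h.ex_mono m _ _ (ih k)) ?_)
      exact inter_subset_inter_left (h.ex_mono m _ _ (ih (k + 1)))
    · rw [h.step_off w m k hm ha]
      exact (ih k).trans (h.sub_step w hm (k + 1))

lemma IsSys.mono (h : IsSys cl Ex Z cls act top init isC Cg S) (w : ι → L) {m : ℕ}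
    (hm : m ≤ top + 1) {k k' : ℕ} (hk : k ≤ k') : S w m k ⊆ S w m k' := by
  induction hk with
  | refl => exact Subset.rfl
  | step _ ih => exact ih.trans (h.mono_succ w m hm _)

/-- the state after round `m` only depends on the labels of the classes `≥ m` -/
lemma IsSys.local_cls (h : IsSys cl Ex Z cls act top init isC Cg S) (w w' : ι → L) :
    ∀ m, m ≤ top + 1 → (∀ y, m ≤ cls y → cls y ≤ top → w y = w' y) → ∀ k, S w m k = S w' m k := by
  refine down_ind top ?_ ?_
  · intro _ k; rw [h.base, h.base]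
  · intro m hm ih hw k
    have ih' := ih (fun y hy hy' => hw y (by omega) hy')
    have hC : Cg w m = Cg w' m := by
      ext y
      rw [h.hC, h.hC]
      constructor
      · rintro ⟨h1, h2⟩
        have := h.hZ m y h1
        exact ⟨h1, by rw [← hw y (by omega) (by omega)]; exact h2⟩
      · rintro ⟨h1, h2⟩
        have := h.hZ m y h1
        exact ⟨h1, by rw [hw y (by omega) (by omega)]; exact h2⟩
    by_cases ha : act m ≤ k
    · rw [h.step_on w m k hm ha, h.step_on w' m k hm ha, ih' k, ih' (k + 1), hC]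
    · rw [h.step_off w m k hm ha, h.step_off w' m k hm ha, ih' k]

/-- the label-blind pool at time `k` of the classes lighter than `j` -/
def pool (Ex : ℕ → Finset ι → Finset ι) (Z : ℕ → Finset ι) (cls : ι → ℕ) (top : ℕ)
    (S : (ι → L) → ℕ → ℕ → Finset ι) (j k : ℕ) (w : ι → L) : Finset ι :=
  univ.filter fun y => j < cls y ∧ cls y ≤ top ∧ y ∈ Z (cls y) ∧
    y ∈ Ex (cls y) (S w (cls y + 1) k)

/-- stopping property: times `≥ k` only see labels outside the pool at time `k` -/
lemma IsSys.stop (h : IsSys cl Ex Z cls act top init isC Cg S) (j k : ℕ) (w w' : ι → L)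
    (hw : ∀ i ∉ pool Ex Z cls top S j k w, w i = w' i) :
    ∀ m, m ≤ top + 1 → j < m → ∀ k', k ≤ k' → S w' m k' = S w m k' := by
  refine down_ind top ?_ ?_
  · intro _ k' _; rw [h.base, h.base]
  · intro m hm ih hjm k' hk'
    have ih' := ih (by omega)
    by_cases ha : act m ≤ k'
    · rw [h.step_on w m k' hm ha, h.step_on w' m k' hm ha, ih' k' hk', ih' (k' + 1) (by omega)]
      congr 1
      have hsub : Ex m (S w (m + 1) k) ⊆ Ex m (S w (m + 1) k') :=
        h.ex_mono m _ _ (h.mono w (by omega) hk')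
      ext y
      simp only [mem_union, mem_inter, h.hC]
      by_cases hy : y ∈ Ex m (S w (m + 1) k')
      · simp [hy]
      · have key : y ∈ Z m → w y = w' y := by
          intro hz
          refine hw y ?_
          have hc := h.hZ m y hz
          simp only [pool, mem_filter, mem_univ, true_and, hc]
          rintro ⟨-, -, -, h4⟩
          exact hy (hsub h4)
        constructor
        · rintro (h1 | ⟨⟨h1, h2⟩, h3⟩)
          · exact Or.inl h1
          · exact Or.inr ⟨⟨h1, by rw [key h1]; exact h2⟩, h3⟩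
        · rintro (h1 | ⟨⟨h1, h2⟩, h3⟩)
          · exact Or.inl h1
          · exact Or.inr ⟨⟨h1, by rw [← key h1]; exact h2⟩, h3⟩
    · rw [h.step_off w m k' hm ha, h.step_off w' m k' hm ha, ih' k' hk']

/-- the level-`k` closure through the rounds, `i` rounds processed -/
def tau (cl : Finset ι → Finset ι) (Ex : ℕ → Finset ι → Finset ι) (Z : ℕ → Finset ι)
    (act : ℕ → ℕ) (top : ℕ) (init : ℕ → Finset ι) (k : ℕ) (A : Finset ι) : ℕ → Finset ι
  | 0 => init k
  | i + 1 =>
    if act (top - i) ≤ k then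
      cl (Ex (top - i) (tau cl Ex Z act top init k A i) ∪ (A ∩ Z (top - i)))
    else tau cl Ex Z act top init k A i

lemma IsSys.tau_mono (h : IsSys cl Ex Z cls act top init isC Cg S) (k : ℕ) {A B : Finset ι}
    (hAB : A ⊆ B) (i : ℕ) :
    tau cl Ex Z act top init k A i ⊆ tau cl Ex Z act top init k B i := by
  induction i with
  | zero => exact Subset.rfl
  | succ i ih =>
    simp only [tau]
    split_ifs
    · exact h.cl_mono _ _ (union_subset_union (h.ex_mono _ _ _ ih) (inter_subset_inter_right hAB))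
    · exact ih

lemma IsSys.tau_succ (h : IsSys cl Ex Z cls act top init isC Cg S) (k : ℕ) (A : Finset ι)
    (i : ℕ) : tau cl Ex Z act top init k A i ⊆ tau cl Ex Z act top init k A (i + 1) := by
  simp only [tau]
  split_ifs
  · exact (h.ex_ext _ _).trans (subset_union_left.trans (h.cl_ext _))
  · exact Subset.rfl

lemma IsSys.tau_le (h : IsSys cl Ex Z cls act top init isC Cg S) (k : ℕ) (A : Finset ι)
    {i i' : ℕ} (hi : i ≤ i') :
    tau cl Ex Z act top init k A i ⊆ tau cl Ex Z act top init k A i' := by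
  induction hi with
  | refl => exact Subset.rfl
  | step _ ih => exact ih.trans (h.tau_succ k A _)

/-- `tau` of a set containing the old guards contains the state at time `k` -/
lemma IsSys.sub_tau (h : IsSys cl Ex Z cls act top init isC Cg S) (j k : ℕ) (w : ι → L)
    (A : Finset ι)
    (hA : ∀ m, j < m → m ≤ top → Cg w m ∩ Ex m (S w (m + 1) (k + 1)) ⊆ A) :
    ∀ i, i + j ≤ top → S w (top + 1 - i) k ⊆ tau cl Ex Z act top init k A i := by
  intro i
  induction i with
  | zero => intro _; simp only [tau, Nat.sub_zero]; rw [h.base]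
  | succ i ih =>
    intro hi
    have ih' := ih (by omega)
    have e1 : top + 1 - (i + 1) = top - i := by omega
    have e2 : top + 1 - i = top - i + 1 := by omega
    rw [e2] at ih'
    rw [e1]
    simp only [tau]
    split_ifs with ha
    · rw [h.step_on w _ k (by omega) ha]
      refine h.cl_mono _ _ (union_subset_union (h.ex_mono _ _ _ ih') ?_)
      intro y hy
      refine mem_inter.2 ⟨hA _ (by omega) (by omega) hy, ?_⟩
      exact ((h.hC _ _ _).1 (mem_inter.1 hy).1).1
    · rw [h.step_off w _ k (by omega) ha]; exact ih'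

/-- `tau` of the guards of the pool is inside the state at time `k + 1` -/
lemma IsSys.tau_sub (h : IsSys cl Ex Z cls act top init isC Cg S) (j k : ℕ) (w : ι → L)
    (A : Finset ι)
    (hA : ∀ m, j < m → m ≤ top → A ∩ Z m ⊆ Cg w m ∩ Ex m (S w (m + 1) (k + 2))) :
    ∀ i, i + j ≤ top → tau cl Ex Z act top init k A i ⊆ S w (top + 1 - i) (k + 1) := by
  intro i
  induction i with
  | zero => intro _; simp only [tau, Nat.sub_zero]; rw [h.base]; exact h.init_mono k
  | succ i ih =>
    intro hi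
    have ih' := ih (by omega)
    have e1 : top + 1 - (i + 1) = top - i := by omega
    have e2 : top + 1 - i = top - i + 1 := by omega
    rw [e2] at ih'
    rw [e1]
    simp only [tau]
    split_ifs with ha
    · rw [h.step_on w _ (k + 1) (by omega) (by omega)]
      exact h.cl_mono _ _ (union_subset_union (h.ex_mono _ _ _ ih')
        (hA _ (by omega) (by omega)))
    · exact ih'.trans (h.sub_step w (by omega) (k + 1))

lemma ind_mono {P Q : Prop} (hPQ : P → Q) : ind P ≤ ind Q := by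
  unfold ind
  split_ifs with h1 h2
  · exact le_rfl
  · exact absurd (hPQ h1) h2
  · norm_num
  · exact le_rfl

lemma ind_nonneg (P : Prop) : 0 ≤ ind P := by unfold ind; split_ifs <;> norm_num

/-- **USE at one time.**  Victim `e` looked at in round `j`; `g` and `X` only depend on the labels
of the classes `≤ j`; `Ts w` is any set of `T`-labelled lighter elements that are active at time `k`
and are born (in their own round) exactly at time `k + 2`. -/
theorem IsSys.use_time (h : IsSys cl Ex Z cls act top init isC Cg S)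
    (p : L → ℝ) (hp : ∀ l, 0 ≤ p l) (hp1 : ∑ l, p l = 1) (isT : L → Prop)
    (hct : pl p isT ≤ pl p isC)
    (j : ℕ) (hj : j ≤ top) (k : ℕ) (e : ι)
    (g : (ι → L) → Prop) (X : (ι → L) → Finset ι)
    (hg : ∀ w w', (∀ y, cls y ≤ j → w y = w' y) → (g w ↔ g w'))
    (hX : ∀ w w', (∀ y, cls y ≤ j → w y = w' y) → X w = X w')
    (Ts : (ι → L) → Finset ι)
    (hTs : ∀ w y, y ∈ Ts w → j < cls y ∧ cls y ≤ top ∧ y ∈ Z (cls y) ∧ isT (w y) ∧
      act (cls y) ≤ k ∧ y ∈ Ex (cls y) (S w (cls y + 1) (k + 2)) ∧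
      y ∉ Ex (cls y) (S w (cls y + 1) (k + 1))) :
    (pl p isC - pl p isT) * ∑ w, pw p w * ind (g w ∧ e ∈ Ex j (S w (j + 1) (k + 2)) ∧
        e ∈ cl (Ex j (S w (j + 1) k) ∪ Ts w ∪ (X w ∩ Ex j (S w (j + 1) (k + 2)))) ∧
        e ∉ cl (Ex j (S w (j + 1) (k + 1)) ∪ (X w ∩ Ex j (S w (j + 1) (k + 2)))))
      ≤ pl p isT * ∑ w, pw p w * ind (g w ∧ e ∈ Ex j (S w (j + 1) (k + 2)) ∧
        e ∉ cl (Ex j (S w (j + 1) k) ∪ (X w ∩ Ex j (S w (j + 1) (k + 2))))) := by
  classical
  set Q := pool Ex Z cls top S j (k + 2) with hQdef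
  have hstop : ∀ w w', (∀ i ∉ Q w, w i = w' i) → ∀ m, m ≤ top + 1 → j < m →
      S w' m (k + 2) = S w m (k + 2) := fun w w' hw m hm hjm =>
    h.stop j (k + 2) w w' hw m hm hjm (k + 2) le_rfl
  have hlow : ∀ w w' : ι → L, (∀ i ∉ Q w, w i = w' i) → ∀ y, cls y ≤ j → w y = w' y := by
    intro w w' hw y hy
    refine hw y ?_
    simp only [hQdef, pool, mem_filter, mem_univ, true_and]
    rintro ⟨h1, -⟩; omega
  have hQ : ∀ w w' : ι → L, (∀ i ∉ Q w, w i = w' i) → Q w' = Q w := by
    intro w w' hw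
    ext y
    simp only [hQdef, pool, mem_filter, mem_univ, true_and]
    constructor
    · rintro ⟨h1, h2, h3, h4⟩
      exact ⟨h1, h2, h3, by rw [← hstop w w' hw _ (by omega) (by omega)]; exact h4⟩
    · rintro ⟨h1, h2, h3, h4⟩
      exact ⟨h1, h2, h3, by rw [hstop w w' hw _ (by omega) (by omega)]; exact h4⟩
  let T : Finset ι → Finset ι := fun A => tau cl Ex Z act top init k A (top - j)
  let A : (ι → L) → Finset ι → Prop := fun w B =>
    (g w ∧ e ∈ Ex j (S w (j + 1) (k + 2))) →
      e ∈ cl (Ex j (T B) ∪ (X w ∩ Ex j (S w (j + 1) (k + 2))))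
  let fresh : (ι → L) → ι → Prop := fun w y => y ∉ Ex (cls y) (S w (cls y + 1) (k + 1))
  let XX : (ι → L) → Finset ι := fun w => (Q w).filter fun i =>
    (fresh w i ∧ isT (w i)) ∨ (¬ fresh w i ∧ isC (w i))
  let Cq : (ι → L) → Finset ι := fun w => (Q w).filter fun i => isC (w i)
  have hstar := star p hp hp1 isC isT Q hQ A (by
      intro w w' hw B
      simp only [A]
      rw [hstop w w' hw (j + 1) (by omega) (by omega), hX w w' (hlow w w' hw),
        hg w w' (hlow w w' hw)])
    (by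
      intro w B B' hB hA hG
      exact h.cl_mono _ _ (union_subset_union (h.ex_mono _ _ _ (h.tau_mono k hB _)) Subset.rfl)
        (hA hG))
    (fun y => top - cls y) fresh (by
      intro w w' i hi hw
      simp only [hQdef, pool, mem_filter, mem_univ, true_and] at hi
      simp only [fresh]
      rw [h.local_cls w w' (cls i + 1) (by omega) (fun y hy hy' => hw y (Or.inr (by omega)))])
    XX Cq (by intro w i; simp only [XX, mem_filter]) (by intro w i; simp only [Cq, mem_filter])
  have e0 : top + 1 - (top - j) = j + 1 := by omega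
  have hsubT : ∀ w, S w (j + 1) k ⊆ T (XX w) := by
    intro w
    have := h.sub_tau j k w (XX w) (by
      intro m hjm hm y hy
      obtain ⟨h1, h2⟩ := mem_inter.1 hy
      obtain ⟨h3, h4⟩ := (h.hC _ _ _).1 h1
      have hc := h.hZ m y h3
      simp only [XX, hQdef, pool, fresh, mem_filter, mem_univ, true_and, hc, not_not]
      exact ⟨⟨hjm, hm, h3, h.ex_mono _ _ _ (h.mono_succ w _ (by omega) _) h2⟩,
        Or.inr ⟨h2, h4⟩⟩) (top - j) (by omega)
    rwa [e0] at this
  have hTsT : ∀ w, Ts w ⊆ T (XX w) := by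
    intro w y hy
    obtain ⟨h1, h2, h3, h4, h5, h6, h7⟩ := hTs w y hy
    have hyX : y ∈ XX w := by
      simp only [XX, hQdef, pool, fresh, mem_filter, mem_univ, true_and]
      exact ⟨⟨h1, h2, h3, h6⟩, Or.inl ⟨h7, h4⟩⟩
    have e1 : top - (top - cls y) = cls y := by omega
    have : y ∈ tau cl Ex Z act top init k (XX w) (top - cls y + 1) := by
      simp only [tau, e1, if_pos h5]
      exact h.cl_ext _ (mem_union_right _ (mem_inter.2 ⟨hyX, h3⟩))
    exact h.tau_le k _ (by omega) this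
  have hCqT : ∀ w, T (Cq w) ⊆ S w (j + 1) (k + 1) := by
    intro w
    have := h.tau_sub j k w (Cq w) (by
      intro m hjm hm y hy
      obtain ⟨h1, h2⟩ := mem_inter.1 hy
      have hc := h.hZ m y h2
      simp only [Cq, hQdef, pool, mem_filter, mem_univ, true_and, hc] at h1
      exact mem_inter.2 ⟨(h.hC _ _ _).2 ⟨h2, h1.2⟩, h1.1.2.2.2⟩) (top - j) (by omega)
    rwa [e0] at this
  refine le_trans ?_ (hstar.trans ?_)
  · refine mul_le_mul_of_nonneg_left (Finset.sum_le_sum fun w _ =>
      mul_le_mul_of_nonneg_left (ind_mono ?_) (pw_nonneg hp w)) (sub_nonneg.2 hct)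
    rintro ⟨h1, h2, h3, h4⟩
    refine ⟨fun _ => h.cl_mono _ _ ?_ h3, fun hA => h4 (h.cl_mono _ _ ?_ (hA ⟨h1, h2⟩))⟩
    · refine union_subset_union (union_subset (h.ex_mono _ _ _ (hsubT w)) ?_) Subset.rfl
      exact (hTsT w).trans (h.ex_ext _ _)
    · exact union_subset_union (h.ex_mono _ _ _ (hCqT w)) Subset.rfl
  · refine mul_le_mul_of_nonneg_left (Finset.sum_le_sum fun w _ =>
      mul_le_mul_of_nonneg_left (ind_mono ?_) (pw_nonneg hp w)) (pl_nonneg hp isT)
    intro hA
    simp only [A, Classical.not_imp] at hA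
    refine ⟨hA.1.1, hA.1.2, fun h3 => hA.2 (h.cl_mono _ _ ?_ h3)⟩
    exact union_subset_union (h.ex_mono _ _ _ (hsubT w)) Subset.rfl

/-- an element enters a monotone chain only once -/
lemma sum_enter (N : ℕ → Finset ι) (hN : ∀ k, N k ⊆ N (k + 1)) (e : ι) (G : Prop)
    (Ks : Finset ℕ) :
    ∑ k ∈ Ks, ind (G ∧ e ∈ N (k + 2) ∧ e ∉ N k) ≤ 2 * ind G := by
  classical
  have hmono : ∀ a b, a ≤ b → N a ⊆ N b := by
    intro a b hab
    induction hab with
    | refl => exact Subset.rfl
    | step _ ih => exact ih.trans (hN _)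
  by_cases hG : G
  swap
  · have : ∀ k ∈ Ks, ind (G ∧ e ∈ N (k + 2) ∧ e ∉ N k) = 0 := fun k _ => by
      unfold ind; rw [if_neg (fun h => hG h.1)]
    rw [Finset.sum_congr rfl this]; simp [ind, hG]
  have h1 : ∑ k ∈ Ks, ind (G ∧ e ∈ N (k + 2) ∧ e ∉ N k)
      = ((Ks.filter fun k => e ∈ N (k + 2) ∧ e ∉ N k).card : ℝ) := by
    rw [Finset.card_filter]; push_cast
    refine Finset.sum_congr rfl fun k _ => ?_
    unfold ind; simp [hG]
  have h2 : ind G = 1 := by unfold ind; rw [if_pos hG]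
  rw [h1, h2, mul_one]
  set F := Ks.filter fun k => e ∈ N (k + 2) ∧ e ∉ N k with hF
  rcases F.eq_empty_or_nonempty with h0 | h0
  · rw [h0]; simp
  · have hsub : F ⊆ {F.min' h0, F.min' h0 + 1} := by
      intro k hk
      have hk1 := F.min'_le k hk
      have hm := (mem_filter.1 (F.min'_mem h0)).2.1
      have hk2 := (mem_filter.1 hk).2.2
      have : ¬ F.min' h0 + 2 ≤ k := fun hle => hk2 (hmono _ _ hle hm)
      simp only [mem_insert, mem_singleton]; omega
    have := (card_le_card hsub).trans (card_le_two)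
    exact_mod_cast this

/-- **USE, summed over the times.** -/
theorem IsSys.use_sum (h : IsSys cl Ex Z cls act top init isC Cg S)
    (p : L → ℝ) (hp : ∀ l, 0 ≤ p l) (hp1 : ∑ l, p l = 1) (isT : L → Prop)
    (hct : pl p isT ≤ pl p isC)
    (j : ℕ) (hj : j ≤ top) (Ks : Finset ℕ) (e : ι)
    (g : (ι → L) → Prop) (X : (ι → L) → Finset ι)
    (hg : ∀ w w', (∀ y, cls y ≤ j → w y = w' y) → (g w ↔ g w'))
    (hX : ∀ w w', (∀ y, cls y ≤ j → w y = w' y) → X w = X w')
    (Ts : ℕ → (ι → L) → Finset ι)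
    (hTs : ∀ k ∈ Ks, ∀ w y, y ∈ Ts k w → j < cls y ∧ cls y ≤ top ∧ y ∈ Z (cls y) ∧ isT (w y) ∧
      act (cls y) ≤ k ∧ y ∈ Ex (cls y) (S w (cls y + 1) (k + 2)) ∧
      y ∉ Ex (cls y) (S w (cls y + 1) (k + 1))) :
    (pl p isC - pl p isT) * ∑ w, pw p w * ∑ k ∈ Ks, ind (g w ∧ e ∈ Ex j (S w (j + 1) (k + 2)) ∧
        e ∈ cl (Ex j (S w (j + 1) k) ∪ Ts k w ∪ (X w ∩ Ex j (S w (j + 1) (k + 2)))) ∧
        e ∉ cl (Ex j (S w (j + 1) (k + 1)) ∪ (X w ∩ Ex j (S w (j + 1) (k + 2)))))
      ≤ 2 * pl p isT * ∑ w, pw p w * ind (g w) := by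
  classical
  simp only [Finset.mul_sum]
  rw [Finset.sum_comm]
  calc _ ≤ ∑ k ∈ Ks, pl p isT * ∑ w, pw p w * ind (g w ∧ e ∈ Ex j (S w (j + 1) (k + 2)) ∧
        e ∉ Ex j (S w (j + 1) k)) := by
        refine Finset.sum_le_sum fun k hk => ?_
        rw [← Finset.mul_sum]
        refine (h.use_time p hp hp1 isT hct j hj k e g X hg hX (Ts k) (hTs k hk)).trans ?_
        refine mul_le_mul_of_nonneg_left (Finset.sum_le_sum fun w _ =>
          mul_le_mul_of_nonneg_left (ind_mono ?_) (pw_nonneg hp w)) (pl_nonneg hp isT)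
        rintro ⟨h1, h2, h3⟩
        exact ⟨h1, h2, fun h4 => h3 (h.cl_ext _ (mem_union_left _ h4))⟩
    _ = ∑ w, pl p isT * (pw p w * ∑ k ∈ Ks, ind (g w ∧ e ∈ Ex j (S w (j + 1) (k + 2)) ∧
        e ∉ Ex j (S w (j + 1) k))) := by
        simp only [Finset.mul_sum]
        rw [Finset.sum_comm]
    _ ≤ _ := by
        refine Finset.sum_le_sum fun w _ => ?_
        have := sum_enter (fun k => Ex j (S w (j + 1) k))
          (fun k => h.ex_mono _ _ _ (h.mono_succ w _ (by omega) k)) e (g w) Ks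
        have h1 := mul_le_mul_of_nonneg_left this (pw_nonneg hp w)
        have h2 := mul_le_mul_of_nonneg_left h1 (pl_nonneg hp isT)
        linarith

end

end Crest.Agent.R305.U75
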