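import Mathlib
import Crest.Agent.R305.RGDefs55
import Crest.Agent.R305.Use75

set_option autoImplicit false

open Classical

namespace Crest.Agent.R305.U75
open Crest.Agent.R305.S13

variable {k : ℕ}

/-- the listened set of a Boolean label vector -/
noncomputable def tw (w : Fin k → Bool) : Finset (Fin k) := Finset.univ.filter fun y => w y = true

lemma mem_tw (w : Fin k → Bool) (y : Fin k) : y ∈ tw w ↔ w y = true := by simp [tw]

noncomputable def pb (t : ℝ) (b : Bool) : ℝ := if b = true then t else 1 - t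

lemma Ex_eq_pw (t : ℝ) (f : Finset (Fin k) → ℝ) :
    Ex t f = ∑ w : Fin k → Bool, pw (pb t) w * f (tw w) := by
  unfold Ex
  symm
  refine Fintype.sum_bijective tw ?_ _ _ ?_
  · constructor
    · intro w w' h
      funext y
      have : y ∈ tw w ↔ y ∈ tw w' := by rw [h]
      rw [mem_tw, mem_tw] at this
      cases hw : w y <;> cases hw' : w' y <;> simp_all
    · intro A
      refine ⟨fun y => decide (y ∈ A), ?_⟩
      ext y; simp [mem_tw]
  · intro w
    congr 1
    unfold pw bern pb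
    refine Finset.prod_congr rfl fun y _ => ?_
    simp only [mem_tw]

noncomputable def tF (X : Set (Fin k)) : Finset (Fin k) := Finset.univ.filter fun y => y ∈ X

lemma mem_tF (X : Set (Fin k)) (y : Fin k) : y ∈ tF X ↔ y ∈ X := by simp [tF]

lemma coe_tF (X : Set (Fin k)) : (tF X : Set (Fin k)) = X := by ext y; simp [mem_tF]

noncomputable def cl' (M : Matroid (Fin k)) (A : Finset (Fin k)) : Finset (Fin k) :=
  tF (M.closure (A : Set (Fin k))) ∪ A

noncomputable def ex' (M : Matroid (Fin k)) (D A : Finset (Fin k)) : Finset (Fin k) :=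
  tF (Exp M D ((A : Set (Fin k)) ∩ M.E)) ∪ A

noncomputable def cls (U : ℕ → Finset (Fin k)) (y : Fin k) : ℕ :=
  if h : ∃ m, y ∈ U m then h.choose else 0

lemma cls_eq {M : Matroid (Fin k)} {U : ℕ → Finset (Fin k)} (hU : Pools M U) {m : ℕ} {y : Fin k}
    (hy : y ∈ U m) : cls U y = m := by
  have h : ∃ m, y ∈ U m := ⟨m, hy⟩
  unfold cls
  rw [dif_pos h]
  by_contra hne
  exact Finset.disjoint_left.1 (hU.2 _ _ hne) h.choose_spec hy

lemma ex'_tF {M : Matroid (Fin k)} (hE : EXPF M) (D : Finset (Fin k)) {X : Set (Fin k)}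
    (hX : X ⊆ M.E) : ex' M D (tF X) = tF (Exp M D X) := by
  unfold ex'
  rw [coe_tF, Set.inter_eq_left.2 hX]
  refine Finset.union_eq_left.2 fun y hy => ?_
  rw [mem_tF] at hy ⊢
  exact (hE D X hX).1.1 hy

lemma cl'_eq {M : Matroid (Fin k)} {A : Finset (Fin k)} (hA : (A : Set (Fin k)) ⊆ M.E) :
    cl' M A = tF (M.closure (A : Set (Fin k))) := by
  unfold cl'
  refine Finset.union_eq_left.2 fun y hy => ?_
  rw [mem_tF]
  exact M.subset_closure _ hA hy

lemma St_sub {M : Matroid (Fin k)} (hC : CHAIN M) (L : ℕ) (U : ℕ → Finset (Fin k))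
    (D C : Finset (Fin k)) (i t : ℕ) : St M L U D C i t ⊆ M.E := by
  rw [← (hC L U D C).1 i t]; exact M.closure_subset_ground _

lemma isSys {M : Matroid (Fin k)} (hE : EXPF M) (hC : CHAIN M) (L : ℕ) (U : ℕ → Finset (Fin k))
    (hU : Pools M U) (D : Finset (Fin k)) :
    IsSys (L := Bool) (cl' M) (fun m => ex' M (D ∩ U m)) (fun m => U m \ D) (cls U)
      (fun m => 3 * m) L (fun t => tF (S0 M L t)) (fun b => b = false)
      (fun w m => Cg D (tw w) ∩ U m)
      (fun w m t => tF (St M L U D (Cg D (tw w)) (L + 1 - m) t)) where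
  cl_ext := fun A => Finset.subset_union_right
  cl_mono := by
    intro A B h
    refine Finset.union_subset_union (fun y hy => ?_) h
    rw [mem_tF] at hy ⊢
    exact M.closure_subset_closure (by exact_mod_cast h) hy
  ex_ext := fun m A => Finset.subset_union_right
  ex_mono := by
    intro m A B h
    refine Finset.union_subset_union (fun y hy => ?_) h
    rw [mem_tF] at hy ⊢
    exact (hE _ _ Set.inter_subset_right).2.2.2.1 _
      (Set.inter_subset_inter_left _ (by exact_mod_cast h)) Set.inter_subset_right hy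
  hZ := fun m y hy => cls_eq hU (Finset.mem_sdiff.1 hy).1
  hC := by
    intro w m y
    simp only [Cg, Finset.mem_inter, Finset.mem_compl, Finset.mem_union, Finset.mem_sdiff, mem_tw]
    cases w y <;> simp [and_comm]
  init_mono := by
    intro t y hy
    rw [mem_tF] at hy ⊢
    exact (hC L U D ∅).2.1 0 t (t + 1) (by omega) hy
  base := by
    intro w t
    simp only [Nat.sub_self, St]
  step_on := by
    intro w m t hm ha
    have e1 : L + 1 - m = (L - m) + 1 := by omega
    have e2 : L + 1 - (m + 1) = L - m := by omega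
    have e3 : L - (L - m) = m := by omega
    have hs := St_sub hC L U D (Cg D (tw w)) (L - m)
    simp only [e1, e2]
    rw [ex'_tF hE _ (hs t), ex'_tF hE _ (hs (t + 1)), cl'_eq]
    · simp only [St, e3, Sstep, Nstep, if_pos ha, if_pos (show 3 * m ≤ t + 1 by omega)]
      congr 2
      simp only [Finset.coe_union, Finset.coe_inter, coe_tF]
    · simp only [Finset.coe_union, Finset.coe_inter, coe_tF]
      exact Set.union_subset (hE _ _ (hs t)).1.2.1
        (Set.inter_subset_right.trans (hE _ _ (hs (t + 1))).1.2.1)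
  step_off := by
    intro w m t hm ha
    have e1 : L + 1 - m = (L - m) + 1 := by omega
    have e2 : L + 1 - (m + 1) = L - m := by omega
    have e3 : L - (L - m) = m := by omega
    simp only [e1, e2]
    simp only [St, e3, Sstep, if_neg ha]

lemma ex'_Nm {M : Matroid (Fin k)} (hE : EXPF M) (hC : CHAIN M) (L : ℕ)
    (U : ℕ → Finset (Fin k)) (D T0 : Finset (Fin k)) {m t : ℕ} (ha : 3 * m ≤ t) :
    ex' M (D ∩ U m) (tF (St M L U D (Cg D T0) (L + 1 - (m + 1)) t)) = tF (Nm M L U D T0 m t) := by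
  have e2 : L + 1 - (m + 1) = L - m := by omega
  rw [e2, ex'_tF hE _ (St_sub hC L U D _ _ _)]
  simp only [Nm, Nstep, if_pos ha]

lemma Nm_sub {M : Matroid (Fin k)} (hE : EXPF M) (hC : CHAIN M) (L : ℕ)
    (U : ℕ → Finset (Fin k)) (D T0 : Finset (Fin k)) (m t : ℕ) : Nm M L U D T0 m t ⊆ M.E := by
  unfold Nm Nstep
  split_ifs
  · exact (hE _ _ (St_sub hC L U D _ _ _)).1.2.1
  · exact St_sub hC L U D _ _ _

theorem safe1 (M : Matroid (Fin k)) (hE : EXPF M) (hC : CHAIN M) : SAFE1 M := by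
  intro L U D j b e hU hj1 hjL hb
  have hb' : 3 * j + 2 ≤ b := (Finset.mem_Icc.1 hb).1
  obtain ⟨t, rfl⟩ : ∃ t, b = t + 2 := ⟨b - 2, by omega⟩
  have htt0 : 0 < tt := by unfold tt; positivity
  have htt1 : tt < 1 / 4 := by unfold tt; norm_num
  have hp : ∀ l, 0 ≤ pb tt l := by
    intro l; unfold pb; split_ifs <;> linarith
  have hp1 : ∑ l, pb tt l = 1 := by simp [pb]
  have hT : pl (pb tt) (fun b => b = true) = tt := by simp [pl, pb]
  have hCc : pl (pb tt) (fun b => b = false) = 1 - tt := by simp [pl, pb]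
  have key := (isSys hE hC L U hU D).use_time (pb tt) hp hp1 (fun b => b = true)
    (by rw [hT, hCc]; linarith) j hjL t e (fun w => e ∈ (tw w \ D) ∩ U j)
    (fun w => ((tw w \ D) ∩ U j).filter fun f => f < e)
    (by
      intro w w' hw
      simp only [Finset.mem_inter, Finset.mem_sdiff, mem_tw]
      constructor
      · rintro ⟨⟨h1, h2⟩, h3⟩
        exact ⟨⟨by rw [← hw e (cls_eq hU h3).le]; exact h1, h2⟩, h3⟩
      · rintro ⟨⟨h1, h2⟩, h3⟩
        exact ⟨⟨by rw [hw e (cls_eq hU h3).le]; exact h1, h2⟩, h3⟩)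
    (by
      intro w w' hw
      ext y
      simp only [Finset.mem_filter, Finset.mem_inter, Finset.mem_sdiff, mem_tw]
      constructor
      · rintro ⟨⟨⟨h1, h2⟩, h3⟩, h4⟩
        exact ⟨⟨⟨by rw [← hw y (cls_eq hU h3).le]; exact h1, h2⟩, h3⟩, h4⟩
      · rintro ⟨⟨⟨h1, h2⟩, h3⟩, h4⟩
        exact ⟨⟨⟨by rw [hw y (cls_eq hU h3).le]; exact h1, h2⟩, h3⟩, h4⟩)
    (fun w => Thi M L U D (tw w) j (t + 2))
    (by
      intro w y hy
      simp only [Thi, Finset.mem_biUnion, Finset.mem_filter, Finset.mem_Icc, Tband,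
        Finset.mem_inter, Finset.mem_sdiff, mem_tw] at hy
      obtain ⟨m, ⟨⟨h1, h2⟩, h3⟩, ⟨⟨h4, h5⟩, h6⟩, h7, h8⟩ := hy
      rw [cls_eq hU h6]
      refine ⟨by omega, h2, Finset.mem_sdiff.2 ⟨h6, h5⟩, h4, by omega, ?_, ?_⟩
      · rw [ex'_Nm hE hC L U D _ (by omega), mem_tF]; exact h7
      · rw [ex'_Nm hE hC L U D _ (by omega), mem_tF]; exact h8)
  simp only [hT, hCc] at key
  simp only [ex'_Nm hE hC L U D _ (show 3 * j ≤ t by omega),
    ex'_Nm hE hC L U D _ (show 3 * j ≤ t + 1 by omega),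
    ex'_Nm hE hC L U D _ (show 3 * j ≤ t + 2 by omega)] at key
  rw [Ex_eq_pw, Ex_eq_pw, div_mul_eq_mul_div, le_div_iff₀ (by linarith), mul_comm]
  have hX0 : ∀ w : Fin k → Bool, (((tw w \ D) ∩ U j).filter fun f => f < e) ∩
      tF (Nm M L U D (tw w) j (t + 2)) = X0 M L U D (tw w) j (t + 2) e := by
    intro w; ext y
    simp only [X0, Finset.mem_inter, Finset.mem_filter, mem_tF, and_assoc]
  simp only [hX0] at key
  have e1 : (1 : ℝ) - 2 * tt = 1 - tt - tt := by ring
  rw [e1]
  refine le_trans (mul_le_mul_of_nonneg_left (Finset.sum_le_sum fun w _ =>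
    mul_le_mul_of_nonneg_left ?_ (pw_nonneg hp w)) (by linarith)) (key.trans
      (mul_le_mul_of_nonneg_left (Finset.sum_le_sum fun w _ =>
        mul_le_mul_of_nonneg_left ?_ (pw_nonneg hp w)) htt0.le))
  · refine le_trans (le_of_eq ?_) (ind_mono (P := Harm M L U D (tw w) j (t + 2) e) ?_)
    · unfold ind; congr
    · rintro ⟨h1, h2, h3, h4⟩
      refine ⟨h1, (mem_tF _ _).2 h2, ?_, ?_⟩
      · unfold cl'
        refine Finset.mem_union_left _ ((mem_tF _ _).2 ?_)
        simpa only [Finset.coe_union, coe_tF, Nat.add_sub_cancel] using h3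
      · rw [cl'_eq, mem_tF]
        · simpa only [Finset.coe_union, coe_tF, show t + 2 - 1 = t + 1 by omega] using h4
        · simp only [Finset.coe_union, coe_tF]
          refine Set.union_subset (Nm_sub hE hC L U D _ _ _) fun y hy => ?_
          have hy' : y ∈ X0 M L U D (tw w) j (t + 2) e := hy
          simp only [X0, Finset.mem_filter] at hy'
          exact Nm_sub hE hC L U D _ _ _ hy'.2.2
  · refine le_trans (ind_mono (Q := e ∈ tw w ∧ e ∈ U j ∧ e ∈ Nm M L U D (tw w) j (t + 2) ∧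
      e ∉ Nm M L U D (tw w) j (t + 2 - 2)) ?_) (le_of_eq ?_)
    · rintro ⟨h1, h2, h3⟩
      refine ⟨(Finset.mem_sdiff.1 (Finset.mem_inter.1 h1).1).1, (Finset.mem_inter.1 h1).2,
        (mem_tF _ _).1 h2, fun h4 => h3 ?_⟩
      unfold cl'
      exact Finset.mem_union_right _ (Finset.mem_union_left _ ((mem_tF _ _).2 h4))
    · unfold ind; congr

end Crest.Agent.R305.U75
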