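import Mathlib

set_option autoImplicit false

namespace Crest.Agent.R305.S76

open Finset

variable {ι : Type*} [Fintype ι] [DecidableEq ι]

/-- product Bernoulli weight: `true` has probability `τ`. -/
noncomputable def bw (τ : ℝ) (ω : ι → Bool) : ℝ := ∏ i, (if ω i = true then τ else 1 - τ)

lemma bw_nonneg {τ : ℝ} (h0 : 0 ≤ τ) (h1 : τ ≤ 1) (ω : ι → Bool) : 0 ≤ bw τ ω := by
  unfold bw
  refine Finset.prod_nonneg fun i _ => ?_
  split_ifs <;> linarith

lemma sum_bw (τ : ℝ) : ∑ ω : ι → Bool, bw τ ω = 1 := by
  unfold bw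
  have := Finset.prod_univ_sum (fun _ : ι => (Finset.univ : Finset Bool))
    (fun _ b => if b = true then τ else 1 - τ)
  rw [Fintype.piFinset_univ] at this
  rw [← this]
  simp

/-- resampling inside a stopping set, for an arbitrary product weight. -/
lemma sum_mix {Λ : Type*} [Fintype Λ] (p : ι → Λ → ℝ) (hp : ∀ i, ∑ a, p i a = 1)
    (Q : (ι → Λ) → Finset ι)
    (hQ : ∀ ω ω' : ι → Λ, (∀ i, i ∉ Q ω → ω' i = ω i) → Q ω' = Q ω)
    (F : (ι → Λ) → ℝ) :
    ∑ ω : ι → Λ, (∏ i, p i (ω i)) * F ω =
      ∑ ω : ι → Λ, (∏ i, p i (ω i)) * ∑ ω' : ι → Λ, (∏ i, p i (ω' i)) *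
        F (fun i => if i ∈ Q ω then ω' i else ω i) := by
  classical
  have hone : ∑ ω : ι → Λ, (∏ i, p i (ω i)) = 1 := by
    have := Finset.prod_univ_sum (fun _ : ι => (Finset.univ : Finset Λ)) (fun i b => p i b)
    rw [Fintype.piFinset_univ] at this
    rw [← this]
    simp [hp]
  let σ : (ι → Λ) × (ι → Λ) → (ι → Λ) × (ι → Λ) := fun z =>
    (fun i => if i ∈ Q z.1 then z.2 i else z.1 i, fun i => if i ∈ Q z.1 then z.1 i else z.2 i)
  have hQσ : ∀ z, Q (σ z).1 = Q z.1 := by
    intro z
    apply hQ
    intro i hi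
    simp [σ, hi]
  have hinv : Function.Involutive σ := by
    intro z
    have h := hQσ z
    ext i
    · change (if i ∈ Q (σ z).1 then (σ z).2 i else (σ z).1 i) = z.1 i
      rw [h]
      by_cases hi : i ∈ Q z.1 <;> simp [σ, hi]
    · change (if i ∈ Q (σ z).1 then (σ z).1 i else (σ z).2 i) = z.2 i
      rw [h]
      by_cases hi : i ∈ Q z.1 <;> simp [σ, hi]
  let G : (ι → Λ) × (ι → Λ) → ℝ := fun z => (∏ i, p i (z.1 i)) * (∏ i, p i (z.2 i)) * F z.1
  have h1 : ∑ z, G (σ z) = ∑ z, G z := Equiv.sum_comp hinv.toPerm G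
  have h2 : ∑ z, G z = ∑ ω : ι → Λ, (∏ i, p i (ω i)) * F ω := by
    rw [Fintype.sum_prod_type]
    refine Finset.sum_congr rfl fun ω _ => ?_
    simp only [G]
    have : ∀ ω' : ι → Λ, (∏ i, p i (ω i)) * (∏ i, p i (ω' i)) * F ω =
        ((∏ i, p i (ω i)) * F ω) * (∏ i, p i (ω' i)) := fun ω' => by ring
    simp only [this, ← Finset.mul_sum, hone, mul_one]
  rw [← h2, ← h1, Fintype.sum_prod_type]
  refine Finset.sum_congr rfl fun ω _ => ?_
  rw [Finset.mul_sum]
  refine Finset.sum_congr rfl fun ω' _ => ?_
  simp only [G, σ]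
  have : (∏ i, p i (if i ∈ Q ω then ω' i else ω i)) * (∏ i, p i (if i ∈ Q ω then ω i else ω' i)) =
      (∏ i, p i (ω i)) * (∏ i, p i (ω' i)) := by
    rw [← Finset.prod_mul_distrib, ← Finset.prod_mul_distrib]
    refine Finset.prod_congr rfl fun i _ => ?_
    by_cases hi : i ∈ Q ω <;> simp [hi, mul_comm]
  rw [this]
  ring

lemma sum_bw_mix (τ : ℝ) (Q : (ι → Bool) → Finset ι)
    (hQ : ∀ ω ω' : ι → Bool, (∀ i, i ∉ Q ω → ω' i = ω i) → Q ω' = Q ω)
    (F : (ι → Bool) → ℝ) :
    ∑ ω : ι → Bool, bw τ ω * F ω =
      ∑ ω : ι → Bool, bw τ ω * ∑ ω' : ι → Bool, bw τ ω' *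
        F (fun i => if i ∈ Q ω then ω' i else ω i) :=
  sum_mix (fun _ b => if b = true then τ else 1 - τ) (fun _ => by simp) Q hQ F

/-- resampling one coordinate -/
lemma sum_bw_update (τ : ℝ) (a : ι) (F : (ι → Bool) → ℝ) :
    ∑ ω : ι → Bool, bw τ ω * F ω =
      ∑ ω : ι → Bool, bw τ ω *
        (τ * F (Function.update ω a true) + (1 - τ) * F (Function.update ω a false)) := by
  let σ : (ι → Bool) → (ι → Bool) := fun ω => Function.update ω a (!(ω a))
  have hinv : Function.Involutive σ := by
    intro ω
    ext i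
    by_cases hi : i = a
    · subst hi; simp [σ]
    · simp [σ, Function.update_of_ne hi]
  let r : (ι → Bool) → ℝ := fun ω => ∏ i ∈ Finset.univ.erase a, (if ω i = true then τ else 1 - τ)
  have hbw : ∀ ω : ι → Bool, bw τ ω = (if ω a = true then τ else 1 - τ) * r ω := by
    intro ω
    unfold bw
    rw [← Finset.mul_prod_erase _ _ (Finset.mem_univ a)]
  have hr : ∀ ω, r (σ ω) = r ω := by
    intro ω
    refine Finset.prod_congr rfl fun i hi => ?_
    have : i ≠ a := (Finset.mem_erase.1 hi).1
    simp [σ, Function.update_of_ne this]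
  let G : (ι → Bool) → ℝ := fun ω => bw τ ω * F ω - bw τ ω *
        (τ * F (Function.update ω a true) + (1 - τ) * F (Function.update ω a false))
  have hG : ∀ ω, G (σ ω) = - G ω := by
    intro ω
    simp only [G, hbw, hr]
    have e1 : Function.update (σ ω) a true = Function.update ω a true := by simp [σ]
    have e2 : Function.update (σ ω) a false = Function.update ω a false := by simp [σ]
    rw [e1, e2]
    cases h : ω a
    · have e3 : σ ω = Function.update ω a true := by simp [σ, h]
      have e4 : Function.update ω a false = ω := by rw [← h]; simp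
      rw [e3, e4]
      simp
      ring
    · have e3 : σ ω = Function.update ω a false := by simp [σ, h]
      have e4 : Function.update ω a true = ω := by rw [← h]; simp
      rw [e3, e4]
      simp
      ring
  have h1 : ∑ ω, G (σ ω) = ∑ ω, G ω := Equiv.sum_comp hinv.toPerm G
  simp only [hG, Finset.sum_neg_distrib] at h1
  have h2 : ∑ ω, G ω = 0 := by linarith
  simp only [G, Finset.sum_sub_distrib] at h2
  linarith

open Classical in
/-- the mixed set: fresh elements count when `true` (T), old ones when `false` (C). -/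
noncomputable def mixSet (Q : Finset ι) (fresh : (ι → Bool) → ι → Prop) (ω : ι → Bool) : Finset ι :=
  Q.filter fun e => if fresh ω e then ω e = true else ω e = false

/-- the guard set: all `false` elements of the pool. -/
def guardSet (Q : Finset ι) (ω : ι → Bool) : Finset ι := Q.filter fun e => ω e = false

open Classical in
/-- LEMMA (*), static pool. -/
theorem star_static {κ : Type*} [LinearOrder κ] (key : ι → κ) {τ : ℝ} (h0 : 0 ≤ τ) (h1 : τ ≤ 1 / 2)
    (Q : Finset ι) (R : Finset ι → Prop) (hR : ∀ A B, A ⊆ B → R A → R B)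
    (fresh : (ι → Bool) → ι → Prop)
    (hf : ∀ (ω ω' : ι → Bool) (i : ι), (∀ j, key j < key i → ω' j = ω j) →
      (fresh ω' i ↔ fresh ω i)) :
    (1 - 2 * τ) * ∑ ω : ι → Bool, bw τ ω *
        (if R (mixSet Q fresh ω) ∧ ¬ R (guardSet Q ω) then 1 else 0) ≤
      τ * ∑ ω : ι → Bool, bw τ ω * (if R (mixSet Q fresh ω) then 0 else 1) := by
  let Φ : Finset ι → Finset ι → ℝ := fun X P =>
    (1 - 2 * τ) * (if R X ∧ ¬ R P then 1 else 0) - τ * (if R X then 0 else 1)
  let fr : Finset ι → (ι → Bool) → ι → Prop := fun s ω e => e ∈ s ∧ fresh ω e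
  have key1 : ∀ s : Finset ι,
      ∑ ω : ι → Bool, bw τ ω * Φ (mixSet Q (fr s) ω) (guardSet Q ω) ≤ 0 := by
    intro s
    induction s using Finset.induction_on_max_value key with
    | empty =>
      refine Finset.sum_nonpos fun ω _ => mul_nonpos_of_nonneg_of_nonpos
        (bw_nonneg h0 (by linarith) ω) ?_
      have : mixSet Q (fr ∅) ω = guardSet Q ω := by
        ext e; simp [mixSet, guardSet, fr]
      rw [this]
      simp only [Φ]
      by_cases h : R (guardSet Q ω) <;> simp [h, h0]
    | insert a s has hmax ih =>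
      refine le_trans ?_ ih
      rw [sum_bw_update τ a, sum_bw_update τ a
        (fun ω => Φ (mixSet Q (fr s) ω) (guardSet Q ω))]
      refine Finset.sum_le_sum fun ω _ => mul_le_mul_of_nonneg_left ?_
        (bw_nonneg h0 (by linarith) ω)
      have hfr : ∀ (b : Bool) (e : ι), key e ≤ key a →
          (fresh (Function.update ω a b) e ↔ fresh ω e) := by
        intro b e he
        apply hf
        intro j hj
        have : j ≠ a := by
          rintro rfl
          exact absurd he (not_le.2 hj)
        simp [Function.update_of_ne this]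
      by_cases hcase : a ∈ Q ∧ fresh ω a
      · obtain ⟨haQ, hfa⟩ := hcase
        set Y : Finset ι := (mixSet Q (fr s) ω).erase a with hY
        set P : Finset ι := (guardSet Q ω).erase a with hP
        have m1 : ∀ (b : Bool) (t : Finset ι), (∀ e ∈ t, key e ≤ key a) → (∀ e, e ≠ a → (e ∈ t ↔ e ∈ s)) →
            ∀ e, e ≠ a → (e ∈ mixSet Q (fr t) (Function.update ω a b) ↔ e ∈ Y) := by
          intro b t ht hts e he
          simp only [hY, mixSet, Finset.mem_erase, Finset.mem_filter, fr,
            Function.update_of_ne he]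
          by_cases hes : e ∈ s
          · have het : e ∈ t := (hts e he).2 hes
            have := hfr b e (ht e het)
            simp [hes, het, this, he]
          · have het : e ∉ t := fun h => hes ((hts e he).1 h)
            simp [hes, het, he]
        have hins : ∀ e ∈ insert a s, key e ≤ key a := by
          intro e he
          rcases Finset.mem_insert.1 he with rfl | he
          · exact le_rfl
          · exact hmax e he
        have hins2 : ∀ e, e ≠ a → (e ∈ insert a s ↔ e ∈ s) := by
          intro e he; simp [he]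
        have haY : a ∉ Y := by simp [hY]
        have haP : a ∉ P := by simp [hP]
        have x1 : mixSet Q (fr (insert a s)) (Function.update ω a true) = insert a Y := by
          ext e
          by_cases he : e = a
          · subst he
            simp [mixSet, fr, haQ, (hfr true e le_rfl).2 hfa]
          · rw [m1 true _ hins hins2 e he]; simp [he]
        have x2 : mixSet Q (fr (insert a s)) (Function.update ω a false) = Y := by
          ext e
          by_cases he : e = a
          · subst he
            simp [mixSet, fr, haQ, (hfr false e le_rfl).2 hfa, haY]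
          · rw [m1 false _ hins hins2 e he]
        have x3 : mixSet Q (fr s) (Function.update ω a true) = Y := by
          ext e
          by_cases he : e = a
          · subst he
            simp [mixSet, fr, has, haY]
          · rw [m1 true _ hmax (fun _ _ => Iff.rfl) e he]
        have x4 : mixSet Q (fr s) (Function.update ω a false) = insert a Y := by
          ext e
          by_cases he : e = a
          · subst he
            simp [mixSet, fr, has, haQ]
          · rw [m1 false _ hmax (fun _ _ => Iff.rfl) e he]; simp [he]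
        have g1 : guardSet Q (Function.update ω a true) = P := by
          ext e
          by_cases he : e = a
          · subst he; simp [guardSet, haP]
          · simp [guardSet, hP, he]
        have g2 : guardSet Q (Function.update ω a false) = insert a P := by
          ext e
          by_cases he : e = a
          · subst he; simp [guardSet, haQ]
          · simp [guardSet, hP, he]
        simp only [x1, x2, x3, x4, g1, g2, Φ]
        have mY := hR Y (insert a Y) (Finset.subset_insert _ _)
        have mP := hR P (insert a P) (Finset.subset_insert _ _)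
        have hq : 0 ≤ (1 - 2 * τ) * (1 - τ) := mul_nonneg (by linarith) (by linarith)
        by_cases a1 : R Y <;> by_cases a2 : R (insert a Y) <;> by_cases a3 : R P <;>
          by_cases a4 : R (insert a P) <;>
          first
            | exact absurd (mY a1) a2
            | exact absurd (mP a3) a4
            | (simp only [a1, a2, a3, a4, not_true_eq_false, not_false_eq_true, and_true,
                and_false, and_self, if_true, if_false]; nlinarith)
      · have x : ∀ b : Bool, mixSet Q (fr (insert a s)) (Function.update ω a b) =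
            mixSet Q (fr s) (Function.update ω a b) := by
          intro b
          ext e
          simp only [mixSet, Finset.mem_filter, fr]
          by_cases he : e = a
          · subst he
            by_cases hQ : e ∈ Q
            · have : ¬ fresh (Function.update ω e b) e := fun h =>
                hcase ⟨hQ, (hfr b e le_rfl).1 h⟩
              simp [this]
            · simp [hQ]
          · simp [he]
        simp only [x]
        exact le_rfl
  have h := key1 Finset.univ
  have e : mixSet Q (fr Finset.univ) = mixSet Q fresh := by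
    funext ω; ext e; simp [mixSet, fr]
  rw [e] at h
  simp only [Φ, mul_sub, Finset.sum_sub_distrib] at h
  rw [Finset.mul_sum, Finset.mul_sum]
  have e1 : ∀ ω : ι → Bool, ∀ u c : ℝ, bw τ ω * (c * u) = c * (bw τ ω * u) := fun _ _ _ => by ring
  simp only [e1] at h
  linarith

open Classical in
/-- LEMMA (*) with a label-blind (stopping) pool `Q ω`; the up-set `R ω` and the weight `g ω`
may depend on the labels outside the pool. -/
theorem star_stop {κ : Type*} [LinearOrder κ] (key : ι → κ) {τ : ℝ} (h0 : 0 ≤ τ) (h1 : τ ≤ 1 / 2)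
    (Q : (ι → Bool) → Finset ι) (R : (ι → Bool) → Finset ι → Prop) (g : (ι → Bool) → ℝ)
    (hg : ∀ ω, 0 ≤ g ω)
    (hQ : ∀ ω ω' : ι → Bool, (∀ i, i ∉ Q ω → ω' i = ω i) → Q ω' = Q ω ∧ R ω' = R ω ∧ g ω' = g ω)
    (hR : ∀ ω A B, A ⊆ B → R ω A → R ω B)
    (fresh : (ι → Bool) → ι → Prop)
    (hf : ∀ (ω ω' : ι → Bool) (i : ι), (∀ j, key j < key i → ω' j = ω j) →
      (fresh ω' i ↔ fresh ω i)) :
    (1 - 2 * τ) * ∑ ω : ι → Bool, bw τ ω * (g ω *
        (if R ω (mixSet (Q ω) fresh ω) ∧ ¬ R ω (guardSet (Q ω) ω) then 1 else 0)) ≤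
      τ * ∑ ω : ι → Bool, bw τ ω * (g ω * (if R ω (mixSet (Q ω) fresh ω) then 0 else 1)) := by
  rw [sum_bw_mix τ Q (fun ω ω' h => (hQ ω ω' h).1),
    sum_bw_mix τ Q (fun ω ω' h => (hQ ω ω' h).1)
      (fun ω => g ω * (if R ω (mixSet (Q ω) fresh ω) then 0 else 1)),
    Finset.mul_sum, Finset.mul_sum]
  refine Finset.sum_le_sum fun ω _ => ?_
  let mx : (ι → Bool) → (ι → Bool) := fun ω' i => if i ∈ Q ω then ω' i else ω i
  have hmx : ∀ ω', Q (mx ω') = Q ω ∧ R (mx ω') = R ω ∧ g (mx ω') = g ω := by
    intro ω'
    apply hQ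
    intro i hi
    simp [mx, hi]
  let fr : (ι → Bool) → ι → Prop := fun ω' i => fresh (mx ω') i
  have hs := star_static key h0 h1 (Q ω) (R ω) (hR ω) fr (by
    intro ω1 ω2 i h
    apply hf
    intro j hj
    simp [mx, h j hj])
  have e1 : ∀ ω', mixSet (Q ω) fresh (mx ω') = mixSet (Q ω) fr ω' := by
    intro ω'
    unfold mixSet
    refine Finset.filter_congr fun e he => ?_
    simp [mx, fr, he]
  have e2 : ∀ ω', guardSet (Q ω) (mx ω') = guardSet (Q ω) ω' := by
    intro ω'
    unfold guardSet
    refine Finset.filter_congr fun e he => ?_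
    simp [mx, he]
  have r1 : ∀ ω', (g (mx ω') * (if R (mx ω') (mixSet (Q (mx ω')) fresh (mx ω')) ∧
      ¬ R (mx ω') (guardSet (Q (mx ω')) (mx ω')) then (1:ℝ) else 0)) =
      g ω * (if R ω (mixSet (Q ω) fr ω') ∧ ¬ R ω (guardSet (Q ω) ω') then (1:ℝ) else 0) := by
    intro ω'
    obtain ⟨a, b, c⟩ := hmx ω'
    rw [a, b, c, e1, e2]
  have r2 : ∀ ω', (g (mx ω') * (if R (mx ω') (mixSet (Q (mx ω')) fresh (mx ω')) then (0:ℝ) else 1)) =
      g ω * (if R ω (mixSet (Q ω) fr ω') then (0:ℝ) else 1) := by
    intro ω'
    obtain ⟨a, b, c⟩ := hmx ω'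
    rw [a, b, c, e1]
  change (1 - 2 * τ) * (bw τ ω * ∑ ω', bw τ ω' * (g (mx ω') * (if R (mx ω') (mixSet (Q (mx ω')) fresh (mx ω')) ∧
      ¬ R (mx ω') (guardSet (Q (mx ω')) (mx ω')) then (1:ℝ) else 0))) ≤
      τ * (bw τ ω * ∑ ω', bw τ ω' * (g (mx ω') * (if R (mx ω') (mixSet (Q (mx ω')) fresh (mx ω')) then (0:ℝ) else 1)))
  simp only [r1, r2]
  have e3 : ∀ (u : (ι → Bool) → ℝ), ∑ ω', bw τ ω' * (g ω * u ω') = g ω * ∑ ω', bw τ ω' * u ω' := by
    intro u
    rw [Finset.mul_sum]
    exact Finset.sum_congr rfl fun _ _ => by ring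
  rw [e3, e3]
  have hw : 0 ≤ bw τ ω * g ω := mul_nonneg (bw_nonneg h0 (by linarith) ω) (hg ω)
  have := mul_le_mul_of_nonneg_left hs hw
  linarith

end Crest.Agent.R305.S76
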