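import Crest.Agent.R305.RGDefs55
import Crest.Agent.R305.Star76

set_option autoImplicit false

open Classical

namespace Crest.Agent.R305.S76

variable {k : ℕ}

/-- Boolean vectors as subsets -/
def toF (ω : Fin k → Bool) : Finset (Fin k) := Finset.univ.filter fun i => ω i = true

@[simp] lemma mem_toF (ω : Fin k → Bool) (i : Fin k) : i ∈ toF ω ↔ ω i = true := by
  simp [toF]

noncomputable def eqF : (Fin k → Bool) ≃ Finset (Fin k) where
  toFun := toF
  invFun := fun A i => decide (i ∈ A)
  left_inv := by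
    intro ω; funext i; simp
  right_inv := by
    intro A; ext i; simp

lemma Ex_eq (p : ℝ) (f : Finset (Fin k) → ℝ) :
    Ex p f = ∑ ω : Fin k → Bool, bw p ω * f (toF ω) := by
  unfold Ex
  rw [← Equiv.sum_comp eqF]
  refine Finset.sum_congr rfl fun ω _ => ?_
  congr 1
  unfold bern bw
  refine Finset.prod_congr rfl fun i _ => ?_
  simp [eqF]

lemma Ex_mono' {p : ℝ} (h0 : 0 ≤ p) (h1 : p ≤ 1) {f g : Finset (Fin k) → ℝ}
    (h : ∀ A, f A ≤ g A) : Ex p f ≤ Ex p g := by
  rw [Ex_eq, Ex_eq]
  exact Finset.sum_le_sum fun ω _ => mul_le_mul_of_nonneg_left (h _) (bw_nonneg h0 h1 ω)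

/-- LEMMA (*) with a stopping pool, subset form. -/
theorem star_stopF {κ : Type*} [LinearOrder κ] (key : Fin k → κ) {τ : ℝ} (h0 : 0 ≤ τ)
    (h1 : τ ≤ 1 / 2)
    (Q : Finset (Fin k) → Finset (Fin k)) (R : Finset (Fin k) → Finset (Fin k) → Prop)
    (g : Finset (Fin k) → ℝ) (hg : ∀ T, 0 ≤ g T)
    (hQ : ∀ T T' : Finset (Fin k), (∀ i, i ∉ Q T → (i ∈ T' ↔ i ∈ T)) →
      Q T' = Q T ∧ R T' = R T ∧ g T' = g T)
    (hR : ∀ T A B, A ⊆ B → R T A → R T B)
    (fresh : Finset (Fin k) → Fin k → Prop)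
    (hf : ∀ (T T' : Finset (Fin k)) (i : Fin k), (∀ j, key j < key i → (j ∈ T' ↔ j ∈ T)) →
      (fresh T' i ↔ fresh T i)) :
    (1 - 2 * τ) * Ex τ (fun T => g T *
        (if R T ((Q T).filter fun e => if fresh T e then e ∈ T else e ∉ T) ∧
          ¬ R T ((Q T).filter fun e => e ∉ T) then 1 else 0)) ≤
      τ * Ex τ (fun T => g T *
        (if R T ((Q T).filter fun e => if fresh T e then e ∈ T else e ∉ T) then 0 else 1)) := by
  have h := star_stop key h0 h1 (fun ω => Q (toF ω)) (fun ω => R (toF ω)) (fun ω => g (toF ω))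
    (fun ω => hg _) (fun ω ω' h => hQ _ _ (fun i hi => by simp [h i hi]))
    (fun ω => hR _) (fun ω i => fresh (toF ω) i)
    (fun ω ω' i h => hf _ _ i (fun j hj => by simp [h j hj]))
  have e1 : ∀ ω : Fin k → Bool, mixSet (Q (toF ω)) (fun ω i => fresh (toF ω) i) ω =
      (Q (toF ω)).filter fun e => if fresh (toF ω) e then e ∈ toF ω else e ∉ toF ω := by
    intro ω
    ext e
    simp [mixSet]
  have e2 : ∀ ω : Fin k → Bool, guardSet (Q (toF ω)) ω =
      (Q (toF ω)).filter fun e => e ∉ toF ω := by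
    intro ω
    ext e
    simp [guardSet]
  rw [Ex_eq, Ex_eq]
  simp only [e1, e2] at h
  convert h

/-- level `b - 2` closure through the rounds with contracted set `S` -/
def tau (M : Matroid (Fin k)) (L : ℕ) (U : ℕ → Finset (Fin k)) (D : Finset (Fin k)) (b : ℕ)
    (S : Finset (Fin k)) : ℕ → Set (Fin k)
  | 0 => S0 M L (b - 2)
  | i + 1 => if 3 * (L - i) ≤ b - 2 then
      M.closure (Exp M (D ∩ U (L - i)) (tau M L U D b S i) ∪ ((S ∩ U (L - i) : Finset (Fin k)) : Set (Fin k)))
    else tau M L U D b S i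

variable {M : Matroid (Fin k)}

lemma tau_E (L : ℕ) (U : ℕ → Finset (Fin k)) (D : Finset (Fin k)) (b : ℕ) (S : Finset (Fin k)) :
    ∀ i, tau M L U D b S i ⊆ M.E
  | 0 => by
    unfold tau S0
    split_ifs
    · exact M.closure_subset_ground _
    · exact subset_rfl
  | i + 1 => by
    unfold tau
    split_ifs
    · exact M.closure_subset_ground _
    · exact tau_E L U D b S i

lemma tau_mono (h2 : EXPF M) (L : ℕ) (U : ℕ → Finset (Fin k)) (D : Finset (Fin k)) (b : ℕ)
    {S S' : Finset (Fin k)} (h : S ⊆ S') : ∀ i, tau M L U D b S i ⊆ tau M L U D b S' i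
  | 0 => by unfold tau; exact subset_rfl
  | i + 1 => by
    unfold tau
    split_ifs
    · apply M.closure_subset_closure
      apply Set.union_subset_union
      · exact (h2 _ _ (tau_E L U D b S i)).2.2.2.1 _ (tau_mono h2 L U D b h i) (tau_E L U D b S' i)
      · exact Finset.coe_subset.2 (Finset.inter_subset_inter h subset_rfl)
    · exact tau_mono h2 L U D b h i

lemma exp_E (h2 : EXPF M) (D : Finset (Fin k)) {S : Set (Fin k)} (hS : S ⊆ M.E) :
    Exp M D S ⊆ M.E := (h2 D S hS).1.2.1

lemma sub_exp (h2 : EXPF M) (D : Finset (Fin k)) {S : Set (Fin k)} (hS : S ⊆ M.E) :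
    S ⊆ Exp M D S := (h2 D S hS).1.1

lemma sub_cl_union {X Y : Set (Fin k)} (hX : X ⊆ M.E) : X ⊆ M.closure (X ∪ Y) :=
  (M.subset_closure X hX).trans (M.closure_subset_closure Set.subset_union_left)

lemma tau_succ (h2 : EXPF M) (L : ℕ) (U : ℕ → Finset (Fin k)) (D : Finset (Fin k)) (b : ℕ)
    (S : Finset (Fin k)) (i : ℕ) : tau M L U D b S i ⊆ tau M L U D b S (i + 1) := by
  conv_rhs => unfold tau
  split_ifs
  · exact (sub_exp h2 _ (tau_E L U D b S i)).trans (sub_cl_union (exp_E h2 _ (tau_E L U D b S i)))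
  · exact subset_rfl

lemma tau_le (h2 : EXPF M) (L : ℕ) (U : ℕ → Finset (Fin k)) (D : Finset (Fin k)) (b : ℕ)
    (S : Finset (Fin k)) {i i' : ℕ} (h : i ≤ i') : tau M L U D b S i ⊆ tau M L U D b S i' := by
  induction i', h using Nat.le_induction with
  | base => exact subset_rfl
  | succ n _ ih => exact ih.trans (tau_succ h2 L U D b S n)

lemma St_E (h3 : CHAIN M) (L : ℕ) (U : ℕ → Finset (Fin k)) (D C : Finset (Fin k)) (i t : ℕ) :
    St M L U D C i t ⊆ M.E := by
  rw [← (h3 L U D C).1 i t]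
  exact M.closure_subset_ground _

/-- predictability: the path before round `m` reads only the guards of classes `> m` -/
lemma St_pred (L : ℕ) (U : ℕ → Finset (Fin k)) (D C C' : Finset (Fin k)) (m : ℕ)
    (h : ∀ m', m < m' → C ∩ U m' = C' ∩ U m') :
    ∀ i, i ≤ L - m → St M L U D C i = St M L U D C' i
  | 0, _ => rfl
  | i + 1, hi => by
    unfold St
    rw [St_pred L U D C C' m h i (by omega), h (L - i) (by omega)]

lemma pools_uniq {U : ℕ → Finset (Fin k)} (hP : Pools M U) {y : Fin k} {m m' : ℕ}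
    (h : y ∈ U m) (h' : y ∈ U m') : m = m' := by
  by_contra hne
  exact Finset.disjoint_left.1 (hP.2 m m' hne) h h'

lemma mem_pool {L : ℕ} {U : ℕ → Finset (Fin k)} {D T : Finset (Fin k)} {j b : ℕ} {y : Fin k} :
    y ∈ pool M L U D T j b ↔
      ∃ m, j + 1 ≤ m ∧ m ≤ L ∧ y ∈ U m ∧ y ∉ D ∧ y ∈ Nm M L U D T m b := by
  simp only [pool, Finset.mem_biUnion, Finset.mem_Icc, Finset.mem_filter, Finset.mem_sdiff]
  constructor
  · rintro ⟨m, ⟨a, b⟩, ⟨c, d⟩, e⟩
    exact ⟨m, a, b, c, d, e⟩
  · rintro ⟨m, a, b, c, d, e⟩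
    exact ⟨m, ⟨a, b⟩, ⟨c, d⟩, e⟩

/-- the freshness rule -/
def Fresh (M : Matroid (Fin k)) (L : ℕ) (U : ℕ → Finset (Fin k)) (D : Finset (Fin k)) (b : ℕ)
    (T : Finset (Fin k)) (y : Fin k) : Prop :=
  ∃ m, y ∈ U m ∧ y ∉ Nm M L U D T m (b - 1)

noncomputable def cls (U : ℕ → Finset (Fin k)) (y : Fin k) : ℕ :=
  if h : ∃ m, y ∈ U m then h.choose else 0

lemma cls_eq {U : ℕ → Finset (Fin k)} (hP : Pools M U) {y : Fin k} {m : ℕ} (h : y ∈ U m) :
    cls U y = m := by
  have hex : ∃ m, y ∈ U m := ⟨m, h⟩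
  unfold cls
  rw [dif_pos hex]
  exact pools_uniq hP hex.choose_spec h

lemma Nm_pred {L : ℕ} {U : ℕ → Finset (Fin k)} (hP : Pools M U) (D T T' : Finset (Fin k)) (m : ℕ)
    (h : ∀ z, m < cls U z → (z ∈ T' ↔ z ∈ T)) (t : ℕ) :
    Nm M L U D T' m t = Nm M L U D T m t := by
  unfold Nm
  rw [St_pred L U D (Cg D T') (Cg D T) m ?_ (L - m) le_rfl]
  intro m' hm'
  ext z
  simp only [Cg, Finset.mem_inter, Finset.mem_compl, Finset.mem_union]
  constructor
  · rintro ⟨a, c⟩
    have := h z (by rw [cls_eq hP c]; exact hm')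
    exact ⟨by rw [← this]; exact a, c⟩
  · rintro ⟨a, c⟩
    have := h z (by rw [cls_eq hP c]; exact hm')
    exact ⟨by rw [this]; exact a, c⟩

lemma St_sub_tau (h2 : EXPF M) (h3 : CHAIN M) (h4 : NCHAIN M) {L : ℕ} {U : ℕ → Finset (Fin k)}
    (hP : Pools M U) (D T : Finset (Fin k)) {j b : ℕ} (hb : 2 ≤ b) (X : Finset (Fin k))
    (hX : ∀ y, y ∈ pool M L U D T j b → ¬ Fresh M L U D b T y → y ∉ T → y ∈ X) :
    ∀ i, i ≤ L - j → St M L U D (Cg D T) i (b - 2) ⊆ tau M L U D b X i
  | 0, _ => by unfold St tau; exact subset_rfl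
  | i + 1, hi => by
    have ih := St_sub_tau h2 h3 h4 hP D T hb X hX i (by omega)
    unfold St tau Sstep
    split_ifs with hc
    · apply M.closure_subset_closure
      apply Set.union_subset_union
      · unfold Nstep
        rw [if_pos hc]
        exact (h2 _ _ (St_E h3 L U D _ i _)).2.2.2.1 _ ih (tau_E L U D b X i)
      · rintro y ⟨hy1, hy2⟩
        have hy1' : y ∈ Cg D T ∩ U (L - i) := hy1
        simp only [Cg, Finset.mem_inter, Finset.mem_compl, Finset.mem_union, not_or] at hy1'
        obtain ⟨⟨hD, hT⟩, hU⟩ := hy1'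
        have hN : y ∈ Nm M L U D T (L - i) (b - 1) := by
          unfold Nm
          have e1 : L - (L - i) = i := by omega
          have e2 : b - 1 = b - 2 + 1 := by omega
          rw [e1, e2]
          exact hy2
        have hN' : y ∈ Nm M L U D T (L - i) b :=
          (h4 L U D T (L - i) (by omega) (by omega)).2.1 _ _ (by omega) hN
        have : y ∈ X := by
          apply hX y (mem_pool.2 ⟨L - i, by omega, by omega, hU, hD, hN'⟩) _ hT
          rintro ⟨m, hm, hm'⟩
          rw [pools_uniq hP hm hU] at hm'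
          exact hm' hN
        exact Finset.mem_coe.2 (Finset.mem_inter.2 ⟨this, hU⟩)
    · exact ih

lemma tau_sub_St (h2 : EXPF M) (h3 : CHAIN M) {L : ℕ} {U : ℕ → Finset (Fin k)}
    (hP : Pools M U) (D T : Finset (Fin k)) {j b : ℕ} (hb : 2 ≤ b) (X : Finset (Fin k))
    (hX : ∀ y ∈ X, y ∈ pool M L U D T j b ∧ y ∉ T) :
    ∀ i, i ≤ L - j → tau M L U D b X i ⊆ St M L U D (Cg D T) i (b - 1)
  | 0, _ => by
    have := (h3 L U D (Cg D T)).2.1 0 (b - 2) (b - 1) (by omega)
    unfold tau
    exact this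
  | i + 1, hi => by
    have ih := tau_sub_St h2 h3 hP D T hb X hX i (by omega)
    unfold tau
    split_ifs with hc
    · unfold St Sstep
      have hc' : 3 * (L - i) ≤ b - 1 := by omega
      rw [if_pos hc']
      apply M.closure_subset_closure
      apply Set.union_subset_union
      · unfold Nstep
        rw [if_pos hc']
        exact (h2 _ _ (tau_E L U D b X i)).2.2.2.1 _ ih (St_E h3 L U D _ i _)
      · intro y hy
        obtain ⟨hyX, hU⟩ := Finset.mem_inter.1 (Finset.mem_coe.1 hy)
        obtain ⟨hp, hT⟩ := hX y hyX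
        obtain ⟨m, -, -, hm, hD, hN⟩ := mem_pool.1 hp
        rw [pools_uniq hP hm hU] at hN
        refine ⟨?_, ?_⟩
        · apply Finset.mem_coe.2
          simp [Cg, hD, hT, hU]
        · unfold Nm at hN
          have e1 : L - (L - i) = i := by omega
          have e2 : b - 1 + 1 = b := by omega
          rw [e1] at hN
          rw [e2]
          exact hN
    · exact ih.trans ((h3 L U D (Cg D T)).2.2.1 i (i + 1) _ (by omega))

theorem safe1_76 (h2 : EXPF M) (h3 : CHAIN M) (h4 : NCHAIN M) (h19 : LOCT M) : SAFE1 M := by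
  intro L U D j b e hP hj1 hjL hb
  have hb' : 3 * j + 2 ≤ b := (Finset.mem_Icc.1 hb).1
  have ht0 : (0 : ℝ) ≤ tt := by unfold tt; positivity
  have ht1 : tt ≤ 1 / 4 := by unfold tt; norm_num
  let R : Finset (Fin k) → Finset (Fin k) → Prop := fun T S =>
    e ∈ M.closure (Exp M (D ∩ U j) (tau M L U D b S (L - j)) ∪ ↑(X0 M L U D T j b e))
  let g : Finset (Fin k) → ℝ := fun T =>
    if e ∈ T ∧ e ∈ U j ∧ e ∈ Nm M L U D T j b then 1 else 0
  have hnp : ∀ (T : Finset (Fin k)) (y : Fin k), y ∈ U j → y ∉ pool M L U D T j b := by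
    intro T y hy hp
    obtain ⟨m, hm, -, hU, -⟩ := mem_pool.1 hp
    have := pools_uniq hP hy hU
    omega
  have key := star_stopF (fun y => OrderDual.toDual (cls U y)) ht0 (by linarith)
    (fun T => pool M L U D T j b) R g
    (fun T => by simp only [g]; split_ifs <;> norm_num)
    (by
      intro T T' h
      have hl := h19 L U D T T' j b hP hj1 hjL (fun y hy => (h y hy).symm)
      refine ⟨?_, ?_, ?_⟩
      · ext y
        simp only [mem_pool]
        refine exists_congr fun m => ?_
        constructor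
        · rintro ⟨a1, a2, a3, a4, a5⟩
          exact ⟨a1, a2, a3, a4, by rw [← hl m b (by omega) a2 le_rfl]; exact a5⟩
        · rintro ⟨a1, a2, a3, a4, a5⟩
          exact ⟨a1, a2, a3, a4, by rw [hl m b (by omega) a2 le_rfl]; exact a5⟩
      · have : X0 M L U D T' j b e = X0 M L U D T j b e := by
          ext y
          simp only [X0, Finset.mem_filter, Finset.mem_inter, Finset.mem_sdiff,
            hl j b le_rfl hjL le_rfl]
          by_cases hy : y ∈ U j
          · rw [h y (hnp T y hy)]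
          · simp [hy]
        simp only [R, this]
      · simp only [g, hl j b le_rfl hjL le_rfl]
        by_cases hy : e ∈ U j
        · simp only [h e (hnp T e hy)]
        · simp [hy])
    (by
      intro T A B hAB hA
      refine M.closure_subset_closure (Set.union_subset_union ?_ subset_rfl) hA
      exact (h2 _ _ (tau_E L U D b A _)).2.2.2.1 _ (tau_mono h2 L U D b hAB _) (tau_E L U D b B _))
    (Fresh M L U D b)
    (by
      intro T T' i h
      unfold Fresh
      refine exists_congr fun m => and_congr_right fun hm => ?_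
      rw [Nm_pred hP D T T' m ?_ (b - 1)]
      intro z hz
      apply h
      rw [OrderDual.toDual_lt_toDual, cls_eq hP hm]
      exact hz)
  have hNj : ∀ (T : Finset (Fin k)) (t : ℕ), 3 * j ≤ t →
      Nm M L U D T j t = Exp M (D ∩ U j) (St M L U D (Cg D T) (L - j) t) := by
    intro T t ht
    unfold Nm Nstep
    rw [if_pos ht]
  have hsub : ∀ T : Finset (Fin k), Nm M L U D T j (b - 2) ⊆ Exp M (D ∩ U j) (tau M L U D b
      ((pool M L U D T j b).filter fun y => if Fresh M L U D b T y then y ∈ T else y ∉ T) (L - j)) := by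
    intro T
    rw [hNj T _ (by omega)]
    refine (h2 _ _ (St_E h3 L U D _ _ _)).2.2.2.1 _ ?_ (tau_E L U D b _ _)
    refine St_sub_tau h2 h3 h4 hP D T (j := j) (by omega) _ ?_ _ le_rfl
    intro y hy hf hT
    simp [hy, hf, hT]
  have hA : Ex tt (fun T0 => if Harm M L U D T0 j b e then 1 else 0) ≤
      Ex tt (fun T => g T * (if R T ((pool M L U D T j b).filter fun y =>
        if Fresh M L U D b T y then y ∈ T else y ∉ T) ∧
          ¬ R T ((pool M L U D T j b).filter fun y => y ∉ T) then 1 else 0)) := by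
    refine Ex_mono' ht0 (by linarith) fun T => ?_
    by_cases hH : Harm M L U D T j b e
    · obtain ⟨a1, a2, a3, a4⟩ := id hH
      have a1' := Finset.mem_inter.1 a1
      have hg : g T = 1 := by
        simp only [g]
        rw [if_pos ⟨(Finset.mem_sdiff.1 a1'.1).1, a1'.2, a2⟩]
      rw [if_pos hH, hg, if_pos, mul_one]
      constructor
      · refine M.closure_subset_closure (Set.union_subset_union ?_ subset_rfl) a3
        refine Set.union_subset (hsub T) ?_
        intro y hy
        have hy' := Finset.mem_coe.1 hy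
        simp only [Thi, Tband, Finset.mem_biUnion, Finset.mem_filter, Finset.mem_Icc,
          Finset.mem_inter, Finset.mem_sdiff] at hy'
        obtain ⟨m, ⟨⟨m1, m2⟩, m3⟩, ⟨⟨hT, hD⟩, hU⟩, hN, hN'⟩ := hy'
        apply sub_exp h2 _ (tau_E L U D b _ _)
        apply tau_le h2 L U D b _ (show L - m + 1 ≤ L - j by omega)
        unfold tau
        have e1 : L - (L - m) = m := by omega
        rw [e1, if_pos (by omega)]
        apply M.mem_closure_of_mem' _ (hP.1 m hU)
        right
        apply Finset.mem_coe.2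
        refine Finset.mem_inter.2 ⟨?_, hU⟩
        have hf : Fresh M L U D b T y := ⟨m, hU, hN'⟩
        simp only [Finset.mem_filter, hf, if_true]
        exact ⟨mem_pool.2 ⟨m, m1, m2, hU, hD, hN⟩, hT⟩
      · intro hR
        apply a4
        refine M.closure_subset_closure (Set.union_subset_union ?_ subset_rfl) hR
        rw [hNj T _ (by omega)]
        refine (h2 _ _ (tau_E L U D b _ _)).2.2.2.1 _ ?_ (St_E h3 L U D _ _ _)
        refine tau_sub_St h2 h3 hP D T (j := j) (by omega) _ ?_ _ le_rfl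
        intro y hy
        exact Finset.mem_filter.1 hy
    · rw [if_neg hH]
      simp only [g]
      split_ifs <;> norm_num
  have hB : Ex tt (fun T => g T * (if R T ((pool M L U D T j b).filter fun y =>
        if Fresh M L U D b T y then y ∈ T else y ∉ T) then 0 else 1)) ≤
      Ex tt (fun T0 => if e ∈ T0 ∧ e ∈ U j ∧ e ∈ Nm M L U D T0 j b ∧
        e ∉ Nm M L U D T0 j (b - 2) then 1 else 0) := by
    refine Ex_mono' ht0 (by linarith) fun T => ?_
    by_cases hR : R T ((pool M L U D T j b).filter fun y =>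
        if Fresh M L U D b T y then y ∈ T else y ∉ T)
    · rw [if_pos hR, mul_zero]
      split_ifs <;> norm_num
    · rw [if_neg hR, mul_one]
      simp only [g]
      by_cases hc : e ∈ T ∧ e ∈ U j ∧ e ∈ Nm M L U D T j b
      · rw [if_pos hc, if_pos]
        refine ⟨hc.1, hc.2.1, hc.2.2, fun hN => hR ?_⟩
        exact sub_cl_union (exp_E h2 _ (tau_E L U D b _ _)) (hsub T hN)
      · rw [if_neg hc]
        split_ifs <;> norm_num
  have hpos : 0 < 1 - 2 * tt := by linarith
  rw [div_mul_eq_mul_div, le_div_iff₀ hpos]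
  have k1 := mul_le_mul_of_nonneg_left hA hpos.le
  have k2 := mul_le_mul_of_nonneg_left hB ht0
  have key' : (1 - 2 * tt) * Ex tt (fun T => g T * (if R T ((pool M L U D T j b).filter fun y =>
        if Fresh M L U D b T y then y ∈ T else y ∉ T) ∧
          ¬ R T ((pool M L U D T j b).filter fun y => y ∉ T) then 1 else 0)) ≤
      tt * Ex tt (fun T => g T * (if R T ((pool M L U D T j b).filter fun y =>
        if Fresh M L U D b T y then y ∈ T else y ∉ T) then 0 else 1)) := by
    convert key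
  linarith

end Crest.Agent.R305.S76
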