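import Crest.Agent.R305.RGDefs55
import Crest.Agent.R305.Star13

/-! Row 305, block B10 (`SAFE1`), helper99. -/

set_option autoImplicit false

open Classical

namespace Crest.Agent.R305.S99

variable {k : ℕ}

/-- subsets as label vectors -/
noncomputable def toF : (Fin k → Bool) ≃ Finset (Fin k) where
  toFun w := Finset.univ.filter (fun i => w i = true)
  invFun A := fun i => decide (i ∈ A)
  left_inv w := by funext i; simp
  right_inv A := by ext i; simp

lemma mem_toF (w : Fin k → Bool) (i : Fin k) : i ∈ toF w ↔ w i = true := by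
  simp [toF]

noncomputable def pb (p : ℝ) (b : Bool) : ℝ := if b = true then p else 1 - p

lemma Ex_eq (p : ℝ) (f : Finset (Fin k) → ℝ) :
    Ex p f = ∑ w : Fin k → Bool, S13.pw (pb p) w * f (toF w) := by
  unfold Ex
  rw [← Equiv.sum_comp toF]
  refine Finset.sum_congr rfl fun w _ => ?_
  congr 1
  unfold bern S13.pw pb
  refine Finset.prod_congr rfl fun i _ => ?_
  simp [mem_toF]

lemma bern_nonneg {p : ℝ} (h0 : 0 ≤ p) (h1 : p ≤ 1) (A : Finset (Fin k)) : 0 ≤ bern p A := by
  unfold bern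
  refine Finset.prod_nonneg fun i _ => ?_
  split_ifs <;> linarith

lemma Ex_mono {p : ℝ} (h0 : 0 ≤ p) (h1 : p ≤ 1) {f g : Finset (Fin k) → ℝ} (h : ∀ A, f A ≤ g A) :
    Ex p f ≤ Ex p g :=
  Finset.sum_le_sum fun A _ => mul_le_mul_of_nonneg_left (h A) (bern_nonneg h0 h1 A)

lemma agree_toF {w w' : Fin k → Bool} {i : Fin k} (h : w i = w' i) : i ∈ toF w ↔ i ∈ toF w' := by
  rw [mem_toF, mem_toF, h]

/-- Lemma (*) with a stopping set, subset form. -/
theorem starF (t : ℝ) (h0 : 0 ≤ t) (h1 : t < 1 / 2)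
    (Q : Finset (Fin k) → Finset (Fin k))
    (hQ : ∀ T T', (∀ y, y ∉ Q T → (y ∈ T ↔ y ∈ T')) → Q T' = Q T)
    (A : Finset (Fin k) → Finset (Fin k) → Prop)
    (hA : ∀ T T', (∀ y, y ∉ Q T → (y ∈ T ↔ y ∈ T')) → ∀ S, (A T' S ↔ A T S))
    (hmono : ∀ T S S', S ⊆ S' → A T S → A T S')
    (ord : Fin k → ℕ) (fresh : Finset (Fin k) → Fin k → Prop)
    (hf : ∀ T T' i, i ∈ Q T → (∀ j, (j ∉ Q T ∨ ord j < ord i) → (j ∈ T ↔ j ∈ T')) →
      (fresh T i ↔ fresh T' i)) :
    Ex t (fun T => if A T ((Q T).filter (fun y => (fresh T y ↔ y ∈ T))) ∧ ¬ A T (Q T \ T)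
      then 1 else 0) ≤
    t / (1 - 2 * t) * Ex t (fun T => if ¬ A T ((Q T).filter (fun y => (fresh T y ↔ y ∈ T)))
      then 1 else 0) := by
  have hp : ∀ l, 0 ≤ pb t l := fun l => by unfold pb; split_ifs <;> linarith
  have hp1 : ∑ l, pb t l = 1 := by simp [pb]
  have key := S13.star (ι := Fin k) (pb t) hp hp1 (fun b => b = false) (fun b => b = true)
    (fun w => Q (toF w)) (fun w w' h => hQ _ _ fun y hy => agree_toF (h y hy))
    (fun w S => A (toF w) S) (fun w w' h S => hA _ _ (fun y hy => agree_toF (h y hy)) S)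
    (fun w S S' h => hmono _ S S' h) ord (fun w i => fresh (toF w) i)
    (fun w w' i hi h => hf _ _ i hi fun j hj => agree_toF (h j hj))
    (fun w => (Q (toF w)).filter (fun y => (fresh (toF w) y ↔ y ∈ toF w)))
    (fun w => Q (toF w) \ toF w)
    (fun w i => by
      simp only [Finset.mem_filter, mem_toF]
      cases w i <;> simp)
    (fun w i => by
      simp only [Finset.mem_sdiff, mem_toF]
      cases w i <;> simp)
  have e1 : S13.pl (pb t) (fun b => b = false) = 1 - t := by simp [S13.pl, pb]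
  have e2 : S13.pl (pb t) (fun b => b = true) = t := by simp [S13.pl, pb]
  rw [e1, e2] at key
  rw [Ex_eq, Ex_eq]
  have hpos : 0 < 1 - 2 * t := by linarith
  rw [div_mul_eq_mul_div, le_div_iff₀ hpos]
  simp only [S13.ind] at key
  have e3 : (1 - t - t) = 1 - 2 * t := by ring
  rw [e3, mul_comm] at key
  refine le_trans (le_of_eq ?_) (key.trans (le_of_eq ?_))
  · congr 1
    refine Finset.sum_congr rfl fun w _ => ?_
    congr
  · congr 1
    refine Finset.sum_congr rfl fun w _ => ?_
    congr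

/-- level `u` closure through the rounds, with an arbitrary guard set -/
def tau (M : Matroid (Fin k)) (L : ℕ) (U : ℕ → Finset (Fin k)) (D : Finset (Fin k)) (u : ℕ)
    (S : Finset (Fin k)) : ℕ → Set (Fin k)
  | 0 => S0 M L u
  | i + 1 => if 3 * (L - i) ≤ u then
      M.closure (Exp M (D ∩ U (L - i)) (tau M L U D u S i) ∪ ↑(S ∩ U (L - i)))
    else tau M L U D u S i

variable {M : Matroid (Fin k)}

lemma S0_sub (L u : ℕ) : S0 M L u ⊆ M.E := by
  unfold S0; split_ifs
  · exact M.closure_subset_ground _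
  · exact subset_rfl

lemma tau_ground (L : ℕ) (U : ℕ → Finset (Fin k)) (D : Finset (Fin k)) (u : ℕ)
    (S : Finset (Fin k)) : ∀ i, tau M L U D u S i ⊆ M.E
  | 0 => S0_sub L u
  | i + 1 => by
    unfold tau; split_ifs
    · exact M.closure_subset_ground _
    · exact tau_ground L U D u S i

lemma tau_mono (hE : EXPF M) (L : ℕ) (U : ℕ → Finset (Fin k)) (D : Finset (Fin k)) (u : ℕ)
    {S S' : Finset (Fin k)} (h : S ⊆ S') : ∀ i, tau M L U D u S i ⊆ tau M L U D u S' i
  | 0 => subset_rfl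
  | i + 1 => by
    unfold tau; split_ifs
    · refine M.closure_subset_closure (Set.union_subset_union ?_ ?_)
      · exact (hE _ _ (tau_ground L U D u S i)).2.2.2.1 _ (tau_mono hE L U D u h i)
          (tau_ground L U D u S' i)
      · exact Finset.coe_subset.mpr (Finset.inter_subset_inter_right h)
    · exact tau_mono hE L U D u h i

lemma exp_ground (hE : EXPF M) (D : Finset (Fin k)) {S : Set (Fin k)} (h : S ⊆ M.E) :
    Exp M D S ⊆ M.E := (hE D S h).1.2.1

lemma sub_exp (hE : EXPF M) (D : Finset (Fin k)) {S : Set (Fin k)} (h : S ⊆ M.E) :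
    S ⊆ Exp M D S := (hE D S h).1.1

lemma tau_step (hE : EXPF M) {L : ℕ} {U : ℕ → Finset (Fin k)} (hP : Pools M U)
    (D : Finset (Fin k)) (u : ℕ) (S : Finset (Fin k)) (i : ℕ) :
    tau M L U D u S i ⊆ tau M L U D u S (i + 1) := by
  conv_rhs => unfold tau
  split_ifs
  · have hg := tau_ground (M := M) L U D u S i
    refine (sub_exp hE _ hg).trans (Set.subset_union_left.trans (M.subset_closure _ ?_))
    refine Set.union_subset (exp_ground hE _ hg) ?_
    exact (Finset.coe_subset.mpr Finset.inter_subset_right).trans (hP.1 _)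
  · exact subset_rfl

lemma tau_contains (hE : EXPF M) {L : ℕ} {U : ℕ → Finset (Fin k)} (hP : Pools M U)
    (D : Finset (Fin k)) (u : ℕ) (S : Finset (Fin k)) (m : ℕ) (hm : m ≤ L) (hu : 3 * m ≤ u) :
    ∀ i, L - m < i → ((S ∩ U m : Finset (Fin k)) : Set (Fin k)) ⊆ tau M L U D u S i := by
  intro i hi
  induction i with
  | zero => omega
  | succ i ih =>
    by_cases h : L - m < i
    · exact (ih h).trans (tau_step hE hP D u S i)
    · have hi' : L - i = m := by omega
      unfold tau
      rw [hi', if_pos hu]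
      refine Set.subset_union_right.trans (M.subset_closure _ ?_)
      refine Set.union_subset (exp_ground hE _ (tau_ground L U D u S i)) ?_
      exact (Finset.coe_subset.mpr Finset.inter_subset_right).trans (hP.1 _)

lemma St_ground (hC : CHAIN M) (L : ℕ) (U : ℕ → Finset (Fin k)) (D C : Finset (Fin k)) (i t : ℕ) :
    St M L U D C i t ⊆ M.E := by
  rw [← (hC L U D C).1 i t]; exact M.closure_subset_ground _

lemma Nstep_eq (L : ℕ) (U : ℕ → Finset (Fin k)) (D T0 : Finset (Fin k)) {i : ℕ} (hi : i ≤ L)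
    (t : ℕ) : Nstep M (D ∩ U (L - i)) (L - i) (St M L U D (Cg D T0) i) t
      = Nm M L U D T0 (L - i) t := by
  unfold Nm
  rw [show L - (L - i) = i by omega]

/-- the real path at level `u` lies below `tau S` when `S` holds the old guards -/
lemma St_sub_tau (hE : EXPF M) (hC : CHAIN M) {L : ℕ} {U : ℕ → Finset (Fin k)}
    (D T0 : Finset (Fin k)) (u j : ℕ) (S : Finset (Fin k))
    (hS : ∀ m, j < m → m ≤ L → ∀ y, y ∈ Cg D T0 → y ∈ U m → y ∈ Nm M L U D T0 m (u + 1) → y ∈ S) :
    ∀ i, i ≤ L - j → St M L U D (Cg D T0) i u ⊆ tau M L U D u S i := by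
  intro i
  induction i with
  | zero => intro _; exact subset_rfl
  | succ i ih =>
    intro hi
    have ih' := ih (by omega)
    unfold St tau Sstep
    split_ifs with h
    · refine M.closure_subset_closure (Set.union_subset_union ?_ ?_)
      · unfold Nstep
        rw [if_pos h]
        exact (hE _ _ (St_ground hC L U D _ i u)).2.2.2.1 _ ih' (tau_ground L U D u S i)
      · rw [Nstep_eq L U D T0 (by omega)]
        rintro y ⟨hy1, hy2⟩
        have hy1' := Finset.mem_inter.mp (Finset.mem_coe.mp hy1)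
        exact Finset.mem_coe.mpr (Finset.mem_inter.mpr
          ⟨hS (L - i) (by omega) (by omega) y hy1'.1 hy1'.2 hy2, hy1'.2⟩)
    · exact ih'

/-- with all pooled guards, `tau` stays below the real path one step later -/
lemma tau_sub_St (hE : EXPF M) (hC : CHAIN M) {L : ℕ} {U : ℕ → Finset (Fin k)}
    (D T0 : Finset (Fin k)) (u j : ℕ) (S : Finset (Fin k))
    (hS : ∀ m, j < m → m ≤ L → ∀ y, y ∈ S → y ∈ U m →
      y ∈ Cg D T0 ∧ y ∈ Nm M L U D T0 m (u + 2)) :
    ∀ i, i ≤ L - j → tau M L U D u S i ⊆ St M L U D (Cg D T0) i (u + 1) := by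
  intro i
  induction i with
  | zero => intro _; exact (hC L U D (Cg D T0)).2.1 0 u (u + 1) (by omega)
  | succ i ih =>
    intro hi
    have ih' := ih (by omega)
    unfold tau
    split_ifs with h
    · unfold St Sstep
      rw [if_pos (by omega : 3 * (L - i) ≤ u + 1)]
      refine M.closure_subset_closure (Set.union_subset_union ?_ ?_)
      · unfold Nstep
        rw [if_pos (by omega : 3 * (L - i) ≤ u + 1)]
        exact (hE _ _ (tau_ground L U D u S i)).2.2.2.1 _ ih' (St_ground hC L U D _ i _)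
      · rw [Nstep_eq L U D T0 (by omega)]
        intro y hy
        have hy' := Finset.mem_inter.mp (Finset.mem_coe.mp hy)
        have := hS (L - i) (by omega) (by omega) y hy'.1 hy'.2
        exact ⟨Finset.mem_coe.mpr (Finset.mem_inter.mpr ⟨this.1, hy'.2⟩), this.2⟩
    · exact ih'.trans ((hC L U D (Cg D T0)).2.2.1 i (i + 1) _ (by omega))

/-- predictability: level `u` of the path only sees the labels of the classes already processed -/
lemma St_congr {L : ℕ} {U : ℕ → Finset (Fin k)} (D T0 T0' : Finset (Fin k)) (u m0 : ℕ)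
    (h1 : ∀ m, m0 < m → m ≤ L → ∀ y, y ∈ U m → (y ∈ T0 ↔ y ∈ T0'))
    (h2 : ∀ m, m0 < m → m ≤ L → Nm M L U D T0' m (u + 1) = Nm M L U D T0 m (u + 1)) :
    ∀ i, i ≤ L - m0 → St M L U D (Cg D T0') i u = St M L U D (Cg D T0) i u := by
  intro i
  induction i with
  | zero => intro _; rfl
  | succ i ih =>
    intro hi
    have ih' := ih (by omega)
    unfold St Sstep
    split_ifs with h
    · rw [Nstep_eq L U D T0 (by omega) (u + 1), Nstep_eq L U D T0' (by omega) (u + 1),
        h2 (L - i) (by omega) (by omega)]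
      have e1 : Cg D T0' ∩ U (L - i) = Cg D T0 ∩ U (L - i) := by
        ext y
        simp only [Cg, Finset.mem_inter, Finset.mem_compl, Finset.mem_union]
        constructor
        · rintro ⟨a, b⟩
          exact ⟨by rw [h1 (L - i) (by omega) (by omega) y b]; exact a, b⟩
        · rintro ⟨a, b⟩
          exact ⟨by rw [← h1 (L - i) (by omega) (by omega) y b]; exact a, b⟩
      rw [e1]
      unfold Nstep
      rw [ih']
    · exact ih'

noncomputable def ordU (L : ℕ) (U : ℕ → Finset (Fin k)) (y : Fin k) : ℕ :=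
  if h : ∃ m, y ∈ U m then L - h.choose else 0

lemma cls_unique {U : ℕ → Finset (Fin k)} (hP : Pools M U) {y : Fin k} {m m' : ℕ}
    (h : y ∈ U m) (h' : y ∈ U m') : m = m' := by
  by_contra hne
  exact Finset.disjoint_left.mp (hP.2 m m' hne) h h'

lemma ordU_eq {U : ℕ → Finset (Fin k)} (hP : Pools M U) (L : ℕ) {y : Fin k} {m : ℕ}
    (h : y ∈ U m) : ordU L U y = L - m := by
  unfold ordU
  have hex : ∃ m, y ∈ U m := ⟨m, h⟩
  rw [dif_pos hex, cls_unique hP hex.choose_spec h]

lemma mem_pool {L : ℕ} {U : ℕ → Finset (Fin k)} {D T0 : Finset (Fin k)} {j b : ℕ} {y : Fin k} :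
    y ∈ pool M L U D T0 j b ↔
      ∃ m, j < m ∧ m ≤ L ∧ y ∈ U m ∧ y ∉ D ∧ y ∈ Nm M L U D T0 m b := by
  unfold pool
  simp only [Finset.mem_biUnion, Finset.mem_Icc, Finset.mem_filter, Finset.mem_sdiff]
  constructor
  · rintro ⟨m, ⟨a, b⟩, ⟨c, d⟩, e⟩; exact ⟨m, a, b, c, d, e⟩
  · rintro ⟨m, a, b, c, d, e⟩; exact ⟨m, ⟨a, b⟩, ⟨c, d⟩, e⟩

theorem safe1 (hE : EXPF M) (hC : CHAIN M) (hN : NCHAIN M) (hL : LOCT M) : SAFE1 M := by
  intro L U D j b e hP hj1 hjL hb
  have hb' : 3 * j + 2 ≤ b := (Finset.mem_Icc.mp hb).1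
  obtain ⟨u, rfl⟩ : ∃ u, b = u + 2 := ⟨b - 2, by omega⟩
  have hu : 3 * j ≤ u := by omega
  have ht0 : (0 : ℝ) ≤ tt := by unfold tt; positivity
  have ht1 : tt < 1 / 2 := by unfold tt; norm_num
  have hnot : ∀ T0 y, y ∈ U j → y ∉ pool M L U D T0 j (u + 2) := by
    intro T0 y hy hp
    obtain ⟨m, a, _, c, _⟩ := mem_pool.mp hp
    have := cls_unique hP hy c
    omega
  let G : Finset (Fin k) → Prop := fun T0 => e ∈ (T0 \ D) ∩ U j ∧ e ∈ Nm M L U D T0 j (u + 2)
  let A : Finset (Fin k) → Finset (Fin k) → Prop := fun T0 S => G T0 →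
    e ∈ M.closure (Exp M (D ∩ U j) (tau M L U D u S (L - j)) ∪ ↑(X0 M L U D T0 j (u + 2) e))
  let fresh : Finset (Fin k) → Fin k → Prop := fun T0 y =>
    ∃ m, j < m ∧ m ≤ L ∧ y ∈ U m ∧ y ∉ Nm M L U D T0 m (u + 1)
  have key := starF tt ht0 ht1 (fun T0 => pool M L U D T0 j (u + 2))
    (by
      intro T T' h
      ext y
      rw [mem_pool, mem_pool]
      constructor
      · rintro ⟨m, a, b, c, d, f⟩
        exact ⟨m, a, b, c, d, by rwa [hL L U D T T' j (u + 2) hP hj1 hjL h m _ a.le b le_rfl] at f⟩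
      · rintro ⟨m, a, b, c, d, f⟩
        exact ⟨m, a, b, c, d, by rwa [hL L U D T T' j (u + 2) hP hj1 hjL h m _ a.le b le_rfl]⟩)
    A
    (by
      intro T T' h S
      have hNj := hL L U D T T' j (u + 2) hP hj1 hjL h j _ le_rfl hjL le_rfl
      have hTU : (T' \ D) ∩ U j = (T \ D) ∩ U j := by
        ext y
        simp only [Finset.mem_inter, Finset.mem_sdiff]
        constructor
        · rintro ⟨⟨a, b⟩, c⟩; exact ⟨⟨(h y (hnot T y c)).mpr a, b⟩, c⟩
        · rintro ⟨⟨a, b⟩, c⟩; exact ⟨⟨(h y (hnot T y c)).mp a, b⟩, c⟩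
      simp only [A, G, X0, hNj, hTU])
    (by
      intro T S S' h hA hG
      refine M.closure_subset_closure (Set.union_subset_union_left _ ?_) (hA hG)
      exact (hE _ _ (tau_ground L U D u S _)).2.2.2.1 _ (tau_mono hE L U D u h _)
        (tau_ground L U D u S' _))
    (ordU L U) fresh
    (by
      intro T T' i hi h
      obtain ⟨m, a, b, c, _, _⟩ := mem_pool.mp hi
      have hoff : ∀ y, y ∉ pool M L U D T j (u + 2) → (y ∈ T ↔ y ∈ T') :=
        fun y hy => h y (Or.inl hy)
      have hSt := St_congr (M := M) (L := L) (U := U) D T T' (u + 1) m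
        (fun m' a' b' y hy => h y (Or.inr (by rw [ordU_eq hP L hy, ordU_eq hP L c]; omega)))
        (fun m' a' b' => hL L U D T T' j (u + 2) hP hj1 hjL hoff m' _ (by omega) b' le_rfl)
        (L - m) le_rfl
      have hNm : Nm M L U D T' m (u + 1) = Nm M L U D T m (u + 1) := by
        unfold Nm Nstep
        rw [hSt]
      constructor
      · rintro ⟨m', a', b', c', d'⟩
        obtain rfl := cls_unique hP c c'
        exact ⟨m, a', b', c', by rwa [hNm]⟩
      · rintro ⟨m', a', b', c', d'⟩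
        obtain rfl := cls_unique hP c c'
        exact ⟨m, a', b', c', by rwa [hNm] at d'⟩)
  have hNj : ∀ T0 t, 3 * j ≤ t → Nm M L U D T0 j t =
      Exp M (D ∩ U j) (St M L U D (Cg D T0) (L - j) t) := by
    intro T0 t ht
    unfold Nm Nstep
    rw [if_pos ht]
  -- the real level `u` set lies below the hybrid one
  have hlow : ∀ T0, Nm M L U D T0 j u ⊆ Exp M (D ∩ U j) (tau M L U D u
      ((pool M L U D T0 j (u + 2)).filter (fun y => (fresh T0 y ↔ y ∈ T0))) (L - j)) := by
    intro T0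
    rw [hNj T0 u hu]
    refine (hE _ _ (St_ground hC L U D _ _ _)).2.2.2.1 _ ?_ (tau_ground L U D u _ _)
    refine St_sub_tau hE hC D T0 u j _ ?_ _ le_rfl
    intro m a b y hy1 hy2 hy3
    have hy1' : y ∉ D ∧ y ∉ T0 := by
      simpa [Cg, not_or] using hy1
    refine Finset.mem_filter.mpr ⟨mem_pool.mpr ⟨m, a, b, hy2, hy1'.1, ?_⟩, ?_⟩
    · exact (hN L U D T0 m (by omega) b).2.1 _ _ (by omega) hy3
    · constructor
      · rintro ⟨m', _, _, c', d'⟩
        obtain rfl := cls_unique hP hy2 c'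
        exact absurd hy3 d'
      · intro h; exact absurd h hy1'.2
  refine le_trans (Ex_mono ht0 (by linarith) ?_) (key.trans ?_)
  · intro T0
    by_cases hH : Harm M L U D T0 j (u + 2) e
    · rw [if_pos hH, if_pos]
      obtain ⟨h1, h2, h3, h4⟩ := hH
      refine ⟨fun _ => ?_, fun hA => h4 ?_⟩
      · refine M.closure_subset_closure (Set.union_subset_union_left _ ?_) h3
        refine Set.union_subset (hlow T0) ?_
        intro y hy
        have hy' := Finset.mem_coe.mp hy
        unfold Thi at hy'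
        obtain ⟨m, hm, hym⟩ := Finset.mem_biUnion.mp hy'
        have hm' := Finset.mem_filter.mp hm
        have hm1 := Finset.mem_Icc.mp hm'.1
        unfold Tband at hym
        obtain ⟨hy1, hy2, hy3⟩ := Finset.mem_filter.mp hym
        have hy4 := Finset.mem_inter.mp hy1
        have hy5 := Finset.mem_sdiff.mp hy4.1
        refine sub_exp hE _ (tau_ground L U D u _ _) ?_
        refine tau_contains hE hP D u _ m hm1.2 (by omega) (L - j) (by omega) ?_
        refine Finset.mem_coe.mpr (Finset.mem_inter.mpr ⟨Finset.mem_filter.mpr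
          ⟨mem_pool.mpr ⟨m, hm1.1, hm1.2, hy4.2, hy5.2, hy2⟩, ?_⟩, hy4.2⟩)
        exact ⟨fun _ => hy5.1, fun _ => ⟨m, hm1.1, hm1.2, hy4.2, hy3⟩⟩
      · refine M.closure_subset_closure (Set.union_subset_union_left _ ?_) (hA ⟨h1, h2⟩)
        show _ ⊆ Nm M L U D T0 j (u + 1)
        rw [hNj T0 (u + 1) (by omega)]
        refine (hE _ _ (tau_ground L U D u _ _)).2.2.2.1 _ ?_ (St_ground hC L U D _ _ _)
        refine tau_sub_St hE hC D T0 u j _ ?_ _ le_rfl
        intro m a b y hy1 hy2
        have hy1' := Finset.mem_sdiff.mp hy1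
        obtain ⟨m', _, _, c', d', e'⟩ := mem_pool.mp hy1'.1
        obtain rfl := cls_unique hP hy2 c'
        refine ⟨?_, e'⟩
        simp [Cg, d', hy1'.2]
    · rw [if_neg hH]; split_ifs <;> norm_num
  · refine mul_le_mul_of_nonneg_left (Ex_mono ht0 (by linarith) ?_)
      (div_nonneg ht0 (by linarith))
    intro T0
    by_cases hA : A T0 ((pool M L U D T0 j (u + 2)).filter (fun y => (fresh T0 y ↔ y ∈ T0)))
    · rw [if_neg (not_not.mpr hA)]; split_ifs <;> norm_num
    · rw [if_pos hA, if_pos]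
      have hG : G T0 := by
        by_contra hG; exact hA fun h => absurd h hG
      have h1 := Finset.mem_inter.mp hG.1
      refine ⟨(Finset.mem_sdiff.mp h1.1).1, h1.2, hG.2, fun hmem => hA fun _ => ?_⟩
      refine M.mem_closure_of_mem' (Or.inl (hlow T0 hmem)) (hP.1 j h1.2)

end Crest.Agent.R305.S99
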