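import Crest.Agent.R305.Hyb57

set_option autoImplicit false

open Finset
open Classical

namespace Crest.Agent.R305.H57

variable {k : ℕ} {M : Matroid (Fin k)}

lemma St_ground (h3 : CHAIN M) (L : ℕ) (U : ℕ → Finset (Fin k)) (D C : Finset (Fin k)) (i t : ℕ) :
    St M L U D C i t ⊆ M.E := by
  rw [← (h3 L U D C).1 i t]; exact M.closure_subset_ground _

lemma Nm_eq (L : ℕ) (U : ℕ → Finset (Fin k)) (D T : Finset (Fin k)) (i t : ℕ) (hi : i ≤ L) :
    Nm M L U D T (L - i) t = Nstep M (D ∩ U (L - i)) (L - i) (St M L U D (Cg D T) i) t := by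
  unfold Nm
  rw [show L - (L - i) = i by omega]

lemma mem_Cg (D T : Finset (Fin k)) (y : Fin k) : y ∈ Cg D T ↔ y ∉ D ∧ y ∉ T := by
  unfold Cg; simp

lemma cls_eq {U : ℕ → Finset (Fin k)} (hP : Pools M U) {y : Fin k} {m m' : ℕ} (h : y ∈ U m)
    (h' : y ∈ U m') : m = m' := by
  by_contra hne
  exact Finset.disjoint_left.1 (hP.2 m m' hne) h h'

lemma mem_pool (L : ℕ) (U : ℕ → Finset (Fin k)) (D T : Finset (Fin k)) (j b : ℕ) (y : Fin k) :
    y ∈ pool M L U D T j b ↔ ∃ m, j + 1 ≤ m ∧ m ≤ L ∧ y ∈ U m ∧ y ∉ D ∧ y ∈ Nm M L U D T m b := by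
  unfold pool
  simp only [mem_biUnion, mem_Icc, mem_filter, mem_sdiff]
  constructor
  · rintro ⟨m, ⟨h1, h2⟩, ⟨h3, h4⟩, h5⟩; exact ⟨m, h1, h2, h3, h4, h5⟩
  · rintro ⟨m, h1, h2, h3, h4, h5⟩; exact ⟨m, ⟨h1, h2⟩, ⟨h3, h4⟩, h5⟩

lemma loct_St (h4 : NCHAIN M) (L : ℕ) (U : ℕ → Finset (Fin k)) (hP : Pools M U)
    (D T T' : Finset (Fin k))
    (j b : ℕ) (h : ∀ y, y ∉ pool M L U D T j b → (y ∈ T ↔ y ∈ T')) :
    ∀ i, i ≤ L - j → ∀ t, b ≤ t → St M L U D (Cg D T') i t = St M L U D (Cg D T) i t := by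
  intro i
  induction i with
  | zero => intro _ t _; rfl
  | succ i ih =>
    intro hi t ht
    have ih' := ih (by omega)
    have hN : ∀ t, b ≤ t → Nstep M (D ∩ U (L - i)) (L - i) (St M L U D (Cg D T') i) t =
        Nstep M (D ∩ U (L - i)) (L - i) (St M L U D (Cg D T) i) t := by
      intro t ht; unfold Nstep; rw [ih' t ht]
    show Sstep M _ _ _ _ t = Sstep M _ _ _ _ t
    unfold Sstep
    rw [hN t ht, hN (t + 1) (by omega), ih' t ht]
    split_ifs with h3
    · congr 1
      rw [← Nm_eq L U D T i t (by omega), ← Nm_eq L U D T i (t + 1) (by omega)]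
      have hmono := (h4 L U D T (L - i) (by omega) (by omega)).2.1 b t ht
      ext y
      simp only [Set.mem_union, Set.mem_inter_iff, Finset.mem_coe, Finset.mem_inter, mem_Cg]
      by_cases hy : y ∈ pool M L U D T j b
      · by_cases hy2 : y ∈ Nm M L U D T (L - i) t
        · simp [hy2]
        · obtain ⟨m, -, -, hm, -, hm2⟩ := (mem_pool L U D T j b y).1 hy
          have : y ∉ U (L - i) := by
            intro hy3
            have := cls_eq hP hm hy3
            subst this
            exact hy2 (hmono hm2)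
          simp [this]
      · rw [h y hy]
    · rfl

theorem loct57 (h4 : NCHAIN M) : LOCT M := by
  intro L U D T T' j b hP _ _ h m t hjm hmL ht
  unfold Nm Nstep
  rw [loct_St h4 L U hP D T T' j b h (L - m) (by omega) t ht]

/-- class locality -/
lemma locc_St (L : ℕ) (U : ℕ → Finset (Fin k)) (D T T' : Finset (Fin k)) (m : ℕ)
    (h : ∀ m' y, m < m' → y ∈ U m' → (y ∈ T ↔ y ∈ T')) :
    ∀ i, i ≤ L - m → St M L U D (Cg D T') i = St M L U D (Cg D T) i := by
  intro i
  induction i with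
  | zero => intro _; rfl
  | succ i ih =>
    intro hi
    have ih' := ih (by omega)
    show Sstep M _ _ _ _ = Sstep M _ _ _ _
    have : Cg D T' ∩ U (L - i) = Cg D T ∩ U (L - i) := by
      ext y
      simp only [Finset.mem_inter, mem_Cg]
      by_cases hy : y ∈ U (L - i)
      · rw [h (L - i) y (by omega) hy]
      · simp [hy]
    rw [ih', this]

lemma locc (L : ℕ) (U : ℕ → Finset (Fin k)) (D T T' : Finset (Fin k)) (m t : ℕ)
    (h : ∀ m' y, m < m' → y ∈ U m' → (y ∈ T ↔ y ∈ T')) :
    Nm M L U D T' m t = Nm M L U D T m t := by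
  unfold Nm
  rw [locc_St L U D T T' m h (L - m) le_rfl]

/-- level-`t` closure of a set `S` through the first `i` rounds -/
def tauS (M : Matroid (Fin k)) (L : ℕ) (U : ℕ → Finset (Fin k)) (D S : Finset (Fin k)) (t : ℕ) :
    ℕ → Set (Fin k)
  | 0 => S0 M L t
  | i + 1 => if 3 * (L - i) ≤ t then
      M.closure (Exp M (D ∩ U (L - i)) (tauS M L U D S t i) ∪ ↑(S ∩ U (L - i)))
    else tauS M L U D S t i

lemma S0_ground (L t : ℕ) : S0 M L t ⊆ M.E := by
  unfold S0; split_ifs
  · exact M.closure_subset_ground _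
  · exact le_rfl

lemma tauS_ground (L : ℕ) (U : ℕ → Finset (Fin k)) (D S : Finset (Fin k)) (t i : ℕ) :
    tauS M L U D S t i ⊆ M.E := by
  induction i with
  | zero => exact S0_ground L t
  | succ i ih =>
    unfold tauS; split_ifs
    · exact M.closure_subset_ground _
    · exact ih

lemma Exp_mono (h2 : EXPF M) (D : Finset (Fin k)) {S S' : Set (Fin k)} (h : S ⊆ S')
    (h' : S' ⊆ M.E) : Exp M D S ⊆ Exp M D S' :=
  (h2 D S (h.trans h')).2.2.2.1 S' h h'

lemma sub_Exp (h2 : EXPF M) (D : Finset (Fin k)) {S : Set (Fin k)} (h : S ⊆ M.E) :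
    S ⊆ Exp M D S := (h2 D S h).1.1

lemma Exp_ground (h2 : EXPF M) (D : Finset (Fin k)) {S : Set (Fin k)} (h : S ⊆ M.E) :
    Exp M D S ⊆ M.E := (h2 D S h).1.2.1

lemma tauS_mono (h2 : EXPF M) (L : ℕ) (U : ℕ → Finset (Fin k)) (D : Finset (Fin k))
    {S S' : Finset (Fin k)} (h : S ⊆ S') (t i : ℕ) :
    tauS M L U D S t i ⊆ tauS M L U D S' t i := by
  induction i with
  | zero => exact le_rfl
  | succ i ih =>
    unfold tauS; split_ifs
    · refine M.closure_subset_closure (Set.union_subset_union ?_ ?_)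
      · exact Exp_mono h2 _ ih (tauS_ground L U D S' t i)
      · exact Finset.coe_subset.2 (Finset.inter_subset_inter_right h)
    · exact ih

lemma sub_cl_left {X Y : Set (Fin k)} (h : X ⊆ M.E) : X ⊆ M.closure (X ∪ Y) :=
  (M.subset_closure X h).trans (M.closure_subset_closure Set.subset_union_left)

lemma sub_cl_right {X Y : Set (Fin k)} (h : Y ⊆ M.E) : Y ⊆ M.closure (X ∪ Y) :=
  (M.subset_closure Y h).trans (M.closure_subset_closure Set.subset_union_right)

lemma tauS_succ (h2 : EXPF M) (L : ℕ) (U : ℕ → Finset (Fin k)) (D S : Finset (Fin k)) (t i : ℕ) :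
    tauS M L U D S t i ⊆ tauS M L U D S t (i + 1) := by
  conv_rhs => unfold tauS
  split_ifs
  · exact (sub_Exp h2 _ (tauS_ground L U D S t i)).trans
      (sub_cl_left (Exp_ground h2 _ (tauS_ground L U D S t i)))
  · exact le_rfl

lemma tauS_le (h2 : EXPF M) (L : ℕ) (U : ℕ → Finset (Fin k)) (D S : Finset (Fin k)) (t : ℕ)
    {i i' : ℕ} (h : i ≤ i') : tauS M L U D S t i ⊆ tauS M L U D S t i' := by
  induction h with
  | refl => exact le_rfl
  | step _ ih => exact ih.trans (tauS_succ h2 L U D S t _)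

lemma mem_tauS (L : ℕ) (U : ℕ → Finset (Fin k)) (hP : Pools M U) (D S : Finset (Fin k)) (t i : ℕ)
    (h : 3 * (L - i) ≤ t) {y : Fin k} (hy : y ∈ S) (hy' : y ∈ U (L - i)) :
    y ∈ tauS M L U D S t (i + 1) := by
  unfold tauS
  rw [if_pos h]
  refine sub_cl_right ?_ (Finset.mem_coe.2 (Finset.mem_inter.2 ⟨hy, hy'⟩))
  exact (Finset.coe_subset.2 Finset.inter_subset_right).trans (hP.1 _)

/-- the true path at time `t` is below `tauS S` if `S` contains the guards contracted at `t` -/
lemma St_le_tauS (h2 : EXPF M) (L : ℕ) (U : ℕ → Finset (Fin k)) (D T S : Finset (Fin k))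
    (j t : ℕ) (h : ∀ m y, j + 1 ≤ m → m ≤ L → y ∈ U m → y ∉ D → y ∉ T →
      y ∈ Nm M L U D T m (t + 1) → y ∈ S) :
    ∀ i, i ≤ L - j → St M L U D (Cg D T) i t ⊆ tauS M L U D S t i := by
  intro i
  induction i with
  | zero => intro _; exact le_rfl
  | succ i ih =>
    intro hi
    have ih' := ih (by omega)
    show Sstep M _ _ _ _ t ⊆ _
    unfold Sstep tauS
    split_ifs with h3
    · refine M.closure_subset_closure (Set.union_subset_union ?_ ?_)
      · unfold Nstep; rw [if_pos h3]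
        exact Exp_mono h2 _ ih' (tauS_ground L U D S t i)
      · rw [← Nm_eq L U D T i (t + 1) (by omega)]
        intro y hy
        simp only [Set.mem_inter_iff, Finset.mem_coe, Finset.mem_inter, mem_Cg] at hy ⊢
        exact ⟨h (L - i) y (by omega) (by omega) hy.1.2 hy.1.1.1 hy.1.1.2 hy.2, hy.1.2⟩
    · exact ih'

/-- `tauS S` at time `t` is below the true path at time `t+1` if `S` consists of guards
contracted at `t+1` -/
lemma tauS_le_St (h2 : EXPF M) (h3 : CHAIN M) (L : ℕ) (U : ℕ → Finset (Fin k))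
    (D T S : Finset (Fin k))
    (j t : ℕ) (h : ∀ m y, j + 1 ≤ m → m ≤ L → y ∈ U m → y ∈ S → y ∉ D ∧ y ∉ T ∧
      y ∈ Nm M L U D T m (t + 1 + 1)) :
    ∀ i, i ≤ L - j → tauS M L U D S t i ⊆ St M L U D (Cg D T) i (t + 1) := by
  intro i
  induction i with
  | zero => intro _; exact (h3 L U D (Cg D T)).2.1 0 t (t + 1) (by omega)
  | succ i ih =>
    intro hi
    have ih' := ih (by omega)
    unfold tauS
    split_ifs with h4
    · show _ ⊆ Sstep M _ _ _ _ (t + 1)
      unfold Sstep
      rw [if_pos (by omega)]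
      refine M.closure_subset_closure (Set.union_subset_union ?_ ?_)
      · unfold Nstep; rw [if_pos (by omega)]
        exact Exp_mono h2 _ ih' (St_ground h3 L U D _ i _)
      · rw [← Nm_eq L U D T i (t + 1 + 1) (by omega)]
        intro y hy
        simp only [Set.mem_inter_iff, Finset.mem_coe, Finset.mem_inter, mem_Cg] at hy ⊢
        obtain ⟨a1, a2, a3⟩ := h (L - i) y (by omega) (by omega) hy.2 hy.1
        exact ⟨⟨⟨a1, a2⟩, hy.2⟩, a3⟩
    · exact ih'.trans ((h3 L U D (Cg D T)).2.2.1 i (i + 1) _ (by omega))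

noncomputable def cls (U : ℕ → Finset (Fin k)) (y : Fin k) : ℕ :=
  if h : ∃ m, y ∈ U m then h.choose else 0

lemma cls_of_mem {U : ℕ → Finset (Fin k)} (hP : Pools M U) {y : Fin k} {m : ℕ} (h : y ∈ U m) :
    cls U y = m := by
  unfold cls
  have hex : ∃ m, y ∈ U m := ⟨m, h⟩
  rw [dif_pos hex]
  exact cls_eq hP hex.choose_spec h

def Fresh (M : Matroid (Fin k)) (L : ℕ) (U : ℕ → Finset (Fin k)) (D : Finset (Fin k)) (j b : ℕ)
    (T : Finset (Fin k)) (y : Fin k) : Prop :=
  ∃ m, j + 1 ≤ m ∧ m ≤ L ∧ y ∈ U m ∧ y ∉ D ∧ y ∈ Nm M L U D T m b ∧ y ∉ Nm M L U D T m (b - 1)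

def AA (M : Matroid (Fin k)) (L : ℕ) (U : ℕ → Finset (Fin k)) (D : Finset (Fin k)) (j b : ℕ)
    (e : Fin k) (T S : Finset (Fin k)) : Prop :=
  (e ∈ (T \ D) ∩ U j ∧ e ∈ Nm M L U D T j b) →
    e ∈ M.closure (Exp M (D ∩ U j) (tauS M L U D (S ∩ pool M L U D T j b) (b - 2) (L - j)) ∪
      ↑(X0 M L U D T j b e))

theorem safe1_57 (h2 : EXPF M) (h3 : CHAIN M) (h4 : NCHAIN M) : SAFE1 M := by
  intro L U D j b e hP hj1 hjL hb
  have hb' : 3 * j + 2 ≤ b := by
    unfold times at hb; exact (Finset.mem_Icc.1 hb).1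
  have htt0 : (0 : ℝ) ≤ tt := by unfold tt; positivity
  have htt1 : tt < 1 / 2 := by unfold tt; norm_num
  -- the true N at time b-2 is below the closure of the hybrid set
  have key1 : ∀ T, Nm M L U D T j (b - 2) ⊆ Exp M (D ∩ U j) (tauS M L U D
      (XF (Fresh M L U D j b) univ T ∩ pool M L U D T j b) (b - 2) (L - j)) := by
    intro T
    unfold Nm Nstep
    rw [if_pos (by omega)]
    refine Exp_mono h2 _ (St_le_tauS h2 L U D T _ j (b - 2) ?_ (L - j) le_rfl)
      (tauS_ground _ _ _ _ _ _)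
    intro m y hm1 hm2 hy hyD hyT hyN
    rw [show b - 2 + 1 = b - 1 by omega] at hyN
    refine Finset.mem_inter.2 ⟨?_, ?_⟩
    · rw [mem_XF]
      simp only [mem_univ, true_and, hyT, iff_false]
      rintro ⟨m', -, -, hy', -, -, hn⟩
      have := cls_eq hP hy hy'
      subst this
      exact hn hyN
    · exact (mem_pool L U D T j b y).2 ⟨m, hm1, hm2, hy, hyD,
        (h4 L U D T m (by omega) hm2).2.1 (b - 1) b (by omega) hyN⟩
  refine hybrid htt0 htt1 (AA M L U D j b e) ?_ (Fresh M L U D j b) (fun y => L - cls U y) ?_ _ _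
    ?_ ?_
  · intro T S S' hS hA he
    refine M.closure_subset_closure (Set.union_subset_union_left _ ?_) (hA he)
    exact Exp_mono h2 _ (tauS_mono h2 L U D (Finset.inter_subset_inter_right hS) _ _)
      (tauS_ground _ _ _ _ _ _)
  · intro T y hyT hf
    have hN : ∀ m t, j ≤ m → m ≤ L → b ≤ t →
        Nm M L U D (insert y T) m t = Nm M L U D T m t := by
      intro m t hm1 hm2 ht
      rcases hf with ⟨m', a1, a2, a3, a4, a5, -⟩ | ⟨m', a1, a2, a3, a4, a5, -⟩
      · refine loct57 h4 L U D T (insert y T) j b hP hj1 hjL ?_ m t hm1 hm2 ht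
        intro z hz
        have : z ≠ y := by
          rintro rfl
          exact hz ((mem_pool L U D T j b z).2 ⟨m', a1, a2, a3, a4, a5⟩)
        simp [this]
      · refine (loct57 h4 L U D (insert y T) T j b hP hj1 hjL ?_ m t hm1 hm2 ht).symm
        intro z hz
        have : z ≠ y := by
          rintro rfl
          exact hz ((mem_pool L U D _ j b z).2 ⟨m', a1, a2, a3, a4, a5⟩)
        simp [this]
    obtain ⟨my, hm1, hm2, hyU⟩ : ∃ m, j + 1 ≤ m ∧ m ≤ L ∧ y ∈ U m := by
      rcases hf with ⟨m', a1, a2, a3, -⟩ | ⟨m', a1, a2, a3, -⟩ <;> exact ⟨m', a1, a2, a3⟩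
    have hyj : y ∉ U j := fun h => by have := cls_eq hP h hyU; omega
    have hTU : (insert y T \ D) ∩ U j = (T \ D) ∩ U j := by
      ext z
      simp only [mem_inter, mem_sdiff, mem_insert]
      by_cases hz : z = y
      · subst hz; simp [hyj]
      · simp [hz]
    have hpool : pool M L U D (insert y T) j b = pool M L U D T j b := by
      unfold pool
      refine Finset.biUnion_congr rfl fun m hm => ?_
      have hm' := Finset.mem_Icc.1 hm
      rw [hN m b (by omega) hm'.2 le_rfl]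
    have hX0 : X0 M L U D (insert y T) j b e = X0 M L U D T j b e := by
      unfold X0
      rw [hTU, hN j b le_rfl hjL le_rfl]
    refine ⟨fun S => ?_, fun z hz => ?_⟩
    · unfold AA
      rw [hTU, hpool, hX0, hN j b le_rfl hjL le_rfl]
    · have hloc : ∀ m, j + 1 ≤ m → m ≤ L → z ∈ U m → ∀ t,
          Nm M L U D (insert y T) m t = Nm M L U D T m t := by
        intro m a1 a2 a3 t
        refine locc L U D T (insert y T) m t fun m' x b1 b2 => ?_
        have hz' : L - cls U z ≤ L - cls U y := hz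
        rw [cls_of_mem hP a3, cls_of_mem hP hyU] at hz'
        have : x ≠ y := by
          rintro rfl
          have := cls_eq hP b2 hyU
          omega
        simp [this]
      unfold Fresh
      refine exists_congr fun m => ?_
      refine and_congr_right fun a1 => and_congr_right fun a2 => and_congr_right fun a3 => ?_
      rw [hloc m a1 a2 a3, hloc m a1 a2 a3]
  · intro T
    by_cases hH : Harm M L U D T j b e
    · rw [if_pos hH, if_pos]
      obtain ⟨e1, e2, e3, e4⟩ := hH
      refine ⟨fun _ => ?_, fun hA => e4 ?_⟩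
      · refine M.closure_subset_closure (Set.union_subset_union_left _ ?_) e3
        refine Set.union_subset (key1 T) ?_
        intro y hy
        unfold Thi at hy
        simp only [Finset.mem_coe, mem_biUnion, mem_filter, mem_Icc] at hy
        obtain ⟨m, ⟨⟨a1, a2⟩, a3⟩, hy⟩ := hy
        unfold Tband at hy
        simp only [mem_filter, mem_inter, mem_sdiff] at hy
        obtain ⟨⟨⟨b1, b2⟩, b3⟩, b4, b5⟩ := hy
        refine sub_Exp h2 _ (tauS_ground _ _ _ _ _ _) ?_
        refine tauS_le h2 L U D _ _ (show L - m + 1 ≤ L - j by omega) ?_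
        refine mem_tauS L U hP D _ _ _ (by omega) ?_ (by rw [show L - (L - m) = m by omega]; exact b3)
        refine Finset.mem_inter.2 ⟨?_, (mem_pool L U D T j b y).2 ⟨m, a1, a2, b3, b2, b4⟩⟩
        rw [mem_XF]
        simp only [mem_univ, true_and, b1, iff_true]
        exact ⟨m, a1, a2, b3, b2, b4, b5⟩
      · refine M.closure_subset_closure (Set.union_subset_union_left _ ?_) (hA ⟨e1, e2⟩)
        have : Nm M L U D T j (b - 1) =
            Exp M (D ∩ U j) (St M L U D (Cg D T) (L - j) (b - 2 + 1)) := by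
          unfold Nm Nstep
          rw [if_pos (by omega), show b - 2 + 1 = b - 1 by omega]
        rw [this]
        refine Exp_mono h2 _ (tauS_le_St h2 h3 L U D T _ j (b - 2) ?_ (L - j) le_rfl)
          (St_ground h3 _ _ _ _ _ _)
        intro m y a1 a2 a3 hy
        rw [Finset.mem_inter, Finset.mem_compl, mem_pool] at hy
        obtain ⟨c1, m', -, -, c2, c3, c4⟩ := hy
        have := cls_eq hP a3 c2
        subst this
        rw [show b - 2 + 1 + 1 = b by omega]
        exact ⟨c3, c1, c4⟩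
    · rw [if_neg hH]; split_ifs <;> norm_num
  · intro T
    by_cases hA : AA M L U D j b e T (XF (Fresh M L U D j b) univ T)
    · rw [if_neg (not_not.2 hA)]; split_ifs <;> norm_num
    · rw [if_pos hA, if_pos]
      unfold AA at hA
      push Not at hA
      obtain ⟨⟨e1, e2⟩, e3⟩ := hA
      simp only [mem_inter, mem_sdiff] at e1
      refine ⟨e1.1.1, e1.2, e2, fun h => e3 ?_⟩
      exact sub_cl_left (Exp_ground h2 _ (tauS_ground _ _ _ _ _ _)) (key1 T h)

end Crest.Agent.R305.H57
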