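import Crest.Agent.R305.RGDefs55

/-! Row 305: block B4 (SHELL). -/

set_option autoImplicit false

open Classical

namespace Crest.Agent.R305

variable {k : ℕ}

namespace Sh66

variable {M : Matroid (Fin k)}

lemma St_congr (L : ℕ) (U U' : ℕ → Finset (Fin k)) (D C : Finset (Fin k))
    (hD : ∀ m, D ∩ U m = D ∩ U' m) (hC : ∀ m, C ∩ U m = C ∩ U' m) :
    ∀ i, St M L U D C i = St M L U' D C i
  | 0 => rfl
  | i + 1 => by
    show Sstep M _ _ _ _ = Sstep M _ _ _ _
    rw [hD, hC, St_congr L U U' D C hD hC i]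

lemma Nm_congr (L : ℕ) (U U' : ℕ → Finset (Fin k)) (D T0 : Finset (Fin k))
    (hD : ∀ m, D ∩ U m = D ∩ U' m) (hC : ∀ m, Cg D T0 ∩ U m = Cg D T0 ∩ U' m) (m t : ℕ) :
    Nm M L U D T0 m t = Nm M L U' D T0 m t := by
  unfold Nm
  rw [hD, St_congr L U U' D _ hD hC]

lemma mem_Thi_congr (L : ℕ) (U U' : ℕ → Finset (Fin k)) (D T0 : Finset (Fin k))
    (hD : ∀ m, D ∩ U m = D ∩ U' m) (hC : ∀ m, Cg D T0 ∩ U m = Cg D T0 ∩ U' m)
    (y : Fin k) (hy : ∀ m, y ∈ U m ↔ y ∈ U' m) (j b : ℕ) :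
    y ∈ Thi M L U D T0 j b ↔ y ∈ Thi M L U' D T0 j b := by
  unfold Thi Tband
  simp only [Finset.mem_biUnion, Finset.mem_filter, Finset.mem_inter, hy,
    Nm_congr L U U' D T0 hD hC]

lemma Jc_congr (L : ℕ) (U U' : ℕ → Finset (Fin k)) (D T0 : Finset (Fin k)) (ep : Fin 3)
    (A : Finset (Fin k))
    (hD : ∀ m, D ∩ U m = D ∩ U' m) (hC : ∀ m, Cg D T0 ∩ U m = Cg D T0 ∩ U' m)
    (hA : ∀ y ∈ A, ∀ m, y ∈ U m ↔ y ∈ U' m) (h : Jc M L U D T0 ep A) :
    Jc M L U' D T0 ep A := by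
  have hI : ∀ b, A ∩ Thi M L U' D T0 0 b = A ∩ Thi M L U D T0 0 b := by
    intro b
    ext y
    simp only [Finset.mem_inter]
    constructor
    · rintro ⟨h1, h2⟩
      exact ⟨h1, (mem_Thi_congr L U U' D T0 hD hC y (hA y h1) 0 b).2 h2⟩
    · rintro ⟨h1, h2⟩
      exact ⟨h1, (mem_Thi_congr L U U' D T0 hD hC y (hA y h1) 0 b).1 h2⟩
  have hF : ∀ t, Ff M L U' D T0 t = Ff M L U D T0 t := by
    intro t
    unfold Ff
    rw [St_congr L U U' D _ hD hC]
  refine ⟨fun y hy => ?_, fun b => ?_⟩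
  · obtain ⟨b, h1, h2, h3⟩ := h.1 y hy
    exact ⟨b, h1, h2, (mem_Thi_congr L U U' D T0 hD hC y (hA y hy) 0 b).1 h3⟩
  · rw [hI, hF]
    exact h.2 b

lemma mem_UH_congr (L : ℕ) (c c' : Fin k → ℕ) (H : Finset (Fin k))
    (hH : ∀ f ∈ H, c f = c' f) (e : Fin k) (he : c e = c' e) (m : ℕ) :
    e ∈ UH M L c H m ↔ e ∈ UH M L c' H m := by
  have : before L c H e = before L c' H e := by
    ext f
    simp only [before, prec, Set.mem_setOf_eq]
    constructor
    · rintro ⟨h1, h2⟩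
      rw [hH f h1, he] at h2
      exact ⟨h1, h2⟩
    · rintro ⟨h1, h2⟩
      rw [← hH f h1, ← he] at h2
      exact ⟨h1, h2⟩
  unfold UH
  simp only [Finset.mem_filter, Finset.mem_univ, true_and, this, he]

lemma down (h1 : RANK M) (F : Set (Fin k)) (X Y : Finset (Fin k)) (hXY : X ⊆ Y)
    (h : rk M (F ∪ ↑Y) = rk M F + Y.card) : rk M (F ∪ ↑X) = rk M F + X.card := by
  have ha := h1.2.2.2.2.2.1 F X
  have hb := h1.2.2.2.2.2.1 (F ∪ ↑X) (Y \ X)
  have hc : (F ∪ ↑X) ∪ ↑(Y \ X) = F ∪ (↑Y : Set (Fin k)) := by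
    rw [Set.union_assoc, ← Finset.coe_union, Finset.union_sdiff_of_subset hXY]
  rw [hc, h] at hb
  have hd := Finset.card_sdiff_add_card_eq_card hXY
  omega

lemma tt_nonneg : 0 ≤ tt := by unfold tt; positivity

lemma tt_le_one : tt ≤ 1 := by
  unfold tt
  exact pow_le_one₀ (by norm_num) (by norm_num)

end Sh66

open Sh66 in
theorem shell66 (M : Matroid (Fin k)) (h0 : EXB k) (h1 : RANK M) : SHELL M := by
  have ha := h0 (1 / 2) (by norm_num) (by norm_num)
  have hb := h0 tt tt_nonneg tt_le_one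
  refine ⟨fun l => ?_, ?_, fun L l c => ?_, fun L l c c' A hc hJ => ?_,
    fun L l c A A' hA hJ => ?_, fun L l c A hJ y hy => ?_⟩
  · unfold pS
    have := ha.1 l.1
    have := ha.1 l.2.1
    have := hb.1 l.2.2.1
    positivity
  · unfold pS
    simp only [Fintype.sum_prod_type]
    have h3 : ∀ a b c : ℝ, ∑ _x : Fin 3, a * b * c / 3 = a * (b * c) := by
      intro a b c
      simp only [Finset.sum_const, Finset.card_univ, Fintype.card_fin, nsmul_eq_mul]
      push_cast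
      ring
    simp only [h3, ← Finset.mul_sum, hb.2.1, mul_one, ha.2.1]
  · refine ⟨fun y hy => absurd hy (Finset.notMem_empty y), fun b => ?_⟩
    simp
  · have hH : ∀ f ∈ l.1, c f = c' f := by
      intro f hf
      refine hc f (Or.inl ?_)
      unfold TS
      simp [hf]
    refine Jc_congr L _ _ _ _ _ A (fun m => ?_) (fun m => ?_)
      (fun y hy m => mem_UH_congr L c c' l.1 hH y (hc y (Or.inr hy)) m) hJ
    · ext y
      simp only [Finset.mem_inter]
      refine and_congr_right fun hy => mem_UH_congr L c c' l.1 hH y (hc y (Or.inl ?_)) m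
      unfold TS
      simp [hy]
    · ext y
      simp only [Finset.mem_inter]
      refine and_congr_right fun hy => mem_UH_congr L c c' l.1 hH y (hc y (Or.inl ?_)) m
      unfold Cg at hy
      unfold TS
      simp only [Finset.mem_compl, Finset.mem_union, not_or] at hy
      simp [hy.2]
  · refine ⟨fun y hy => hJ.1 y (hA hy), fun b => ?_⟩
    exact down h1 _ _ _ (Finset.inter_subset_inter_right hA) (hJ.2 b)
  · obtain ⟨b, -, -, h3⟩ := hJ.1 y hy
    unfold Thi Tband UH at h3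
    simp only [Finset.mem_biUnion, Finset.mem_filter, Finset.mem_inter, Finset.mem_sdiff] at h3
    obtain ⟨m, -, ⟨⟨h4, h5⟩, -, h6, -⟩, -⟩ := h3
    unfold TS
    simp [h4, h5, h6]

end Crest.Agent.R305
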