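import Mathlib

set_option autoImplicit false
open Finset

namespace Crest.Agent.R305.S79

open Classical

variable {α : Type*} [DecidableEq α]

/-- unnormalised Bernoulli sum over subsets of `Q` (weight `t` inside, `c` outside) -/
noncomputable def EE (t c : ℝ) (Q : Finset α) (f : Finset α → ℝ) : ℝ :=
  ∑ T ∈ Q.powerset, (∏ y ∈ Q, if y ∈ T then t else c) * f T

theorem EE_insert (t c : ℝ) (Q : Finset α) (y : α) (hy : y ∉ Q) (f : Finset α → ℝ) :
    EE t c (insert y Q) f = c * EE t c Q f + t * EE t c Q (fun T => f (insert y T)) := by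
  unfold EE
  rw [Finset.sum_powerset_insert hy, Finset.mul_sum, Finset.mul_sum]
  congr 1
  · refine Finset.sum_congr rfl fun T hT => ?_
    have hyT : y ∉ T := fun h => hy (Finset.mem_powerset.mp hT h)
    rw [Finset.prod_insert hy, if_neg hyT]; ring
  · refine Finset.sum_congr rfl fun T hT => ?_
    rw [Finset.prod_insert hy, if_pos (Finset.mem_insert_self y T)]
    have : (∏ z ∈ Q, if z ∈ insert y T then t else c) = ∏ z ∈ Q, if z ∈ T then t else c := by
      refine Finset.prod_congr rfl fun z hz => ?_
      have hzy : z ≠ y := fun h => hy (h ▸ hz)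
      simp [hzy]
    rw [this]; ring

theorem EE_congr (t c : ℝ) (Q : Finset α) {f g : Finset α → ℝ} (h : ∀ T ⊆ Q, f T = g T) :
    EE t c Q f = EE t c Q g := by
  unfold EE
  exact Finset.sum_congr rfl fun T hT => by rw [h T (Finset.mem_powerset.mp hT)]

theorem EE_mono {t c : ℝ} (ht : 0 ≤ t) (hc : 0 ≤ c) (Q : Finset α) {f g : Finset α → ℝ}
    (h : ∀ T ⊆ Q, f T ≤ g T) : EE t c Q f ≤ EE t c Q g := by
  unfold EE
  refine Finset.sum_le_sum fun T hT => mul_le_mul_of_nonneg_left (h T (Finset.mem_powerset.mp hT)) ?_
  exact Finset.prod_nonneg fun z _ => by split_ifs <;> assumption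

theorem EE_sub (t c : ℝ) (Q : Finset α) (f g : Finset α → ℝ) :
    EE t c Q (fun T => f T - g T) = EE t c Q f - EE t c Q g := by
  unfold EE
  rw [← Finset.sum_sub_distrib]
  exact Finset.sum_congr rfl fun T _ => by ring

/-- indicator of a proposition -/
noncomputable def ind (p : Prop) : ℝ := if p then 1 else 0

/-- old guards together with fresh listened elements -/
noncomputable def XX (Q : Finset α) (fresh : Finset α → α → Prop) (T : Finset α) : Finset α :=
  Q.filter (fun y => y ∈ T ↔ fresh T y)

theorem star_aux {t c : ℝ} (ht : 0 ≤ t) (htc : t ≤ c) (rk : α → ℕ) (Q : Finset α) :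
    ∀ (fresh : Finset α → α → Prop) (A B : Finset α → Prop),
      (∀ T T' y, T ⊆ Q → T' ⊆ Q → y ∈ Q → (∀ z ∈ Q, rk y < rk z → (z ∈ T ↔ z ∈ T')) →
        (fresh T y ↔ fresh T' y)) →
      (∀ X Y, X ⊆ Y → A X → A Y) →
      (c - t) * (EE t c Q (fun T => ind (A (XX Q fresh T) ∧ ¬ B (Q \ T))) -
          EE t c Q (fun T => ind (A (Q \ T) ∧ ¬ B (Q \ T)))) ≤
        t * (EE t c Q (fun T => ind (¬ A (XX Q fresh T))) - EE t c Q (fun T => ind (¬ A (Q \ T)))) := by
  have hc : 0 ≤ c := ht.trans htc
  induction Q using Finset.induction_on_max_value rk with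
  | empty =>
    intro fresh A B _ _
    simp [EE, XX]
  | insert y Q hy hmax ih =>
    intro fresh A B hpred hA
    -- the two branches
    have hpC : ∀ T T' z, T ⊆ Q → T' ⊆ Q → z ∈ Q →
        (∀ w ∈ Q, rk z < rk w → (w ∈ T ↔ w ∈ T')) → (fresh T z ↔ fresh T' z) := by
      intro T T' z hT hT' hz h
      refine hpred T T' z (hT.trans (subset_insert _ _)) (hT'.trans (subset_insert _ _))
        (mem_insert_of_mem hz) fun w hw hlt => ?_
      rcases mem_insert.mp hw with rfl | hw
      · exact ⟨fun h' => absurd (hT h') hy, fun h' => absurd (hT' h') hy⟩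
      · exact h w hw hlt
    have hpT : ∀ T T' z, T ⊆ Q → T' ⊆ Q → z ∈ Q →
        (∀ w ∈ Q, rk z < rk w → (w ∈ T ↔ w ∈ T')) →
        (fresh (insert y T) z ↔ fresh (insert y T') z) := by
      intro T T' z hT hT' hz h
      refine hpred _ _ z (insert_subset_insert _ hT) (insert_subset_insert _ hT')
        (mem_insert_of_mem hz) fun w hw hlt => ?_
      rcases mem_insert.mp hw with rfl | hw
      · simp
      · have hwy : w ≠ y := fun h' => hy (h' ▸ hw)
        simp [hwy, h w hw hlt]
    have hφ : ∀ T, T ⊆ insert y Q → (fresh T y ↔ fresh ∅ y) := by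
      intro T hT
      refine hpred T ∅ y hT (empty_subset _) (mem_insert_self _ _) fun w hw hlt => ?_
      rcases mem_insert.mp hw with rfl | hw
      · exact absurd hlt (lt_irrefl _)
      · exact absurd (hmax w hw) (not_le.mpr hlt)
    have hsdC : ∀ T, T ⊆ Q → insert y Q \ T = insert y (Q \ T) := by
      intro T hT
      have hyT : y ∉ T := fun h => hy (hT h)
      exact insert_sdiff_of_notMem _ hyT
    have hsdT : ∀ T, T ⊆ Q → insert y Q \ insert y T = Q \ T := by
      intro T hT
      ext w
      simp only [mem_sdiff, mem_insert, not_or]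
      constructor
      · rintro ⟨h1 | h1, h2, h3⟩
        · exact absurd h1 h2
        · exact ⟨h1, h3⟩
      · rintro ⟨h1, h2⟩
        exact ⟨Or.inr h1, fun h => hy (h ▸ h1), h2⟩
    have hXT0 : ∀ T, T ⊆ Q → Q.filter (fun z => z ∈ insert y T ↔ fresh (insert y T) z) =
        XX Q (fun T z => fresh (insert y T) z) T := by
      intro T hT
      unfold XX
      refine filter_congr fun z hz => ?_
      have hzy : z ≠ y := fun h' => hy (h' ▸ hz)
      simp [hzy]
    have hA' : ∀ X Y : Finset α, X ⊆ Y → A (insert y X) → A (insert y Y) :=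
      fun X Y h => hA _ _ (insert_subset_insert _ h)
    simp only [EE_insert t c Q y hy]
    by_cases hf : fresh ∅ y
    · -- fresh step
      have hXC : ∀ T, T ⊆ Q → XX (insert y Q) fresh T = XX Q fresh T := by
        intro T hT
        have hyT : y ∉ T := fun h => hy (hT h)
        unfold XX
        rw [filter_insert, if_neg]
        rw [hφ T (hT.trans (subset_insert _ _))]
        simp [hyT, hf]
      have hXT : ∀ T, T ⊆ Q → XX (insert y Q) fresh (insert y T) =
          insert y (XX Q (fun T z => fresh (insert y T) z) T) := by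
        intro T hT
        rw [← hXT0 T hT]
        unfold XX
        rw [filter_insert, if_pos]
        rw [hφ _ (insert_subset_insert _ hT)]
        simp [hf]
      have iC := ih fresh A (fun X => B (insert y X)) hpC hA
      have iT := ih (fun T z => fresh (insert y T) z) (fun X => A (insert y X)) B hpT hA'
      rw [EE_congr t c Q (f := fun T => ind (A (XX (insert y Q) fresh T) ∧ ¬ B (insert y Q \ T)))
          (g := fun T => ind (A (XX Q fresh T) ∧ ¬ B (insert y (Q \ T))))
          (fun T hT => by rw [hXC T hT, hsdC T hT]),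
        EE_congr t c Q (f := fun T => ind (A (XX (insert y Q) fresh (insert y T)) ∧
            ¬ B (insert y Q \ insert y T)))
          (g := fun T => ind (A (insert y (XX Q (fun T z => fresh (insert y T) z) T)) ∧ ¬ B (Q \ T)))
          (fun T hT => by rw [hXT T hT, hsdT T hT]),
        EE_congr t c Q (f := fun T => ind (A (insert y Q \ T) ∧ ¬ B (insert y Q \ T)))
          (g := fun T => ind (A (insert y (Q \ T)) ∧ ¬ B (insert y (Q \ T))))
          (fun T hT => by rw [hsdC T hT]),
        EE_congr t c Q (f := fun T => ind (A (insert y Q \ insert y T) ∧ ¬ B (insert y Q \ insert y T)))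
          (g := fun T => ind (A (Q \ T) ∧ ¬ B (Q \ T)))
          (fun T hT => by rw [hsdT T hT]),
        EE_congr t c Q (f := fun T => ind (¬ A (XX (insert y Q) fresh T)))
          (g := fun T => ind (¬ A (XX Q fresh T)))
          (fun T hT => by rw [hXC T hT]),
        EE_congr t c Q (f := fun T => ind (¬ A (XX (insert y Q) fresh (insert y T))))
          (g := fun T => ind (¬ A (insert y (XX Q (fun T z => fresh (insert y T) z) T))))
          (fun T hT => by rw [hXT T hT]),
        EE_congr t c Q (f := fun T => ind (¬ A (insert y Q \ T)))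
          (g := fun T => ind (¬ A (insert y (Q \ T))))
          (fun T hT => by rw [hsdC T hT]),
        EE_congr t c Q (f := fun T => ind (¬ A (insert y Q \ insert y T)))
          (g := fun T => ind (¬ A (Q \ T)))
          (fun T hT => by rw [hsdT T hT])]
      have h1 : EE t c Q (fun T => ind (A (Q \ T) ∧ ¬ B (insert y (Q \ T)))) ≤
          EE t c Q (fun T => ind (A (insert y (Q \ T)) ∧ ¬ B (insert y (Q \ T)))) := by
        refine EE_mono ht hc Q fun T _ => ?_
        unfold ind
        by_cases h : A (Q \ T)
        · have h' : A (insert y (Q \ T)) := hA _ _ (subset_insert _ _) h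
          simp [h, h']
        · simp only [h, false_and, if_false]
          split_ifs <;> norm_num
      have h2 : EE t c Q (fun T => ind (A (insert y (Q \ T)) ∧ ¬ B (Q \ T))) -
          EE t c Q (fun T => ind (A (Q \ T) ∧ ¬ B (Q \ T))) ≤
          EE t c Q (fun T => ind (¬ A (Q \ T))) - EE t c Q (fun T => ind (¬ A (insert y (Q \ T)))) := by
        rw [← EE_sub, ← EE_sub]
        refine EE_mono ht hc Q fun T _ => ?_
        unfold ind
        by_cases h : A (Q \ T)
        · have h' : A (insert y (Q \ T)) := hA _ _ (subset_insert _ _) h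
          simp [h, h']
        · by_cases h' : A (insert y (Q \ T)) <;> by_cases hb : B (Q \ T) <;> simp [h, h', hb]
      have hct : 0 ≤ c - t := sub_nonneg.mpr htc
      have e1 := mul_le_mul_of_nonneg_left iC hc
      have e2 := mul_le_mul_of_nonneg_left iT ht
      have e3 := mul_le_mul_of_nonneg_left h1 (mul_nonneg hct hc)
      have e4 := mul_le_mul_of_nonneg_left h2 (mul_nonneg hct ht)
      nlinarith [e1, e2, e3, e4]
    · -- old step
      have hXC : ∀ T, T ⊆ Q → XX (insert y Q) fresh T = insert y (XX Q fresh T) := by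
        intro T hT
        have hyT : y ∉ T := fun h => hy (hT h)
        unfold XX
        rw [filter_insert, if_pos]
        rw [hφ T (hT.trans (subset_insert _ _))]
        simp [hyT, hf]
      have hXT : ∀ T, T ⊆ Q → XX (insert y Q) fresh (insert y T) =
          XX Q (fun T z => fresh (insert y T) z) T := by
        intro T hT
        rw [← hXT0 T hT]
        unfold XX
        rw [filter_insert, if_neg]
        rw [hφ _ (insert_subset_insert _ hT)]
        simp [hf]
      have iC := ih fresh (fun X => A (insert y X)) (fun X => B (insert y X)) hpC hA'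
      have iT := ih (fun T z => fresh (insert y T) z) A B hpT hA
      rw [EE_congr t c Q (f := fun T => ind (A (XX (insert y Q) fresh T) ∧ ¬ B (insert y Q \ T)))
          (g := fun T => ind (A (insert y (XX Q fresh T)) ∧ ¬ B (insert y (Q \ T))))
          (fun T hT => by rw [hXC T hT, hsdC T hT]),
        EE_congr t c Q (f := fun T => ind (A (XX (insert y Q) fresh (insert y T)) ∧
            ¬ B (insert y Q \ insert y T)))
          (g := fun T => ind (A (XX Q (fun T z => fresh (insert y T) z) T) ∧ ¬ B (Q \ T)))
          (fun T hT => by rw [hXT T hT, hsdT T hT]),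
        EE_congr t c Q (f := fun T => ind (A (insert y Q \ T) ∧ ¬ B (insert y Q \ T)))
          (g := fun T => ind (A (insert y (Q \ T)) ∧ ¬ B (insert y (Q \ T))))
          (fun T hT => by rw [hsdC T hT]),
        EE_congr t c Q (f := fun T => ind (A (insert y Q \ insert y T) ∧ ¬ B (insert y Q \ insert y T)))
          (g := fun T => ind (A (Q \ T) ∧ ¬ B (Q \ T)))
          (fun T hT => by rw [hsdT T hT]),
        EE_congr t c Q (f := fun T => ind (¬ A (XX (insert y Q) fresh T)))
          (g := fun T => ind (¬ A (insert y (XX Q fresh T))))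
          (fun T hT => by rw [hXC T hT]),
        EE_congr t c Q (f := fun T => ind (¬ A (XX (insert y Q) fresh (insert y T))))
          (g := fun T => ind (¬ A (XX Q (fun T z => fresh (insert y T) z) T)))
          (fun T hT => by rw [hXT T hT]),
        EE_congr t c Q (f := fun T => ind (¬ A (insert y Q \ T)))
          (g := fun T => ind (¬ A (insert y (Q \ T))))
          (fun T hT => by rw [hsdC T hT]),
        EE_congr t c Q (f := fun T => ind (¬ A (insert y Q \ insert y T)))
          (g := fun T => ind (¬ A (Q \ T)))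
          (fun T hT => by rw [hsdT T hT])]
      have e1 := mul_le_mul_of_nonneg_left iC hc
      have e2 := mul_le_mul_of_nonneg_left iT ht
      nlinarith [e1, e2]

/-- LEMMA (*) of the reverse guard design (subset form). -/
theorem star {t c : ℝ} (ht : 0 ≤ t) (htc : t ≤ c) (rk : α → ℕ) (Q : Finset α)
    (fresh : Finset α → α → Prop) (A : Finset α → Prop)
    (hpred : ∀ T T' y, T ⊆ Q → T' ⊆ Q → y ∈ Q → (∀ z ∈ Q, rk y < rk z → (z ∈ T ↔ z ∈ T')) →
        (fresh T y ↔ fresh T' y))
    (hA : ∀ X Y, X ⊆ Y → A X → A Y) :
    (c - t) * EE t c Q (fun T => ind (A (XX Q fresh T) ∧ ¬ A (Q \ T))) ≤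
      t * EE t c Q (fun T => ind (¬ A (XX Q fresh T))) := by
  have h := star_aux ht htc rk Q fresh A A hpred hA
  have h0 : EE t c Q (fun T => ind (A (Q \ T) ∧ ¬ A (Q \ T))) = 0 := by
    unfold EE ind; simp
  have h1 : 0 ≤ EE t c Q (fun T => ind (¬ A (Q \ T))) := by
    have := EE_mono ht (ht.trans htc) Q (f := fun _ => (0:ℝ)) (g := fun T => ind (¬ A (Q \ T)))
      (fun T _ => by unfold ind; split_ifs <;> norm_num)
    simpa [EE] using this
  rw [h0] at h
  nlinarith [mul_nonneg ht h1]

end Crest.Agent.R305.S79
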