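import Crest.Agent.R305.RGDefs55
import Crest.Agent.R305.Star13

set_option autoImplicit false
open Classical

namespace Crest.Agent.R305.S13
open Crest.Agent.R305

variable {k : ℕ}

/-- Boolean vector of a finite set -/
noncomputable def toF (w : Fin k → Bool) : Finset (Fin k) := Finset.univ.filter fun i => w i = true

@[simp] lemma mem_toF (w : Fin k → Bool) (i : Fin k) : i ∈ toF w ↔ w i = true := by
  simp [toF]

noncomputable def eqv : (Fin k → Bool) ≃ Finset (Fin k) where
  toFun := toF
  invFun := fun A i => decide (i ∈ A)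
  left_inv := fun w => by funext i; simp
  right_inv := fun A => by ext i; simp

noncomputable def pB (t : ℝ) (b : Bool) : ℝ := if b = true then t else 1 - t

lemma Ex_eq (t : ℝ) (f : Finset (Fin k) → ℝ) :
    Ex t f = ∑ w : Fin k → Bool, pw (pB t) w * f (toF w) := by
  unfold Ex
  rw [← (eqv (k := k)).sum_comp]
  refine Finset.sum_congr rfl fun w _ => ?_
  show bern t (toF w) * f (toF w) = _
  congr 1
  unfold bern pw pB
  refine Finset.prod_congr rfl fun i _ => ?_
  simp

/-- Lemma (*) with a stopping set, in the `Ex` format. -/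
theorem starEx (t : ℝ) (ht0 : 0 ≤ t) (ht : t < 1 / 2)
    (Q : Finset (Fin k) → Finset (Fin k))
    (hQ : ∀ T T', (∀ y, y ∉ Q T → (y ∈ T ↔ y ∈ T')) → Q T' = Q T)
    (A : Finset (Fin k) → Finset (Fin k) → Prop)
    (hA : ∀ T T', (∀ y, y ∉ Q T → (y ∈ T ↔ y ∈ T')) → ∀ S, (A T' S ↔ A T S))
    (hmono : ∀ T S S', S ⊆ S' → A T S → A T S')
    (ord : Fin k → ℕ) (fresh : Finset (Fin k) → Fin k → Prop)
    (hf : ∀ T T' i, i ∈ Q T → (∀ j, (j ∉ Q T ∨ ord j < ord i) → (j ∈ T ↔ j ∈ T')) →
      (fresh T i ↔ fresh T' i))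
    (X : Finset (Fin k) → Finset (Fin k))
    (hX : ∀ T i, i ∈ X T ↔ i ∈ Q T ∧ (fresh T i ↔ i ∈ T)) :
    Ex t (fun T => ind (A T (X T) ∧ ¬ A T (Q T \ T))) ≤
      t / (1 - 2 * t) * Ex t (fun T => ind (¬ A T (X T))) := by
  have hp : ∀ b, 0 ≤ pB t b := fun b => by unfold pB; split_ifs <;> linarith
  have hp1 : ∑ b, pB t b = 1 := by simp [pB]
  have hc : pl (pB t) (fun b => b = false) = 1 - t := by simp [pl, pB]
  have hT : pl (pB t) (fun b => b = true) = t := by simp [pl, pB]
  have main := star (ι := Fin k) (pB t) hp hp1 (fun b => b = false) (fun b => b = true)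
    (fun w => Q (toF w))
    (fun w w' h => hQ _ _ fun y hy => by simp [h y hy])
    (fun w => A (toF w))
    (fun w w' h => hA _ _ fun y hy => by simp [h y hy])
    (fun w => hmono _) ord (fun w => fresh (toF w))
    (fun w w' i hi h => hf _ _ i hi fun j hj => by simp [h j hj])
    (fun w => X (toF w)) (fun w => Q (toF w) \ toF w)
    (fun w i => by
      rw [hX]
      by_cases h1 : fresh (toF w) i <;> cases h2 : w i <;> simp [h1, h2])
    (fun w i => by simp)
  rw [hc, hT] at main
  rw [Ex_eq, Ex_eq, div_mul_eq_mul_div, le_div_iff₀ (by linarith)]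
  have : (1 - t - t) = 1 - 2 * t := by ring
  rw [this] at main
  linarith

theorem star_block (k : ℕ) : STAR k := by
  intro t ht0 ht l hl fresh hfr Up hUp
  have := starEx t ht0 ht (fun _ => l.toFinset) (fun _ _ _ => rfl) (fun _ => Up)
    (fun _ _ _ _ => Iff.rfl) (fun _ => hUp) (fun y => l.idxOf y) fresh
    (fun T T' i hi h => by
      have hil : i ∈ l := List.mem_toFinset.1 hi
      obtain ⟨pre, post, hl'⟩ := List.append_of_mem hil
      refine hfr pre post i hl' T T' fun z hz => h z (Or.inr ?_)
      have hnd : (pre ++ i :: post).Nodup := hl' ▸ hl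
      have hip : i ∉ pre := by
        intro hi'
        have := List.nodup_append.1 hnd
        exact this.2.2 i hi' i (by simp) rfl
      rw [hl', List.idxOf_append_of_mem hz, List.idxOf_append_of_notMem hip]
      have := List.idxOf_lt_length_of_mem hz
      omega)
    (fun T => l.toFinset.filter (fun y => (fresh T y ↔ y ∈ T)))
    (fun T i => by simp)
  unfold ind at this
  convert this

end Crest.Agent.R305.S13
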