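import Mathlib

set_option autoImplicit false

namespace Crest.Agent.R305.T37
open Finset

variable {ι L : Type*} [Fintype ι] [DecidableEq ι] [Fintype L]

omit [Fintype L] in
theorem prod_update_mul (p : L → ℝ) (w : ι → L) (e : ι) (l : L) :
    (∏ i, p (Function.update w e l i)) * p (w e) = (∏ i, p (w i)) * p l := by
  rw [← Finset.mul_prod_erase univ (fun i => p (Function.update w e l i)) (mem_univ e),
    ← Finset.mul_prod_erase univ (fun i => p (w i)) (mem_univ e)]
  have : ∏ i ∈ univ.erase e, p (Function.update w e l i) = ∏ i ∈ univ.erase e, p (w i) :=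
    prod_congr rfl (fun i hi => by rw [Function.update_of_ne (ne_of_mem_erase hi)])
  rw [this, Function.update_self]; ring

/-- general one-site resampling identity -/
theorem site_swap (p : L → ℝ) (e : ι) (G : (ι → L) → L → ℝ) :
    ∑ w : ι → L, ∑ l, (∏ i, p (w i)) * p l * G w l =
      ∑ w : ι → L, ∑ l, (∏ i, p (w i)) * p l * G (Function.update w e l) (w e) := by
  rw [← Finset.sum_product', ← Finset.sum_product', univ_product_univ]
  refine Finset.sum_bij' (fun x _ => (Function.update x.1 e x.2, x.1 e))
    (fun x _ => (Function.update x.1 e x.2, x.1 e)) (fun _ _ => mem_univ _) (fun _ _ => mem_univ _)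
    (fun x _ => by simp) (fun x _ => by simp) (fun x _ => ?_)
  simp only [Function.update_idem, Function.update_self, Function.update_eq_self]
  rw [prod_update_mul]

/-- one-site conditioning: if `F` does not see which label of `S` the site `e` carries, then
the labels in `T ⊆ S` get their conditional share. -/
theorem site_ratio (p : L → ℝ) (e : ι) (S T : L → Prop) [DecidablePred S] [DecidablePred T]
    (hTS : ∀ l, T l → S l) (F : (ι → L) → ℝ)
    (hF : ∀ w l, S (w e) → S l → F (Function.update w e l) = F w) :
    (∑ l ∈ univ.filter S, p l) * ∑ w : ι → L, (∏ i, p (w i)) * (if T (w e) then F w else 0) =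
      (∑ l ∈ univ.filter T, p l) *
        ∑ w : ι → L, (∏ i, p (w i)) * (if S (w e) then F w else 0) := by
  have h := site_swap p e (fun w l => if S l then (if T (w e) then F w else 0) else 0)
  simp only [Function.update_self] at h
  rw [sum_filter, sum_filter, mul_sum, mul_sum]
  simp only [sum_mul]
  calc _ = ∑ w : ι → L, ∑ l, (∏ i, p (w i)) * p l *
        (if S l then (if T (w e) then F w else 0) else 0) := by
        refine sum_congr rfl (fun w _ => sum_congr rfl (fun l _ => ?_))
        split_ifs <;> ring
    _ = _ := h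
    _ = _ := by
        refine sum_congr rfl (fun w _ => sum_congr rfl (fun l _ => ?_))
        by_cases h1 : S (w e) <;> by_cases h2 : T l
        · simp only [h1, h2, if_true]; rw [hF w l h1 (hTS l h2)]; ring
        · simp [h1, h2]
        · simp [h1, h2]
        · simp [h1, h2]

/-- expected number of `T`-labels in a set that is blind to the labels inside `S` -/
theorem card_ratio (p : L → ℝ) (S T : L → Prop) [DecidablePred S] [DecidablePred T]
    (hTS : ∀ l, T l → S l) (A : (ι → L) → Finset ι)
    (hA : ∀ w e l, e ∈ A w → S (w e) → S l → e ∈ A (Function.update w e l)) :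
    (∑ l ∈ univ.filter S, p l) *
        ∑ w : ι → L, (∏ i, p (w i)) * (((A w).filter (fun e => T (w e))).card : ℝ) =
      (∑ l ∈ univ.filter T, p l) *
        ∑ w : ι → L, (∏ i, p (w i)) * (((A w).filter (fun e => S (w e))).card : ℝ) := by
  have key : ∀ (P : L → Prop) [DecidablePred P],
      ∑ w : ι → L, (∏ i, p (w i)) * (((A w).filter (fun e => P (w e))).card : ℝ) =
      ∑ e, ∑ w : ι → L, (∏ i, p (w i)) *
        (if P (w e) then (if e ∈ A w then (1 : ℝ) else 0) else 0) := by
    intro P _
    rw [sum_comm]
    refine sum_congr rfl (fun w _ => ?_)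
    rw [← mul_sum]
    congr 1
    rw [card_eq_sum_ones, Nat.cast_sum, ← Finset.sum_subset (subset_univ
      ((A w).filter (fun e => P (w e))))]
    · refine sum_congr rfl (fun e he => ?_)
      rw [mem_filter] at he
      simp [he.1, he.2]
    · intro e _ he
      rw [mem_filter] at he
      by_cases h1 : P (w e) <;> by_cases h2 : e ∈ A w <;> simp_all
  rw [key T, key S, mul_sum, mul_sum]
  refine sum_congr rfl (fun e _ => site_ratio p e S T hTS _ (fun w l h1 h2 => ?_))
  by_cases h : e ∈ A w
  · simp [h, hA w e l h h1 h2]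
  · have : e ∉ A (Function.update w e l) := fun h' => h (by
      have := hA _ e (w e) h' (by simpa using h2) h1
      simpa using this)
    simp [h, this]

open Classical in
/-- THINNING.  `cl w X e` reads "`e` is spanned by `Q w ∪ X`".  If `A w` is `γ`-sparse and
`A`, `cl` do not see which label of `S` an element of `A w` carries, then few `T`-elements of
`A w` are spanned by the other `T`-elements. -/
theorem thinning (p : L → ℝ) (hp : ∀ l, 0 ≤ p l) (S T : L → Prop) [DecidablePred S]
    [DecidablePred T] (hTS : ∀ l, T l → S l) (A : (ι → L) → Finset ι)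
    (cl : (ι → L) → Finset ι → ι → Prop) (γ : ℝ) (hγ : 0 ≤ γ)
    (hmono : ∀ w X Y e, X ⊆ Y → cl w X e → cl w Y e)
    (hsparse : ∀ w X, X ⊆ A w → (((A w).filter (fun e => cl w X e)).card : ℝ) ≤ γ * X.card)
    (hA : ∀ w e l, e ∈ A w → S (w e) → S l → A (Function.update w e l) = A w)
    (hcl : ∀ w e l, e ∈ A w → S (w e) → S l → ∀ X, cl (Function.update w e l) X e ↔ cl w X e) :
    (∑ l ∈ univ.filter S, p l) ^ 2 * ∑ w : ι → L, (∏ i, p (w i)) *
        (((A w).filter (fun e => T (w e) ∧
          cl w (((A w).filter (fun a => T (w a))).erase e) e)).card : ℝ) ≤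
      (∑ l ∈ univ.filter T, p l) ^ 2 * γ * ∑ w : ι → L, (∏ i, p (w i)) * ((A w).card : ℝ) := by
  set s := ∑ l ∈ univ.filter S, p l with hs
  set t := ∑ l ∈ univ.filter T, p l with ht
  have hs0 : 0 ≤ s := sum_nonneg (fun l _ => hp l)
  have ht0 : 0 ≤ t := sum_nonneg (fun l _ => hp l)
  have hpw : ∀ w : ι → L, 0 ≤ ∏ i, p (w i) := fun w => prod_nonneg (fun i _ => hp _)
  set B : (ι → L) → Finset ι := fun w =>
    (A w).filter (fun e => cl w (((A w).filter (fun a => T (w a))).erase e) e) with hB
  have h1 := card_ratio p S T hTS B (fun w e l he h1 h2 => by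
    simp only [hB, mem_filter] at he ⊢
    rw [hA w e l he.1 h1 h2]
    refine ⟨he.1, (hcl w e l he.1 h1 h2 _).2 ?_⟩
    have : ((A w).filter (fun a => T (Function.update w e l a))).erase e =
        ((A w).filter (fun a => T (w a))).erase e := by
      ext a
      simp only [mem_erase, mem_filter]
      by_cases hae : a = e
      · simp [hae]
      · rw [Function.update_of_ne hae]
    rw [this]; exact he.2)
  have h2 := card_ratio p S T hTS A (fun w e l he h1 h2 => by rw [hA w e l he h1 h2]; exact he)
  rw [← hs, ← ht] at h1 h2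
  have e1 : ∀ w : ι → L, (A w).filter (fun e => T (w e) ∧
      cl w (((A w).filter (fun a => T (w a))).erase e) e) = (B w).filter (fun e => T (w e)) := by
    intro w; ext a; simp only [hB, mem_filter]; tauto
  simp only [e1]
  have h3 : ∑ w : ι → L, (∏ i, p (w i)) * (((B w).filter (fun e => S (w e))).card : ℝ) ≤
      γ * ∑ w : ι → L, (∏ i, p (w i)) * (((A w).filter (fun e => T (w e))).card : ℝ) := by
    rw [mul_sum]
    refine sum_le_sum (fun w _ => ?_)
    have h4 : (B w).filter (fun e => S (w e)) ⊆
        (A w).filter (fun e => cl w ((A w).filter (fun a => T (w a))) e) := by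
      intro a ha
      simp only [hB, mem_filter] at ha ⊢
      exact ⟨ha.1.1, hmono w _ _ a (erase_subset _ _) ha.1.2⟩
    have h5 := hsparse w ((A w).filter (fun a => T (w a))) (filter_subset _ _)
    have h6 : (((B w).filter (fun e => S (w e))).card : ℝ) ≤ _ :=
      le_trans (by exact_mod_cast card_le_card h4) h5
    calc _ ≤ (∏ i, p (w i)) * (γ * (((A w).filter (fun a => T (w a))).card : ℝ)) :=
          mul_le_mul_of_nonneg_left h6 (hpw w)
      _ = _ := by ring
  have h7 : ∑ w : ι → L, (∏ i, p (w i)) * (((A w).filter (fun e => S (w e))).card : ℝ) ≤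
      ∑ w : ι → L, (∏ i, p (w i)) * ((A w).card : ℝ) :=
    sum_le_sum (fun w _ => mul_le_mul_of_nonneg_left
      (by exact_mod_cast card_filter_le _ _) (hpw w))
  calc s ^ 2 * ∑ w : ι → L, (∏ i, p (w i)) * (((B w).filter (fun e => T (w e))).card : ℝ)
      = s * (t * ∑ w : ι → L, (∏ i, p (w i)) * (((B w).filter (fun e => S (w e))).card : ℝ)) := by
        rw [← h1]; ring
    _ ≤ s * (t * (γ * ∑ w : ι → L, (∏ i, p (w i)) *
          (((A w).filter (fun e => T (w e))).card : ℝ))) := by gcongr
    _ = t * γ * (t * ∑ w : ι → L, (∏ i, p (w i)) *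
          (((A w).filter (fun e => S (w e))).card : ℝ)) := by rw [← h2]; ring
    _ ≤ t * γ * (t * ∑ w : ι → L, (∏ i, p (w i)) * ((A w).card : ℝ)) := by gcongr
    _ = _ := by ring

end Crest.Agent.R305.T37
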