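import Mathlib

/-! Thinning step for row 305 (matroid-free). -/

set_option autoImplicit false

namespace Crest.Agent.R305.T66

open Finset

variable {ι L : Type*} [Fintype ι] [DecidableEq ι] [Fintype L]

/-- Product weight of a labelling. -/
noncomputable def pw (p : L → ℝ) (w : ι → L) : ℝ := ∏ i, p (w i)

lemma pw_nonneg {p : L → ℝ} (hp : ∀ l, 0 ≤ p l) (w : ι → L) : 0 ≤ pw p w :=
  Finset.prod_nonneg fun _ _ => hp _

lemma sum_pw {p : L → ℝ} (h1 : ∑ l, p l = 1) : ∑ w : ι → L, pw p w = 1 := by
  classical
  unfold pw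
  rw [← Fintype.piFinset_univ, ← Finset.prod_univ_sum]
  simp [h1]

lemma pw_update (p : L → ℝ) (w : ι → L) (e : ι) (l : L) :
    pw p (Function.update w e l) * p (w e) = pw p w * p l := by
  unfold pw
  rw [← Finset.mul_prod_erase univ (fun i => p (Function.update w e l i)) (mem_univ e),
    ← Finset.mul_prod_erase univ (fun i => p (w i)) (mem_univ e)]
  have : ∏ x ∈ univ.erase e, p (Function.update w e l x) = ∏ x ∈ univ.erase e, p (w x) := by
    refine Finset.prod_congr rfl fun x hx => ?_
    rw [Function.update_of_ne (Finset.ne_of_mem_erase hx)]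
  rw [this]
  simp only [Function.update_self]
  ring

/-- Resampling one coordinate. -/
lemma resample_one {p : L → ℝ} (h1 : ∑ l, p l = 1) (e : ι) (F : (ι → L) → ℝ) :
    ∑ w : ι → L, pw p w * F w
      = ∑ w : ι → L, pw p w * ∑ l, p l * F (Function.update w e l) := by
  classical
  have key : ∑ x : (ι → L) × L, pw p x.1 * p x.2 * F x.1
      = ∑ x : (ι → L) × L, pw p x.1 * p x.2 * F (Function.update x.1 e x.2) := by
    let φ : (ι → L) × L → (ι → L) × L := fun x => (Function.update x.1 e x.2, x.1 e)
    have hφ : Function.Involutive φ := by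
      rintro ⟨w, l⟩
      simp [φ]
    rw [← Equiv.sum_comp hφ.toPerm]
    refine Finset.sum_congr rfl fun x _ => ?_
    simp only [Function.Involutive.coe_toPerm, φ]
    rw [pw_update]
  rw [Fintype.sum_prod_type, Fintype.sum_prod_type] at key
  simp only at key
  calc ∑ w : ι → L, pw p w * F w = ∑ w : ι → L, ∑ l, pw p w * p l * F w := by
        refine Finset.sum_congr rfl fun w _ => ?_
        rw [← Finset.sum_mul, ← Finset.mul_sum, h1, mul_one]
    _ = _ := by
        rw [key]
        refine Finset.sum_congr rfl fun w _ => ?_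
        rw [Finset.mul_sum]
        refine Finset.sum_congr rfl fun l _ => ?_
        ring

/-- One-coordinate factorisation: `F` does not read the label of `e`. -/
lemma factor {p : L → ℝ} (h1 : ∑ l, p l = 1) (e : ι) (g : L → ℝ) (F : (ι → L) → ℝ)
    (hF : ∀ w l, F (Function.update w e l) = F w) :
    ∑ w : ι → L, pw p w * (g (w e) * F w)
      = (∑ l, p l * g l) * ∑ w : ι → L, pw p w * F w := by
  rw [resample_one h1 e (fun w => g (w e) * F w), Finset.mul_sum]
  refine Finset.sum_congr rfl fun w _ => ?_
  simp only [Function.update_self, hF]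
  rw [Finset.sum_mul, Finset.mul_sum]
  refine Finset.sum_congr rfl fun l _ => ?_
  ring

lemma sum_ite_eq_filter (p : L → ℝ) (isT : L → Prop) [DecidablePred isT] :
    ∑ l, p l * (if isT l then (1 : ℝ) else 0) = ∑ l ∈ univ.filter isT, p l := by
  rw [Finset.sum_filter]
  refine Finset.sum_congr rfl fun l _ => ?_
  split_ifs <;> simp

/-- Indicator form of `factor`. -/
lemma factor_ind {p : L → ℝ} (h1 : ∑ l, p l = 1) (e : ι) (isT : L → Prop) [DecidablePred isT]
    (F : (ι → L) → ℝ) (hF : ∀ w l, F (Function.update w e l) = F w) :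
    ∑ w : ι → L, pw p w * ((if isT (w e) then (1 : ℝ) else 0) * F w)
      = (∑ l ∈ univ.filter isT, p l) * ∑ w : ι → L, pw p w * F w := by
  rw [factor h1 e (fun l => if isT l then (1 : ℝ) else 0) F hF, sum_ite_eq_filter]

/-- Expected size of the thinned set. -/
lemma exp_card {p : L → ℝ} (h1 : ∑ l, p l = 1) (isT : L → Prop) [DecidablePred isT]
    (A : Finset ι) :
    ∑ w : ι → L, pw p w * ((A.filter fun e => isT (w e)).card : ℝ)
      = (∑ l ∈ univ.filter isT, p l) * A.card := by
  have : ∀ w : ι → L, ((A.filter fun e => isT (w e)).card : ℝ)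
      = ∑ e ∈ A, (if isT (w e) then (1 : ℝ) else 0) := by
    intro w
    rw [Finset.card_filter]
    push_cast
    rfl
  simp_rw [this, Finset.mul_sum]
  rw [Finset.sum_comm]
  have h2 : ∀ e ∈ A, ∑ w : ι → L, pw p w * (if isT (w e) then (1 : ℝ) else 0)
      = ∑ l ∈ univ.filter isT, p l := by
    intro e _
    have := factor_ind h1 e isT (fun _ => (1 : ℝ)) (fun _ _ => rfl)
    simp only [mul_one] at this
    rw [this, sum_pw h1, mul_one]
  rw [Finset.sum_congr rfl h2, Finset.sum_const, nsmul_eq_mul, mul_comm]

/-- The thinning lemma. -/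
theorem thin {p : L → ℝ} (hp : ∀ l, 0 ≤ p l) (h1 : ∑ l, p l = 1)
    (isT : L → Prop) [DecidablePred isT]
    (sp : Finset ι → ι → Prop) [∀ X e, Decidable (sp X e)]
    (hmono : ∀ X Y e, X ⊆ Y → sp X e → sp Y e)
    (A : Finset ι) (γ : ℝ) (hγ : 0 ≤ γ)
    (hsparse : ∀ X ⊆ A, ((A.filter (sp X)).card : ℝ) ≤ γ * X.card) :
    ∑ w : ι → L, pw p w *
        ((A.filter fun e => isT (w e) ∧ sp ((A.erase e).filter fun f => isT (w f)) e).card : ℝ)
      ≤ γ * (∑ l ∈ univ.filter isT, p l) ^ 2 * A.card := by
  set t := ∑ l ∈ univ.filter isT, p l with ht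
  have ht0 : 0 ≤ t := Finset.sum_nonneg fun l _ => hp l
  have hc : ∀ w : ι → L,
      ((A.filter fun e => isT (w e) ∧ sp ((A.erase e).filter fun f => isT (w f)) e).card : ℝ)
      = ∑ e ∈ A, (if isT (w e) then (1 : ℝ) else 0) *
          (if sp ((A.erase e).filter fun f => isT (w f)) e then (1 : ℝ) else 0) := by
    intro w
    rw [Finset.card_filter]
    push_cast
    refine Finset.sum_congr rfl fun e _ => ?_
    by_cases h1 : isT (w e) <;>
      by_cases h2 : sp ((A.erase e).filter fun f => isT (w f)) e <;> simp [h1, h2]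
  simp_rw [hc, Finset.mul_sum]
  rw [Finset.sum_comm]
  have h2 : ∀ e ∈ A, ∑ w : ι → L, pw p w * ((if isT (w e) then (1 : ℝ) else 0) *
          (if sp ((A.erase e).filter fun f => isT (w f)) e then (1 : ℝ) else 0))
      ≤ t * ∑ w : ι → L, pw p w *
          (if sp (A.filter fun f => isT (w f)) e then (1 : ℝ) else 0) := by
    intro e _
    rw [factor_ind h1 e isT
      (fun w => if sp ((A.erase e).filter fun f => isT (w f)) e then (1 : ℝ) else 0)]
    · refine mul_le_mul_of_nonneg_left (Finset.sum_le_sum fun w _ => ?_) ht0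
      refine mul_le_mul_of_nonneg_left ?_ (pw_nonneg hp w)
      by_cases h : sp ((A.erase e).filter fun f => isT (w f)) e
      · have := hmono _ (A.filter fun f => isT (w f)) e
          (Finset.filter_subset_filter _ (Finset.erase_subset _ _)) h
        simp [h, this]
      · simp only [h, if_false]
        split_ifs <;> norm_num
    · intro w l
      have : ((A.erase e).filter fun f => isT (Function.update w e l f))
          = (A.erase e).filter fun f => isT (w f) := by
        refine Finset.filter_congr fun f hf => ?_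
        rw [Function.update_of_ne (Finset.ne_of_mem_erase hf)]
      simp only [this]
  refine (Finset.sum_le_sum h2).trans ?_
  rw [← Finset.mul_sum, Finset.sum_comm]
  have h3 : ∑ w : ι → L, ∑ e ∈ A, pw p w *
          (if sp (A.filter fun f => isT (w f)) e then (1 : ℝ) else 0)
      ≤ ∑ w : ι → L, γ * (pw p w * ((A.filter fun e => isT (w e)).card : ℝ)) := by
    refine Finset.sum_le_sum fun w _ => ?_
    rw [← Finset.mul_sum]
    have := hsparse (A.filter fun f => isT (w f)) (Finset.filter_subset _ _)
    rw [Finset.card_filter] at this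
    push_cast at this
    calc _ ≤ pw p w * (γ * ((A.filter fun e => isT (w e)).card : ℝ)) :=
          mul_le_mul_of_nonneg_left this (pw_nonneg hp w)
      _ = _ := by ring
  rw [← Finset.mul_sum, exp_card h1 isT A] at h3
  calc _ ≤ t * (γ * (t * A.card)) := mul_le_mul_of_nonneg_left h3 ht0
    _ = _ := by ring

end Crest.Agent.R305.T66
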