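import Crest.Agent.R305.RGDefs55

/-! Row 305: thinning lemma in `Ex` form. -/

set_option autoImplicit false

open Classical

namespace Crest.Agent.R305

variable {k : ℕ}

namespace TE66

lemma Ex_add (p : ℝ) (f g : Finset (Fin k) → ℝ) :
    Ex p (fun A => f A + g A) = Ex p f + Ex p g := by
  unfold Ex
  rw [← Finset.sum_add_distrib]
  exact Finset.sum_congr rfl fun A _ => by ring

lemma Ex_const_mul (p c : ℝ) (f : Finset (Fin k) → ℝ) :
    Ex p (fun A => c * f A) = c * Ex p f := by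
  unfold Ex
  rw [Finset.mul_sum]
  exact Finset.sum_congr rfl fun A _ => by ring

lemma Ex_sum {ι : Type*} (p : ℝ) (s : Finset ι) (f : ι → Finset (Fin k) → ℝ) :
    Ex p (fun A => ∑ i ∈ s, f i A) = ∑ i ∈ s, Ex p (f i) := by
  unfold Ex
  simp only [Finset.mul_sum]
  exact Finset.sum_comm

lemma Ex_const (hX : EXB k) {p : ℝ} (h0 : 0 ≤ p) (h1 : p ≤ 1) (c : ℝ) :
    Ex p (fun _ : Finset (Fin k) => c) = c := by
  unfold Ex
  rw [← Finset.sum_mul, (hX p h0 h1).2.1, one_mul]

lemma Ex_congr (p : ℝ) {f g : Finset (Fin k) → ℝ} (h : ∀ A, f A = g A) : Ex p f = Ex p g := by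
  rw [funext h]

end TE66

open TE66 in
theorem thinEx (hX : EXB k) (t gam : ℝ) (ht0 : 0 ≤ t) (ht1 : t ≤ 1) (_hg : 0 ≤ gam)
    (A : Finset (Fin k)) (sp : Finset (Fin k) → Fin k → Prop)
    (hmono : ∀ X Y e, X ⊆ Y → sp X e → sp Y e)
    (hsp : ∀ X, X ⊆ A → ((A.filter (sp X)).card : ℝ) ≤ gam * X.card) :
    Ex t (fun T0 => ((A.filter (fun e => e ∈ T0 ∧ sp ((A.erase e) ∩ T0) e)).card : ℝ))
      ≤ gam * t ^ 2 * A.card := by
  obtain ⟨-, -, hm, hf, hc⟩ := hX t ht0 ht1
  have h1 : ∀ T0 : Finset (Fin k),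
      ((A.filter (fun e => e ∈ T0 ∧ sp ((A.erase e) ∩ T0) e)).card : ℝ)
      = ∑ e ∈ A, (if e ∈ T0 then (if sp ((A.erase e) ∩ T0) e then (1 : ℝ) else 0) else 0) := by
    intro T0
    rw [Finset.card_filter]
    push_cast
    refine Finset.sum_congr rfl fun e _ => ?_
    by_cases ha : e ∈ T0
    · simp only [ha, true_and, if_true]
    · simp only [ha, false_and, if_false]
  rw [Ex_congr t h1, Ex_sum]
  have h2 : ∀ e ∈ A, Ex t (fun T0 =>
      if e ∈ T0 then (if sp ((A.erase e) ∩ T0) e then (1 : ℝ) else 0) else 0)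
      ≤ t * Ex t (fun T0 => if sp (A ∩ T0) e then (1 : ℝ) else 0) := by
    intro e _
    rw [hf e (fun T0 => if sp ((A.erase e) ∩ T0) e then (1 : ℝ) else 0)]
    · refine mul_le_mul_of_nonneg_left (hm _ _ fun T0 => ?_) ht0
      by_cases h : sp ((A.erase e) ∩ T0) e
      · have := hmono _ (A ∩ T0) e
          (Finset.inter_subset_inter_right (Finset.erase_subset _ _)) h
        rw [if_pos h, if_pos this]
      · rw [if_neg h]
        split_ifs <;> norm_num
    · intro T0
      have : (A.erase e) ∩ insert e T0 = (A.erase e) ∩ T0.erase e := by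
        ext x
        simp only [Finset.mem_inter, Finset.mem_erase, Finset.mem_insert]
        tauto
      simp only [this]
  refine (Finset.sum_le_sum h2).trans ?_
  rw [← Finset.mul_sum, ← Ex_sum]
  have h3 : Ex t (fun T0 => ∑ e ∈ A, if sp (A ∩ T0) e then (1 : ℝ) else 0)
      ≤ Ex t (fun T0 => gam * ((T0 ∩ A).card : ℝ)) := by
    refine hm _ _ fun T0 => ?_
    have := hsp (A ∩ T0) Finset.inter_subset_left
    rw [Finset.card_filter] at this
    push_cast at this
    rw [Finset.inter_comm T0 A]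
    exact this
  rw [Ex_const_mul, hc] at h3
  calc _ ≤ t * (gam * (t * A.card)) := mul_le_mul_of_nonneg_left h3 ht0
    _ = _ := by ring

end Crest.Agent.R305
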