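import Crest.Agent.R305.CountVec20

/-! Traces of timed generator schedules: a chain `N k ⊆ Q k ⊆ N (k+1)` generated over a fixed chain
`S` by few elements of `U` has a trace `U ∩ ⋃ (Q k \ N k)` in a small family. -/

set_option autoImplicit false
open Classical

namespace Crest.Agent.R305.CV

variable {α : Type*}

/-- `A` is the union of the pieces of some generators of a valid schedule with `≤ m` generators -/
def IsTrace (M : Matroid α) (S : ℕ → Set α) (U : Finset α) (m : ℕ) (A : Finset α) : Prop :=
  ∃ (G GQ : Finset α) (τ pos : α → ℕ), Valid M S U G τ pos ∧ G.card ≤ m ∧ GQ ⊆ G ∧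
    A = GQ.biUnion (Pc M S U G τ pos)

theorem IsTrace.mono {M : Matroid α} {S : ℕ → Set α} {U : Finset α} {m m' : ℕ} {A : Finset α}
    (h : IsTrace M S U m A) (hm : m ≤ m') : IsTrace M S U m' A := by
  obtain ⟨G, GQ, τ, pos, h1, h2, h3, h4⟩ := h
  exact ⟨G, GQ, τ, pos, h1, h2.trans hm, h3, h4⟩

theorem IsTrace.subset {M : Matroid α} {S : ℕ → Set α} {U : Finset α} {m : ℕ} {A : Finset α}
    (h : IsTrace M S U m A) : A ⊆ U := by
  obtain ⟨G, GQ, τ, pos, h1, h2, h3, h4⟩ := h
  rw [h4]
  intro e he
  obtain ⟨g, _, hg⟩ := Finset.mem_biUnion.mp he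
  exact (Finset.mem_filter.mp hg).1

/-- state of a partial schedule -/
def St (M : Matroid α) (S : ℕ → Set α) (U : Finset α) (t m : ℕ) (A : Finset α) (F : Set α) : Prop :=
  ∃ (G GQ : Finset α) (τ pos : α → ℕ), Valid M S U G τ pos ∧ G.card ≤ m ∧ GQ ⊆ G ∧
    A = GQ.biUnion (Pc M S U G τ pos) ∧ (∀ g ∈ G, τ g ≤ t) ∧ F = M.closure (S t ∪ ↑G)

theorem St.trace {M : Matroid α} {S : ℕ → Set α} {U : Finset α} {t m : ℕ} {A : Finset α}
    {F : Set α} (h : St M S U t m A F) : IsTrace M S U m A := by
  obtain ⟨G, GQ, τ, pos, h1, h2, h3, h4, _, _⟩ := h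
  exact ⟨G, GQ, τ, pos, h1, h2, h3, h4⟩

theorem St.init (M : Matroid α) (S : ℕ → Set α) (U : Finset α) (t : ℕ) :
    St M S U t 0 ∅ (M.closure (S t)) :=
  ⟨∅, ∅, fun _ => 0, fun _ => 0, ⟨by simp, by simp, by simp, by simp⟩, by simp, by simp, by simp,
    by simp, by simp⟩

theorem St.tick {M : Matroid α} {S : ℕ → Set α} (hS : Monotone S) {U : Finset α} {t t' m : ℕ}
    {A : Finset α} {F : Set α} (h : St M S U t m A F) (ht : t ≤ t') :
    St M S U t' m A (M.closure (F ∪ S t')) := by
  obtain ⟨G, GQ, τ, pos, h1, h2, h3, h4, h5, h6⟩ := h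
  refine ⟨G, GQ, τ, pos, h1, h2, h3, h4, fun g hg => (h5 g hg).trans ht, ?_⟩
  rw [h6, M.closure_union_closure_left_eq]
  congr 1
  ext x
  have := @hS t t' ht x
  simp only [Set.mem_union]
  tauto

theorem St.flat {M : Matroid α} {S : ℕ → Set α} {U : Finset α} {t m : ℕ}
    {A : Finset α} {F : Set α} (h : St M S U t m A F) : M.closure F = F := by
  obtain ⟨G, GQ, τ, pos, h1, h2, h3, h4, h5, h6⟩ := h
  rw [h6]; simp

theorem St.ins {M : Matroid α} {S : ℕ → Set α} {U : Finset α} (hU : (U : Set α) ⊆ M.E) {t m : ℕ}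
    {A : Finset α} {F : Set α} (h : St M S U t m A F) {g : α} (hg : g ∈ U) (b : Prop) :
    St M S U t (m + 1)
      (A ∪ U.filter (fun e => b ∧ e ∈ M.closure (insert g F) ∧ e ∉ F)) (M.closure (insert g F)) := by
  have hflat := h.flat
  by_cases hgF : g ∈ F
  · obtain ⟨G, GQ, τ, pos, h1, h2, h3, h4, h5, h6⟩ := h
    rw [Set.insert_eq_of_mem hgF, hflat]
    refine ⟨G, GQ, τ, pos, h1, by omega, h3, ?_, h5, h6⟩
    rw [← h4]
    ext e
    simp only [Finset.mem_union, Finset.mem_filter]
    tauto
  obtain ⟨G, GQ, τ, pos, h1, h2, h3, h4, h5, h6⟩ := h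
  have hgG : g ∉ G := by
    intro hh
    apply hgF
    rw [h6]
    exact M.mem_closure_of_mem' (Or.inr hh) (hU hg)
  set bd : ℕ := G.sup pos + 1 with hbd
  have hlt : ∀ a ∈ G, pos a < bd := fun a ha => Nat.lt_succ_of_le (Finset.le_sup ha)
  have hne : ∀ a ∈ G, a ≠ g := fun a ha hh => hgG (hh ▸ ha)
  have hp : ∀ a ∈ G, Function.update pos g bd a = pos a := fun a ha =>
    Function.update_of_ne (hne a ha) _ _
  have hτ : ∀ a ∈ G, Function.update τ g t a = τ a := fun a ha =>
    Function.update_of_ne (hne a ha) _ _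
  have hFa : ∀ a ∈ G, Fl M S (insert g G) (Function.update τ g t) (Function.update pos g bd) a
      = Fl M S G τ pos a := by
    intro a ha
    unfold Fl
    rw [hτ a ha, hp a ha]
    congr 2
    ext x
    simp only [Set.mem_ofPred_eq, Finset.mem_insert]
    constructor
    · rintro ⟨rfl | hx, h'⟩
      · rw [Function.update_self] at h'
        exact absurd h' (not_lt.mpr (hlt a ha).le)
      · rw [hp x hx] at h'; exact ⟨hx, h'⟩
    · rintro ⟨hx, h'⟩
      exact ⟨Or.inr hx, by rw [hp x hx]; exact h'⟩
  have hFg : Fl M S (insert g G) (Function.update τ g t) (Function.update pos g bd) g = F := by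
    unfold Fl
    rw [h6, Function.update_self, Function.update_self]
    congr 2
    ext x
    simp only [Set.mem_ofPred_eq, Finset.mem_insert, Finset.mem_coe]
    constructor
    · rintro ⟨rfl | hx, h'⟩
      · rw [Function.update_self] at h'
        exact absurd h' (lt_irrefl _)
      · exact hx
    · intro hx
      exact ⟨Or.inr hx, by rw [hp x hx]; exact hlt x hx⟩
  have hPa : ∀ a ∈ G, Pc M S U (insert g G) (Function.update τ g t) (Function.update pos g bd) a
      = Pc M S U G τ pos a := by
    intro a ha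
    unfold Pc
    rw [hFa a ha]
  refine ⟨insert g G, if b then insert g GQ else GQ, Function.update τ g t,
    Function.update pos g bd, ⟨?_, ?_, ?_, ?_⟩, ?_, ?_, ?_, ?_, ?_⟩
  · exact Finset.insert_subset hg h1.sub
  · intro a ha c hc hac
    rcases Finset.mem_insert.mp ha with ha' | ha' <;> rcases Finset.mem_insert.mp hc with hc' | hc'
    · rw [ha', hc']
    · rw [ha', Function.update_self, hp c hc'] at hac
      exact absurd (hlt c hc') (by omega)
    · rw [hc', Function.update_self, hp a ha'] at hac
      exact absurd (hlt a ha') (by omega)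
    · rw [hp a ha', hp c hc'] at hac
      exact h1.inj a ha' c hc' hac
  · intro a ha c hc hac
    rcases Finset.mem_insert.mp ha with ha' | ha' <;> rcases Finset.mem_insert.mp hc with hc' | hc'
    · rw [ha', hc']
    · rw [ha', Function.update_self, hp c hc'] at hac
      exact absurd (hlt c hc') (by omega)
    · rw [hc', Function.update_self, hτ a ha']
      exact h5 a ha'
    · rw [hp a ha', hp c hc'] at hac
      rw [hτ a ha', hτ c hc']
      exact h1.mono a ha' c hc' hac
  · intro a ha
    rcases Finset.mem_insert.mp ha with rfl | ha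
    · rw [hFg]; exact hgF
    · rw [hFa a ha]; exact h1.nl a ha
  · rw [Finset.card_insert_of_notMem hgG]; omega
  · split_ifs
    · exact Finset.insert_subset_insert _ h3
    · exact h3.trans (Finset.subset_insert _ _)
  · have hA : GQ.biUnion (Pc M S U (insert g G) (Function.update τ g t) (Function.update pos g bd))
        = A := by
      rw [h4]
      exact Finset.biUnion_congr rfl (fun a ha => hPa a (h3 ha))
    split_ifs with hb
    · rw [Finset.biUnion_insert, hA, Finset.union_comm]
      congr 1
      unfold Pc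
      rw [hFg]
      simp [hb]
    · rw [hA]; simp [hb]
  · intro a ha
    rcases Finset.mem_insert.mp ha with rfl | ha
    · rw [Function.update_self]
    · rw [hτ a ha]; exact h5 a ha
  · rw [h6, cl_insert_cl]
    congr 1
    ext x
    simp only [Set.mem_insert_iff, Set.mem_union, Finset.coe_insert]
    tauto

theorem St.ext {M : Matroid α} {S : ℕ → Set α} {U : Finset α} (hU : (U : Set α) ⊆ M.E) {t m : ℕ}
    {A : Finset α} {F : Set α} (h : St M S U t m A F) (b : Prop) (B : Finset α) (hB : B ⊆ U) :
    St M S U t (m + B.card)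
      (A ∪ U.filter (fun e => b ∧ e ∈ M.closure (F ∪ ↑B) ∧ e ∉ F)) (M.closure (F ∪ ↑B)) := by
  induction B using Finset.induction_on with
  | empty =>
    have hflat := h.flat
    simp only [Finset.coe_empty, Set.union_empty, hflat, Finset.card_empty, add_zero]
    convert h using 1
    ext e
    simp only [Finset.mem_union, Finset.mem_filter]
    tauto
  | insert g B hgB ih =>
    have h1 := ih ((Finset.subset_insert _ _).trans hB)
    have h2 := h1.ins hU (hB (Finset.mem_insert_self _ _)) b
    have hcl : M.closure (insert g (M.closure (F ∪ ↑B))) = M.closure (F ∪ ↑(insert g B)) := by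
      rw [cl_insert_cl]
      congr 1
      ext x
      simp only [Set.mem_insert_iff, Set.mem_union, Finset.coe_insert]
      tauto
    rw [hcl] at h2
    rw [Finset.card_insert_of_notMem hgB, ← add_assoc]
    convert h2 using 1
    ext e
    have hs : e ∈ M.closure (F ∪ ↑B) → e ∈ M.closure (F ∪ ↑(insert g B)) := fun hh =>
      M.closure_subset_closure (Set.union_subset_union_right _ (by simp)) hh
    have hs2 : e ∈ F → e ∈ M.closure (F ∪ ↑B) := fun hh => by
      have : e ∈ M.closure F := by rw [h.flat]; exact hh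
      exact M.closure_subset_closure Set.subset_union_left this
    simp only [Finset.mem_union, Finset.mem_filter]
    tauto

/-- a two-step chain generated by finsets `BN`, `BQ` of `U` has its `Q`-part as a trace -/
theorem chain_trace {M : Matroid α} {S : ℕ → Set α} (hS : Monotone S) {U : Finset α}
    (hU : (U : Set α) ⊆ M.E) (N Q : ℕ → Set α) (BN BQ : ℕ → Finset α) (K : ℕ)
    (hBN : ∀ k, BN k ⊆ U) (hBQ : ∀ k, BQ k ⊆ U)
    (hN0 : N 0 = M.closure (S 0 ∪ ↑(BN 0)))
    (hQ : ∀ k < K, Q k = M.closure (N k ∪ ↑(BQ k)))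
    (hN : ∀ k < K, N (k + 1) = M.closure (Q k ∪ S (k + 1) ∪ ↑(BN (k + 1)))) :
    IsTrace M S U ((BN 0).card + ∑ k ∈ Finset.range K, ((BQ k).card + (BN (k + 1)).card))
      (U.filter (fun e => ∃ k < K, e ∈ Q k ∧ e ∉ N k)) := by
  have key : ∀ j ≤ K, St M S U j
      ((BN 0).card + ∑ k ∈ Finset.range j, ((BQ k).card + (BN (k + 1)).card))
      (U.filter (fun e => ∃ k < j, e ∈ Q k ∧ e ∉ N k)) (N j) := by
    intro j
    induction j with
    | zero =>
      intro _
      have h := (St.init M S U 0).ext hU False (BN 0) (hBN 0)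
      rw [M.closure_union_closure_left_eq, ← hN0] at h
      simpa using h
    | succ j ih =>
      intro hj
      have h1 := (ih (by omega)).ext hU True (BQ j) (hBQ j)
      rw [← hQ j (by omega)] at h1
      have h2 := (h1.tick hS (Nat.le_succ j)).ext hU False (BN (j + 1)) (hBN _)
      rw [M.closure_union_closure_left_eq, ← hN j (by omega)] at h2
      rw [Finset.sum_range_succ, ← add_assoc, ← add_assoc]
      convert h2 using 1
      ext e
      simp only [Finset.mem_union, Finset.mem_filter, false_and, and_false, or_false, true_and]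
      constructor
      · rintro ⟨he, k, hk, h3⟩
        rcases Nat.lt_succ_iff_lt_or_eq.mp hk with hk | rfl
        · exact Or.inl ⟨he, k, hk, h3⟩
        · exact Or.inr ⟨he, h3⟩
      · rintro (⟨he, k, hk, h3⟩ | ⟨he, h3⟩)
        · exact ⟨he, k, by omega, h3⟩
        · exact ⟨he, j, by omega, h3⟩
  exact (key K le_rfl).trace

end Crest.Agent.R305.CV
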