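import Mathlib

/-! Union bound + Chernoff (Gibbs form) for compressed label-poor sets. -/

set_option autoImplicit false
open Finset

namespace Crest.Agent.R305.U39

variable {ι : Type*} [Fintype ι] [DecidableEq ι]

/-- exponential moment of the number of `true` labels in a fixed set -/
theorem moment (Y : Finset ι) :
    ∑ d : ι → Bool, (∏ i, (if d i = true then (1/2 : ℝ) else 1 - 1/2)) *
      (1/2 : ℝ) ^ (Y.filter (fun i => d i = true)).card = (3/4 : ℝ) ^ Y.card := by
  have h1 : ∀ d : ι → Bool, (1/2 : ℝ) ^ (Y.filter (fun i => d i = true)).card =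
      ∏ i, (if i ∈ Y ∧ d i = true then (1/2 : ℝ) else 1) := by
    intro d
    rw [Finset.prod_ite, Finset.prod_const, Finset.prod_const_one, mul_one]
    congr 2
    ext i
    simp
  simp_rw [h1, ← Finset.prod_mul_distrib]
  have h2 := Finset.prod_univ_sum (fun _ : ι => (Finset.univ : Finset Bool))
    (fun i b => (if b = true then (1/2 : ℝ) else 1 - 1/2) * (if i ∈ Y ∧ b = true then (1/2 : ℝ) else 1))
  rw [Fintype.piFinset_univ] at h2
  rw [← h2]
  have h3 : ∀ i : ι, ∑ b : Bool, (if b = true then (1/2 : ℝ) else 1 - 1/2) *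
      (if i ∈ Y ∧ b = true then (1/2 : ℝ) else 1) = if i ∈ Y then (3/4 : ℝ) else 1 := by
    intro i
    by_cases hi : i ∈ Y <;> simp [hi] <;> norm_num
  simp_rw [h3]
  rw [Finset.prod_ite, Finset.prod_const, Finset.prod_const_one, mul_one]
  congr 2
  ext i
  simp

theorem pw_nonneg (d : ι → Bool) :
    0 ≤ ∏ i, (if d i = true then (1/2 : ℝ) else 1 - 1/2) :=
  Finset.prod_nonneg (fun i _ => by split_ifs <;> norm_num)

theorem pw_sum : ∑ d : ι → Bool, (∏ i, (if d i = true then (1/2 : ℝ) else 1 - 1/2)) = 1 := by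
  have := moment (ι := ι) ∅
  simpa using this

/-- a label-poor fixed set has exponentially small probability -/
theorem poor (Y : Finset ι) :
    ∑ d : ι → Bool, (∏ i, (if d i = true then (1/2 : ℝ) else 1 - 1/2)) *
      (if 4 * (Y.filter (fun i => d i = true)).card ≤ Y.card then (10/9 : ℝ) ^ Y.card else 0) ≤ 1 := by
  have key : ∀ d : ι → Bool,
      (if 4 * (Y.filter (fun i => d i = true)).card ≤ Y.card then (10/9 : ℝ) ^ Y.card else 0) ≤
        (4/3 : ℝ) ^ Y.card * (1/2 : ℝ) ^ (Y.filter (fun i => d i = true)).card := by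
    intro d
    split_ifs with h
    · set j := (Y.filter (fun i => d i = true)).card
      have h1 : (2 : ℝ) ^ j ≤ (6/5 : ℝ) ^ Y.card := by
        calc (2 : ℝ) ^ j ≤ ((6/5 : ℝ) ^ 4) ^ j := pow_le_pow_left₀ (by norm_num) (by norm_num) j
          _ = (6/5 : ℝ) ^ (4 * j) := by rw [← pow_mul]
          _ ≤ (6/5 : ℝ) ^ Y.card := pow_le_pow_right₀ (by norm_num) h
      have h2 : (4/3 : ℝ) ^ Y.card = (10/9 : ℝ) ^ Y.card * (6/5 : ℝ) ^ Y.card := by
        rw [← mul_pow]; norm_num
      have h3 : (2 : ℝ) ^ j * (1/2 : ℝ) ^ j = 1 := by rw [← mul_pow]; norm_num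
      have h4 : 0 ≤ (10/9 : ℝ) ^ Y.card := by positivity
      have h5 : 0 ≤ (1/2 : ℝ) ^ j := by positivity
      rw [h2]
      calc (10/9 : ℝ) ^ Y.card = (10/9 : ℝ) ^ Y.card * ((2 : ℝ) ^ j * (1/2 : ℝ) ^ j) := by
            rw [h3, mul_one]
        _ ≤ (10/9 : ℝ) ^ Y.card * ((6/5 : ℝ) ^ Y.card * (1/2 : ℝ) ^ j) := by gcongr
        _ = _ := by ring
    · positivity
  calc _ ≤ ∑ d : ι → Bool, (∏ i, (if d i = true then (1/2 : ℝ) else 1 - 1/2)) *
        ((4/3 : ℝ) ^ Y.card * (1/2 : ℝ) ^ (Y.filter (fun i => d i = true)).card) :=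
        Finset.sum_le_sum (fun d _ => mul_le_mul_of_nonneg_left (key d) (pw_nonneg d))
    _ = (4/3 : ℝ) ^ Y.card * ∑ d : ι → Bool, (∏ i, (if d i = true then (1/2 : ℝ) else 1 - 1/2)) *
        (1/2 : ℝ) ^ (Y.filter (fun i => d i = true)).card := by
        rw [Finset.mul_sum]; exact Finset.sum_congr rfl (fun d _ => by ring)
    _ = 1 := by rw [moment, ← mul_pow]; norm_num

/-- Gibbs form of union bound + Chernoff: a prior `π` on codes. -/
theorem gibbs {C : Type*} [DecidableEq C] (Cs : Finset C) (π : C → ℝ) (hπ : ∀ c, 0 ≤ π c)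
    (hsum : ∑ c ∈ Cs, π c ≤ 1) (a : ℝ) (code : (ι → Bool) → C) (hc : ∀ d, code d ∈ Cs)
    (ha : ∀ d, Real.exp (-a) ≤ π (code d)) (Y : (ι → Bool) → Finset ι)
    (hdet : ∀ d d', code d = code d' → Y d = Y d')
    (hpoor : ∀ d, 4 * ((Y d).filter (fun i => d i = true)).card ≤ (Y d).card) :
    ∑ d : ι → Bool, (∏ i, (if d i = true then (1/2 : ℝ) else 1 - 1/2)) * ((Y d).card : ℝ) ≤ 10 * a := by
  classical
  set p : (ι → Bool) → ℝ := fun d => ∏ i, (if d i = true then (1/2 : ℝ) else 1 - 1/2) with hp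
  have hp0 : ∀ d, 0 ≤ p d := pw_nonneg
  have hp1 : ∑ d, p d = 1 := pw_sum
  -- representative set for each code
  let Yc : C → Finset ι := fun c => if h : ∃ d, code d = c then Y h.choose else ∅
  have hYc : ∀ d, Yc (code d) = Y d := by
    intro d
    have h : ∃ d', code d' = code d := ⟨d, rfl⟩
    simp only [Yc, dif_pos h]
    exact hdet _ _ h.choose_spec
  have h1 : ∑ d, p d * (π (code d) * (10/9 : ℝ) ^ (Y d).card) ≤ 1 := by
    calc ∑ d, p d * (π (code d) * (10/9 : ℝ) ^ (Y d).card)
        ≤ ∑ d, p d * ∑ c ∈ Cs, π c * (if 4 * ((Yc c).filter (fun i => d i = true)).card ≤ (Yc c).card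
            then (10/9 : ℝ) ^ (Yc c).card else 0) := by
          refine Finset.sum_le_sum (fun d _ => mul_le_mul_of_nonneg_left ?_ (hp0 d))
          have h2 : π (code d) * (10/9 : ℝ) ^ (Y d).card =
              π (code d) * (if 4 * ((Yc (code d)).filter (fun i => d i = true)).card ≤ (Yc (code d)).card
                then (10/9 : ℝ) ^ (Yc (code d)).card else 0) := by
            rw [hYc d, if_pos (hpoor d)]
          rw [h2]
          refine Finset.single_le_sum (f := fun c => π c *
            (if 4 * ((Yc c).filter (fun i => d i = true)).card ≤ (Yc c).card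
              then (10/9 : ℝ) ^ (Yc c).card else 0)) (fun c _ => mul_nonneg (hπ c) ?_) (hc d)
          split_ifs <;> positivity
      _ = ∑ c ∈ Cs, π c * ∑ d, p d * (if 4 * ((Yc c).filter (fun i => d i = true)).card ≤ (Yc c).card
            then (10/9 : ℝ) ^ (Yc c).card else 0) := by
          simp_rw [Finset.mul_sum]
          rw [Finset.sum_comm]
          exact Finset.sum_congr rfl (fun c _ => Finset.sum_congr rfl (fun d _ => by ring))
      _ ≤ ∑ c ∈ Cs, π c * 1 :=
          Finset.sum_le_sum (fun c _ => mul_le_mul_of_nonneg_left (poor (Yc c)) (hπ c))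
      _ ≤ 1 := by simpa using hsum
  have hlog : Real.exp (1/10) ≤ (10/9 : ℝ) := by
    have h := Real.add_one_le_exp (-(1/10 : ℝ))
    have h2 : Real.exp (1/10) * Real.exp (-(1/10 : ℝ)) = 1 := by rw [← Real.exp_add]; simp
    have h3 := Real.exp_pos (1/10 : ℝ)
    nlinarith
  have h2 : ∀ d, ((Y d).card : ℝ) ≤ 10 * a - 10 + 10 * (π (code d) * (10/9 : ℝ) ^ (Y d).card) := by
    intro d
    have h3 := Real.add_one_le_exp (((Y d).card : ℝ) / 10 - a)
    have h4 : Real.exp (((Y d).card : ℝ) / 10 - a) = Real.exp (-a) * Real.exp (1/10) ^ (Y d).card := by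
      rw [← Real.exp_nat_mul, ← Real.exp_add]; congr 1; ring
    have h5 : Real.exp (-a) * Real.exp (1/10) ^ (Y d).card ≤ π (code d) * (10/9 : ℝ) ^ (Y d).card :=
      mul_le_mul (ha d) (pow_le_pow_left₀ (Real.exp_pos _).le hlog _) (by positivity) (hπ _)
    linarith
  calc ∑ d, p d * ((Y d).card : ℝ)
      ≤ ∑ d, p d * (10 * a - 10 + 10 * (π (code d) * (10/9 : ℝ) ^ (Y d).card)) :=
        Finset.sum_le_sum (fun d _ => mul_le_mul_of_nonneg_left (h2 d) (hp0 d))
    _ = (10 * a - 10) * ∑ d, p d + 10 * ∑ d, p d * (π (code d) * (10/9 : ℝ) ^ (Y d).card) := by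
        rw [Finset.mul_sum, Finset.mul_sum, ← Finset.sum_add_distrib]
        exact Finset.sum_congr rfl (fun d _ => by ring)
    _ ≤ 10 * a := by rw [hp1]; linarith

/-- **union bound + Chernoff + count of codes `(B, m)`** -/
theorem alpha_count (U : Finset ι) (kap : ℕ) (hk : 2 ≤ kap) (B : (ι → Bool) → Finset ι)
    (m : (ι → Bool) → ι → ℕ) (Y : (ι → Bool) → Finset ι) (hB : ∀ d, B d ⊆ U)
    (hBc : ∀ d, kap * (B d).card ≤ U.card) (hm0 : ∀ d i, i ∉ U → m d i = 0)
    (hms : ∀ d, kap * ∑ i ∈ U, m d i ≤ U.card)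
    (hdet : ∀ d d', B d = B d' → m d = m d' → Y d = Y d')
    (hpoor : ∀ d, 4 * ((Y d).filter (fun i => d i = true)).card ≤ (Y d).card) :
    ∑ d : ι → Bool, (∏ i, (if d i = true then (1/2 : ℝ) else 1 - 1/2)) * ((Y d).card : ℝ) ≤
      10 * (2 * Real.log kap + 3) / kap * U.card := by
  classical
  have hk' : (2 : ℝ) ≤ kap := by exact_mod_cast hk
  have hk0 : (0 : ℝ) < kap := by linarith
  set x : ℝ := 1 / kap with hx
  have hx0 : 0 < x := by positivity
  have hx2 : x ≤ 1 / 2 := by rw [hx]; exact one_div_le_one_div_of_le (by norm_num) hk'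
  set n := U.card with hn
  set z : ℝ := (1 - x) / (1 + x) with hz
  have hz0 : 0 ≤ z := div_nonneg (by linarith) (by linarith)
  let q : ι → Bool × ℕ → ℝ := fun i c =>
    if i ∈ U then (if c.1 = true then x else 1) * x ^ c.2 * z else if c = (false, 0) then 1 else 0
  have hq0 : ∀ i c, 0 ≤ q i c := by
    intro i c
    simp only [q]
    split_ifs <;> positivity
  let t : ι → Finset (Bool × ℕ) := fun _ => Finset.univ ×ˢ Finset.range (n + 1)
  have hgeom : ∑ j ∈ Finset.range (n + 1), x ^ j * (1 - x) ≤ 1 := by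
    rw [← Finset.sum_mul, geom_sum_mul_neg]
    have : 0 ≤ x ^ (n + 1) := by positivity
    linarith
  have hq1 : ∀ i, ∑ c ∈ t i, q i c ≤ 1 := by
    intro i
    by_cases hi : i ∈ U
    · simp only [q, t, if_pos hi]
      rw [Finset.sum_product]
      simp only [Fintype.sum_bool, if_true, Bool.false_eq_true, if_false]
      rw [← Finset.sum_add_distrib]
      refine le_trans (le_of_eq (Finset.sum_congr rfl (fun j _ => ?_))) hgeom
      rw [hz]; field_simp; ring
    · simp only [q, t, if_neg hi]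
      rw [Finset.sum_ite_eq']
      split_ifs <;> norm_num
  let code : (ι → Bool) → (ι → Bool × ℕ) := fun d i => (decide (i ∈ B d), m d i)
  have hmle : ∀ d i, m d i ≤ n := by
    intro d i
    by_cases hi : i ∈ U
    · have h1 : m d i ≤ ∑ j ∈ U, m d j := Finset.single_le_sum (fun _ _ => Nat.zero_le _) hi
      have h2 := hms d
      nlinarith
    · rw [hm0 d i hi]; exact Nat.zero_le _
  have key := gibbs (ι := ι) (Fintype.piFinset t) (fun c => ∏ i, q i (c i))
    (fun c => Finset.prod_nonneg (fun i _ => hq0 i _)) ?_ ((2 * Real.log kap + 3) / kap * n) code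
    ?_ ?_ Y ?_ hpoor
  · calc _ ≤ _ := key
      _ = _ := by ring
  · rw [← Finset.prod_univ_sum]
    exact Finset.prod_le_one (fun i _ => Finset.sum_nonneg (fun c _ => hq0 i c)) (fun i _ => hq1 i)
  · intro d
    rw [Fintype.mem_piFinset]
    intro i
    simp only [t, code, Finset.mem_product, Finset.mem_univ, Finset.mem_range, true_and]
    exact Nat.lt_succ_of_le (hmle d i)
  · intro d
    have h1 : ∏ i, q i (code d i) = ∏ i ∈ U, ((if i ∈ B d then x else 1) * x ^ (m d i) * z) := by
      rw [← Finset.prod_subset (Finset.subset_univ U)]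
      · refine Finset.prod_congr rfl (fun i hi => ?_)
        simp [q, code, hi]
      · intro i _ hi
        have : i ∉ B d := fun h => hi (hB d h)
        simp [q, code, hi, this, hm0 d i hi]
    have h2 : ∏ i ∈ U, (if i ∈ B d then x else 1) = x ^ (B d).card := by
      rw [Finset.prod_ite, Finset.prod_const, Finset.prod_const_one, mul_one]
      congr 2
      ext i
      simp only [Finset.mem_filter]
      exact ⟨fun h => h.2, fun h => ⟨hB d h, h⟩⟩
    show Real.exp _ ≤ ∏ i, q i (code d i)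
    rw [h1, Finset.prod_mul_distrib, Finset.prod_mul_distrib, h2, Finset.prod_pow_eq_pow_sum,
      Finset.prod_const, ← pow_add]
    set s := (B d).card + ∑ i ∈ U, m d i with hs
    have hs2 : (kap : ℝ) * s ≤ 2 * n := by
      have : kap * s ≤ 2 * n := by
        have := hBc d; have := hms d; rw [hs, mul_add]; omega
      exact_mod_cast this
    have hlog : 0 ≤ Real.log kap := Real.log_nonneg (by linarith)
    have hxe : x = Real.exp (-Real.log kap) := by
      rw [Real.exp_neg, Real.exp_log hk0, hx, one_div]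
    have hze : Real.exp (-(3 * x)) ≤ z := by
      rw [hz, le_div_iff₀ (by linarith)]
      have e1 := Real.add_one_le_exp x
      have e2 := Real.add_one_le_exp (2 * x)
      have e3 : Real.exp (-(3 * x)) * Real.exp x * Real.exp (2 * x) = 1 := by
        rw [← Real.exp_add, ← Real.exp_add]; simp; ring
      have e4 := Real.exp_pos (-(3 * x))
      have e5 := Real.exp_pos x
      have e6 : Real.exp (-(3 * x)) * (1 + x) ≤ Real.exp (-(3 * x)) * Real.exp x := by
        gcongr; linarith
      have e7 : Real.exp (-(3 * x)) * Real.exp x * (2 * x + 1) ≤ 1 := by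
        calc _ ≤ Real.exp (-(3 * x)) * Real.exp x * Real.exp (2 * x) := by gcongr
          _ = 1 := e3
      have e8 : 0 ≤ Real.exp (-(3 * x)) * Real.exp x := by positivity
      have e9 : 1 ≤ (1 - x) * (2 * x + 1) := by nlinarith
      have e10 : Real.exp (-(3 * x)) * Real.exp x ≤ 1 - x := by
        by_contra hcon
        have hcon' := not_le.mp hcon
        nlinarith
      linarith
    have h3 : Real.exp (-(3 * x)) ^ n ≤ z ^ n := pow_le_pow_left₀ (Real.exp_pos _).le hze n
    have h4 : x ^ s = Real.exp (-(s * Real.log kap)) := by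
      conv_lhs => rw [hxe]
      rw [← Real.exp_nat_mul]; congr 1; ring
    calc Real.exp (-((2 * Real.log kap + 3) / kap * n))
        ≤ Real.exp (-(s * Real.log kap)) * Real.exp (-(3 * x)) ^ n := by
          rw [← Real.exp_nat_mul, ← Real.exp_add]
          apply Real.exp_le_exp.mpr
          have h5 : (s : ℝ) ≤ 2 * n / kap := by rw [le_div_iff₀ hk0]; linarith
          have h6 : (s : ℝ) * Real.log kap ≤ 2 * n / kap * Real.log kap :=
            mul_le_mul_of_nonneg_right h5 hlog
          have h7 : (2 * Real.log kap + 3) / kap * n = 2 * n / kap * Real.log kap + n * (3 * x) := by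
            rw [hx]; field_simp
          rw [h7]; linarith
      _ ≤ x ^ s * z ^ n := by rw [h4]; gcongr
  · intro d d' h
    refine hdet d d' ?_ ?_
    · ext i
      have := congrArg Prod.fst (congrFun h i)
      simpa [code] using this
    · funext i
      exact congrArg Prod.snd (congrFun h i)

/-- version with a map `β` on `B` (the code is `B` and the multiset `β(B)`) -/
theorem alpha_count_beta (U : Finset ι) (kap : ℕ) (hk : 2 ≤ kap) (B : (ι → Bool) → Finset ι)
    (β : (ι → Bool) → ι → ι) (Y : (ι → Bool) → Finset ι) (hB : ∀ d, B d ⊆ U)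
    (hBc : ∀ d, kap * (B d).card ≤ U.card) (hβ : ∀ d, ∀ a ∈ B d, β d a ∈ U)
    (hdet : ∀ d d', B d = B d' →
      (∀ i, ((B d).filter (fun a => β d a = i)).card = ((B d').filter (fun a => β d' a = i)).card) →
      Y d = Y d')
    (hpoor : ∀ d, 4 * ((Y d).filter (fun i => d i = true)).card ≤ (Y d).card) :
    ∑ d : ι → Bool, (∏ i, (if d i = true then (1/2 : ℝ) else 1 - 1/2)) * ((Y d).card : ℝ) ≤
      10 * (2 * Real.log kap + 3) / kap * U.card := by
  refine alpha_count U kap hk B (fun d i => ((B d).filter (fun a => β d a = i)).card) Y hB hBc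
    ?_ ?_ (fun d d' h1 h2 => hdet d d' h1 (fun i => congrFun h2 i)) hpoor
  · intro d i hi
    rw [Finset.card_eq_zero, Finset.filter_eq_empty_iff]
    intro a ha h
    exact hi (h ▸ hβ d a ha)
  · intro d
    rw [← Finset.card_eq_sum_card_fiberwise (f := β d) (fun a ha => hβ d a ha)]
    exact hBc d

/-- log-free constant: for `kap = 2^j`, `10 (2 log kap + 3)/kap ≤ (20 j + 30)/2^j`. -/
theorem const_le (j : ℕ) :
    10 * (2 * Real.log ((2 ^ j : ℕ) : ℝ) + 3) / ((2 ^ j : ℕ) : ℝ) ≤ (20 * j + 30) / 2 ^ j := by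
  have h1 : Real.log ((2 ^ j : ℕ) : ℝ) ≤ j := by
    push_cast
    rw [Real.log_pow]
    have : Real.log 2 ≤ 1 := by have := Real.log_two_lt_d9; linarith
    have hj : (0 : ℝ) ≤ j := Nat.cast_nonneg j
    nlinarith
  push_cast at h1 ⊢
  gcongr
  linarith

/-- `kap = 2^40`: the bound is `2^-30 |U|`. -/
theorem const_40 :
    10 * (2 * Real.log ((2 ^ 40 : ℕ) : ℝ) + 3) / ((2 ^ 40 : ℕ) : ℝ) ≤ 1 / 2 ^ 30 := by
  refine (const_le 40).trans ?_
  norm_num

end Crest.Agent.R305.U39
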